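import Mathlib

/-! Row 69: an almost everywhere statement (with a possibly non measurable property) pushed along a
measurable map, by disintegration. -/

open MeasureTheory ProbabilityTheory Set
open scoped ENNReal

namespace Crest.Agent.R069.AeFiber

/-- If `p` holds `ν'`-a.e. then for `g_* ν'`-a.e. `v` there is a point `v'` of the fibre
`g ⁻¹' {v}` with `p v'`.  No measurability of `p` is needed. -/
theorem ae_map_exists_fiber {W W' : Type*} [MeasurableSpace W] [MeasurableSpace W']
    [StandardBorelSpace W'] [MeasurableEq W]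
    (ν' : Measure W') [IsFiniteMeasure ν'] {g : W' → W} (hg : Measurable g) {p : W' → Prop}
    (hp : ∀ᵐ v' ∂ν', p v') : ∀ᵐ v ∂(ν'.map g), ∃ v', g v' = v ∧ p v' := by
  classical
  rcases isEmpty_or_nonempty W' with he | hne
  · have h0 : ν' = 0 := Measure.eq_zero_of_isEmpty ν'
    rw [h0]; simp
  -- a measurable conull set
  obtain ⟨G, hGsub, hGm, hG0⟩ :
      ∃ G : Set W', G ⊆ {v' | p v'} ∧ MeasurableSet G ∧ ν' Gᶜ = 0 := by
    have h1 : ν' {v' | ¬ p v'} = 0 := hp
    obtain ⟨t, ht, htm, ht0⟩ := exists_measurable_superset_of_null h1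
    refine ⟨tᶜ, ?_, htm.compl, by rwa [compl_compl]⟩
    intro v hv
    by_contra hc
    exact hv (ht hc)
  have hS : MeasurableSet {q : W × W' | g q.2 = q.1 ∧ q.2 ∈ G} :=
    (measurableSet_eq_fun (hg.comp measurable_snd) measurable_fst).inter (measurable_snd hGm)
  have h2 : ∀ᵐ q ∂(ν'.map (fun v' => (g v', v'))), g q.2 = q.1 ∧ q.2 ∈ G := by
    rw [ae_map_iff (by fun_prop) hS]
    have h3 : ∀ᵐ v' ∂ν', v' ∈ G := by
      rw [ae_iff]; exact hG0
    filter_upwards [h3] with v' hv'
    exact ⟨rfl, hv'⟩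
  have h4 : (ν'.map g) ⊗ₘ (condDistrib id g ν') = ν'.map (fun v' => (g v', v')) :=
    compProd_map_condDistrib aemeasurable_id
  rw [← h4] at h2
  have h5 := Measure.ae_ae_of_ae_compProd h2
  filter_upwards [h5] with v hv
  obtain ⟨v', hv'⟩ := hv.exists
  exact ⟨v', hv'.1, hGsub hv'.2⟩

end Crest.Agent.R069.AeFiber
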