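import Mathlib

/-!
Row 69, algebraic end: an automorphism of an abelian group without nonzero elements of finite
orbit satisfies no exact linear relation `∑ θ^{n_i(k)} a_i = 0` with gaps tending to infinity.
-/

set_option autoImplicit false

namespace Crest.Agent.R069.Alg

open Polynomial

/-- Kronecker: complex roots of a rational polynomial with all complex roots in the closed unit
disc, which are nonzero and integral, are roots of unity. -/
theorem kron (g : ℚ[X]) (hg : ∀ z : ℂ, aeval z g = 0 → ‖z‖ ≤ 1) (z : ℂ) (hz : aeval z g = 0)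
    (hz0 : z ≠ 0) (hint : IsIntegral ℤ z) : ∃ n : ℕ, 0 < n ∧ z ^ n = 1 := by
  let K := IntermediateField.adjoin ℚ {z}
  let _ : NumberField K := {
    to_charZero := (IntermediateField.adjoin ℚ {z}).charZero,
    to_finiteDimensional := IntermediateField.adjoin.finiteDimensional hint.tower_top }
  let y : K := ⟨z, IntermediateField.mem_adjoin_simple_self ℚ z⟩
  suffices ∃ (n : ℕ) (_ : 0 < n), y ^ n = 1 by
    obtain ⟨n, hn₀, hn₁⟩ := this
    exact ⟨n, hn₀, congrArg (algebraMap K ℂ) hn₁⟩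
  refine NumberField.Embeddings.pow_eq_one_of_norm_le_one (x := y) K ℂ
    (Subtype.coe_ne_coe.mp hz0) (IntermediateField.coe_isIntegral_iff.mp hint) fun φ ↦ hg _ ?_
  have H (ψ : K →+* ℂ) : ψ ((aeval y) g) = (aeval (ψ y)) g := by
    have := (Polynomial.aeval_algHom_apply ψ.toRatAlgHom y g)
    simpa using this.symm
  rw [← H, map_eq_zero_iff _ φ.injective]
  have h2 : (algebraMap K ℂ) ((aeval y) g) = 0 := by
    rw [H]; exact hz
  exact (map_eq_zero_iff _ (algebraMap K ℂ).injective).1 h2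

/-- If all complex roots of `g` are `0` or roots of unity, `g` divides a power of
`X * (X ^ r - 1)`. -/
theorem dvd_pow (g : ℚ[X]) (hg0 : g ≠ 0)
    (hall : ∀ z : ℂ, aeval z g = 0 → z = 0 ∨ ∃ n : ℕ, 0 < n ∧ z ^ n = 1) :
    ∃ r : ℕ, 0 < r ∧ ∃ m : ℕ, g ∣ (X * (X ^ r - 1)) ^ m := by
  classical
  have hall' : ∀ z : ℂ, ∃ n : ℕ, 0 < n ∧ (aeval z g = 0 → z = 0 ∨ z ^ n = 1) := by
    intro z
    by_cases h : aeval z g = 0
    · rcases hall z h with h0 | ⟨n, hn, h1⟩
      · exact ⟨1, one_pos, fun _ => Or.inl h0⟩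
      · exact ⟨n, hn, fun _ => Or.inr h1⟩
    · exact ⟨1, one_pos, fun h' => absurd h' h⟩
  choose N hN hN' using hall'
  let G : ℂ[X] := g.map (algebraMap ℚ ℂ)
  have hG0 : G ≠ 0 := by
    simpa [G, Polynomial.map_eq_zero] using hg0
  let r : ℕ := ∏ z ∈ G.roots.toFinset, N z
  have hr : 0 < r := Finset.prod_pos fun z _ => hN z
  refine ⟨r, hr, G.roots.card, ?_⟩
  have hroot : ∀ z ∈ G.roots, (X - C z) ∣ (X * (X ^ r - 1) : ℂ[X]) := by
    intro z hz
    rw [dvd_iff_isRoot, IsRoot.def]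
    have hz' : aeval z g = 0 := by
      have := (mem_roots hG0).1 hz
      rw [IsRoot.def, eval_map_algebraMap] at this
      exact this
    rcases hN' z hz' with h0 | h1
    · simp [h0]
    · have hd : N z ∣ r := Finset.dvd_prod_of_mem _ (by simpa using hz)
      obtain ⟨c, hc⟩ := hd
      have : z ^ r = 1 := by rw [hc, pow_mul, h1, one_pow]
      simp [this]
  have hdvd : G ∣ (X * (X ^ r - 1) : ℂ[X]) ^ G.roots.card := by
    have hsp : G = C G.leadingCoeff * (G.roots.map fun a => X - C a).prod :=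
      (IsAlgClosed.splits G).eq_prod_roots
    have h1 : (G.roots.map fun a => X - C a).prod ∣ (X * (X ^ r - 1) : ℂ[X]) ^ G.roots.card := by
      have : ∀ s : Multiset ℂ, (∀ z ∈ s, (X - C z) ∣ (X * (X ^ r - 1) : ℂ[X])) →
          (s.map fun a => X - C a).prod ∣ (X * (X ^ r - 1) : ℂ[X]) ^ s.card := by
        intro s
        induction s using Multiset.induction_on with
        | empty => simp
        | cons a s ih =>
          intro h
          rw [Multiset.map_cons, Multiset.prod_cons, Multiset.card_cons, pow_succ']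
          exact mul_dvd_mul (h a (by simp)) (ih fun z hz => h z (by simp [hz]))
      exact this _ hroot
    have hu : IsUnit (C G.leadingCoeff) := by
      rw [isUnit_C]
      exact (leadingCoeff_ne_zero.2 hG0).isUnit
    rw [hsp]
    exact (hu.mul_left_dvd).2 (by rw [← hsp]; exact h1)
  have hmap : (g.map (algebraMap ℚ ℂ)) ∣ ((X * (X ^ r - 1)) ^ G.roots.card : ℚ[X]).map
      (algebraMap ℚ ℂ) := by
    simpa [G] using hdvd
  exact (Polynomial.map_dvd_map' _).1 hmap

/-- Clearing denominators. -/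
theorem clear (f : ℚ[X]) : ∃ N : ℤ, N ≠ 0 ∧ ∃ F : ℤ[X],
    F.map (algebraMap ℤ ℚ) = C (N : ℚ) * f := by
  obtain ⟨b, hb0, hb⟩ := IsLocalization.integerNormalization_spec (nonZeroDivisors ℤ) f
  refine ⟨b, nonZeroDivisors.ne_zero hb0,
    IsLocalization.integerNormalization (nonZeroDivisors ℤ) f, ?_⟩
  rw [hb]
  ext n
  simp

variable {L : Type*} [AddCommGroup L]

theorem aeval_mul_apply (θ : Module.End ℤ L) (p q : ℤ[X]) (x : L) :
    aeval θ (p * q) x = aeval θ p (aeval θ q x) := by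
  rw [map_mul]; rfl

theorem aeval_kill (θ : Module.End ℤ L) (p q : ℤ[X]) (x : L) (h : aeval θ p x = 0) :
    aeval θ (p * q) x = 0 := by
  rw [mul_comm, aeval_mul_apply, h, map_zero]

/-- An element of a module killed by a monic polynomial and by a nonzero integer has finite
orbit, hence vanishes. -/
theorem fin_orbit (θ : Module.End ℤ L) (hinj : Function.Injective θ)
    (hθ : ∀ r : ℕ, 0 < r → ∀ x : L, (θ ^ r) x = x → x = 0) (y : L) (p : ℤ[X]) (hp : p.Monic)
    (hpy : aeval θ p y = 0) (N : ℤ) (hN : N ≠ 0) (hNy : N • y = 0) : y = 0 := by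
  classical
  set d := p.natDegree with hd
  let F : (Fin d → Fin N.natAbs) → L := fun c => ∑ i : Fin d, ((c i : ℕ) : ℤ) • (θ ^ (i : ℕ)) y
  have hNpos : 0 < N.natAbs := Int.natAbs_pos.2 hN
  have hNk : ∀ k : ℕ, N • (θ ^ k) y = 0 := by
    intro k
    rw [← map_zsmul, hNy, map_zero]
  have hmem : ∀ k : ℕ, (θ ^ k) y ∈ Set.range F := by
    intro k
    have h1 : (θ ^ k) y = aeval θ ((X : ℤ[X]) ^ k %ₘ p) y := by
      have h2 : (X : ℤ[X]) ^ k = ((X : ℤ[X]) ^ k %ₘ p) + p * ((X : ℤ[X]) ^ k /ₘ p) :=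
        (modByMonic_add_div _ p).symm
      have h3 : (θ ^ k) y = aeval θ ((X : ℤ[X]) ^ k) y := by simp
      rw [h3]
      conv_lhs => rw [h2]
      rw [map_add, LinearMap.add_apply, aeval_kill θ p _ y hpy, add_zero]
    set R := (X : ℤ[X]) ^ k %ₘ p with hR
    by_cases hd0 : d = 0
    · have hp1 : p = 1 := by
        apply eq_one_of_monic_natDegree_zero hp (by rw [← hd]; exact hd0)
      have hy0 : y = 0 := by simpa [hp1] using hpy
      refine ⟨fun _ => ⟨0, hNpos⟩, ?_⟩
      simp [F, hy0]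
    have hdeg : R.natDegree < d := by
      apply natDegree_modByMonic_lt _ hp
      intro h1
      apply hd0
      rw [hd, h1, natDegree_one]
    have h4 : aeval θ R y = ∑ i : Fin d, (R.coeff i) • (θ ^ (i : ℕ)) y := by
      rw [aeval_eq_sum_range' hdeg, LinearMap.sum_apply, Finset.sum_range]
      rfl
    refine ⟨fun i => ⟨(R.coeff i % N).natAbs, ?_⟩, ?_⟩
    · have h5 := Int.emod_nonneg (R.coeff i) hN
      have h6 := Int.emod_lt_abs (R.coeff i) hN
      rw [Int.abs_eq_natAbs] at h6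
      omega
    · rw [h1, h4]
      apply Finset.sum_congr rfl
      intro i _
      have h5 := Int.emod_nonneg (R.coeff i) hN
      have h6 : (((R.coeff i % N).natAbs : ℕ) : ℤ) = R.coeff i % N := by omega
      show (((R.coeff i % N).natAbs : ℕ) : ℤ) • (θ ^ (i : ℕ)) y = _
      rw [h6]
      conv_rhs => rw [← Int.mul_ediv_add_emod (R.coeff i) N]
      rw [add_smul, mul_comm, mul_smul, hNk, smul_zero, zero_add]
  have hfin : (Set.range fun k : ℕ => (θ ^ k) y).Finite :=
    (Set.finite_range F).subset (by rintro _ ⟨k, rfl⟩; exact hmem k)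
  have : ∃ a b : ℕ, a ≠ b ∧ (θ ^ a) y = (θ ^ b) y := by
    by_contra hcon
    push Not at hcon
    have hinj' : Function.Injective fun k : ℕ => (θ ^ k) y := by
      intro a b hab
      by_contra hne
      exact hcon a b hne hab
    exact Set.infinite_range_of_injective hinj' hfin
  obtain ⟨a, b, hab, heq⟩ := this
  have hpowinj : ∀ a : ℕ, Function.Injective (θ ^ a) := by
    intro a
    rw [Module.End.coe_pow]
    exact hinj.iterate a
  rcases lt_or_gt_of_ne hab with h | h
  · apply hθ (b - a) (by omega)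
    apply hpowinj a
    rw [← Module.End.mul_apply, ← pow_add, show a + (b - a) = b by omega, heq]
  · apply hθ (a - b) (by omega)
    apply hpowinj b
    rw [← Module.End.mul_apply, ← pow_add, show b + (a - b) = a by omega, heq]

/-- The key module argument. -/
theorem key (θ : Module.End ℤ L) (hinj : Function.Injective θ)
    (hθ : ∀ r : ℕ, 0 < r → ∀ x : L, (θ ^ r) x = x → x = 0) (x : L) (p q : ℤ[X]) (hp : p.Monic)
    (hpx : aeval θ p x = 0) (hqx : aeval θ q x = 0)
    (hroots : ∀ z : ℂ, aeval z p = 0 → aeval z q = 0 → ‖z‖ ≤ 1) : x = 0 := by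
  classical
  set P : ℚ[X] := p.map (algebraMap ℤ ℚ) with hP
  set Q : ℚ[X] := q.map (algebraMap ℤ ℚ) with hQ
  have hP0 : P ≠ 0 := (hp.map _).ne_zero
  set g := EuclideanDomain.gcd P Q with hg
  have hg0 : g ≠ 0 := by
    intro h
    exact hP0 (EuclideanDomain.gcd_eq_zero_iff.1 h).1
  have hPz : ∀ z : ℂ, aeval z P = aeval z p := by
    intro z; rw [hP, aeval_map_algebraMap]
  have hQz : ∀ z : ℂ, aeval z Q = aeval z q := by
    intro z; rw [hQ, aeval_map_algebraMap]
  have hgroot : ∀ z : ℂ, aeval z g = 0 → aeval z p = 0 ∧ aeval z q = 0 := by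
    intro z hz
    obtain ⟨c, hc⟩ := EuclideanDomain.gcd_dvd_left P Q
    obtain ⟨c', hc'⟩ := EuclideanDomain.gcd_dvd_right P Q
    constructor
    · rw [← hPz, hc, map_mul, ← hg, hz, zero_mul]
    · rw [← hQz, hc', map_mul, ← hg, hz, zero_mul]
  have hle : ∀ z : ℂ, aeval z g = 0 → ‖z‖ ≤ 1 := fun z hz =>
    hroots z (hgroot z hz).1 (hgroot z hz).2
  obtain ⟨r, hr, m, hm⟩ := dvd_pow g hg0 (fun z hz => by
    by_cases h0 : z = 0
    · exact Or.inl h0
    · exact Or.inr (kron g hle z hz h0 ⟨p, hp, by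
        rw [← aeval_def]; exact (hgroot z hz).1⟩))
  obtain ⟨w, hw⟩ := hm
  have hbez : (X * (X ^ r - 1) : ℚ[X]) ^ m
      = P * (EuclideanDomain.gcdA P Q * w) + Q * (EuclideanDomain.gcdB P Q * w) := by
    rw [hw, hg]
    conv_lhs => rw [EuclideanDomain.gcd_eq_gcd_ab P Q]
    ring
  obtain ⟨N₁, hN₁, U, hU⟩ := clear (EuclideanDomain.gcdA P Q * w)
  obtain ⟨N₂, hN₂, V, hV⟩ := clear (EuclideanDomain.gcdB P Q * w)
  set H : ℤ[X] := X * (X ^ r - 1) with hH
  have hint : C (N₁ * N₂) * H ^ m = p * (C N₂ * U) + q * (C N₁ * V) := by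
    apply Polynomial.map_injective (algebraMap ℤ ℚ) (algebraMap ℤ ℚ).injective_int
    simp only [Polynomial.map_mul, Polynomial.map_add, Polynomial.map_pow, hH, Polynomial.map_sub,
      Polynomial.map_X, Polynomial.map_one, map_C, hU, hV, ← hP, ← hQ]
    rw [hbez]
    simp only [eq_intCast, map_mul]
    ring
  set y := aeval θ (H ^ m) x with hy
  have hNy : (N₁ * N₂) • y = 0 := by
    have h1 : aeval θ (C (N₁ * N₂) * H ^ m) x = 0 := by
      rw [hint, map_add, LinearMap.add_apply, aeval_kill θ p _ x hpx, aeval_kill θ q _ x hqx,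
        add_zero]
    rw [aeval_mul_apply, aeval_C, Module.algebraMap_end_apply] at h1
    exact h1
  have hpy : aeval θ p y = 0 := by
    rw [hy, ← aeval_mul_apply]
    exact aeval_kill θ p _ x hpx
  have hy0 : y = 0 := fin_orbit θ hinj hθ y p hp hpy (N₁ * N₂) (mul_ne_zero hN₁ hN₂) hNy
  have hpow : ∀ m : ℕ, ∀ x : L, aeval θ (H ^ m) x = 0 → x = 0 := by
    intro m
    induction m with
    | zero => intro x hx; simpa using hx
    | succ m ih =>
      intro x hx
      rw [pow_succ, aeval_mul_apply] at hx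
      have h1 := ih _ hx
      rw [hH, aeval_mul_apply, aeval_X] at h1
      have h2 : aeval θ ((X : ℤ[X]) ^ r - 1) x = 0 := hinj (by rw [h1, map_zero])
      apply hθ r hr
      simpa [sub_eq_zero] using h2
  exact hpow m x hy0

/-- A square system over `ℤ[X]`: the determinant kills all unknowns. -/
theorem det_kill {n : Type*} [Fintype n] [DecidableEq n] (θ : Module.End ℤ L) (a : n → L)
    (M : Matrix n n ℤ[X]) (h : ∀ p, ∑ i, aeval θ (M p i) (a i) = 0) (i : n) :
    aeval θ M.det (a i) = 0 := by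
  have h1 : ∑ i', aeval θ ((M.adjugate * M) i i') (a i') = 0 := by
    have h2 : ∀ i', aeval θ ((M.adjugate * M) i i') (a i')
        = ∑ p, aeval θ (M.adjugate i p) (aeval θ (M p i') (a i')) := by
      intro i'
      rw [Matrix.mul_apply, map_sum, LinearMap.sum_apply]
      exact Finset.sum_congr rfl fun p _ => aeval_mul_apply θ _ _ _
    simp_rw [h2]
    rw [Finset.sum_comm]
    apply Finset.sum_eq_zero
    intro p _
    rw [← map_sum, h p, map_zero]
  rw [Matrix.adjugate_mul] at h1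
  rw [Finset.sum_eq_single i] at h1
  · simpa [Matrix.smul_apply] using h1
  · intro b _ hb
    simp [Matrix.smul_apply, Matrix.one_apply_ne' hb]
  · intro hi
    exact absurd (Finset.mem_univ i) hi

/-- Sparse choice of indices. -/
theorem sparse {j : ℕ} (m : ℕ → Fin (j + 1) → ℕ)
    (hm : ∀ B : ℕ, ∃ k, ∀ i : Fin j, m k i.castSucc + B ≤ m k i.succ) (D : ℕ) :
    ∃ K : Fin (j + 1) → ℕ, ∀ σ : Equiv.Perm (Fin (j + 1)), σ ≠ 1 →
      ∑ p, m (K p) (σ p) + D ≤ ∑ p, m (K p) p := by
  classical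
  choose f hf using hm
  let Bs : ℕ → ℕ := fun n => Nat.rec 0 (fun _ B => B + m (f (D + B)) (Fin.last j)) n
  let K' : ℕ → ℕ := fun n => f (D + Bs n)
  have hBs : ∀ n, Bs n = ∑ n' ∈ Finset.range n, m (K' n') (Fin.last j) := by
    intro n
    induction n with
    | zero => rfl
    | succ n ih => rw [Finset.sum_range_succ, ← ih]
  have hK' : ∀ n, ∀ i : Fin j, m (K' n) i.castSucc + (D + Bs n) ≤ m (K' n) i.succ :=
    fun n i => hf _ i
  have hmono : ∀ n, Monotone (m (K' n)) := by
    intro n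
    apply Fin.monotone_iff_le_succ.2
    intro i
    have := hK' n i
    omega
  refine ⟨fun p => K' p, ?_⟩
  intro σ hσ
  -- the largest moved point
  have hne : (Finset.univ.filter fun p => σ p ≠ p).Nonempty := by
    by_contra hcon
    apply hσ
    ext p
    rw [Finset.not_nonempty_iff_eq_empty, Finset.filter_eq_empty_iff] at hcon
    simpa using congrArg Fin.val (not_not.1 (hcon (Finset.mem_univ p)))
  obtain ⟨p, hp, hpmax⟩ := Finset.exists_max_image _ id hne
  have hσp : σ p ≠ p := (Finset.mem_filter.1 hp).2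
  have hfix : ∀ p', p < p' → σ p' = p' := by
    intro p' hp'
    by_contra hcon
    have := hpmax p' (Finset.mem_filter.2 ⟨Finset.mem_univ _, hcon⟩)
    exact absurd hp' (not_lt.2 this)
  have hlt : σ p < p := by
    rcases lt_trichotomy (σ p) p with h | h | h
    · exact h
    · exact absurd h hσp
    · have h1 := hfix _ h
      exact absurd (σ.injective h1) hσp
  have hp0 : (p : ℕ) ≠ 0 := by
    intro h0
    have : (σ p : ℕ) < (p : ℕ) := hlt
    omega
  -- termwise estimate
  have hterm : ∀ p' : Fin (j + 1), (if (p' : ℕ) < (p : ℕ) then -(m (K' p') (Fin.last j) : ℤ) else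
      if p' = p then ((D + Bs p : ℕ) : ℤ) else 0)
      ≤ (m (K' p') p' : ℤ) - (m (K' p') (σ p') : ℤ) := by
    intro p'
    split_ifs with h1 h2
    · have := hmono p' (Fin.le_last (σ p'))
      have h3 : (m (K' p') (σ p') : ℤ) ≤ (m (K' p') (Fin.last j) : ℤ) := by exact_mod_cast this
      have h4 : (0 : ℤ) ≤ (m (K' p') p' : ℤ) := by positivity
      linarith
    · subst h2
      obtain ⟨i, hi⟩ : ∃ i : Fin j, i.succ = p' :=
        ⟨⟨(p' : ℕ) - 1, by omega⟩, by ext; simp; omega⟩
      have h3 := hK' p' i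
      have h4 : σ p' ≤ i.castSucc := by
        rw [Fin.le_def]
        have h5 : (σ p' : ℕ) < (p' : ℕ) := hlt
        have h6 : (p' : ℕ) = (i : ℕ) + 1 := by rw [← hi]; simp
        simp only [Fin.val_castSucc]
        omega
      have h5 := hmono p' h4
      rw [hi] at h3
      have h6 : m (K' p') (σ p') + (D + Bs p') ≤ m (K' p') p' := by omega
      have h7 : (m (K' p') (σ p') : ℤ) + ((D + Bs p' : ℕ) : ℤ) ≤ (m (K' p') p' : ℤ) := by
        exact_mod_cast h6
      linarith
    · have h3 : p < p' := by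
        rw [Fin.lt_def]
        have : (p' : ℕ) ≠ (p : ℕ) := fun h => h2 (Fin.ext h)
        omega
      rw [hfix p' h3]
      simp
  have hsum := Finset.sum_le_sum fun p' (_ : p' ∈ (Finset.univ : Finset (Fin (j + 1)))) => hterm p'
  have hleft : ∑ p' : Fin (j + 1), (if (p' : ℕ) < (p : ℕ) then -(m (K' p') (Fin.last j) : ℤ) else
      if p' = p then ((D + Bs p : ℕ) : ℤ) else 0) = D := by
    have h1 : ∀ p' : Fin (j + 1), (if (p' : ℕ) < (p : ℕ) then -(m (K' p') (Fin.last j) : ℤ) else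
      if p' = p then ((D + Bs p : ℕ) : ℤ) else 0)
      = (if (p' : ℕ) < (p : ℕ) then -(m (K' p') (Fin.last j) : ℤ) else 0)
        + (if p' = p then ((D + Bs p : ℕ) : ℤ) else 0) := by
      intro p'
      by_cases h : (p' : ℕ) < (p : ℕ)
      · have : p' ≠ p := fun h' => by rw [h'] at h; exact lt_irrefl _ h
        simp [h, this]
      · simp [h]
    simp_rw [h1]
    rw [Finset.sum_add_distrib, Finset.sum_ite_eq' Finset.univ p]
    simp only [Finset.mem_univ, if_true]
    have h2 : ∑ p' : Fin (j + 1), (if (p' : ℕ) < (p : ℕ) then -(m (K' p') (Fin.last j) : ℤ) else 0)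
        = ∑ n ∈ Finset.range (j + 1), (if n < (p : ℕ) then -(m (K' n) (Fin.last j) : ℤ) else 0) :=
      Fin.sum_univ_eq_sum_range
        (fun n => if n < (p : ℕ) then -(m (K' n) (Fin.last j) : ℤ) else 0) (j + 1)
    rw [h2, ← Finset.sum_filter]
    have h3 : (Finset.range (j + 1)).filter (fun n => n < (p : ℕ)) = Finset.range p := by
      ext n
      simp only [Finset.mem_filter, Finset.mem_range]
      have := p.isLt
      constructor
      · exact fun h => h.2
      · intro h; exact ⟨by omega, h⟩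
    rw [h3, Finset.sum_neg_distrib]
    rw [Nat.cast_add, hBs, Nat.cast_sum]
    ring
  rw [hleft, Finset.sum_sub_distrib] at hsum
  have h5 : ((∑ p : Fin (j + 1), m (K' p) (σ p) : ℕ) : ℤ) + (D : ℤ)
      ≤ ((∑ p : Fin (j + 1), m (K' p) p : ℕ) : ℤ) := by
    push_cast
    linarith
  exact_mod_cast h5

/-- The polynomial `det (X ^ m (K p) i)`, its leading monomial, and its complex roots. -/
theorem det_facts {j : ℕ} (m : ℕ → Fin (j + 1) → ℕ) (K : Fin (j + 1) → ℕ) (D : ℕ) (hD : 1 ≤ D)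
    (hK : ∀ σ : Equiv.Perm (Fin (j + 1)), σ ≠ 1 →
      ∑ p, m (K p) (σ p) + D ≤ ∑ p, m (K p) p) :
    (Matrix.det (Matrix.of fun p i => (X : ℤ[X]) ^ m (K p) i)).Monic ∧
    ∀ z : ℂ, 1 < ‖z‖ → ((j + 1).factorial : ℝ) < ‖z‖ ^ D →
      aeval z (Matrix.det (Matrix.of fun p i => (X : ℤ[X]) ^ m (K p) i)) ≠ 0 := by
  classical
  have hprod : ∀ σ : Equiv.Perm (Fin (j + 1)),
      ∏ i, (Matrix.of fun p i => (X : ℤ[X]) ^ m (K p) i).transpose (σ i) i
        = X ^ (∑ p, m (K p) (σ p)) := by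
    intro σ
    simp only [Matrix.transpose_apply, Matrix.of_apply]
    rw [Finset.prod_pow_eq_pow_sum]
  have hdet : Matrix.det (Matrix.of fun p i => (X : ℤ[X]) ^ m (K p) i)
      = X ^ (∑ p, m (K p) p) + ∑ σ ∈ (Finset.univ.erase (1 : Equiv.Perm (Fin (j + 1)))),
        C ((Equiv.Perm.sign σ : ℤˣ) : ℤ) * X ^ (∑ p, m (K p) (σ p)) := by
    rw [← Matrix.det_transpose, Matrix.det_apply',
      ← Finset.add_sum_erase _ _ (Finset.mem_univ (1 : Equiv.Perm (Fin (j + 1)))), hprod]
    refine congrArg₂ (· + ·) ?_ ?_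
    · simp only [Equiv.Perm.sign_one, Units.val_one, Int.cast_one, one_mul, Equiv.Perm.coe_one,
        id_eq]
    · refine Finset.sum_congr rfl fun σ _ => ?_
      rw [hprod, eq_intCast (C : ℤ →+* ℤ[X])]
  rw [hdet]
  generalize (∑ p, m (K p) p) = top at hK ⊢
  constructor
  · apply monic_X_pow_add
    rw [← mem_degreeLT]
    refine Submodule.sum_mem _ fun σ hσ => ?_
    have h1 := hK σ (Finset.ne_of_mem_erase hσ)
    rw [mem_degreeLT]
    apply lt_of_le_of_lt (degree_C_mul_X_pow_le _ _)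
    exact_mod_cast (by omega : ∑ p, m (K p) (σ p) < top)
  · intro z hz1 hzD h0
    rw [map_add, map_pow, aeval_X, map_sum] at h0
    have h1 : ‖z‖ ^ top ≤ ∑ σ ∈ (Finset.univ.erase (1 : Equiv.Perm (Fin (j + 1)))),
        ‖z‖ ^ (top - D) := by
      have h2 : z ^ top = -∑ σ ∈ (Finset.univ.erase (1 : Equiv.Perm (Fin (j + 1)))),
          aeval z (C ((Equiv.Perm.sign σ : ℤˣ) : ℤ) * X ^ (∑ p, m (K p) (σ p))) :=
        eq_neg_of_add_eq_zero_left h0
      calc ‖z‖ ^ top = ‖z ^ top‖ := (norm_pow z top).symm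
        _ = ‖∑ σ ∈ (Finset.univ.erase (1 : Equiv.Perm (Fin (j + 1)))),
          aeval z (C ((Equiv.Perm.sign σ : ℤˣ) : ℤ) * X ^ (∑ p, m (K p) (σ p)))‖ := by
            rw [h2, norm_neg]
        _ ≤ ∑ σ ∈ (Finset.univ.erase (1 : Equiv.Perm (Fin (j + 1)))),
          ‖aeval z (C ((Equiv.Perm.sign σ : ℤˣ) : ℤ) * X ^ (∑ p, m (K p) (σ p)))‖ :=
            norm_sum_le _ _
        _ ≤ _ := by
            apply Finset.sum_le_sum
            intro σ hσ
            have h3 := hK σ (Finset.ne_of_mem_erase hσ)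
            rw [map_mul, map_pow, aeval_X, aeval_C, norm_mul, norm_pow]
            have h4 : ‖(algebraMap ℤ ℂ) ((Equiv.Perm.sign σ : ℤˣ) : ℤ)‖ = 1 := by
              rcases Int.units_eq_one_or (Equiv.Perm.sign σ) with h | h <;> simp [h]
            rw [h4, one_mul]
            exact pow_le_pow_right₀ hz1.le (by omega)
    rw [Finset.sum_const, nsmul_eq_mul] at h1
    have hcard : ((Finset.univ.erase (1 : Equiv.Perm (Fin (j + 1)))).card : ℝ)
        ≤ ((j + 1).factorial : ℝ) := by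
      have : (Finset.univ.erase (1 : Equiv.Perm (Fin (j + 1)))).card ≤ (j + 1).factorial := by
        refine (Finset.card_le_card (Finset.erase_subset _ _)).trans ?_
        rw [Finset.card_univ, Fintype.card_perm, Fintype.card_fin]
      exact_mod_cast this
    by_cases hemp : (Finset.univ.erase (1 : Equiv.Perm (Fin (j + 1)))) = ∅
    · rw [hemp] at h1
      simp at h1
      have : (0 : ℝ) < ‖z‖ ^ top := by positivity
      linarith
    · obtain ⟨σ, hσ⟩ := Finset.nonempty_iff_ne_empty.2 hemp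
      have h3 := hK σ (Finset.ne_of_mem_erase hσ)
      have hDt : D ≤ top := by omega
      have h4 : ‖z‖ ^ top = ‖z‖ ^ D * ‖z‖ ^ (top - D) := by
        rw [← pow_add]; congr 1; omega
      rw [h4] at h1
      have h5 : (0 : ℝ) < ‖z‖ ^ (top - D) := by positivity
      have h6 : ‖z‖ ^ D ≤ ((Finset.univ.erase (1 : Equiv.Perm (Fin (j + 1)))).card : ℝ) :=
        le_of_mul_le_mul_right h1 h5
      linarith

/-- Natural exponent version. -/
theorem no_relation_nat (θ : Module.End ℤ L) (hinj : Function.Injective θ)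
    (hθ : ∀ r : ℕ, 0 < r → ∀ x : L, (θ ^ r) x = x → x = 0) {j : ℕ} (a : Fin (j + 1) → L)
    (m : ℕ → Fin (j + 1) → ℕ)
    (hm : ∀ B : ℕ, ∃ k, ∀ i : Fin j, m k i.castSucc + B ≤ m k i.succ)
    (hrel : ∀ k, ∑ i, (θ ^ (m k i)) (a i) = 0) (i : Fin (j + 1)) : a i = 0 := by
  classical
  obtain ⟨K1, hK1⟩ := sparse m hm 1
  obtain ⟨hmon, -⟩ := det_facts m K1 1 le_rfl hK1
  set p := Matrix.det (Matrix.of fun p i => (X : ℤ[X]) ^ m (K1 p) i) with hp
  have hkill : ∀ K : Fin (j + 1) → ℕ,
      aeval θ (Matrix.det (Matrix.of fun p i => (X : ℤ[X]) ^ m (K p) i)) (a i) = 0 := by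
    intro K
    apply det_kill
    intro q
    simpa using hrel (K q)
  have hp0 : (p.map (algebraMap ℤ ℂ)) ≠ 0 := (hmon.map _).ne_zero
  obtain ⟨D, hD1, hD⟩ : ∃ D : ℕ, 1 ≤ D ∧ ∀ z : ℂ, aeval z p = 0 → 1 < ‖z‖ →
      ((j + 1).factorial : ℝ) < ‖z‖ ^ D := by
    have h1 : ∀ z : ℂ, ∃ D : ℕ, 1 < ‖z‖ → ((j + 1).factorial : ℝ) < ‖z‖ ^ D := by
      intro z
      by_cases h : 1 < ‖z‖
      · obtain ⟨D, hD⟩ := pow_unbounded_of_one_lt ((j + 1).factorial : ℝ) h
        exact ⟨D, fun _ => hD⟩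
      · exact ⟨0, fun h' => absurd h' h⟩
    choose d hd using h1
    refine ⟨1 + ∑ z ∈ (p.map (algebraMap ℤ ℂ)).roots.toFinset, d z, by omega, ?_⟩
    intro z hz hz1
    have hmem : z ∈ (p.map (algebraMap ℤ ℂ)).roots.toFinset := by
      rw [Multiset.mem_toFinset, mem_roots hp0, IsRoot.def, eval_map_algebraMap]
      exact hz
    have h2 : d z ≤ 1 + ∑ z ∈ (p.map (algebraMap ℤ ℂ)).roots.toFinset, d z := by
      have := Finset.single_le_sum (f := d) (fun _ _ => Nat.zero_le _) hmem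
      omega
    exact (hd z hz1).trans_le (pow_le_pow_right₀ hz1.le h2)
  obtain ⟨K2, hK2⟩ := sparse m hm D
  obtain ⟨-, hne⟩ := det_facts m K2 D hD1 hK2
  refine key θ hinj hθ (a i) p _ hmon (hkill K1) (hkill K2) ?_
  intro z hz hz'
  by_contra hcon
  push Not at hcon
  exact hne z hcon (hD z hz hcon) hz'

/-- **Row 69, algebraic end.** An automorphism of an abelian group without nonzero elements of
finite orbit satisfies no exact linear relation with gaps tending to infinity. -/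
theorem no_relation (θ : L ≃ₗ[ℤ] L) (hθ : ∀ r : ℕ, 0 < r → ∀ x : L, (θ ^ r) x = x → x = 0)
    {j : ℕ} (a : Fin (j + 1) → L) (n : ℕ → Fin (j + 1) → ℤ)
    (hgap : ∀ i : Fin j, Filter.Tendsto (fun k => n k i.succ - n k i.castSucc)
      Filter.atTop Filter.atTop)
    (hrel : ∀ k, ∑ i, (θ ^ (n k i)) (a i) = 0) (i : Fin (j + 1)) : a i = 0 := by
  classical
  let Θ : Module.End ℤ L := (θ : L →ₗ[ℤ] L)
  have hΘ : ∀ (r : ℕ) (x : L), (Θ ^ r) x = (θ ^ r) x := by
    intro r
    induction r with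
    | zero => intro x; rfl
    | succ r ih =>
      intro x
      rw [pow_succ, pow_succ, Module.End.mul_apply, LinearEquiv.mul_apply, ih]
      rfl
  have hinj : Function.Injective Θ := θ.injective
  -- eventually all gaps are nonnegative
  have hev : ∀ B : ℤ, ∀ᶠ k in Filter.atTop, ∀ i : Fin j, n k i.castSucc + B ≤ n k i.succ := by
    intro B
    rw [Filter.eventually_all]
    intro i
    filter_upwards [(hgap i).eventually_ge_atTop B] with k hk
    linarith
  obtain ⟨k0, hk0⟩ := Filter.eventually_atTop.1 (hev 0)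
  let m : ℕ → Fin (j + 1) → ℕ := fun k i => (n (k0 + k) i - n (k0 + k) 0).toNat
  have hmono : ∀ k, Monotone (n (k0 + k)) := by
    intro k
    apply Fin.monotone_iff_le_succ.2
    intro i
    have := hk0 (k0 + k) (by omega) i
    linarith
  have hmv : ∀ k i, ((m k i : ℕ) : ℤ) = n (k0 + k) i - n (k0 + k) 0 := by
    intro k i
    have h1 : n (k0 + k) 0 ≤ n (k0 + k) i := hmono k (Fin.zero_le i)
    exact Int.toNat_of_nonneg (by linarith)
  refine no_relation_nat Θ hinj (fun r hr x hx => hθ r hr x (by rw [← hΘ]; exact hx)) a m ?_ ?_ i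
  · intro B
    obtain ⟨k1, hk1⟩ := Filter.eventually_atTop.1 (hev B)
    refine ⟨k1, fun i => ?_⟩
    have h1 := hk1 (k0 + k1) (by omega) i
    have h2 := hmv k1 i.castSucc
    have h3 := hmv k1 i.succ
    have h4 : ((m k1 i.castSucc + B : ℕ) : ℤ) ≤ ((m k1 i.succ : ℕ) : ℤ) := by
      push_cast
      rw [h2, h3]
      linarith
    exact_mod_cast h4
  · intro k
    have h1 := hrel (k0 + k)
    have h2 : ∀ i, (Θ ^ (m k i)) (a i) = (θ ^ (-(n (k0 + k) 0))) ((θ ^ (n (k0 + k) i)) (a i)) := by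
      intro i
      rw [hΘ, ← LinearEquiv.mul_apply, ← zpow_add, ← zpow_natCast, hmv]
      congr 2
      ring
    simp_rw [h2]
    rw [← map_sum, h1, map_zero]

end Crest.Agent.R069.Alg
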