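import Mathlib

set_option autoImplicit false

open Filter Polynomial

namespace Crest.Agent.R069

section Elim

variable {L : Type*} [AddCommGroup L] (A : ℤ[X] →ₐ[ℤ] Module.End ℤ L)

lemma algfar_monic_aux {p0 p q0 q : ℤ[X]} (hp0 : p0.Monic) (hp : p.Monic) (hq0 : q0.Monic)
    (hq : q.Monic) (h : q0.natDegree + p.natDegree < p0.natDegree + q.natDegree) :
    (p0 * q - q0 * p).Monic ∧ (p0 * q - q0 * p).natDegree = p0.natDegree + q.natDegree := by
  have h1 : (p0 * q).natDegree = p0.natDegree + q.natDegree := hp0.natDegree_mul hq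
  have h2 : (q0 * p).natDegree = q0.natDegree + p.natDegree := hq0.natDegree_mul hp
  have hlt : (q0 * p).natDegree < (p0 * q).natDegree := by rw [h1, h2]; exact h
  refine ⟨(hp0.mul hq).sub_of_left (degree_lt_degree hlt), ?_⟩
  rw [natDegree_sub_eq_left_of_natDegree_lt hlt, h1]

theorem algfar_elim : ∀ (j : ℕ) (χ : Fin j → L),
    (∀ m : ℕ, ∃ p : Fin j → ℤ[X], (∀ i, (p i).Monic) ∧
      (∀ i i', i < i' → (p i).natDegree + m ≤ (p i').natDegree) ∧ ∑ i, A (p i) (χ i) = 0) →
    ∀ i, ∃ f : ℤ[X], f.Monic ∧ A f (χ i) = 0 := by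
  intro j
  induction j with
  | zero => intro χ _ i; exact i.elim0
  | succ j ih =>
    intro χ H
    obtain ⟨p, hpm, hpd, hp0⟩ := H 0
    have tail : ∀ i : Fin j, ∃ f : ℤ[X], f.Monic ∧ A f (χ i.succ) = 0 := by
      apply ih (fun i => χ i.succ)
      intro m
      obtain ⟨q, hqm, hqd, hq0⟩ := H (m + (∑ i, (p i).natDegree) + 1)
      have hkey : ∀ i : Fin j, (q 0).natDegree + (p i.succ).natDegree
          < (p 0).natDegree + (q i.succ).natDegree := by
        intro i
        have h1 := hqd 0 i.succ (Fin.succ_pos i)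
        have h2 : (p i.succ).natDegree ≤ ∑ i, (p i).natDegree :=
          Finset.single_le_sum (f := fun i => (p i).natDegree) (fun _ _ => Nat.zero_le _)
            (Finset.mem_univ _)
        omega
      refine ⟨fun i => p 0 * q i.succ - q 0 * p i.succ, ?_, ?_, ?_⟩
      · intro i
        exact (algfar_monic_aux (hpm 0) (hpm _) (hqm 0) (hqm _) (hkey i)).1
      · intro i i' hii
        rw [(algfar_monic_aux (hpm 0) (hpm _) (hqm 0) (hqm _) (hkey i)).2,
          (algfar_monic_aux (hpm 0) (hpm _) (hqm 0) (hqm _) (hkey i')).2]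
        have h1 := hqd i.succ i'.succ (Fin.succ_lt_succ_iff.mpr hii)
        omega
      · have e1 : ∑ i : Fin j, A (p i.succ) (χ i.succ) = - A (p 0) (χ 0) := by
          rw [Fin.sum_univ_succ] at hp0
          exact (neg_eq_of_add_eq_zero_right hp0).symm
        have e2 : ∑ i : Fin j, A (q i.succ) (χ i.succ) = - A (q 0) (χ 0) := by
          rw [Fin.sum_univ_succ] at hq0
          exact (neg_eq_of_add_eq_zero_right hq0).symm
        calc ∑ i : Fin j, A (p 0 * q i.succ - q 0 * p i.succ) (χ i.succ)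
            = A (p 0) (∑ i : Fin j, A (q i.succ) (χ i.succ))
              - A (q 0) (∑ i : Fin j, A (p i.succ) (χ i.succ)) := by
              rw [map_sum, map_sum, ← Finset.sum_sub_distrib]
              refine Finset.sum_congr rfl fun i _ => ?_
              rw [map_sub, map_mul, map_mul]
              rfl
          _ = 0 := by
              rw [e1, e2, map_neg, map_neg]
              have : A (p 0) (A (q 0) (χ 0)) = A (q 0) (A (p 0) (χ 0)) := by
                rw [← Module.End.mul_apply, ← Module.End.mul_apply, ← map_mul, ← map_mul, mul_comm]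
              rw [this]
              simp
    choose f hfm hf using tail
    intro i
    refine Fin.cases ?_ (fun i => ⟨f i, hfm i, hf i⟩) i
    refine ⟨(∏ i, f i) * p 0, (monic_prod_of_monic _ _ fun i _ => hfm i).mul (hpm 0), ?_⟩
    have e1 : A (p 0) (χ 0) = - ∑ i : Fin j, A (p i.succ) (χ i.succ) := by
      rw [Fin.sum_univ_succ] at hp0
      exact eq_neg_of_add_eq_zero_left hp0
    rw [map_mul, Module.End.mul_apply, e1, map_neg, map_sum, Finset.sum_eq_zero, neg_zero]
    intro i _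
    have : A (∏ i, f i) (A (p i.succ) (χ i.succ)) = 0 := by
      rw [← Module.End.mul_apply, ← map_mul, ← Finset.prod_erase_mul _ _ (Finset.mem_univ i),
        mul_assoc, mul_comm (f i), ← mul_assoc, map_mul, Module.End.mul_apply, hf i, map_zero]
    exact this

end Elim

section FG

variable {L : Type*} [AddCommGroup L]

lemma algfar_span (T : Module.End ℤ L) (x : L) (f : ℤ[X]) (hf : f.Monic)
    (h : aeval T f x = 0) (a : ℕ) :
    (T ^ a) x ∈ Submodule.span ℤ (Set.range fun i : Fin f.natDegree => (T ^ (i : ℕ)) x) := by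
  have h1 : (T ^ a) x = aeval T ((X : ℤ[X]) ^ a %ₘ f) x := by
    have h2 := modByMonic_add_div ((X : ℤ[X]) ^ a) f
    have h3 : (T ^ a) x = aeval T ((X : ℤ[X]) ^ a) x := by simp
    rw [h3]
    conv_lhs => rw [← h2]
    rw [map_add, LinearMap.add_apply, mul_comm, map_mul, Module.End.mul_apply, h, map_zero,
      add_zero]
  rw [h1]
  by_cases hf1 : f = 1
  · subst hf1
    simp
  rw [aeval_eq_sum_range' (natDegree_modByMonic_lt _ hf hf1), LinearMap.sum_apply]
  refine Submodule.sum_mem _ fun i hi => ?_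
  rw [LinearMap.smul_apply]
  refine Submodule.smul_mem _ _ (Submodule.subset_span ⟨⟨i, Finset.mem_range.mp hi⟩, rfl⟩)


/-- the `ℤ`-linear endomorphism of an automorphism -/
def endo (t : L ≃ₗ[ℤ] L) : Module.End ℤ L := (t : L →ₗ[ℤ] L)

lemma endo_apply (t : L ≃ₗ[ℤ] L) (x : L) : endo t x = t x := rfl

lemma endo_pow_apply (t : L ≃ₗ[ℤ] L) (n : ℕ) (x : L) : (endo t ^ n) x = (t ^ n) x := by
  induction n generalizing x with
  | zero => simp
  | succ n ih =>
    rw [pow_succ, pow_succ, Module.End.mul_apply, ih]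
    rfl

lemma algfar_killer (t : L ≃ₗ[ℤ] L) {j : ℕ} (χ : Fin j → L)
    (H : ∀ m : ℕ, ∃ e : Fin j → ℕ, (∀ i i', i < i' → e i + m ≤ e i') ∧
      ∑ i, (t ^ (e i)) (χ i) = 0) (i : Fin j) :
    ∃ f : ℤ[X], f.Monic ∧ aeval (endo t) f (χ i) = 0 := by
  refine algfar_elim (aeval (endo t)) j χ ?_ i
  intro m
  obtain ⟨e, he, hs⟩ := H m
  refine ⟨fun i => X ^ (e i), fun i => monic_X_pow _, ?_, ?_⟩
  · intro i i' h
    simpa using he i i' h
  · rw [← hs]
    refine Finset.sum_congr rfl fun i _ => ?_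
    rw [map_pow, aeval_X, endo_pow_apply]

/-- the `t`-invariant subgroup generated by the `χ i` -/
def orbSpan (t : L ≃ₗ[ℤ] L) {ι : Type*} (χ : ι → L) : Submodule ℤ L :=
  Submodule.span ℤ (Set.range fun p : ι × ℤ => (t ^ p.2) (χ p.1))

lemma orbSpan_fg (t : L ≃ₗ[ℤ] L) {ι : Type*} [Finite ι] (χ : ι → L)
    (h1 : ∀ i, ∃ f : ℤ[X], f.Monic ∧ aeval (endo t) f (χ i) = 0)
    (h2 : ∀ i, ∃ f : ℤ[X], f.Monic ∧ aeval (endo t⁻¹) f (χ i) = 0) :
    (orbSpan t χ).FG := by
  choose f hfm hf using h1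
  choose g hgm hg using h2
  have key : orbSpan t χ = ⨆ i, (Submodule.span ℤ
      (Set.range fun a : Fin (f i).natDegree => (endo t ^ (a : ℕ)) (χ i)) ⊔
      Submodule.span ℤ (Set.range fun a : Fin (g i).natDegree => (endo t⁻¹ ^ (a : ℕ)) (χ i))) := by
    apply le_antisymm
    · refine Submodule.span_le.mpr ?_
      rintro _ ⟨⟨i, n⟩, rfl⟩
      refine Submodule.mem_iSup_of_mem i ?_
      obtain ⟨a, rfl | rfl⟩ := n.eq_nat_or_neg
      · refine Submodule.mem_sup_left ?_
        have := algfar_span (endo t) (χ i) (f i) (hfm i) (hf i) a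
        rw [endo_pow_apply] at this
        simpa using this
      · refine Submodule.mem_sup_right ?_
        have := algfar_span (endo t⁻¹) (χ i) (g i) (hgm i) (hg i) a
        rw [endo_pow_apply] at this
        simpa using this
    · refine iSup_le fun i => sup_le ?_ ?_
      · refine Submodule.span_le.mpr ?_
        rintro _ ⟨a, rfl⟩
        refine Submodule.subset_span ⟨(i, (a : ℤ)), ?_⟩
        simp [endo_pow_apply]
      · refine Submodule.span_le.mpr ?_
        rintro _ ⟨a, rfl⟩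
        refine Submodule.subset_span ⟨(i, -(a : ℤ)), ?_⟩
        simp [endo_pow_apply]
  rw [key]
  refine Submodule.fg_iSup _ fun i => Submodule.FG.sup ?_ ?_
  · exact Submodule.fg_span (Set.finite_range _)
  · exact Submodule.fg_span (Set.finite_range _)

lemma mem_orbSpan (t : L ≃ₗ[ℤ] L) {ι : Type*} (χ : ι → L) (i : ι) : χ i ∈ orbSpan t χ :=
  Submodule.subset_span ⟨(i, 0), by simp⟩

lemma orbSpan_map_le (t : L ≃ₗ[ℤ] L) {ι : Type*} (χ : ι → L) (n : ℤ) {x : L}
    (hx : x ∈ orbSpan t χ) : (t ^ n) x ∈ orbSpan t χ := by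
  unfold orbSpan at hx ⊢
  induction hx using Submodule.span_induction with
  | mem x h =>
    obtain ⟨⟨i, m⟩, rfl⟩ := h
    refine Submodule.subset_span ⟨(i, n + m), ?_⟩
    simp only [zpow_add]
    rfl
  | zero => simp
  | add x y _ _ hx hy => rw [map_add]; exact Submodule.add_mem _ hx hy
  | smul a x _ hx => rw [map_zsmul]; exact Submodule.smul_mem _ _ hx

end FG

section Dom

/-- domination: a nontrivial exponential sum with far exponents is nonzero. -/
lemma algfar_dom_gt {ι : Type*} [Fintype ι] (c : ι → ℂ) (z : ℂ) (hz : 1 < ‖z‖)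
    (n : ℕ → ι → ℤ)
    (hgap : ∀ i j, i ≠ j → Tendsto (fun k => |n k i - n k j|) atTop atTop)
    (hrel : ∃ᶠ k in atTop, ∑ i, z ^ (n k i) * c i = 0) : ∀ i, c i = 0 := by
  classical
  by_contra hne
  push Not at hne
  obtain ⟨i0, hi0⟩ := hne
  set S : Finset ι := Finset.univ.filter (fun i => c i ≠ 0) with hSdef
  have hS : S.Nonempty := ⟨i0, by simp [hSdef, hi0]⟩
  obtain ⟨i1, hi1, hmin⟩ := S.exists_min_image (fun i => ‖c i‖) hS
  have hδ : 0 < ‖c i1‖ := by
    have : c i1 ≠ 0 := by simpa [hSdef] using hi1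
    exact norm_pos_iff.mpr this
  have hz0 : 0 < ‖z‖ := lt_trans zero_lt_one hz
  obtain ⟨G, hG⟩ := pow_unbounded_of_one_lt ((∑ i, ‖c i‖) / ‖c i1‖) hz
  rw [div_lt_iff₀ hδ] at hG
  have hev : ∀ᶠ k in atTop, ∀ i j, i ≠ j → (G : ℤ) ≤ |n k i - n k j| := by
    rw [eventually_all]
    intro i
    rw [eventually_all]
    intro j
    by_cases h : i = j
    · exact Eventually.of_forall fun k hk => absurd h hk
    · filter_upwards [(hgap i j h).eventually_ge_atTop (G : ℤ)] with k hk _
      exact hk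
  obtain ⟨k, hk0, hk⟩ := (hrel.and_eventually hev).exists
  obtain ⟨i2, hi2, hmax⟩ := S.exists_max_image (fun i => n k i) hS
  have e1 : z ^ (n k i2) * c i2 = - ∑ i ∈ Finset.univ.erase i2, z ^ (n k i) * c i := by
    rw [← Finset.add_sum_erase _ _ (Finset.mem_univ i2)] at hk0
    exact eq_neg_of_add_eq_zero_left hk0
  have e2 : ‖z‖ ^ (n k i2) * ‖c i2‖ ≤ ∑ i ∈ Finset.univ.erase i2, ‖z‖ ^ (n k i2 - G) * ‖c i‖ := by
    have : ‖z ^ (n k i2) * c i2‖ = ‖z‖ ^ (n k i2) * ‖c i2‖ := by rw [norm_mul, norm_zpow]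
    rw [← this, e1, norm_neg]
    refine (norm_sum_le _ _).trans (Finset.sum_le_sum fun i hi => ?_)
    rw [norm_mul, norm_zpow]
    by_cases hci : c i = 0
    · simp [hci]
    · have hiS : i ∈ S := by simp [hSdef, hci]
      have h1 := hmax i hiS
      have h2 := hk i i2 (Finset.ne_of_mem_erase hi)
      have h3 : n k i ≤ n k i2 - G := by
        rw [abs_of_nonpos (by linarith)] at h2
        linarith
      exact mul_le_mul_of_nonneg_right (zpow_le_zpow_right₀ hz.le h3) (norm_nonneg _)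
  rw [← Finset.mul_sum, zpow_sub₀ hz0.ne', zpow_natCast, div_mul_eq_mul_div,
    mul_div_assoc] at e2
  have e3 := le_of_mul_le_mul_left e2 (zpow_pos hz0 _)
  rw [le_div_iff₀ (pow_pos hz0 _)] at e3
  have e4 : ∑ i ∈ Finset.univ.erase i2, ‖c i‖ ≤ ∑ i, ‖c i‖ :=
    Finset.sum_le_sum_of_subset_of_nonneg (Finset.erase_subset _ _) fun _ _ _ => norm_nonneg _
  have e5 : ‖c i1‖ * ‖z‖ ^ G ≤ ‖c i2‖ * ‖z‖ ^ G :=
    mul_le_mul_of_nonneg_right (hmin i2 hi2) (pow_nonneg hz0.le _)
  rw [mul_comm (‖z‖ ^ G)] at hG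
  linarith

/-- domination: a nontrivial exponential sum with far exponents is nonzero. -/
lemma algfar_dom {ι : Type*} [Fintype ι] (c : ι → ℂ) (z : ℂ) (hz0 : z ≠ 0) (hz : ‖z‖ ≠ 1)
    (n : ℕ → ι → ℤ)
    (hgap : ∀ i j, i ≠ j → Tendsto (fun k => |n k i - n k j|) atTop atTop)
    (hrel : ∃ᶠ k in atTop, ∑ i, z ^ (n k i) * c i = 0) : ∀ i, c i = 0 := by
  rcases lt_or_gt_of_ne hz with h | h
  · refine algfar_dom_gt c z⁻¹ ?_ (fun k i => - n k i) ?_ ?_
    · rw [norm_inv]
      exact (one_lt_inv₀ (norm_pos_iff.mpr hz0)).mpr h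
    · intro i j hij
      refine (hgap i j hij).congr fun k => ?_
      rw [← abs_neg]
      congr 1
      ring
    · refine hrel.mono fun k hk => ?_
      rw [← hk]
      refine Finset.sum_congr rfl fun i _ => ?_
      simp
  · exact algfar_dom_gt c z h n hgap hrel

end Dom

section Kron

/-- Kronecker: a root of a monic integer polynomial all of whose complex roots have modulus one
is a root of unity. -/
lemma algfar_kronecker (p : ℤ[X]) (hp : p.Monic) (h : ∀ z : ℂ, aeval z p = 0 → ‖z‖ = 1)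
    (z : ℂ) (hz : aeval z p = 0) : ∃ r : ℕ, 0 < r ∧ z ^ r = 1 := by
  have hint : IsIntegral ℤ z := ⟨p, hp, by simpa [aeval_def] using hz⟩
  have hintQ : IsIntegral ℚ z := hint.tower_top
  let K := IntermediateField.adjoin ℚ ({z} : Set ℂ)
  have : FiniteDimensional ℚ K := IntermediateField.adjoin.finiteDimensional hintQ
  have : NumberField K := ⟨⟩
  let g : K := IntermediateField.AdjoinSimple.gen ℚ z
  have hg : (algebraMap K ℂ) g = z := IntermediateField.AdjoinSimple.algebraMap_gen ℚ z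
  have hg0 : aeval g p = 0 := by
    have : (algebraMap K ℂ) (aeval g p) = 0 := by
      rw [← aeval_algebraMap_apply, hg, hz]
    exact (map_eq_zero _).mp this
  have hgint : IsIntegral ℤ g := ⟨p, hp, by simpa [aeval_def] using hg0⟩
  obtain ⟨r, hr, hr1⟩ := NumberField.Embeddings.pow_eq_one_of_norm_eq_one K ℂ hgint (by
    intro φ
    apply h
    have : φ (aeval g p) = 0 := by rw [hg0, map_zero]
    rw [← this]
    have := (map_aeval_eq_aeval_map (φ := RingHom.id ℤ) (ψ := φ) (RingHom.ext_int _ _) p g)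
    simpa using this.symm)
  refine ⟨r, hr, ?_⟩
  rw [← hg, ← map_pow, hr1, map_one]

end Kron

section Main

variable {L : Type*} [AddCommGroup L]

/-- restriction of `t` to the invariant subgroup `orbSpan t χ` -/
def orbRes (t : L ≃ₗ[ℤ] L) {ι : Type*} (χ : ι → L) : orbSpan t χ →ₗ[ℤ] orbSpan t χ :=
  LinearMap.restrict (t : L →ₗ[ℤ] L) (fun x hx => by
    have := orbSpan_map_le t χ 1 hx
    rwa [zpow_one] at this)

lemma orbRes_coe (t : L ≃ₗ[ℤ] L) {ι : Type*} (χ : ι → L) (x : orbSpan t χ) :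
    ((orbRes t χ x : orbSpan t χ) : L) = t x := rfl

lemma orbRes_pow_coe (t : L ≃ₗ[ℤ] L) {ι : Type*} (χ : ι → L) (n : ℕ) (x : orbSpan t χ) :
    (((orbRes t χ ^ n) x : orbSpan t χ) : L) = (t ^ n) (x : L) := by
  induction n generalizing x with
  | zero => simp
  | succ n ih =>
    rw [pow_succ, pow_succ, Module.End.mul_apply, ih, orbRes_coe]
    rfl

lemma algfar_pow_fix (t : L ≃ₗ[ℤ] L) {ι : Type*} (χ : ι → L) (x : orbSpan t χ) (r : ℕ)
    (h : (t ^ r) (x : L) = x) : (orbRes t χ ^ r) x = x := by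
  apply Subtype.ext
  rw [orbRes_pow_coe, h]

lemma algfar_no_torsion (t : L ≃ₗ[ℤ] L)
    (hfin : ∀ x : L, ∀ r : ℕ, 0 < r → (t ^ r) x = x → x = 0)
    {ι : Type*} (χ : ι → L) (hfg : (orbSpan t χ).FG) (m : ℤ) (hm : m ≠ 0)
    (x : orbSpan t χ) (hx : m • x = 0) : x = 0 := by
  have : Module.Finite ℤ (orbSpan t χ) := Module.Finite.iff_fg.mpr hfg
  let W : Submodule ℤ (orbSpan t χ) := Submodule.torsionBy ℤ _ m
  have hWt : Module.IsTorsion ℤ W := by
    intro y
    refine ⟨⟨m, mem_nonZeroDivisors_of_ne_zero hm⟩, ?_⟩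
    apply Subtype.ext
    have h1 := y.2
    rw [Submodule.mem_torsionBy_iff] at h1
    exact h1
  have hWf : _root_.Finite W := Module.finite_of_fg_torsion W hWt
  have hxW : ∀ n : ℕ, (orbRes t χ ^ n) x ∈ W := by
    intro n
    rw [Submodule.mem_torsionBy_iff, ← map_smul, hx, map_zero]
  obtain ⟨a, b, hab, he⟩ := Finite.exists_ne_map_eq_of_infinite
    (fun n : ℕ => (⟨(orbRes t χ ^ n) x, hxW n⟩ : W))
  have he' : (t ^ a) (x : L) = (t ^ b) (x : L) := by
    have := congrArg (fun y : W => ((y : orbSpan t χ) : L)) he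
    simpa [orbRes_pow_coe] using this
  apply Subtype.ext
  rcases lt_or_gt_of_ne hab with h | h
  · refine hfin x (b - a) (by omega) ?_
    apply (t ^ a).injective
    have : (t ^ a) ((t ^ (b - a)) (x : L)) = (t ^ b) (x : L) := by
      rw [← LinearEquiv.mul_apply, ← pow_add]
      congr 2
      omega
    rw [this, he']
  · refine hfin x (a - b) (by omega) ?_
    apply (t ^ b).injective
    have : (t ^ b) ((t ^ (a - b)) (x : L)) = (t ^ a) (x : L) := by
      rw [← LinearEquiv.mul_apply, ← pow_add]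
      congr 2
      omega
    rw [this, he']

theorem alg_far_aux (t : L ≃ₗ[ℤ] L)
    (hfin : ∀ x : L, ∀ r : ℕ, 0 < r → (t ^ r) x = x → x = 0)
    {ι : Type*} [Fintype ι] (χ : ι → L) (hfg : (orbSpan t χ).FG) (n : ℕ → ι → ℤ)
    (hgap : ∀ i j, i ≠ j → Tendsto (fun k => |n k i - n k j|) atTop atTop)
    (hrel : ∃ᶠ k in atTop, ∑ i, (t ^ (n k i)) (χ i) = 0) : ∀ i, χ i = 0 := by
  classical
  have hfinite : Module.Finite ℤ (orbSpan t χ) := Module.Finite.iff_fg.mpr hfg
  have hnt : Module.IsTorsionFree ℤ (orbSpan t χ) := by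
    refine ⟨fun m hm x y hxy => ?_⟩
    have h1 : m • (x - y) = 0 := by
      rw [smul_sub, sub_eq_zero]
      exact hxy
    exact sub_eq_zero.mp (algfar_no_torsion t hfin χ hfg m hm.ne_zero _ h1)
  have hfree : Module.Free ℤ (orbSpan t χ) := by infer_instance
  set τ := orbRes t χ with hτ
  let b := Module.finBasis ℤ (orbSpan t χ)
  set d := Module.finrank ℤ (orbSpan t χ) with hd
  by_cases hd0 : d = 0
  · intro i
    have : (⟨χ i, mem_orbSpan t χ i⟩ : orbSpan t χ) = 0 := by
      apply b.repr.injective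
      ext j
      have := j.2
      omega
    simpa using congrArg Subtype.val this
  exfalso
  let A : Matrix (Fin d) (Fin d) ℤ := LinearMap.toMatrix b b τ
  let A' : Matrix (Fin d) (Fin d) ℂ := A.map (Int.castRingHom ℂ)
  have hA : ∀ x, b.repr (τ x) = A.mulVec (b.repr x) := fun x => by
    rw [← LinearMap.toMatrix_mulVec_repr b b τ x]
  -- left eigenvectors
  have hw : ∀ z : ℂ, A'.charpoly.eval z = 0 → ∃ w : Fin d → ℂ, w ≠ 0 ∧
      Matrix.vecMul w A' = z • w := by
    intro z hz
    rw [Matrix.eval_charpoly] at hz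
    obtain ⟨w, hw0, hw⟩ := Matrix.exists_vecMul_eq_zero_iff.mpr hz
    refine ⟨w, hw0, ?_⟩
    rw [Matrix.vecMul_sub, sub_eq_zero] at hw
    rw [← hw]
    ext i
    simp [Matrix.vecMul, Matrix.scalar, dotProduct, Matrix.diagonal_apply, mul_comm]
  -- an eigenvalue of modulus different from one is impossible
  have hone : ∀ z : ℂ, A'.charpoly.eval z = 0 → ‖z‖ = 1 := by
    intro z hz
    by_contra hz1
    obtain ⟨w, hw0, hwz⟩ := hw z hz
    let φ : orbSpan t χ →+ ℂ :=
      { toFun := fun x => ∑ i, w i * ((b.repr x i : ℤ) : ℂ)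
        map_zero' := by simp
        map_add' := fun x y => by
          simp [mul_add, Finset.sum_add_distrib] }
    have hφ : ∀ x, φ x = ∑ i, w i * ((b.repr x i : ℤ) : ℂ) := fun x => rfl
    have hφb : ∀ i, φ (b i) = w i := by
      intro i
      rw [hφ]
      simp [Finsupp.single_apply]
    have hφτ : ∀ x, φ (τ x) = z * φ x := by
      intro x
      have h1 : ∀ i, ((b.repr (τ x) i : ℤ) : ℂ) = ∑ j, A' i j * ((b.repr x j : ℤ) : ℂ) := by
        intro i
        have := congrFun (hA x) i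
        rw [this]
        simp [Matrix.mulVec, dotProduct, A']
      have h2 : ∀ j, ∑ i, w i * A' i j = z * w j := by
        intro j
        have := congrFun hwz j
        simpa [Matrix.vecMul, dotProduct] using this
      calc φ (τ x) = ∑ i, w i * ∑ j, A' i j * ((b.repr x j : ℤ) : ℂ) := by
            rw [hφ]; exact Finset.sum_congr rfl fun i _ => by rw [h1]
        _ = ∑ j, (∑ i, w i * A' i j) * ((b.repr x j : ℤ) : ℂ) := by
            simp_rw [Finset.mul_sum, Finset.sum_mul]
            rw [Finset.sum_comm]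
            exact Finset.sum_congr rfl fun _ _ => Finset.sum_congr rfl fun _ _ => by ring
        _ = z * φ x := by
            rw [hφ, Finset.mul_sum]
            exact Finset.sum_congr rfl fun j _ => by rw [h2]; ring
    have hz0 : z ≠ 0 := by
      rintro rfl
      apply hw0
      funext i
      have h1 : (t ^ (-1 : ℤ)) ((b i : orbSpan t χ) : L) ∈ orbSpan t χ :=
        orbSpan_map_le t χ (-1) (b i).2
      have h2 : τ ⟨_, h1⟩ = b i := by
        apply Subtype.ext
        rw [hτ, orbRes_coe]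
        change t ((t ^ (-1 : ℤ)) ((b i : orbSpan t χ) : L)) = _
        rw [zpow_neg_one]
        exact LinearEquiv.apply_symm_apply t _
      rw [← hφb i, ← h2, hφτ, zero_mul]
      rfl
    have hφn : ∀ (m : ℕ) (x : orbSpan t χ), φ ((τ ^ m) x) = z ^ m * φ x := by
      intro m
      induction m with
      | zero => intro x; simp
      | succ m ih =>
        intro x
        rw [pow_succ, Module.End.mul_apply, ih, hφτ]
        ring
    have hφz : ∀ (m : ℤ) (x : orbSpan t χ),
        φ ⟨(t ^ m) (x : L), orbSpan_map_le t χ m x.2⟩ = z ^ m * φ x := by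
      intro m x
      obtain ⟨a, rfl | rfl⟩ := m.eq_nat_or_neg
      · have e1 : φ ⟨(t ^ (a : ℤ)) (x : L), orbSpan_map_le t χ _ x.2⟩ = φ ((τ ^ a) x) := by
          congr 1
          apply Subtype.ext
          rw [hτ, orbRes_pow_coe]
          change (t ^ (a : ℤ)) (x : L) = _
          rw [zpow_natCast]
        rw [e1, hφn, zpow_natCast]
      · have h1 := hφn a ⟨(t ^ (-(a : ℤ))) (x : L), orbSpan_map_le t χ _ x.2⟩
        have h2 : (τ ^ a) ⟨(t ^ (-(a : ℤ))) (x : L), orbSpan_map_le t χ _ x.2⟩ = x := by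
          apply Subtype.ext
          rw [hτ, orbRes_pow_coe]
          rw [← LinearEquiv.mul_apply, ← zpow_natCast, ← zpow_add]
          simp
        rw [h2] at h1
        have e1 : z ^ (-(a : ℤ)) = (z ^ a)⁻¹ := by rw [zpow_neg, zpow_natCast]
        rw [e1, h1, ← mul_assoc, inv_mul_cancel₀ (pow_ne_zero _ hz0), one_mul]
    have hc := algfar_dom (fun i => φ ⟨χ i, mem_orbSpan t χ i⟩) z hz0 hz1 n hgap (by
      refine hrel.mono fun k hk => ?_
      have h1 : (∑ i, (⟨(t ^ (n k i)) (χ i), orbSpan_map_le t χ _ (mem_orbSpan t χ i)⟩ :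
          orbSpan t χ)) = 0 := by
        apply Subtype.ext
        rw [AddSubmonoidClass.coe_finsetSum]
        exact hk
      have h2 := congrArg φ h1
      rw [map_sum, map_zero] at h2
      rw [← h2]
      exact Finset.sum_congr rfl fun i _ => (hφz (n k i) ⟨χ i, mem_orbSpan t χ i⟩).symm)
    have hφ0 : ∀ x (hx : x ∈ orbSpan t χ), φ ⟨x, hx⟩ = 0 := by
      intro x hx
      have hx' := hx
      unfold orbSpan at hx'
      induction hx' using Submodule.span_induction with
      | mem x h =>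
        obtain ⟨⟨i, m⟩, rfl⟩ := h
        have := hφz m ⟨χ i, mem_orbSpan t χ i⟩
        rw [hc i, mul_zero] at this
        exact this
      | zero => exact map_zero φ
      | add x y hx1 hy1 ihx ihy =>
        have := map_add φ ⟨x, hx1⟩ ⟨y, hy1⟩
        rw [ihx hx1, ihy hy1, add_zero] at this
        exact this
      | smul a x hx1 ihx =>
        have := map_zsmul φ a ⟨x, hx1⟩
        rw [ihx hx1, smul_zero] at this
        exact this
    apply hw0
    funext i
    rw [← hφb i]
    exact hφ0 _ (b i).2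
  -- Kronecker
  have hroot : ∃ z : ℂ, A'.charpoly.eval z = 0 := by
    have : A'.charpoly.degree ≠ 0 := by
      rw [Matrix.charpoly_degree_eq_dim]
      simpa using hd0
    obtain ⟨z, hz⟩ := IsAlgClosed.exists_root _ this
    exact ⟨z, hz⟩
  have hAA : A'.charpoly = A.charpoly.map (Int.castRingHom ℂ) := by
    rw [← Matrix.charpoly_map]
  have hev : ∀ z : ℂ, A'.charpoly.eval z = aeval z A.charpoly := by
    intro z
    rw [hAA, eval_map, aeval_def]
    rfl
  obtain ⟨z, hz⟩ := hroot
  obtain ⟨r, hr, hzr⟩ := algfar_kronecker A.charpoly A.charpoly_monic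
    (fun z hz => hone z (by rw [hev, hz])) z (by rw [← hev, hz])
  obtain ⟨w, hw0, hwz⟩ := hw z hz
  have hwr : ∀ m : ℕ, Matrix.vecMul w (A' ^ m) = z ^ m • w := by
    intro m
    induction m with
    | zero => simp
    | succ m ih =>
      rw [pow_succ, ← Matrix.vecMul_vecMul, ih, Matrix.smul_vecMul, hwz, smul_smul, pow_succ]
  have hdet : (A ^ r - 1).det = 0 := by
    have h1 : (A' ^ r - 1).det = 0 := by
      rw [← Matrix.exists_vecMul_eq_zero_iff]
      refine ⟨w, hw0, ?_⟩
      rw [Matrix.vecMul_sub, hwr, hzr, one_smul, Matrix.vecMul_one, sub_self]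
    have h2 : (A' ^ r - 1) = (A ^ r - 1).map (Int.castRingHom ℂ) := by
      rw [Matrix.map_sub _ (map_sub _), Matrix.map_pow, Matrix.map_one _ (map_zero _) (map_one _)]
    rw [h2, ← RingHom.mapMatrix_apply, ← RingHom.map_det] at h1
    simpa using h1
  obtain ⟨v, hv0, hv⟩ := Matrix.exists_mulVec_eq_zero_iff.mpr hdet
  rw [Matrix.sub_mulVec, Matrix.one_mulVec, sub_eq_zero] at hv
  have hAr : ∀ (m : ℕ) (x), b.repr ((τ ^ m) x) = (A ^ m).mulVec (b.repr x) := by
    intro m
    induction m with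
    | zero => intro x; simp
    | succ m ih =>
      intro x
      rw [pow_succ, Module.End.mul_apply, ih, hA, pow_succ, Matrix.mulVec_mulVec]
  let x : orbSpan t χ := b.equivFun.symm v
  have hxv : (b.repr x : Fin d → ℤ) = v := by
    rw [← Module.Basis.equivFun_apply]
    exact b.equivFun.apply_symm_apply v
  have hfix : (τ ^ r) x = x := by
    apply b.repr.injective
    apply DFunLike.coe_injective
    rw [hAr, hxv, hv]
  have hx0 : x = 0 := by
    apply Subtype.ext
    refine hfin x r hr ?_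
    have := congrArg Subtype.val hfix
    rwa [hτ, orbRes_pow_coe] at this
  apply hv0
  rw [← hxv, hx0]
  simp

lemma algfar_order {ι : Type*} [Fintype ι] (n : ℕ → ι → ℤ) (P : ℕ → Prop)
    (hP : ∃ᶠ k in atTop, P k) :
    ∃ ψ : Fin (Fintype.card ι) ≃ ι, ∃ᶠ k in atTop, P k ∧ Monotone (n k ∘ ψ) := by
  classical
  let e : Fin (Fintype.card ι) ≃ ι := (Fintype.equivFin ι).symm
  by_contra hcon
  push Not at hcon
  have h1 : ∀ σ : Equiv.Perm (Fin (Fintype.card ι)),
      ∀ᶠ k in atTop, ¬ (P k ∧ Monotone (n k ∘ (σ.trans e))) := fun σ => by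
    simpa [Filter.not_frequently] using hcon (σ.trans e)
  rw [← eventually_all] at h1
  obtain ⟨k, hk, hk'⟩ := (hP.and_eventually h1).exists
  exact hk' (Tuple.sort (n k ∘ e)) ⟨hk, Tuple.monotone_sort (n k ∘ e)⟩

/-- **Node (9b)/(B4) of row 69**: no far relations between characters. -/
theorem alg_far (t : L ≃ₗ[ℤ] L)
    (hfin : ∀ x : L, ∀ r : ℕ, 0 < r → (t ^ r) x = x → x = 0)
    {ι : Type*} [Fintype ι] (χ : ι → L) (n : ℕ → ι → ℤ)
    (hgap : ∀ i j, i ≠ j → Tendsto (fun k => |n k i - n k j|) atTop atTop)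
    (hrel : ∃ᶠ k in atTop, ∑ i, (t ^ (n k i)) (χ i) = 0) : ∀ i, χ i = 0 := by
  classical
  refine alg_far_aux t hfin χ ?_ n hgap hrel
  obtain ⟨ψ, hψ⟩ := algfar_order n _ hrel
  have hev : ∀ m : ℕ, ∀ᶠ k in atTop, ∀ i j, i ≠ j → (m : ℤ) ≤ |n k i - n k j| := by
    intro m
    rw [eventually_all]
    intro i
    rw [eventually_all]
    intro j
    by_cases h : i = j
    · exact Eventually.of_forall fun k hk => absurd h hk
    · filter_upwards [(hgap i j h).eventually_ge_atTop (m : ℤ)] with k hk _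
      exact hk
  have hk : ∀ m : ℕ, ∃ k, ∑ i, (t ^ (n k i)) (χ i) = 0 ∧
      ∀ i i' : Fin (Fintype.card ι), i < i' → n k (ψ i) + m ≤ n k (ψ i') := by
    intro m
    obtain ⟨k, ⟨hk1, hk2⟩, hk3⟩ := (hψ.and_eventually (hev m)).exists
    refine ⟨k, hk1, fun i i' hii => ?_⟩
    have h1 : n k (ψ i) ≤ n k (ψ i') := hk2 hii.le
    have h2 := hk3 (ψ i) (ψ i') (fun h => hii.ne (ψ.injective h))
    rw [abs_of_nonpos (by linarith)] at h2
    linarith
  have hC : ∀ k i, |n k i| ≤ ∑ i, |n k i| := fun k i =>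
    Finset.single_le_sum (f := fun i => |n k i|) (fun _ _ => abs_nonneg _) (Finset.mem_univ i)
  have k1 := algfar_killer t (fun i => χ (ψ i)) (by
    intro m
    obtain ⟨k, hk1, hk2⟩ := hk m
    set C : ℤ := ∑ i, |n k i| with hCdef
    have hpos : ∀ i, 0 ≤ n k (ψ i) + C := fun i => by
      have := hC k (ψ i)
      have := neg_abs_le (n k (ψ i))
      linarith
    refine ⟨fun i => (n k (ψ i) + C).toNat, ?_, ?_⟩
    · intro i i' hii
      have h1 := hk2 i i' hii
      have h2 := Int.toNat_of_nonneg (hpos i)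
      have h3 := Int.toNat_of_nonneg (hpos i')
      zify
      rw [h2, h3]
      linarith
    · have h4 : ∀ i, (t ^ ((n k (ψ i) + C).toNat)) (χ (ψ i))
          = (t ^ C) ((t ^ (n k (ψ i))) (χ (ψ i))) := by
        intro i
        rw [← LinearEquiv.mul_apply, ← zpow_add, ← zpow_natCast, Int.toNat_of_nonneg (hpos i),
          add_comm]
      simp_rw [h4]
      rw [← map_sum, Equiv.sum_comp ψ (fun i => (t ^ (n k i)) (χ i)), hk1, map_zero])
  have k2 := algfar_killer t⁻¹ (fun i => χ (ψ (Fin.rev i))) (by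
    intro m
    obtain ⟨k, hk1, hk2⟩ := hk m
    set C : ℤ := ∑ i, |n k i| with hCdef
    have hpos : ∀ i, 0 ≤ C - n k (ψ (Fin.rev i)) := fun i => by
      have := hC k (ψ (Fin.rev i))
      have := le_abs_self (n k (ψ (Fin.rev i)))
      linarith
    refine ⟨fun i => (C - n k (ψ (Fin.rev i))).toNat, ?_, ?_⟩
    · intro i i' hii
      have h1 := hk2 (Fin.rev i') (Fin.rev i) (Fin.rev_lt_rev.mpr hii)
      have h2 := Int.toNat_of_nonneg (hpos i)
      have h3 := Int.toNat_of_nonneg (hpos i')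
      zify
      rw [h2, h3]
      linarith
    · have h4 : ∀ i, (t⁻¹ ^ ((C - n k (ψ (Fin.rev i))).toNat)) (χ (ψ (Fin.rev i)))
          = (t ^ (-C)) ((t ^ (n k (ψ (Fin.rev i)))) (χ (ψ (Fin.rev i)))) := by
        intro i
        rw [← LinearEquiv.mul_apply, ← zpow_add, ← zpow_natCast, Int.toNat_of_nonneg (hpos i),
          inv_zpow']
        congr 2
        ring
      simp_rw [h4]
      have h5 := Equiv.sum_comp Fin.revPerm
        (fun i => (t ^ (n k (ψ i))) (χ (ψ i)))
      simp only [Fin.revPerm_apply] at h5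
      rw [← map_sum, h5, Equiv.sum_comp ψ (fun i => (t ^ (n k i)) (χ i)), hk1, map_zero])
  refine orbSpan_fg t χ ?_ ?_
  · intro i
    have := k1 (ψ.symm i)
    simpa using this
  · intro i
    have := k2 (Fin.rev (ψ.symm i))
    simpa using this

end Main

end Crest.Agent.R069
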