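import Mathlib

/-!
# Row 69, algebraic end: no relations along sparse times

`no_rel`: let `t : ℤ → End N` be an action of `ℤ` on an abelian group `N` without non-zero element
of finite orbit. A relation `∑ i, t (s k i) (x i) = 0` with all the gaps tending to infinity forces
all the `x i` to vanish.
-/

set_option autoImplicit false

namespace Crest.Agent.R069.AlgKrull

open Filter Polynomial Module

/-! ### Krull step -/

section Krull

variable {N : Type*} [AddCommGroup N] (t : ℤ → Module.End ℤ N)

include t in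
lemma t_inv (t0 : t 0 = 1) (tadd : ∀ m n, t (m + n) = t m * t n) (n : ℤ) (x : N) :
    t (-n) (t n x) = x := by
  rw [← Module.End.mul_apply, ← tadd]; simp [t0]

lemma t_comm (tadd : ∀ m n, t (m + n) = t m * t n) (m n : ℤ) : Commute (t m) (t n) := by
  change t m * t n = t n * t m
  rw [← tadd, ← tadd, add_comm]

lemma t_pow (t0 : t 0 = 1) (tadd : ∀ m n, t (m + n) = t m * t n) (m : ℤ) (n : ℕ) :
    t m ^ n = t (n * m) := by
  induction n with
  | zero => simp [t0]
  | succ n ih => rw [pow_succ, ih, ← tadd]; congr 1; push_cast; ring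

lemma aeval_comm (tadd : ∀ m n, t (m + n) = t m * t n) (e : ℤ) (p : ℤ[X]) (n : ℤ) :
    Commute (t n) (aeval (t e) p) := by
  induction p using Polynomial.induction_on' with
  | add p q hp hq => rw [map_add]; exact hp.add_right hq
  | monomial n a =>
    rw [aeval_monomial]
    exact (Algebra.commute_algebraMap_right _ _).mul_right ((t_comm t tadd _ _).pow_right n)

/-- The Krull step for the last variable. -/
lemma krull_last {κ : Type*} (l : Filter κ) [l.NeBot] (t0 : t 0 = 1)
    (tadd : ∀ m n, t (m + n) = t m * t n) (j : ℕ) (s : κ → Fin (j + 1) → ℤ)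
    (hs : ∀ i i', i < i' → Tendsto (fun k => s k i' - s k i) l atTop) (x : Fin (j + 1) → N)
    (hrel : ∀ᶠ k in l, ∑ i, t (s k i) (x i) = 0) :
    ∃ p : ℤ[X], X ∣ p ∧ aeval (t (-1)) (1 - p) (x (Fin.last j)) = 0 := by
  classical
  set φ : Module.End ℤ N := t (-1) with hφ
  let W : Submodule ℤ[X] (AEval' φ) :=
    Submodule.span ℤ[X] (Set.range fun i => AEval'.of φ (x i))
  have hmem : ∀ i, AEval'.of φ (x i) ∈ W := fun i => Submodule.subset_span ⟨i, rfl⟩
  have : Module.Finite ℤ[X] W :=
    Module.Finite.iff_fg.mpr (Submodule.fg_span (Set.finite_range _))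
  let w : W := ⟨AEval'.of φ (x (Fin.last j)), hmem _⟩
  let I : Ideal ℤ[X] := Ideal.span {X}
  have hw : w ∈ (⨅ D : ℕ, I ^ D • ⊤ : Submodule ℤ[X] W) := by
    rw [Submodule.mem_iInf]
    intro D
    have h1 : ∀ᶠ k in l, ∀ i : Fin j, (D : ℤ) ≤ s k (Fin.last j) - s k i.castSucc := by
      rw [eventually_all]
      intro i
      exact (hs _ _ (Fin.castSucc_lt_last i)).eventually_ge_atTop _
    obtain ⟨k, hk, hk2⟩ := (hrel.and h1).exists
    rw [Fin.sum_univ_castSucc] at hk
    -- `x_last = - ∑ φ ^ (n) x_i`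
    have h3 : x (Fin.last j) = - ∑ i : Fin j,
        (φ ^ ((s k (Fin.last j) - s k i.castSucc).toNat)) (x i.castSucc) := by
      have h4 := congrArg (t (-(s k (Fin.last j)))) hk
      rw [map_add, t_inv t t0 tadd, map_zero, map_sum] at h4
      refine (eq_neg_of_add_eq_zero_right h4).trans ?_
      congr 1
      refine Finset.sum_congr rfl fun i _ => ?_
      rw [hφ, t_pow t t0 tadd, ← Module.End.mul_apply, ← tadd]
      congr 2
      have := hk2 i
      rw [Int.toNat_of_nonneg (by omega)]
      ring
    have h5 : w = - ∑ i : Fin j, ((X : ℤ[X]) ^ ((s k (Fin.last j) - s k i.castSucc).toNat)) •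
        (⟨AEval'.of φ (x i.castSucc), hmem _⟩ : W) := by
      apply Subtype.ext
      simp only [w]
      rw [Submodule.coe_neg, Submodule.coe_sum]
      conv_lhs => rw [h3]
      rw [map_neg, map_sum]
      congr 1
      refine Finset.sum_congr rfl fun i _ => ?_
      rw [Submodule.coe_smul]
      simp only
      rw [AEval'.X_pow_smul_of]
      rfl
    rw [h5]
    refine Submodule.neg_mem _ (Submodule.sum_mem _ fun i _ => ?_)
    refine Submodule.smul_mem_smul ?_ Submodule.mem_top
    have h6 : (X : ℤ[X]) ∈ I := Ideal.mem_span_singleton_self _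
    exact Ideal.pow_le_pow_right (by have := hk2 i; omega) (Ideal.pow_mem_pow h6 _)
  obtain ⟨r, hr⟩ := (I.mem_iInf_smul_pow_eq_bot_iff w).mp hw
  refine ⟨(r : ℤ[X]), Ideal.mem_span_singleton.mp r.2, ?_⟩
  have h7 := congrArg (Subtype.val) hr
  rw [Submodule.coe_smul] at h7
  have h8 : (1 - (r : ℤ[X])) • (AEval'.of φ (x (Fin.last j))) = 0 := by
    rw [sub_smul, one_smul]
    have : (r : ℤ[X]) • (AEval'.of φ (x (Fin.last j))) = AEval'.of φ (x (Fin.last j)) := h7
    rw [this, sub_self]
  have h9 := AEval.of_aeval_smul (R := ℤ) (a := φ) (1 - (r : ℤ[X])) (x (Fin.last j))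
  have h10 : AEval'.of φ ((aeval φ (1 - (r : ℤ[X]))) (x (Fin.last j))) = 0 := by
    rw [← h8]; exact h9
  exact (LinearEquiv.map_eq_zero_iff _).mp h10

/-- The Krull step, all variables. -/
lemma krull_all {κ : Type*} (l : Filter κ) [l.NeBot] (t0 : t 0 = 1)
    (tadd : ∀ m n, t (m + n) = t m * t n) (j : ℕ) : ∀ (s : κ → Fin j → ℤ)
    (_ : ∀ i i', i < i' → Tendsto (fun k => s k i' - s k i) l atTop) (x : Fin j → N)
    (_ : ∀ᶠ k in l, ∑ i, t (s k i) (x i) = 0),
    ∀ i, ∃ p : ℤ[X], X ∣ p ∧ aeval (t (-1)) (1 - p) (x i) = 0 := by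
  induction j with
  | zero => intro s hs x hrel i; exact i.elim0
  | succ j ih =>
    intro s hs x hrel
    obtain ⟨p, hp, hpx⟩ := krull_last t l t0 tadd j s hs x hrel
    have h1 := ih (fun k i => s k i.castSucc)
      (fun i i' h => hs _ _ (Fin.castSucc_lt_castSucc_iff.mpr h))
      (fun i => aeval (t (-1)) (1 - p) (x i.castSucc)) (by
        filter_upwards [hrel] with k hk
        rw [Fin.sum_univ_castSucc] at hk
        have h2 := congrArg (aeval (t (-1)) (1 - p)) hk
        rw [map_add, map_sum, map_zero] at h2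
        have h3 : (aeval (t (-1)) (1 - p)) ((t (s k (Fin.last j))) (x (Fin.last j))) = 0 := by
          rw [← Module.End.mul_apply, ← (aeval_comm t tadd (-1) (1 - p) _).eq,
            Module.End.mul_apply, hpx, map_zero]
        rw [h3, add_zero] at h2
        rw [← h2]
        refine Finset.sum_congr rfl fun i _ => ?_
        rw [← Module.End.mul_apply, ← Module.End.mul_apply,
          (aeval_comm t tadd (-1) (1 - p) _).eq])
    intro i
    refine Fin.lastCases ⟨p, hp, hpx⟩ (fun i => ?_) i
    obtain ⟨q, hq, hqx⟩ := h1 i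
    refine ⟨p + q - q * p, ?_, ?_⟩
    · exact dvd_sub (dvd_add hp hq) (hq.mul_right _)
    · have : (1 : ℤ[X]) - (p + q - q * p) = (1 - q) * (1 - p) := by ring
      rw [this, map_mul, Module.End.mul_apply]
      exact hqx

end Krull

/-! ### Dominant term -/

lemma dominant {κ : Type*} (l : Filter κ) [l.NeBot] (lam : ℂ) (hlam : 1 < ‖lam‖) (j : ℕ) :
    ∀ (s : κ → Fin j → ℤ) (_ : ∀ i i', i < i' → Tendsto (fun k => s k i' - s k i) l atTop)
      (c : Fin j → ℂ) (_ : ∀ᶠ k in l, ∑ i, lam ^ (s k i) * c i = 0), ∀ i, c i = 0 := by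
  have hl0 : lam ≠ 0 := by
    rintro rfl
    rw [norm_zero] at hlam
    linarith
  have hlim : ∀ (n : κ → ℤ), Tendsto n l atTop → Tendsto (fun k => lam ^ (- n k)) l (nhds 0) := by
    intro n hn
    have h1 : Tendsto (fun k => (n k).toNat) l atTop := by
      rw [tendsto_atTop] at hn ⊢
      intro b
      filter_upwards [hn b] with k hk
      omega
    have h2 : Tendsto (fun m : ℕ => lam⁻¹ ^ m) atTop (nhds 0) := by
      apply tendsto_pow_atTop_nhds_zero_of_norm_lt_one
      rw [norm_inv]
      exact inv_lt_one_of_one_lt₀ hlam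
    refine (h2.comp h1).congr' ?_
    filter_upwards [hn.eventually_ge_atTop 0] with k hk
    simp only [Function.comp]
    obtain ⟨m, hm⟩ := Int.eq_ofNat_of_zero_le hk
    rw [hm, Int.toNat_natCast, inv_pow, zpow_neg, zpow_natCast]
  induction j with
  | zero => intro s hs c hc i; exact i.elim0
  | succ j ih =>
    intro s hs c hc
    have hlast : c (Fin.last j) = 0 := by
      have h1 : Tendsto (fun k => - ∑ i : Fin j,
          lam ^ (-(s k (Fin.last j) - s k i.castSucc)) * c i.castSucc) l (nhds (-∑ i : Fin j,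
            0 * c i.castSucc)) := by
        refine (tendsto_finsetSum _ fun i _ => ?_).neg
        exact (hlim _ (hs _ _ (Fin.castSucc_lt_last i))).mul_const _
      have h2 : ∀ᶠ k in l, - ∑ i : Fin j,
          lam ^ (-(s k (Fin.last j) - s k i.castSucc)) * c i.castSucc = c (Fin.last j) := by
        filter_upwards [hc] with k hk
        rw [Fin.sum_univ_castSucc] at hk
        have h3 : lam ^ (s k (Fin.last j)) ≠ 0 := zpow_ne_zero _ hl0
        have h4 : c (Fin.last j) = - (lam ^ (s k (Fin.last j)))⁻¹ *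
            ∑ i : Fin j, lam ^ (s k i.castSucc) * c i.castSucc := by
          field_simp
          linear_combination hk
        rw [h4, Finset.mul_sum, ← Finset.sum_neg_distrib]
        refine Finset.sum_congr rfl fun i _ => ?_
        rw [neg_sub, zpow_sub₀ hl0]
        ring
      have h3 := tendsto_nhds_unique (h1.congr' h2) tendsto_const_nhds
      simp only [zero_mul, Finset.sum_const_zero, neg_zero] at h3
      exact h3.symm
    have h1 := ih (fun k i => s k i.castSucc)
      (fun i i' h => hs _ _ (Fin.castSucc_lt_castSucc_iff.mpr h))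
      (fun i => c i.castSucc) (by
        filter_upwards [hc] with k hk
        rw [Fin.sum_univ_castSucc, hlast, mul_zero, add_zero] at hk
        exact hk)
    intro i
    exact Fin.lastCases hlast h1 i

/-! ### Finitely generated groups -/

section FG

variable {W : Type*} [AddCommGroup W]

lemma torsionFree [Module.Finite ℤ W] (τ : Module.End ℤ W) (hinj : Function.Injective τ)
    (hfin : ∀ r : ℕ, 0 < r → ∀ w, (τ ^ r) w = w → w = 0) : Module.IsTorsionFree ℤ W := by
  rw [Submodule.isTorsionFree_iff_torsion_eq_bot]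
  have hF : _root_.Finite (Submodule.torsion ℤ W) :=
    Module.finite_of_fg_torsion _ (by
      intro x
      obtain ⟨a, ha⟩ := Submodule.mem_torsion_iff _ |>.mp x.2
      exact ⟨a, Subtype.ext ha⟩)
  rw [eq_bot_iff]
  intro w hw
  have h1 : ∀ n : ℕ, (τ ^ n) w ∈ Submodule.torsion ℤ W := by
    intro n
    obtain ⟨a, ha⟩ := Submodule.mem_torsion_iff _ |>.mp hw
    refine (Submodule.mem_torsion_iff _).mpr ⟨a, ?_⟩
    have h2 := congrArg (τ ^ n) ha
    rw [map_zero] at h2
    rw [← h2]
    exact ((τ ^ n).map_smul_of_tower (a : ℤ) w).symm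
  obtain ⟨a, b, hab, hne⟩ : ∃ a b : ℕ, a < b ∧
      (τ ^ a) w = (τ ^ b) w := by
    obtain ⟨a, b, hab, h⟩ := Finite.exists_ne_map_eq_of_infinite
      (fun n : ℕ => (⟨(τ ^ n) w, h1 n⟩ : Submodule.torsion ℤ W))
    have h' : (τ ^ a) w = (τ ^ b) w := congrArg Subtype.val h
    rcases lt_or_gt_of_ne hab with h3 | h3
    · exact ⟨a, b, h3, h'⟩
    · exact ⟨b, a, h3, h'.symm⟩
  have hinj' : Function.Injective (τ ^ a) := by
    rw [Module.End.coe_pow]
    exact hinj.iterate a
  have h3 : (τ ^ a) ((τ ^ (b - a)) w) = (τ ^ a) w := by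
    rw [← Module.End.mul_apply, ← pow_add, Nat.add_sub_cancel' hab.le]
    exact hne.symm
  exact hfin (b - a) (by omega) w (hinj' h3)

/-- the key lemma: Kronecker. -/
lemma kronecker [Module.Finite ℤ W] (τ : Module.End ℤ W) (hinj : Function.Injective τ)
    (hfin : ∀ r : ℕ, 0 < r → ∀ w, (τ ^ r) w = w → w = 0)
    (hev : ∀ (φ : W →ₗ[ℤ] ℂ) (lam : ℂ), (∀ w, φ (τ w) = lam * φ w) → 1 < ‖lam‖ → φ = 0) :
    ∀ w : W, w = 0 := by
  classical
  have htf := torsionFree τ hinj hfin
  have hfree : Module.Free ℤ W := Module.free_of_finite_type_torsion_free'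
  by_contra hne
  push Not at hne
  obtain ⟨w0, hw0⟩ := hne
  have : Nontrivial W := ⟨⟨w0, 0, hw0⟩⟩
  let b := Module.Free.chooseBasis ℤ W
  let ι := Module.Free.ChooseBasisIndex ℤ W
  let A : Matrix ι ι ℤ := LinearMap.toMatrix b b τ
  have : Nonempty ι := b.index_nonempty
  let f : ℤ →+* ℂ := Int.castRingHom ℂ
  let B : Matrix ι ι ℂ := A.map f
  -- left eigenvectors give functionals
  have key : ∀ (v : ι → ℂ) (lam : ℂ), Matrix.vecMul v B = lam • v → 1 < ‖lam‖ → v = 0 := by
    intro v lam hv hl
    let φ : W →ₗ[ℤ] ℂ := b.constr ℤ v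
    have hφ : ∀ i, φ (b i) = v i := fun i => b.constr_basis ℤ v i
    have h1 : ∀ w, φ (τ w) = lam * φ w := by
      have h2 : φ.comp τ = lam • φ := by
        refine b.ext fun i => ?_
        rw [LinearMap.comp_apply, LinearMap.smul_apply, hφ, smul_eq_mul]
        have h3 : τ (b i) = ∑ k, A k i • b k := by
          have := Matrix.toLin_self b b A i
          rw [← this]
          simp [A]
        rw [h3, map_sum]
        have h4 := congrFun hv i
        rw [Pi.smul_apply, smul_eq_mul] at h4
        rw [← h4]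
        simp only [Matrix.vecMul, dotProduct]
        refine Finset.sum_congr rfl fun k _ => ?_
        rw [map_smul, hφ]
        simp [B, f, mul_comm]
      intro w
      have := congrArg (fun g : W →ₗ[ℤ] ℂ => g w) h2
      simpa using this
    have h5 := hev φ lam h1 hl
    funext i
    rw [← hφ i, h5]
    rfl
  let χ : ℤ[X] := A.charpoly
  have hχm : χ.Monic := A.charpoly_monic
  have hχB : χ.map f = B.charpoly := (Matrix.charpoly_map A f).symm
  have hroot : ∀ z ∈ (χ.map f).roots, ∃ v : ι → ℂ, v ≠ 0 ∧ Matrix.vecMul v B = z • v := by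
    intro z hz
    have h1 : (B.charpoly).eval z = 0 := by
      rw [← hχB]
      exact (Polynomial.mem_roots'.mp hz).2
    have h2 : (Matrix.scalar ι z - B).det = 0 := by
      rw [← Matrix.eval_charpoly]
      exact h1
    obtain ⟨v, hv0, hv⟩ := Matrix.exists_vecMul_eq_zero_iff.mpr h2
    refine ⟨v, hv0, ?_⟩
    rw [Matrix.vecMul_sub] at hv
    have h3 : Matrix.vecMul v (Matrix.scalar ι z) = z • v := by
      ext i
      simp [Matrix.vecMul_diagonal, mul_comm]
    rw [h3] at hv
    exact (sub_eq_zero.mp hv).symm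
  have hnorm : ∀ z ∈ (χ.map f).roots, ‖z‖ ≤ 1 := by
    intro z hz
    by_contra hlt
    push Not at hlt
    obtain ⟨v, hv0, hv⟩ := hroot z hz
    exact hv0 (key v z hv hlt)
  have hmah : (χ.map f).mahlerMeasure = 1 := by
    rw [Polynomial.mahlerMeasure_eq_leadingCoeff_mul_prod_roots, (hχm.map f).leadingCoeff,
      norm_one, one_mul]
    apply Multiset.prod_eq_one
    intro x hx
    obtain ⟨z, hz, rfl⟩ := Multiset.mem_map.mp hx
    exact max_eq_left (hnorm z hz)
  -- a root
  obtain ⟨z, hz⟩ : ∃ z, z ∈ (χ.map f).roots := by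
    have hdeg : (χ.map f).degree ≠ 0 := by
      rw [hχB, Matrix.charpoly_degree_eq_dim]
      have : 0 < Fintype.card ι := Fintype.card_pos
      exact_mod_cast this.ne'
    obtain ⟨z, hz⟩ := IsAlgClosed.exists_root _ hdeg
    exact ⟨z, (Polynomial.mem_roots (hχm.map f).ne_zero).mpr hz⟩
  have hdetA : A.det ≠ 0 := by
    intro h0
    obtain ⟨v, hv0, hv⟩ := Matrix.exists_mulVec_eq_zero_iff.mpr h0
    have h1 : τ (b.equivFun.symm v) = 0 := by
      have h2 := LinearMap.toMatrix_mulVec_repr b b τ (b.equivFun.symm v)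
      have h3 : (b.repr (b.equivFun.symm v) : ι → ℤ) = v := by
        rw [← Basis.equivFun_apply]; exact b.equivFun.apply_symm_apply v
      rw [h3] at h2
      have h4 : (b.repr (τ (b.equivFun.symm v)) : ι → ℤ) = 0 := by
        rw [← h2]; exact hv
      have h5 : b.equivFun (τ (b.equivFun.symm v)) = 0 := by
        rw [Basis.equivFun_apply]; exact h4
      exact (LinearEquiv.map_eq_zero_iff _).mp h5
    have h6 : b.equivFun.symm v = 0 := hinj (by rw [h1, map_zero])
    exact hv0 ((LinearEquiv.map_eq_zero_iff _).mp h6)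
  have hz0 : z ≠ 0 := by
    rintro rfl
    have h1 : (B.charpoly).eval 0 = 0 := by
      rw [← hχB]
      exact (Polynomial.mem_roots'.mp hz).2
    rw [Matrix.eval_charpoly] at h1
    have h2 : B.det = 0 := by
      have : (Matrix.scalar ι (0:ℂ) - B) = -B := by simp
      rw [this, Matrix.det_neg] at h1
      rcases mul_eq_zero.mp h1 with h3 | h3
      · exact absurd h3 (pow_ne_zero _ (by norm_num))
      · exact h3
    have h3 : ((A.det : ℤ) : ℂ) = 0 := by
      have := RingHom.map_det f A
      rw [show ((A.det : ℤ) : ℂ) = f A.det from rfl, this]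
      exact h2
    exact hdetA (by exact_mod_cast h3)
  obtain ⟨r, hr, hzr⟩ := Polynomial.pow_eq_one_of_mahlerMeasure_eq_one hmah hz0
    (by rw [Polynomial.aroots_def]; exact hz)
  obtain ⟨v, hv0, hv⟩ := hroot z hz
  -- `A ^ r` has eigenvalue one
  have hvr : Matrix.vecMul v (B ^ r) = v := by
    have : ∀ m : ℕ, Matrix.vecMul v (B ^ m) = z ^ m • v := by
      intro m
      induction m with
      | zero => simp
      | succ m ih =>
        rw [pow_succ, ← Matrix.vecMul_vecMul, ih, Matrix.smul_vecMul, hv, smul_smul, ← pow_succ]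
    rw [this r, hzr, one_smul]
  have hdet : (B ^ r - 1).det = 0 := by
    refine Matrix.exists_vecMul_eq_zero_iff.mp ⟨v, hv0, ?_⟩
    rw [Matrix.vecMul_sub, hvr, Matrix.vecMul_one, sub_self]
  have hdet' : (A ^ r - 1).det = 0 := by
    have h1 : f ((A ^ r - 1).det) = 0 := by
      rw [RingHom.map_det, map_sub, map_pow, map_one]
      exact hdet
    exact (RingHom.injective_int f) (by rw [h1, map_zero])
  obtain ⟨u, hu0, hu⟩ := Matrix.exists_mulVec_eq_zero_iff.mpr hdet'
  have h3 : (b.repr (b.equivFun.symm u) : ι → ℤ) = u := by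
    rw [← Basis.equivFun_apply]; exact b.equivFun.apply_symm_apply u
  have h4 : (τ ^ r) (b.equivFun.symm u) = b.equivFun.symm u := by
    have h2 := LinearMap.toMatrix_mulVec_repr b b (τ ^ r) (b.equivFun.symm u)
    rw [h3] at h2
    have h5 : LinearMap.toMatrix b b (τ ^ r) = A ^ r := (LinearMap.toMatrix_pow b τ r).symm
    rw [h5] at h2
    rw [Matrix.sub_mulVec, Matrix.one_mulVec, sub_eq_zero] at hu
    rw [hu] at h2
    have h6 : b.equivFun ((τ ^ r) (b.equivFun.symm u)) = u := by
      rw [Basis.equivFun_apply]; exact h2.symm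
    rw [LinearEquiv.eq_symm_apply]
    exact h6
  have h7 := hfin r hr _ h4
  exact hu0 ((LinearEquiv.map_eq_zero_iff _).mp h7)

end FG

/-! ### The theorem -/

section Main

variable {N : Type*} [AddCommGroup N] (t : ℤ → Module.End ℤ N)

/-- The forward orbit of an element killed by `1 - p(t⁻¹)`, `X ∣ p`, is contained in a finitely
generated subgroup. -/
lemma orbit_fg (t0 : t 0 = 1) (tadd : ∀ m n, t (m + n) = t m * t n) (x : N) (p : ℤ[X])
    (hp : X ∣ p) (hpx : aeval (t (-1)) (1 - p) x = 0) :
    ∀ n : ℕ, t n x ∈ Submodule.span ℤ (Set.range fun m : Fin (p.natDegree + 1) => t (m : ℕ) x) := by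
  have hx : x = ∑ m ∈ Finset.range (p.natDegree + 1), p.coeff m • t (-(m : ℤ)) x := by
    have h1 : aeval (t (-1)) p x = x := by
      rw [map_sub, LinearMap.sub_apply, map_one, Module.End.one_apply, sub_eq_zero] at hpx
      exact hpx.symm
    conv_lhs => rw [← h1]
    rw [aeval_eq_sum_range, LinearMap.sum_apply]
    refine Finset.sum_congr rfl fun m _ => ?_
    rw [LinearMap.smul_apply, t_pow t t0 tadd, mul_neg_one]
  have hp0 : p.coeff 0 = 0 := by
    obtain ⟨q, rfl⟩ := hp
    simp
  intro n
  induction n using Nat.strong_induction_on with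
  | _ n ih =>
    by_cases hn : n < p.natDegree + 1
    · exact Submodule.subset_span ⟨⟨n, hn⟩, rfl⟩
    · push Not at hn
      have h1 : t n x = ∑ m ∈ Finset.range (p.natDegree + 1), p.coeff m • t ((n : ℤ) - m) x := by
        conv_lhs => rw [hx]
        rw [map_sum]
        refine Finset.sum_congr rfl fun m _ => ?_
        rw [map_smul, ← Module.End.mul_apply, ← tadd, sub_eq_add_neg]
      rw [h1]
      refine Submodule.sum_mem _ fun m hm => ?_
      rw [Finset.mem_range] at hm
      rcases Nat.eq_zero_or_pos m with rfl | hm0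
      · rw [hp0, zero_smul]; exact Submodule.zero_mem _
      · refine Submodule.smul_mem _ _ ?_
        have h2 : ((n : ℤ) - m) = ((n - m : ℕ) : ℤ) := by omega
        rw [h2]
        exact ih (n - m) (by omega)

/-- **No relations along sparse times** (ordered version). -/
theorem no_rel (t0 : t 0 = 1) (tadd : ∀ m n, t (m + n) = t m * t n)
    (hfin : ∀ r : ℕ, 0 < r → ∀ x, t r x = x → x = 0)
    {κ : Type*} (l : Filter κ) [l.NeBot] (j : ℕ) (s : κ → Fin j → ℤ)
    (hs : ∀ i i', i < i' → Tendsto (fun k => s k i' - s k i) l atTop) (x : Fin j → N)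
    (hrel : ∀ᶠ k in l, ∑ i, t (s k i) (x i) = 0) : ∀ i, x i = 0 := by
  classical
  have hK := krull_all t l t0 tadd j s hs x hrel
  choose p hp hpx using hK
  -- the group `W` generated by the forward orbits
  let W : Submodule ℤ N := Submodule.span ℤ {y | ∃ (i : Fin j) (n : ℕ), y = t n (x i)}
  have hWfg : W.FG := by
    have h1 : W = ⨆ i : Fin j, Submodule.span ℤ
        (Set.range fun m : Fin ((p i).natDegree + 1) => t (m : ℕ) (x i)) := by
      apply le_antisymm
      · refine Submodule.span_le.mpr ?_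
        rintro y ⟨i, n, rfl⟩
        exact (le_iSup (fun i : Fin j => Submodule.span ℤ
          (Set.range fun m : Fin ((p i).natDegree + 1) => t (m : ℕ) (x i))) i)
          (orbit_fg t t0 tadd (x i) (p i) (hp i) (hpx i) n)
      · refine iSup_le fun i => Submodule.span_mono ?_
        rintro y ⟨m, rfl⟩
        exact ⟨i, m, rfl⟩
    rw [h1]
    exact Submodule.fg_iSup _ fun i => Submodule.fg_span (Set.finite_range _)
  have hWfin : Module.Finite ℤ W := Module.Finite.iff_fg.mpr hWfg
  have hWt : ∀ w ∈ W, t 1 w ∈ W := by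
    intro w hw
    induction hw using Submodule.span_induction with
    | mem y hy =>
      obtain ⟨i, n, rfl⟩ := hy
      refine Submodule.subset_span ⟨i, n + 1, ?_⟩
      rw [← Module.End.mul_apply, ← tadd]
      congr 2
      push_cast
      ring
    | zero => rw [map_zero]; exact Submodule.zero_mem _
    | add a b _ _ ha hb => rw [map_add]; exact Submodule.add_mem _ ha hb
    | smul a b _ hb => rw [map_smul]; exact Submodule.smul_mem _ _ hb
  let τ : Module.End ℤ W := (t 1).restrict hWt
  have hτ : ∀ (n : ℕ) (w : W), (((τ ^ n) w : W) : N) = t n w := by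
    intro n
    induction n with
    | zero => intro w; simp [t0]
    | succ n ih =>
      intro w
      rw [pow_succ', Module.End.mul_apply]
      change t 1 (((τ ^ n) w : W) : N) = _
      rw [ih, ← Module.End.mul_apply, ← tadd]
      congr 2
      push_cast
      ring
  have hinj : Function.Injective τ := by
    intro a b hab
    apply Subtype.ext
    have h1 : t 1 (a : N) = t 1 (b : N) := congrArg Subtype.val hab
    have h2 := congrArg (t (-1)) h1
    rwa [t_inv t t0 tadd, t_inv t t0 tadd] at h2
  have hfinW : ∀ r : ℕ, 0 < r → ∀ w, (τ ^ r) w = w → w = 0 := by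
    intro r hr w hw
    apply Subtype.ext
    refine hfin r hr w ?_
    rw [← hτ, hw]
  have hxW : ∀ i, x i ∈ W := fun i => Submodule.subset_span ⟨i, 0, by simp [t0]⟩
  have hmain := kronecker τ hinj hfinW (by
    intro φ lam hφ hl
    -- functional vanishes on the orbits
    have hφn : ∀ (n : ℕ) (w : W), φ ((τ ^ n) w) = lam ^ n * φ w := by
      intro n
      induction n with
      | zero => intro w; simp
      | succ n ih =>
        intro w
        rw [pow_succ, Module.End.mul_apply, ih, hφ, pow_succ, mul_assoc]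
    have h0 : ∀ i, φ ⟨x i, hxW i⟩ = 0 := by
      rcases Nat.eq_zero_or_pos j with rfl | hj
      · intro i; exact i.elim0
      · let i0 : Fin j := ⟨0, hj⟩
        refine dominant l lam hl j (fun k i => s k i - s k i0) ?_ (fun i => φ ⟨x i, hxW i⟩) ?_
        · intro i i' h
          refine (hs i i' h).congr fun k => ?_
          ring
        · have h1 : ∀ᶠ k in l, ∀ i : Fin j, 0 ≤ s k i - s k i0 := by
            rw [eventually_all]
            intro i
            rcases eq_or_lt_of_le (show i0 ≤ i from Nat.zero_le _) with h | h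
            · rw [h]; simp
            · exact (hs _ _ h).eventually_ge_atTop 0
          filter_upwards [hrel, h1] with k hk hk1
          have h2 : ∑ i, ((τ ^ ((s k i - s k i0).toNat)) (⟨x i, hxW i⟩ : W)) = 0 := by
            apply Subtype.ext
            rw [Submodule.coe_sum]
            have h3 := congrArg (t (- s k i0)) hk
            rw [map_sum, map_zero] at h3
            refine Eq.trans ?_ h3
            refine Finset.sum_congr rfl fun i _ => ?_
            rw [hτ, ← Module.End.mul_apply, ← tadd, Int.toNat_of_nonneg (hk1 i)]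
            congr 2
            ring
          have h4 := congrArg φ h2
          rw [map_sum, map_zero] at h4
          rw [← h4]
          refine Finset.sum_congr rfl fun i _ => ?_
          rw [hφn]
          congr 1
          rw [← zpow_natCast, Int.toNat_of_nonneg (hk1 i)]
    ext w
    obtain ⟨w, hw⟩ := w
    rw [LinearMap.zero_apply]
    induction hw using Submodule.span_induction with
    | mem y hy =>
      obtain ⟨i, n, rfl⟩ := hy
      have h1 : (⟨t n (x i), Submodule.subset_span ⟨i, n, rfl⟩⟩ : W) = (τ ^ n) ⟨x i, hxW i⟩ :=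
        Subtype.ext (hτ n ⟨x i, hxW i⟩).symm
      rw [h1, hφn, h0, mul_zero]
    | zero => exact map_zero φ
    | add a b ha hb iha ihb =>
      have h1 : (⟨a + b, Submodule.add_mem _ ha hb⟩ : W) = ⟨a, ha⟩ + ⟨b, hb⟩ := rfl
      rw [h1, map_add, iha, ihb, add_zero]
    | smul a b hb ihb =>
      have h1 : (⟨a • b, Submodule.smul_mem _ a hb⟩ : W) = a • ⟨b, hb⟩ := rfl
      rw [h1, map_smul, ihb, smul_zero])
  intro i
  exact congrArg Subtype.val (hmain ⟨x i, hxW i⟩)

/-- **No relations along sparse times** (unordered version, relations for frequently many `k`). -/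
theorem no_rel_frequently (t0 : t 0 = 1) (tadd : ∀ m n, t (m + n) = t m * t n)
    (hfin : ∀ r : ℕ, 0 < r → ∀ x, t r x = x → x = 0)
    {κ I : Type*} [Fintype I] (l : Filter κ) (s : κ → I → ℤ)
    (hs : ∀ i i', i ≠ i' → Tendsto (fun k => |s k i' - s k i|) l atTop) (x : I → N)
    (hrel : ∃ᶠ k in l, ∑ i, t (s k i) (x i) = 0) : ∀ i, x i = 0 := by
  classical
  have hne : (l ⊓ 𝓟 {k | ∑ i, t (s k i) (x i) = 0}).NeBot := by
    exact Filter.frequently_iff_neBot.mp hrel
  let U : Ultrafilter κ := Ultrafilter.of (l ⊓ 𝓟 {k | ∑ i, t (s k i) (x i) = 0})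
  have hU : (U : Filter κ) ≤ l ⊓ 𝓟 {k | ∑ i, t (s k i) (x i) = 0} := Ultrafilter.of_le _
  have hUl : (U : Filter κ) ≤ l := hU.trans inf_le_left
  have hUr : ∀ᶠ k in (U : Filter κ), ∑ i, t (s k i) (x i) = 0 :=
    (hU.trans inf_le_right) (mem_principal_self _)
  let e := Fintype.equivFin I
  obtain ⟨σ, hσ⟩ : ∃ σ : Equiv.Perm (Fin (Fintype.card I)), ∀ᶠ k in (U : Filter κ),
      Monotone ((fun i => s k (e.symm i)) ∘ σ) := by
    rw [← Ultrafilter.eventually_exists_iff]
    exact Eventually.of_forall fun k => ⟨Tuple.sort _, Tuple.monotone_sort _⟩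
  have h := no_rel t t0 tadd hfin (U : Filter κ) (Fintype.card I)
    (fun k i => s k (e.symm (σ i))) (by
      intro i i' hi
      have h1 := (hs (e.symm (σ i)) (e.symm (σ i')) (by
        intro h
        exact hi.ne (σ.injective (e.symm.injective h)))).mono_left hUl
      refine h1.congr' ?_
      filter_upwards [hσ] with k hk
      exact abs_of_nonneg (sub_nonneg.mpr (hk hi.le))) (fun i => x (e.symm (σ i))) (by
      filter_upwards [hUr] with k hk
      rw [← hk]
      exact Equiv.sum_comp (σ.trans e.symm) (fun i => t (s k i) (x i)))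
  intro i
  have := h (σ.symm (e i))
  simpa using this

/-- the version for a unit of `End N`. -/
theorem no_rel_unit (u : (Module.End ℤ N)ˣ)
    (hfin : ∀ r : ℕ, 0 < r → ∀ x, ((u : Module.End ℤ N) ^ r) x = x → x = 0)
    {κ I : Type*} [Fintype I] (l : Filter κ) (s : κ → I → ℤ)
    (hs : ∀ i i', i ≠ i' → Tendsto (fun k => |s k i' - s k i|) l atTop) (x : I → N)
    (hrel : ∃ᶠ k in l, ∑ i, ((u ^ (s k i) : (Module.End ℤ N)ˣ) : Module.End ℤ N) (x i) = 0) :
    ∀ i, x i = 0 :=
  no_rel_frequently (fun n => ((u ^ n : (Module.End ℤ N)ˣ) : Module.End ℤ N)) (by simp)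
    (fun m n => by rw [zpow_add, Units.val_mul]) (by
      intro r hr x hx
      refine hfin r hr x ?_
      simpa using hx) l s hs x hrel

end Main

end Crest.Agent.R069.AlgKrull
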