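import Mathlib

/-!
# Row 69: environment kernels (node ARR1)

`(L, P)` is an arbitrary probability space (later a Loeb space), `mC ≤ mL` a sub-sigma-algebra
(the environment), `e : L → Z` a random variable in a standard Borel space.
`exists_env` produces a standard Borel factor `w : L → W = ℤ → ℕ → ℝ` of the environment and a
Markov kernel `kap : Kernel W Z` with `P[f ∘ e | mC] = ∫ f d kap (w ·)`.
-/

set_option autoImplicit false
set_option linter.unusedSectionVars false

open MeasureTheory Filter Set ProbabilityTheory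
open scoped ENNReal Topology

namespace Crest.Agent.R069.Arr

section pi

theorem exists_countable_pi (Z : Type*) [mZ : MeasurableSpace Z]
    [MeasurableSpace.CountablyGenerated Z] :
    ∃ A : ℕ → Set Z, (∀ n, MeasurableSet (A n)) ∧ IsPiSystem (range A) ∧
      mZ = MeasurableSpace.generateFrom (range A) ∧ univ ∈ range A := by
  classical
  set G := MeasurableSpace.countableGeneratingSet Z
  have hG : G.Countable := MeasurableSpace.countable_countableGeneratingSet
  have hc : (generateSetAlgebra G).Countable := countable_generateSetAlgebra hG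
  have hne : (generateSetAlgebra G).Nonempty :=
    ⟨∅, isSetAlgebra_generateSetAlgebra.empty_mem⟩
  obtain ⟨A, hA⟩ := hc.exists_eq_range hne
  have hgen : MeasurableSpace.generateFrom (range A) = mZ := by
    rw [← hA, generateFrom_generateSetAlgebra_eq]
    exact MeasurableSpace.generateFrom_countableGeneratingSet
  refine ⟨A, ?_, ?_, hgen.symm, ?_⟩
  · intro n
    rw [← hgen]
    exact MeasurableSpace.measurableSet_generateFrom ⟨n, rfl⟩
  · rw [← hA]
    intro s hs t ht _
    exact isSetAlgebra_generateSetAlgebra.inter_mem hs ht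
  · rw [← hA]
    exact isSetAlgebra_generateSetAlgebra.univ_mem

/-- Two families of probability measures which agree a.e. on every set of a countable
pi-system agree a.e. -/
theorem ae_eq_of_pi {L Z : Type*} [mL : MeasurableSpace L] {P : Measure L} [mZ : MeasurableSpace Z]
    {A : ℕ → Set Z} (hA : IsPiSystem (range A)) (hgen : mZ = MeasurableSpace.generateFrom (range A))
    {K1 K2 : L → Measure Z} (h1 : ∀ x, IsProbabilityMeasure (K1 x))
    (h2 : ∀ x, IsProbabilityMeasure (K2 x)) (h : ∀ n, ∀ᵐ x ∂P, K1 x (A n) = K2 x (A n)) :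
    ∀ᵐ x ∂P, K1 x = K2 x := by
  filter_upwards [ae_all_iff.2 h] with x hx
  have := h1 x
  have := h2 x
  refine ext_of_generate_finite _ hgen hA ?_ (by simp)
  rintro _ ⟨n, rfl⟩
  exact hx n

end pi

section piA

variable {Z : Type*} [mZ : MeasurableSpace Z] [MeasurableSpace.CountablyGenerated Z]

/-- a fixed countable pi-system generating `Z`. -/
noncomputable def piA (Z : Type*) [MeasurableSpace Z] [MeasurableSpace.CountablyGenerated Z] :
    ℕ → Set Z := (exists_countable_pi Z).choose

theorem piA_meas (n : ℕ) : MeasurableSet (piA Z n) := (exists_countable_pi Z).choose_spec.1 n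

theorem piA_pi : IsPiSystem (range (piA Z)) := (exists_countable_pi Z).choose_spec.2.1

theorem piA_gen : mZ = MeasurableSpace.generateFrom (range (piA Z)) :=
  (exists_countable_pi Z).choose_spec.2.2.1

theorem piA_univ : univ ∈ range (piA Z) := (exists_countable_pi Z).choose_spec.2.2.2

end piA

section K

variable {L : Type*} {mC : MeasurableSpace L} {mL : MeasurableSpace L} {P : Measure L}
  [IsProbabilityMeasure P]
  {Z : Type*} [mZ : MeasurableSpace Z] [StandardBorelSpace Z] [Nonempty Z]

/-- The conditional law of `e` given the sub-sigma-algebra `mC`. -/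
noncomputable def cK (mC : MeasurableSpace L) {mL : MeasurableSpace L} (P : Measure L)
    [IsProbabilityMeasure P] (e : L → Z) : @Kernel L Z mC mZ :=
  @condDistrib L L Z _ _ _ mL mC e id P _

instance isMarkov_cK (e : L → Z) : @IsMarkovKernel L Z mC mZ (cK mC P e) := by
  unfold cK; infer_instance

instance isProb_cK (e : L → Z) (x : L) : IsProbabilityMeasure (cK mC P e x) :=
  (isMarkov_cK (mC := mC) (P := P) e).isProbabilityMeasure x

theorem condExp_eq_cK (hC : mC ≤ mL) {e : L → Z} (he : Measurable e)
    {f : Z → ℝ} (hf : StronglyMeasurable f) (hint : Integrable (fun x => f (e x)) P) :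
    P[fun x => f (e x) | mC] =ᵐ[P] fun x => ∫ z, f z ∂(cK mC P e x) := by
  have hid : @Measurable L L mL mC id := fun s hs => hC s hs
  have := @condExp_ae_eq_integral_condDistrib L L Z ℝ _ _ _ _ mL P _ id e mC _ _ hid
    he.aemeasurable f hf hint
  rw [MeasurableSpace.comap_id] at this
  exact this

theorem ind_comp {L Z : Type*} (e : L → Z) (A : Set Z) :
    (fun x => A.indicator (fun _ => (1 : ℝ)) (e x)) = (e ⁻¹' A).indicator (fun _ => (1 : ℝ)) := by
  rfl

theorem condExp_ind_eq_cK (hC : mC ≤ mL) {e : L → Z} (he : Measurable e)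
    {A : Set Z} (hA : MeasurableSet A) :
    P[(e ⁻¹' A).indicator (fun _ => (1 : ℝ)) | mC] =ᵐ[P] fun x => (cK mC P e x).real A := by
  have h := condExp_eq_cK (P := P) hC he (f := A.indicator (fun _ => (1 : ℝ)))
    (stronglyMeasurable_const.indicator hA)
    (by rw [ind_comp]; exact (integrable_const (1:ℝ)).indicator (he hA))
  rw [ind_comp] at h
  refine h.trans (ae_of_all _ fun x => ?_)
  simp [integral_indicator hA, Measure.real]

/-- conditional expectation of a function of the environment point and of `e`. -/
theorem condExp_prod_eq_cK (hC : mC ≤ mL) {e : L → Z} (he : Measurable e)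
    {f : L × Z → ℝ} (hf : @StronglyMeasurable _ _ _ (@Prod.instMeasurableSpace L Z mC mZ) f)
    (hint : Integrable (fun x => f (x, e x)) P) :
    P[fun x => f (x, e x) | mC] =ᵐ[P] fun x => ∫ z, f (x, z) ∂(cK mC P e x) := by
  have hid : @Measurable L L mL mC id := fun s hs => hC s hs
  have := @condExp_prod_ae_eq_integral_condDistrib L L Z ℝ _ _ _ _ mL P _ id e mC f _ _ hid
    he.aemeasurable hf hint
  rw [MeasurableSpace.comap_id] at this
  exact this

theorem measurable_cK_real (e : L → Z) {A : Set Z} (hA : MeasurableSet A) :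
    Measurable[mC] fun x => (cK mC P e x).real A := by
  have : Measurable[mC] fun x => cK mC P e x A := @Kernel.measurable_coe L Z mC mZ _ _ hA
  exact this.ennreal_toReal

/-- If `w` is an `mC`-measurable variable through which the conditional law of `e` given `mC`
factors (on a countable pi-system), then the conditional laws given `mC` and given `w` agree. -/
theorem cK_eq_condDistrib (hC : mC ≤ mL) {e : L → Z} (he : Measurable e) {V : Type*}
    [mV : MeasurableSpace V] {w : L → V} (hw : Measurable[mC] w)
    (hfac : ∀ n, Measurable[mV.comap w] fun x => (cK mC P e x).real (piA Z n)) :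
    ∀ᵐ x ∂P, cK mC P e x = condDistrib e w P (w x) := by
  have hwL : @Measurable L V mL mV w := fun s hs => hC _ (hw hs)
  have hle : mV.comap w ≤ mC := hw.comap_le
  refine ae_eq_of_pi piA_pi piA_gen (fun x => isProb_cK e x) (fun x => inferInstance) (fun n => ?_)
  have h1 := condExp_ind_eq_cK (P := P) hC he (piA_meas (Z := Z) n)
  have h2 := condDistrib_ae_eq_condExp (μ := P) hwL he (piA_meas (Z := Z) n)
  have h3 : P[P[(e ⁻¹' piA Z n).indicator (fun _ => (1 : ℝ)) | mC] | mV.comap w] =ᵐ[P]
      P[(e ⁻¹' piA Z n).indicator (fun _ => (1 : ℝ)) | mV.comap w] :=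
    condExp_condExp_of_le hle hC
  have h4 : P[P[(e ⁻¹' piA Z n).indicator (fun _ => (1 : ℝ)) | mC] | mV.comap w] =ᵐ[P]
      P[fun x => (cK mC P e x).real (piA Z n) | mV.comap w] := condExp_congr_ae h1
  have h5 : P[fun x => (cK mC P e x).real (piA Z n) | mV.comap w] =
      fun x => (cK mC P e x).real (piA Z n) := by
    refine condExp_of_stronglyMeasurable (hle.trans hC) (hfac n).stronglyMeasurable ?_
    refine Integrable.of_bound (C := 1) ?_ (ae_of_all _ fun x => ?_)
    · exact (((measurable_cK_real e (piA_meas n)).mono hC le_rfl).aestronglyMeasurable)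
    · rw [Real.norm_of_nonneg measureReal_nonneg]
      exact measureReal_le_one
  rw [h5] at h4
  filter_upwards [h2, h3, h4] with x hx2 hx3 hx4
  have : (cK mC P e x).real (piA Z n) = (condDistrib e w P (w x)).real (piA Z n) := by
    rw [← hx4, hx3, hx2]
  exact (measureReal_eq_measureReal_iff).1 this

end K

section env

variable {L : Type*} {mC : MeasurableSpace L} {mL : MeasurableSpace L} {P : Measure L}
  [IsProbabilityMeasure P]
  {Z : Type*} [mZ : MeasurableSpace Z] [StandardBorelSpace Z] [Nonempty Z]

/-- The environment space. -/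
abbrev W : Type := ℤ → ℕ → ℝ

/-- The shift of the environment space. -/
def shift (n : ℤ) (v : W) : W := fun m => v (m + n)

theorem measurable_shift (n : ℤ) : Measurable (shift n) :=
  measurable_pi_lambda _ (fun _ => measurable_pi_apply _)

theorem shift_add (a b : ℤ) (v : W) : shift (a + b) v = shift a (shift b v) := by
  funext m
  simp only [shift]
  congr 1
  ring

theorem shift_zero (v : W) : shift 0 v = v := by
  funext m; simp [shift]

/-- The environment variable: orbit of the conditional law of `e` and of a given countable family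
of functions `b`. -/
noncomputable def env (mC : MeasurableSpace L) {mL : MeasurableSpace L} (P : Measure L)
    [IsProbabilityMeasure P] (e : L → Z) (S : ℤ → L → L) (b : ℕ → L → ℝ) : L → W :=
  fun x m i => if Even i then b (i / 2) (S m x) else (cK mC P e (S m x)).real (piA Z (i / 2))

theorem env_shift {S : ℤ → L → L} (hadd : ∀ a b x, S (a + b) x = S a (S b x)) (e : L → Z)
    (b : ℕ → L → ℝ) (n : ℤ) (x : L) : env mC P e S b (S n x) = shift n (env mC P e S b x) := by
  funext m i
  simp only [env, shift, hadd]

theorem measurable_env {S : ℤ → L → L} (hSC : ∀ n, Measurable[mC, mC] (S n)) (e : L → Z)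
    {b : ℕ → L → ℝ} (hb : ∀ j, Measurable[mC] (b j)) : Measurable[mC] (env mC P e S b) := by
  refine (@measurable_pi_iff L ℤ (fun _ => ℕ → ℝ) mC _ _).2 fun m => ?_
  refine (@measurable_pi_iff L ℕ (fun _ => ℝ) mC _ _).2 fun i => ?_
  by_cases hi : Even i
  · simp only [env, hi, if_true]
    exact (hb _).comp (hSC m)
  · simp only [env, hi, if_false]
    exact (measurable_cK_real e (piA_meas _)).comp (hSC m)

theorem env_b (e : L → Z) {S : ℤ → L → L} (b : ℕ → L → ℝ) (m : ℤ) (j : ℕ) (x : L) :
    env mC P e S b x m (2 * j) = b j (S m x) := by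
  simp [env]

theorem env_cK (e : L → Z) {S : ℤ → L → L} (b : ℕ → L → ℝ) (m : ℤ) (j : ℕ) (x : L) :
    env mC P e S b x m (2 * j + 1) = (cK mC P e (S m x)).real (piA Z j) := by
  have h1 : ¬ Even (2 * j + 1) := by simp
  have h2 : (2 * j + 1) / 2 = j := by omega
  simp only [env, h1, if_false, h2]

/-- The environment kernel. -/
noncomputable def kap (mC : MeasurableSpace L) {mL : MeasurableSpace L} (P : Measure L)
    [IsProbabilityMeasure P] (e : L → Z) (S : ℤ → L → L) (b : ℕ → L → ℝ) : Kernel W Z :=
  condDistrib e (env mC P e S b) P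

instance (e : L → Z) (S : ℤ → L → L) (b : ℕ → L → ℝ) : IsMarkovKernel (kap mC P e S b) := by
  unfold kap; infer_instance

/-- The conditional law of `e` given the environment is `kap` at the environment point. -/
theorem cK_eq_kap (hC : mC ≤ mL) {e : L → Z} (he : Measurable e) {S : ℤ → L → L}
    (hS0 : ∀ x, S 0 x = x) (hSC : ∀ n, Measurable[mC, mC] (S n))
    {b : ℕ → L → ℝ} (hb : ∀ j, Measurable[mC] (b j)) :
    ∀ᵐ x ∂P, cK mC P e x = kap mC P e S b (env mC P e S b x) := by
  refine cK_eq_condDistrib hC he (measurable_env hSC e hb) (fun n => ?_)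
  have h1 : (fun x => (cK mC P e x).real (piA Z n)) =
      (fun v : W => v 0 (2 * n + 1)) ∘ env mC P e S b := by
    funext x
    simp only [Function.comp, env_cK, hS0]
  rw [h1]
  have h2 : Measurable (fun v : W => v 0 (2 * n + 1)) :=
    (measurable_pi_apply (2 * n + 1)).comp (measurable_pi_apply 0)
  exact h2.comp (comap_measurable _)

/-- **Main formula**: conditional expectation given the environment through the kernel. -/
theorem condExp_eq_kap (hC : mC ≤ mL) {e : L → Z} (he : Measurable e) {S : ℤ → L → L}
    (hS0 : ∀ x, S 0 x = x) (hSC : ∀ n, Measurable[mC, mC] (S n))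
    {b : ℕ → L → ℝ} (hb : ∀ j, Measurable[mC] (b j))
    {f : Z → ℝ} (hf : StronglyMeasurable f) (hint : Integrable (fun x => f (e x)) P) :
    P[fun x => f (e x) | mC] =ᵐ[P]
      fun x => ∫ z, f z ∂(kap mC P e S b (env mC P e S b x)) := by
  filter_upwards [condExp_eq_cK hC he hf hint, cK_eq_kap hC he hS0 hSC hb] with x h1 h2
  rw [h1, h2]

/-- The law of `(w, e)`. -/
theorem map_env_prod {e : L → Z} (he : Measurable e) (S : ℤ → L → L)
    (b : ℕ → L → ℝ) :
    (P.map (env mC P e S b)) ⊗ₘ (kap mC P e S b) = P.map (fun x => (env mC P e S b x, e x)) :=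
  compProd_map_condDistrib he.aemeasurable

/-- conditional expectation commutes with an invertible measure preserving map which preserves
the sub-sigma-algebra. -/
theorem condExp_comp_inv (hC : mC ≤ mL) {φ ψ : L → L} (hφ : MeasurePreserving φ P P)
    (hψφ : ∀ x, ψ (φ x) = x)
    (hφC : Measurable[mC, mC] φ) (hψC : Measurable[mC, mC] ψ) {f : L → ℝ} (hf : Integrable f P) :
    P[fun x => f (φ x) | mC] =ᵐ[P] fun x => (P[f | mC]) (φ x) := by
  symm
  refine ae_eq_condExp_of_forall_setIntegral_eq hC (hφ.integrable_comp_of_integrable hf) ?_ ?_ ?_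
  · intro s _ _
    exact (hφ.integrable_comp_of_integrable integrable_condExp).integrableOn
  · intro s hs _
    have hs' : MeasurableSet[mC] (ψ ⁻¹' s) := hψC hs
    have hpre : φ ⁻¹' (ψ ⁻¹' s) = s := by
      ext x; simp [hψφ]
    have key : ∀ g : L → ℝ, Integrable g P →
        ∫ x in s, g (φ x) ∂P = ∫ x in ψ ⁻¹' s, g x ∂P := by
      intro g hg
      have := (hφ.restrict_preimage (hC _ hs'))
      rw [hpre] at this
      rw [← this.map_eq]
      rw [integral_map this.aemeasurable]
      rw [this.map_eq]
      exact hg.1.restrict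
    rw [key _ integrable_condExp, key _ hf]
    exact setIntegral_condExp hC hf hs'
  · exact (stronglyMeasurable_condExp.comp_measurable hφC).aestronglyMeasurable

/-- Equivariance of the environment kernel. -/
theorem kap_shift (hC : mC ≤ mL) {e : L → Z} (he : Measurable e) {S : ℤ → L → L}
    (hS : ∀ n, MeasurePreserving (S n) P P)
    (hadd : ∀ a b x, S (a + b) x = S a (S b x))
    (hS0 : ∀ x, S 0 x = x) (hSC : ∀ n, Measurable[mC, mC] (S n))
    {b : ℕ → L → ℝ} (hb : ∀ j, Measurable[mC] (b j)) {n : ℤ} {T : Z → Z} (hT : Measurable T)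
    (heT : ∀ᵐ x ∂P, e (S n x) = T (e x)) :
    ∀ᵐ v ∂(P.map (env mC P e S b)), kap mC P e S b (shift n v) = (kap mC P e S b v).map T := by
  have hw : Measurable[mC] (env mC P e S b) := measurable_env hSC e hb
  have hwL : Measurable (env mC P e S b) := hw.mono hC le_rfl
  -- first at the level of points of `L`
  have hA : ∀ A : Set Z, MeasurableSet A →
      ∀ᵐ x ∂P, (kap mC P e S b (shift n (env mC P e S b x))).real A =
        (kap mC P e S b (env mC P e S b x)).real (T ⁻¹' A) := by
    intro A hA
    have h0 := cK_eq_kap (P := P) hC he hS0 hSC hb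
    have h1 : ∀ᵐ x ∂P, cK mC P e (S n x) = kap mC P e S b (shift n (env mC P e S b x)) := by
      filter_upwards [(hS n).quasiMeasurePreserving.ae h0] with x hx
      rw [hx, env_shift hadd]
    have h2 := condExp_ind_eq_cK (P := P) hC he hA
    have h3 := condExp_ind_eq_cK (P := P) hC he (hT hA)
    have h4 : P[fun x => (e ⁻¹' A).indicator (fun _ => (1 : ℝ)) (S n x) | mC] =ᵐ[P]
        fun x => (P[(e ⁻¹' A).indicator (fun _ => (1 : ℝ)) | mC]) (S n x) :=
      condExp_comp_inv hC (hS n) (ψ := S (-n)) (fun x => by rw [← hadd]; simp [hS0]) (hSC n) (hSC (-n))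
        ((integrable_const (1 : ℝ)).indicator (he hA))
    have h5 : P[fun x => (e ⁻¹' A).indicator (fun _ => (1 : ℝ)) (S n x) | mC] =ᵐ[P]
        P[(e ⁻¹' (T ⁻¹' A)).indicator (fun _ => (1 : ℝ)) | mC] := by
      refine condExp_congr_ae ?_
      filter_upwards [heT] with x hx
      by_cases hxA : e (S n x) ∈ A
      · rw [Set.indicator_of_mem (show S n x ∈ e ⁻¹' A from hxA), Set.indicator_of_mem]
        show T (e x) ∈ A
        rw [← hx]; exact hxA
      · rw [Set.indicator_of_notMem (show S n x ∉ e ⁻¹' A from hxA), Set.indicator_of_notMem]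
        show ¬ (T (e x) ∈ A)
        rw [← hx]; exact hxA
    filter_upwards [h0, h1, (hS n).quasiMeasurePreserving.ae h2, h3, h4, h5] with
      x hx0 hx1 hx2 hx3 hx4 hx5
    rw [← hx1, ← hx0, ← hx3, ← hx5, hx4, hx2]
  have hmeas : ∀ A : Set Z, MeasurableSet A → MeasurableSet
      {v : W | (kap mC P e S b (shift n v)).real A = (kap mC P e S b v).real (T ⁻¹' A)} := by
    intro A hA
    refine measurableSet_eq_fun ?_ ?_
    · exact ((Kernel.measurable_coe _ hA).comp (measurable_shift n)).ennreal_toReal
    · exact (Kernel.measurable_coe _ (hT hA)).ennreal_toReal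
  refine ae_eq_of_pi piA_pi piA_gen (fun v => inferInstance)
    (fun v => Measure.isProbabilityMeasure_map hT.aemeasurable) (fun j => ?_)
  have h := (ae_map_iff hwL.aemeasurable (hmeas _ (piA_meas (Z := Z) j))).2 (hA _ (piA_meas j))
  filter_upwards [h] with v hv
  rw [Measure.map_apply hT (piA_meas j)]
  exact (measureReal_eq_measureReal_iff).1 hv

end env

end Crest.Agent.R069.Arr
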