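import Mathlib

/-! Row 69, node ARR3 (helper93): static lemmas O and G.
Unimodular variables `u_j` (`j` in a finite type with at least 3 elements), any `r - 1` of them
independent, with a.s. constant product: each of them is a.s. constant or has mean zero. -/

open MeasureTheory ProbabilityTheory Filter
open scoped ComplexConjugate

namespace Crest.Agent.R069.Arr3

set_option linter.unusedVariables false

variable {Ω : Type*} [MeasurableSpace Ω] {P : Measure Ω}

theorem integrable_unimod [IsFiniteMeasure P] {a : Ω → ℂ} (ha : AEStronglyMeasurable a P)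
    (na : ∀ᵐ w ∂P, ‖a w‖ = 1) : Integrable a P :=
  Integrable.of_bound ha 1 (na.mono fun _ h => h.le)

/-- a unimodular variable with a mean of modulus one is a.s. constant -/
theorem const_of_norm_mean [IsProbabilityMeasure P] {a : Ω → ℂ} (ha : AEStronglyMeasurable a P)
    (na : ∀ᵐ w ∂P, ‖a w‖ = 1) (h : ‖∫ w, a w ∂P‖ = 1) :
    ∀ᵐ w ∂P, a w = ∫ w, a w ∂P := by
  set m : ℂ := ∫ w, a w ∂P with hm
  have hint : Integrable a P := integrable_unimod ha na
  have hi2 : Integrable (fun w => 2 * (a w * conj m).re) P :=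
    ((hint.mul_const (conj m)).re).const_mul 2
  have key : ∫ w, ‖a w - m‖ ^ 2 ∂P = 0 := by
    have e1 : ∀ᵐ w ∂P, ‖a w - m‖ ^ 2 = 2 - 2 * (a w * conj m).re := by
      filter_upwards [na] with w hw
      have h1 : ‖a w - m‖ ^ 2 = ‖a w‖ ^ 2 + ‖m‖ ^ 2 - 2 * (a w * conj m).re := by
        rw [← Complex.normSq_eq_norm_sq, Complex.normSq_sub, Complex.normSq_eq_norm_sq,
          Complex.normSq_eq_norm_sq]
      rw [h1, hw, h]; norm_num
    rw [integral_congr_ae e1, integral_sub (integrable_const _) hi2]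
    have e2 : ∫ w, 2 * (a w * conj m).re ∂P = 2 * (m * conj m).re := by
      rw [integral_const_mul]
      congr 1
      have h3 : ∫ w, (a w * conj m).re ∂P = (∫ w, a w * conj m ∂P).re := by
        have := integral_re (𝕜 := ℂ) (hint.mul_const (conj m))
        simpa using this
      rw [h3, integral_mul_const]
    rw [e2, Complex.mul_conj, Complex.normSq_eq_norm_sq, h]
    simp
  have hnn : 0 ≤ᵐ[P] fun w => ‖a w - m‖ ^ 2 := Eventually.of_forall fun w => by positivity
  have hi3 : Integrable (fun w => ‖a w - m‖ ^ 2) P := by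
    refine Integrable.of_bound ((ha.sub aestronglyMeasurable_const).norm.pow 2) 4 ?_
    filter_upwards [na] with w hw
    rw [Real.norm_of_nonneg (by positivity)]
    have : ‖a w - m‖ ≤ 2 := by
      calc ‖a w - m‖ ≤ ‖a w‖ + ‖m‖ := norm_sub_le _ _
        _ = 2 := by rw [hw, h]; norm_num
    nlinarith [norm_nonneg (a w - m)]
  have := (integral_eq_zero_iff_of_nonneg_ae hnn hi3).1 key
  filter_upwards [this] with w hw
  have h5 : ‖a w - m‖ = 0 := by simpa using hw
  exact sub_eq_zero.1 (norm_eq_zero.1 h5)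

theorem conj_mul_self_of_norm {z : ℂ} (h : ‖z‖ = 1) : z * conj z = 1 := by
  rw [Complex.mul_conj, Complex.normSq_eq_norm_sq, h]; norm_num

/-- pairwise independent unimodular variables with a.s. constant product -/
theorem mean_eq_of_triple [IsProbabilityMeasure P] {u v a : Ω → ℂ} (hu : Measurable u)
    (hv : Measurable v) (ha : Measurable a) (nu : ∀ᵐ w ∂P, ‖u w‖ = 1)
    (nv : ∀ᵐ w ∂P, ‖v w‖ = 1) (na : ∀ᵐ w ∂P, ‖a w‖ = 1) (hua : IndepFun u a P)
    (hva : IndepFun v a P) {θ : ℂ} (h : ∀ᵐ w ∂P, u w * v w * a w = θ) :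
    ∫ w, u w ∂P = (∫ w, u w ∂P) * ((∫ w, a w ∂P) * conj (∫ w, a w ∂P)) := by
  have e1 : ∫ w, u w * a w ∂P = θ * conj (∫ w, v w ∂P) := by
    rw [← integral_conj, ← integral_const_mul]
    refine integral_congr_ae ?_
    filter_upwards [h, nv] with w hw hn
    rw [← hw]
    have := conj_mul_self_of_norm hn
    linear_combination (-u w * a w) * this
  have e2 : ∫ w, u w * a w ∂P = (∫ w, u w ∂P) * ∫ w, a w ∂P :=
    hua.integral_fun_mul_eq_mul_integral hu.aestronglyMeasurable ha.aestronglyMeasurable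
  have hc : IndepFun (fun w => conj (v w)) (fun w => conj (a w)) P :=
    hva.comp (φ := fun z : ℂ => conj z) (ψ := fun z : ℂ => conj z)
      Complex.continuous_conj.measurable Complex.continuous_conj.measurable
  have e3 : ∫ w, u w ∂P = θ * (conj (∫ w, v w ∂P) * conj (∫ w, a w ∂P)) := by
    have e4 : ∫ w, conj (v w) * conj (a w) ∂P
        = (∫ w, conj (v w) ∂P) * ∫ w, conj (a w) ∂P :=
      hc.integral_fun_mul_eq_mul_integral
        (Complex.continuous_conj.measurable.comp hv).aestronglyMeasurable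
        (Complex.continuous_conj.measurable.comp ha).aestronglyMeasurable
    rw [← integral_conj, ← integral_conj, ← e4, ← integral_const_mul]
    refine integral_congr_ae ?_
    filter_upwards [h, nv, na] with w hw hn hn2
    rw [← hw]
    have h1 := conj_mul_self_of_norm hn
    have h2 := conj_mul_self_of_norm hn2
    linear_combination (-u w * (a w * conj (a w))) * h1 - u w * h2
  calc ∫ w, u w ∂P = θ * conj (∫ w, v w ∂P) * conj (∫ w, a w ∂P) := by rw [e3]; ring
    _ = ((∫ w, u w ∂P) * ∫ w, a w ∂P) * conj (∫ w, a w ∂P) := by rw [← e1, e2]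
    _ = _ := by ring

theorem norm_mean_of_triple [IsProbabilityMeasure P] {u v a : Ω → ℂ} (hu : Measurable u)
    (hv : Measurable v) (ha : Measurable a) (nu : ∀ᵐ w ∂P, ‖u w‖ = 1)
    (nv : ∀ᵐ w ∂P, ‖v w‖ = 1) (na : ∀ᵐ w ∂P, ‖a w‖ = 1) (hua : IndepFun u a P)
    (hva : IndepFun v a P) {θ : ℂ} (h : ∀ᵐ w ∂P, u w * v w * a w = θ)
    (h0 : ∫ w, u w ∂P ≠ 0) : ‖∫ w, a w ∂P‖ = 1 := by
  have h1 := mean_eq_of_triple hu hv ha nu nv na hua hva h
  have h2 : (∫ w, a w ∂P) * conj (∫ w, a w ∂P) = 1 := by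
    have : (∫ w, u w ∂P) * ((∫ w, a w ∂P) * conj (∫ w, a w ∂P)) = (∫ w, u w ∂P) * 1 := by
      rw [mul_one]; exact h1.symm
    exact mul_left_cancel₀ h0 this
  rw [Complex.mul_conj, Complex.normSq_eq_norm_sq] at h2
  have h3 : ‖∫ w, a w ∂P‖ ^ 2 = 1 := by exact_mod_cast h2
  nlinarith [norm_nonneg (∫ w, a w ∂P), sq_nonneg (‖∫ w, a w ∂P‖ - 1)]

/-- **Static lemma O (three variables)**. -/
theorem const_of_triple [IsProbabilityMeasure P] {u v a : Ω → ℂ} (hu : Measurable u)
    (hv : Measurable v) (ha : Measurable a) (nu : ∀ᵐ w ∂P, ‖u w‖ = 1)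
    (nv : ∀ᵐ w ∂P, ‖v w‖ = 1) (na : ∀ᵐ w ∂P, ‖a w‖ = 1) (huv : IndepFun u v P)
    (hua : IndepFun u a P) (hva : IndepFun v a P) {θ : ℂ}
    (h : ∀ᵐ w ∂P, u w * v w * a w = θ) (h0 : ∫ w, u w ∂P ≠ 0) :
    ∃ z, ∀ᵐ w ∂P, u w = z := by
  have h1 := const_of_norm_mean ha.aestronglyMeasurable na
    (norm_mean_of_triple hu hv ha nu nv na hua hva h h0)
  have h2 := const_of_norm_mean hv.aestronglyMeasurable nv
    (norm_mean_of_triple (θ := θ) hu ha hv nu na nv huv hva.symm
      (by filter_upwards [h] with w hw; rw [← hw]; ring) h0)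
  refine ⟨θ * conj (∫ w, v w ∂P) * conj (∫ w, a w ∂P), ?_⟩
  filter_upwards [h, h1, h2, nv, na] with w hw e1 e2 n1 n2
  rw [← e1, ← e2, ← hw]
  have h3 := conj_mul_self_of_norm n1
  have h4 := conj_mul_self_of_norm n2
  linear_combination (-u w * (a w * conj (a w))) * h3 - u w * h4

/-- **Static lemma O**: `u_j`, `j : ι`, `3 ≤ card ι`, unimodular, any `card ι - 1` of them
independent, product a.s. constant: each `u_j` is a.s. constant or has mean zero. -/
theorem const_or_mean_zero [IsProbabilityMeasure P] {ι : Type*} [Fintype ι] [DecidableEq ι]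
    (hr : 3 ≤ Fintype.card ι) {u : ι → Ω → ℂ} (hu : ∀ j, Measurable (u j))
    (nu : ∀ j, ∀ᵐ w ∂P, ‖u j w‖ = 1)
    (hind : ∀ j0 : ι, iIndepFun (fun (j : {j : ι // j ≠ j0}) => u j) P) {θ : ℂ}
    (h : ∀ᵐ w ∂P, ∏ j, u j w = θ) (j : ι) :
    (∃ z, ∀ᵐ w ∂P, u j w = z) ∨ ∫ w, u j w ∂P = 0 := by
  classical
  by_cases h0 : ∫ w, u j w ∂P = 0
  · exact Or.inr h0
  left
  -- a second and a third index
  obtain ⟨j', hj'⟩ : ∃ j', j' ≠ j := by
    by_contra hc
    push Not at hc
    have : Fintype.card ι ≤ 1 := Fintype.card_le_one_iff.2 fun a b => (hc a).trans (hc b).symm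
    omega
  obtain ⟨j3, hj3, hj3'⟩ : ∃ j3, j3 ≠ j ∧ j3 ≠ j' := by
    by_contra hc
    push Not at hc
    have : (Finset.univ : Finset ι) ⊆ {j, j'} := by
      intro x _
      by_cases hx : x = j
      · simp [hx]
      · simp [hc x hx]
    have h1 := Finset.card_le_card this
    have h2 : ({j, j'} : Finset ι).card ≤ 2 := Finset.card_le_two
    rw [Finset.card_univ] at h1
    omega
  let S : Finset ι := Finset.univ \ {j, j'}
  have hprod : ∀ w, ∏ i, u i w = u j w * u j' w * ∏ i ∈ S, u i w := by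
    intro w
    have h1 : (Finset.univ : Finset ι) = insert j (insert j' S) := by
      ext x
      simp only [S, Finset.mem_univ, Finset.mem_insert, Finset.mem_sdiff, true_and,
        Finset.mem_singleton, true_iff]
      tauto
    rw [h1, Finset.prod_insert, Finset.prod_insert, mul_assoc]
    · simp [S]
    · simp only [S, Finset.mem_insert, Finset.mem_sdiff, Finset.mem_univ, true_and,
        Finset.mem_singleton, not_or]
      tauto
  have hkey : ∀ (p q : ι), p ≠ q → ({p, q} : Finset ι) = {j, j'} →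
      IndepFun (u p) (fun w => ∏ i ∈ S, u i w) P := by
    intro p q hpq hset
    have hI := hind q
    have hpS : (⟨p, hpq⟩ : {i : ι // i ≠ q}) ∉ S.subtype (fun i => i ≠ q) := by
      simp only [Finset.mem_subtype, S, ← hset, Finset.mem_sdiff, Finset.mem_univ, true_and,
        Finset.mem_insert, Finset.mem_singleton, not_or, not_and, not_not]
      tauto
    have h1 := hI.indepFun_finsetProd_of_notMem (fun i => hu i) hpS
    have h2 : (∏ i ∈ S.subtype (fun i => i ≠ q), (fun (i : {i : ι // i ≠ q}) => u i) i)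
        = fun w => ∏ i ∈ S, u i w := by
      funext w
      rw [Finset.prod_apply]
      have hS : ∀ i ∈ S, i ≠ q := by
        intro i hi
        simp only [S, ← hset, Finset.mem_sdiff, Finset.mem_univ, true_and,
          Finset.mem_insert, Finset.mem_singleton, not_or] at hi
        exact hi.2
      exact Finset.prod_subtype_of_mem (f := fun i => u i w) hS
    rw [h2] at h1
    exact h1.symm
  have huv : IndepFun (u j) (u j') P := by
    have := (hind j3).indepFun (i := ⟨j, fun h => hj3 h.symm⟩) (j := ⟨j', fun h => hj3' h.symm⟩)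
      (by intro hc; exact hj' (Subtype.ext_iff.1 hc).symm)
    simpa using this
  have hua : IndepFun (u j) (fun w => ∏ i ∈ S, u i w) P := hkey j j' hj'.symm rfl
  have hva : IndepFun (u j') (fun w => ∏ i ∈ S, u i w) P :=
    hkey j' j hj' (Finset.pair_comm _ _)
  refine const_of_triple (hu j) (hu j') (Finset.measurable_fun_prod S fun i _ => hu i) (nu j)
    (nu j') ?_ huv hua hva (θ := θ) ?_ h0
  · have : ∀ᵐ w ∂P, ∀ i, ‖u i w‖ = 1 := ae_all_iff.2 nu
    filter_upwards [this] with w hw
    rw [norm_prod]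
    exact Finset.prod_eq_one fun i _ => hw i
  · filter_upwards [h] with w hw
    rw [← hprod]; exact hw

end Crest.Agent.R069.Arr3
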