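import Mathlib
import Crest.Agent.R069.Arr3Static

/-! Row 69, node N-H (helper93): two copies of the environment kernel.  Everything is stated for
arbitrary probability spaces `L1`, `L2` (later Loeb spaces). -/

set_option linter.unusedVariables false
set_option linter.unusedSectionVars false

open MeasureTheory ProbabilityTheory Filter
open scoped ComplexConjugate ENNReal

namespace Crest.Agent.R069.Arr3

/-- `kap` is a regular version of the conditional law of `z` given `mC`, through the
`mC`-measurable map `w`. -/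
structure IsEnv {L Z W : Type*} (mC : MeasurableSpace L) [mL : MeasurableSpace L]
    [MeasurableSpace Z] [MeasurableSpace W]
    (P : Measure L) (z : L → Z) (w : L → W) (kap : Kernel W Z) :
    Prop where
  hC : mC ≤ mL
  mz : Measurable z
  mw : Measurable[mC] w
  law : ∀ s : Set Z, MeasurableSet s →
    P[(z ⁻¹' s).indicator (fun _ => (1 : ℝ)) | mC] =ᵐ[P] fun x => (kap (w x)).real s

/-- two Markov kernels that agree a.e. on each measurable set agree a.e. -/
theorem kernel_ae_eq {W Z : Type*} [MeasurableSpace W] [MeasurableSpace Z]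
    [MeasurableSpace.CountablyGenerated Z] {ν : Measure W} [IsFiniteMeasure ν]
    {κ1 κ2 : Kernel W Z} [IsMarkovKernel κ1] [IsMarkovKernel κ2]
    (h : ∀ t : Set Z, MeasurableSet t → ∀ᵐ v ∂ν, κ1 v t = κ2 v t) : ∀ᵐ v ∂ν, κ1 v = κ2 v := by
  apply Kernel.ae_eq_of_compProd_eq
  refine Measure.ext_prod ?_
  intro s t hs ht
  rw [Measure.compProd_apply_prod hs ht, Measure.compProd_apply_prod hs ht]
  exact setLIntegral_congr_fun_ae hs ((h t ht).mono fun v hv _ => hv)

theorem eq_of_real_eq {Z : Type*} [MeasurableSpace Z] {μ ν : Measure Z} [IsFiniteMeasure μ]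
    [IsFiniteMeasure ν] {s : Set Z} (h : μ.real s = ν.real s) : μ s = ν s := by
  have := congrArg ENNReal.ofReal h
  rwa [Measure.real, Measure.real, ENNReal.ofReal_toReal (measure_ne_top _ _),
    ENNReal.ofReal_toReal (measure_ne_top _ _)] at this

namespace IsEnv

variable {L Z W : Type*} {mC : MeasurableSpace L} [mL : MeasurableSpace L]
    [MeasurableSpace Z] [MeasurableSpace W] {P : Measure L} {z : L → Z} {w : L → W} {kap : Kernel W Z}

theorem mw' (h : IsEnv mC P z w kap) : Measurable w := h.mw.mono h.hC le_rfl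

/-- total mass version -/
theorem integral_real [IsProbabilityMeasure P] (h : IsEnv mC P z w kap) {s : Set Z}
    (hs : MeasurableSet s) : ∫ x, (kap (w x)).real s ∂P = P.real (z ⁻¹' s) := by
  rw [← integral_congr_ae (h.law s hs), integral_condExp h.hC, integral_indicator_const _ (h.mz hs)]
  simp

/-- an a.s. property of `z` holds under the kernel for a.e. environment point -/
theorem ae_of_ae [IsProbabilityMeasure P] [IsMarkovKernel kap] (h : IsEnv mC P z w kap)
    {s : Set Z} (hs : MeasurableSet s) (hz : ∀ᵐ x ∂P, z x ∈ s) :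
    ∀ᵐ v ∂(P.map w), ∀ᵐ y ∂(kap v), y ∈ s := by
  have h0 : P.real (z ⁻¹' sᶜ) = 0 := by
    rw [Measure.real, show P (z ⁻¹' sᶜ) = 0 from hz, ENNReal.toReal_zero]
  have h1 := h.integral_real hs.compl
  rw [h0] at h1
  have hm : Measurable fun x => (kap (w x)).real sᶜ :=
    ((kap.measurable_coe hs.compl).comp h.mw').ennreal_toReal
  have h2 : (fun x => (kap (w x)).real sᶜ) =ᵐ[P] 0 := by
    refine (integral_eq_zero_iff_of_nonneg (fun x => measureReal_nonneg) ?_).1 h1
    refine Integrable.of_bound hm.aestronglyMeasurable 1 (Eventually.of_forall fun x => ?_)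
    rw [Real.norm_of_nonneg measureReal_nonneg]
    exact measureReal_le_one
  have hset : MeasurableSet {v | kap v sᶜ = 0} := kap.measurable_coe hs.compl (measurableSet_singleton 0)
  rw [ae_map_iff h.mw'.aemeasurable (by
    have : {v | ∀ᵐ y ∂(kap v), y ∈ s} = {v | kap v sᶜ = 0} := rfl
    rw [this]; exact hset)]
  filter_upwards [h2] with x hx
  have : (kap (w x)).real sᶜ = 0 := hx
  rw [measureReal_eq_zero_iff] at this
  exact this

/-- change of the environment space: more environment data, same kernel -/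
theorem comap {W2 : Type*} [MeasurableSpace W2] (h : IsEnv mC P z w kap) (w2 : L → W2)
    (hw2 : Measurable[mC] w2) (p : W2 → W) (hp : Measurable p) (hpw : ∀ x, p (w2 x) = w x) :
    IsEnv mC P z w2 (kap.comap p hp) where
  hC := h.hC
  mz := h.mz
  mw := hw2
  law s hs := by
    refine (h.law s hs).trans (Eventually.of_forall fun x => ?_)
    simp only [Kernel.comap_apply, hpw]

/-- functions of `z` -/
theorem map {Z' : Type*} [MeasurableSpace Z'] (h : IsEnv mC P z w kap) (g : Z → Z')
    (hg : Measurable g) : IsEnv mC P (fun x => g (z x)) w (kap.map g) where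
  hC := h.hC
  mz := hg.comp h.mz
  mw := h.mw
  law s hs := by
    refine (h.law (g ⁻¹' s) (hg hs)).trans (Eventually.of_forall fun x => ?_)
    simp only [Measure.real, Kernel.map_apply' _ hg _ hs]

/-- uniqueness of the environment kernel -/
theorem unique [IsProbabilityMeasure P] [MeasurableSpace.CountablyGenerated Z]
    {kap' : Kernel W Z} [IsMarkovKernel kap] [IsMarkovKernel kap'] (h : IsEnv mC P z w kap)
    (h' : IsEnv mC P z w kap') : ∀ᵐ v ∂(P.map w), kap v = kap' v := by
  have : IsProbabilityMeasure (P.map w) := Measure.isProbabilityMeasure_map h.mw'.aemeasurable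
  refine kernel_ae_eq fun t ht => ?_
  rw [ae_map_iff h.mw'.aemeasurable
    (measurableSet_eq_fun (kap.measurable_coe ht) (kap'.measurable_coe ht))]
  filter_upwards [h.law t ht, h'.law t ht] with x hx hx'
  exact eq_of_real_eq (hx.symm.trans hx')

/-- uniqueness after applying a function -/
theorem map_eq {Z' : Type*} [MeasurableSpace Z'] [MeasurableSpace.CountablyGenerated Z']
    [IsProbabilityMeasure P] {kap' : Kernel W Z'} [IsMarkovKernel kap] [IsMarkovKernel kap']
    (h : IsEnv mC P z w kap) (g : Z → Z') (hg : Measurable g)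
    (h' : IsEnv mC P (fun x => g (z x)) w kap') : ∀ᵐ v ∂(P.map w), (kap v).map g = kap' v := by
  have hk := Kernel.IsMarkovKernel.map kap hg
  filter_upwards [(h.map g hg).unique h'] with v hv
  rw [← hv, Kernel.map_apply _ hg]

/-- pull back of an environment along a measure preserving map -/
theorem comp_mp {L2 : Type*} {mC2 : MeasurableSpace L2} [mL2 : MeasurableSpace L2]
    {P2 : Measure L2} [IsProbabilityMeasure P] [IsProbabilityMeasure P2] (h : IsEnv mC P z w kap) (q : L2 → L)
    (hq : MeasurePreserving q P2 P) (hC2 : mC2 ≤ mL2) (hle : mC.comap q ≤ mC2)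
    (hS : ∀ F : L → ℝ, Measurable F → (∃ C, ∀ x, |F x| ≤ C) →
      P2[fun x => F (q x) | mC2] =ᵐ[P2] fun x => (P[F | mC]) (q x)) :
    IsEnv mC2 P2 (fun x => z (q x)) (fun x => w (q x)) kap where
  hC := hC2
  mz := h.mz.comp hq.measurable
  mw := by
    intro s hs
    exact hle _ ⟨w ⁻¹' s, h.mw hs, rfl⟩
  law s hs := by
    have e1 : ((fun x => z (q x)) ⁻¹' s).indicator (fun _ => (1 : ℝ))
        = fun x => (z ⁻¹' s).indicator (fun _ => (1 : ℝ)) (q x) := rfl
    rw [e1]
    refine (hS _ ?_ ?_).trans ?_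
    · exact measurable_const.indicator (h.mz hs)
    · refine ⟨1, fun x => ?_⟩
      by_cases hx : x ∈ z ⁻¹' s <;> simp [hx]
    · exact hq.quasiMeasurePreserving.ae_eq (h.law s hs) |>.trans (Eventually.of_forall fun x => rfl)

end IsEnv

section two

variable {L1 L2 E X W W0 J : Type*} {C1 : MeasurableSpace L1} {C2 : MeasurableSpace L2}
  [mL1 : MeasurableSpace L1] [mL2 : MeasurableSpace L2]
  [MeasurableSpace E] [MeasurableSpace X] [MeasurableSpace W] [MeasurableSpace W0]
  {P1 : Measure L1} {P2 : Measure L2} [IsProbabilityMeasure P1] [IsProbabilityMeasure P2]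
  {e : L1 → J → E} {w : L1 → W} {kap : Kernel W (J → E)}
  {q q' : L2 → L1} {w0 : L2 → W0} {kap0 : Kernel W0 (J → E × E)}

/-- the environment map of the two copies -/
def w2 (w0 : L2 → W0) (w : L1 → W) (q q' : L2 → L1) : L2 → W0 × W × W :=
  fun x => (w0 x, w (q x), w (q' x))

/-- the pair of the two rows -/
def z2 (e : L1 → J → E) (q q' : L2 → L1) : L2 → J → E × E := fun x j => (e (q x) j, e (q' x) j)

/-- (H1) -/
theorem h1 (hw : Measurable[C1] w) (hC1 : C1 ≤ mL1) (hw0 : Measurable w0)
    (hq : MeasurePreserving q P2 P1) (hq' : MeasurePreserving q' P2 P1)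
    (hind : Indep (C1.comap q) (C1.comap q') P2) :
    (P2.map (w2 w0 w q q')).map (fun v => (v.2.1, v.2.2)) = (P1.map w).prod (P1.map w) := by
  have mw : Measurable w := hw.mono hC1 le_rfl
  have mq : Measurable (fun x => w (q x)) := mw.comp hq.measurable
  have mq' : Measurable (fun x => w (q' x)) := mw.comp hq'.measurable
  have mw2 : Measurable (w2 w0 w q q') := hw0.prodMk (mq.prodMk mq')
  rw [Measure.map_map (by fun_prop) mw2]
  have e1 : (fun v : W0 × W × W => (v.2.1, v.2.2)) ∘ w2 w0 w q q'
      = fun x => (w (q x), w (q' x)) := rfl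
  rw [e1]
  have hif : IndepFun (fun x => w (q x)) (fun x => w (q' x)) P2 := by
    rw [IndepFun_iff_Indep]
    refine indep_of_indep_of_le_left (indep_of_indep_of_le_right hind ?_) ?_
    · rw [show (fun x => w (q' x)) = w ∘ q' from rfl, ← MeasurableSpace.comap_comp]
      exact MeasurableSpace.comap_mono hw.comap_le
    · rw [show (fun x => w (q x)) = w ∘ q from rfl, ← MeasurableSpace.comap_comp]
      exact MeasurableSpace.comap_mono hw.comap_le
  rw [(indepFun_iff_map_prod_eq_prod_map_map mq.aemeasurable mq'.aemeasurable).1 hif]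
  congr 1
  · rw [show (fun x => w (q x)) = w ∘ q from rfl, ← Measure.map_map mw hq.measurable, hq.map_eq]
  · rw [show (fun x => w (q' x)) = w ∘ q' from rfl, ← Measure.map_map mw hq'.measurable,
      hq'.map_eq]

/-- the two-copy environment -/
theorem env2 (h0 : IsEnv C2 P2 (z2 e q q') w0 kap0) (h : IsEnv C1 P1 e w kap)
    (hle : C1.comap q ≤ C2) (hle' : C1.comap q' ≤ C2) :
    IsEnv C2 P2 (z2 e q q') (w2 w0 w q q') (kap0.comap Prod.fst measurable_fst) := by
  refine h0.comap _ ?_ Prod.fst measurable_fst fun x => rfl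
  refine Measurable.prodMk h0.mw (Measurable.prodMk ?_ ?_)
  · intro s hs
    exact hle _ ⟨w ⁻¹' s, h.mw hs, rfl⟩
  · intro s hs
    exact hle' _ ⟨w ⁻¹' s, h.mw hs, rfl⟩

/-- (H2), first leg, for the whole row -/
theorem h2 [MeasurableSpace.CountablyGenerated (J → E)] [IsMarkovKernel kap] [IsMarkovKernel kap0]
    (h0 : IsEnv C2 P2 (z2 e q q') w0 kap0) (h : IsEnv C1 P1 e w kap)
    (hle : C1.comap q ≤ C2) (hle' : C1.comap q' ≤ C2)
    (hq : MeasurePreserving q P2 P1)
    (hS : ∀ F : L1 → ℝ, Measurable F → (∃ C, ∀ x, |F x| ≤ C) →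
      P2[fun x => F (q x) | C2] =ᵐ[P2] fun x => (P1[F | C1]) (q x)) :
    ∀ᵐ v ∂(P2.map (w2 w0 w q q')),
      (kap0 v.1).map (fun (y : J → E × E) j => (y j).1) = kap v.2.1 := by
  have hg : Measurable (fun (y : J → E × E) j => (y j).1) := by fun_prop
  have a2 := (h.comp_mp q hq h0.hC hle hS).comap (w2 w0 w q q') (env2 h0 h hle hle').mw
    (fun v : W0 × W × W => v.2.1) (by fun_prop) (fun x => rfl)
  have := (env2 h0 h hle hle').map_eq _ hg a2
  filter_upwards [this] with v hv
  rw [Kernel.comap_apply, Kernel.comap_apply] at hv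
  exact hv

/-- (H2), second leg, for the whole row -/
theorem h2' [MeasurableSpace.CountablyGenerated (J → E)] [IsMarkovKernel kap] [IsMarkovKernel kap0]
    (h0 : IsEnv C2 P2 (z2 e q q') w0 kap0) (h : IsEnv C1 P1 e w kap)
    (hle : C1.comap q ≤ C2) (hle' : C1.comap q' ≤ C2)
    (hq' : MeasurePreserving q' P2 P1)
    (hS : ∀ F : L1 → ℝ, Measurable F → (∃ C, ∀ x, |F x| ≤ C) →
      P2[fun x => F (q' x) | C2] =ᵐ[P2] fun x => (P1[F | C1]) (q' x)) :
    ∀ᵐ v ∂(P2.map (w2 w0 w q q')),
      (kap0 v.1).map (fun (y : J → E × E) j => (y j).2) = kap v.2.2 := by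
  have hg : Measurable (fun (y : J → E × E) j => (y j).2) := by fun_prop
  have a2 := (h.comp_mp q' hq' h0.hC hle' hS).comap (w2 w0 w q q') (env2 h0 h hle hle').mw
    (fun v : W0 × W × W => v.2.2) (by fun_prop) (fun x => rfl)
  have := (env2 h0 h hle hle').map_eq _ hg a2
  filter_upwards [this] with v hv
  rw [Kernel.comap_apply, Kernel.comap_apply] at hv
  exact hv

/-- (H3) -/
theorem h3 [MeasurableEq X] [IsMarkovKernel kap0]
    (h0 : IsEnv C2 P2 (z2 e q q') w0 kap0) (h : IsEnv C1 P1 e w kap)
    (hle : C1.comap q ≤ C2) (hle' : C1.comap q' ≤ C2) (π : E → X) (hπ : Measurable π) (j0 : J)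
    (hX : ∀ᵐ x ∂P2, π (e (q x) j0) = π (e (q' x) j0)) :
    ∀ᵐ v ∂(P2.map (w2 w0 w q q')), ∀ᵐ y ∂(kap0 v.1), π (y j0).1 = π (y j0).2 := by
  have hs : MeasurableSet {y : J → E × E | π (y j0).1 = π (y j0).2} :=
    measurableSet_eq_fun (by fun_prop) (by fun_prop)
  exact (env2 h0 h hle hle').ae_of_ae hs hX

end two

section one

variable {L1 E X W J : Type*} {C1 : MeasurableSpace L1} [mL1 : MeasurableSpace L1]
  [MeasurableSpace E] [MeasurableSpace X] [MeasurableSpace W]
  {P1 : Measure L1} [IsProbabilityMeasure P1]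
  {e : L1 → J → E} {w : L1 → W} {kap : Kernel W (J → E)}

/-- (H8): the fibre law of the `X`-coordinate -/
theorem h8 [MeasurableSpace.CountablyGenerated X] [IsMarkovKernel kap] (h : IsEnv C1 P1 e w kap)
    (π : E → X) (hπ : Measurable π) (j0 : J) {μX : Measure X} [IsProbabilityMeasure μX]
    (hX : P1.map (fun x => π (e x j0)) = μX)
    (hind : Indep (MeasurableSpace.comap (fun x => π (e x j0)) inferInstance) C1 P1) :
    ∀ᵐ v ∂(P1.map w), (kap v).map (fun y => π (y j0)) = μX := by
  have hg : Measurable (fun (y : J → E) => π (y j0)) := by fun_prop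
  have mX : Measurable (fun x => π (e x j0)) := hg.comp h.mz
  have a2 : IsEnv C1 P1 (fun x => π (e x j0)) w (Kernel.const W μX) := by
    refine ⟨h.hC, mX, h.mw, fun s hs => ?_⟩
    have hm : StronglyMeasurable[MeasurableSpace.comap (fun x => π (e x j0)) inferInstance]
        (((fun x => π (e x j0)) ⁻¹' s).indicator (fun _ => (1 : ℝ))) :=
      stronglyMeasurable_const.indicator ⟨s, hs, rfl⟩
    have := condExp_indep_eq (μ := P1) mX.comap_le h.hC hm hind
    refine this.trans (Eventually.of_forall fun x => ?_)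
    simp only [Kernel.const_apply]
    rw [integral_indicator_const _ (mX hs), ← hX, Measure.real, Measure.real,
      Measure.map_apply mX hs]
    simp
  have := h.map_eq _ hg a2
  filter_upwards [this] with v hv
  rw [Kernel.const_apply] at hv
  exact hv

end one

end Crest.Agent.R069.Arr3
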