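import Mathlib

/-!
Row 69 (S0092): conditional independence of sub-σ-algebras on an arbitrary probability space.

* `BdM m f`      : `f : Ω → ℝ` is bounded and `m`-measurable
* `CI μ m₁ m₂ m`: `m₁ ⟂ m₂ | m`
* `AELe μ m₁ m₂`: every `m₁`-measurable set is a.e. equal to an `m₂`-measurable set
* `iCI μ M s m` : the family `M i`, `i ∈ s`, is conditionally independent given `m`
-/

open MeasureTheory Filter Set
open scoped ENNReal Topology

set_option linter.unusedSectionVars false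
set_option linter.unusedVariables false

namespace Crest.Agent.R069

variable {Ω : Type*} {m m' m₁ m₂ m₃ m₁' m₂' : MeasurableSpace Ω} {mΩ : MeasurableSpace Ω}
  {μ : Measure Ω} {f g : Ω → ℝ}

/-! ### Bounded measurable functions -/

/-- `f` is bounded and `m`-measurable. -/
structure BdM (m : MeasurableSpace Ω) (f : Ω → ℝ) : Prop where
  meas : Measurable[m] f
  bdd : ∃ C, ∀ x, |f x| ≤ C

namespace BdM

theorem mono (h : m ≤ m') (hf : BdM m f) : BdM m' f := ⟨hf.meas.mono h le_rfl, hf.bdd⟩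

theorem const (c : ℝ) : BdM m (fun _ => c) := ⟨measurable_const, |c|, fun _ => le_rfl⟩

theorem one : BdM m (fun _ => (1 : ℝ)) := const 1

theorem add (hf : BdM m f) (hg : BdM m g) : BdM m (fun x => f x + g x) := by
  obtain ⟨C, hC⟩ := hf.bdd
  obtain ⟨D, hD⟩ := hg.bdd
  exact ⟨hf.meas.add hg.meas, C + D, fun x => (abs_add_le _ _).trans (add_le_add (hC x) (hD x))⟩

theorem neg (hf : BdM m f) : BdM m (fun x => - f x) := by
  obtain ⟨C, hC⟩ := hf.bdd
  exact ⟨hf.meas.neg, C, fun x => by rw [abs_neg]; exact hC x⟩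

theorem sub (hf : BdM m f) (hg : BdM m g) : BdM m (fun x => f x - g x) := by
  simpa [sub_eq_add_neg] using hf.add hg.neg

theorem mul (hf : BdM m f) (hg : BdM m g) : BdM m (fun x => f x * g x) := by
  obtain ⟨C, hC⟩ := hf.bdd
  obtain ⟨D, hD⟩ := hg.bdd
  refine ⟨hf.meas.mul hg.meas, C * D, fun x => ?_⟩
  rw [abs_mul]
  exact mul_le_mul (hC x) (hD x) (abs_nonneg _) ((abs_nonneg _).trans (hC x))

theorem const_mul (c : ℝ) (hf : BdM m f) : BdM m (fun x => c * f x) := (const c).mul hf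

theorem pow (hf : BdM m f) (n : ℕ) : BdM m (fun x => f x ^ n) := by
  induction n with
  | zero => simpa using (one : BdM m _)
  | succ n ih => simpa [pow_succ] using ih.mul hf

theorem indicator {A : Set Ω} (hA : MeasurableSet[m] A) : BdM m (A.indicator (fun _ => (1 : ℝ))) := by
  classical
  refine ⟨(measurable_const (a := (1 : ℝ))).indicator hA, 1, fun x => ?_⟩
  by_cases hx : x ∈ A <;> simp [hx]

theorem prod {ι : Type*} {s : Finset ι} {F : ι → Ω → ℝ} (h : ∀ i ∈ s, BdM m (F i)) :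
    BdM m (fun x => ∏ i ∈ s, F i x) := by
  classical
  induction s using Finset.induction_on with
  | empty => simpa using (one : BdM m _)
  | insert a s ha ih =>
    have h1 := h a (Finset.mem_insert_self a s)
    have h2 := ih (fun i hi => h i (Finset.mem_insert_of_mem hi))
    simpa [Finset.prod_insert ha] using h1.mul h2

theorem sum {ι : Type*} {s : Finset ι} {F : ι → Ω → ℝ} (h : ∀ i ∈ s, BdM m (F i)) :
    BdM m (fun x => ∑ i ∈ s, F i x) := by
  classical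
  induction s using Finset.induction_on with
  | empty => simpa using (const 0 : BdM m _)
  | insert a s ha ih =>
    have h1 := h a (Finset.mem_insert_self a s)
    have h2 := ih (fun i hi => h i (Finset.mem_insert_of_mem hi))
    simpa [Finset.sum_insert ha] using h1.add h2

theorem aemeas (hm : m ≤ mΩ) (hf : BdM m f) : AEStronglyMeasurable f μ :=
  (hf.meas.mono hm le_rfl).aestronglyMeasurable

theorem aesm (hf : BdM m f) : AEStronglyMeasurable[m] f μ :=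
  hf.meas.stronglyMeasurable.aestronglyMeasurable

theorem integrable [IsFiniteMeasure μ] (hm : m ≤ mΩ) (hf : BdM m f) : Integrable f μ := by
  obtain ⟨C, hC⟩ := hf.bdd
  exact Integrable.of_bound (hf.aemeas hm) C (Eventually.of_forall hC)

theorem comp {Ω' : Type*} {φ : Ω' → Ω} (hf : BdM m f) : BdM (m.comap φ) (f ∘ φ) := by
  obtain ⟨C, hC⟩ := hf.bdd
  exact ⟨hf.meas.comp (comap_measurable φ), C, fun x => hC _⟩

/-- Every bounded `comap φ m`-measurable function factors through `φ`. -/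
theorem factors {Ω' : Type*} {φ : Ω' → Ω} {F : Ω' → ℝ} (hF : BdM (m.comap φ) F) :
    ∃ f, BdM m f ∧ F = f ∘ φ := by
  obtain ⟨C, hC⟩ := hF.bdd
  obtain ⟨g, hg, hgF⟩ := hF.meas.exists_eq_measurable_comp (mY := m)
  refine ⟨fun y => max (-C) (min C (g y)), ⟨?_, |C|, fun y => ?_⟩, ?_⟩
  · exact measurable_const.max (measurable_const.min hg)
  · rcases le_total 0 C with h0 | h0
    · rw [abs_le, abs_of_nonneg h0]
      exact ⟨le_max_left _ _, max_le (by linarith) (min_le_left _ _)⟩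
    · rw [abs_le, abs_of_nonpos h0]
      constructor
      · have : (-C) ≤ max (-C) (min C (g y)) := le_max_left _ _
        linarith
      · exact max_le (by linarith) ((min_le_left _ _).trans (by linarith))
  · funext x
    have h1 := congrFun hgF x
    have h2 := abs_le.1 (hC x)
    simp only [Function.comp] at h1 ⊢
    rw [← h1, min_eq_right h2.2, max_eq_right h2.1]

end BdM

/-! ### Conditional expectations of bounded functions -/

section condExp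

variable [IsFiniteMeasure μ]

/-- The conditional expectation of a bounded function has a bounded measurable version. -/
theorem BdM.exists_condExp (hm : m ≤ mΩ) {C : ℝ} (hf : Measurable f) (hC : ∀ x, |f x| ≤ C) :
    ∃ F : Ω → ℝ, Measurable[m] F ∧ (∀ x, |F x| ≤ C) ∧ μ[f | m] =ᵐ[μ] F := by
  rcases isEmpty_or_nonempty Ω with h | ⟨⟨x0⟩⟩
  · exact ⟨f, @measurable_of_empty _ _ m _ _ f, fun x => (h.false x).elim,
      Eventually.of_forall fun x => (h.false x).elim⟩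
  have hC0 : 0 ≤ C := (abs_nonneg _).trans (hC x0)
  refine ⟨fun x => max (-C) (min C ((μ[f | m]) x)), ?_, fun x => ?_, ?_⟩
  · exact measurable_const.max (measurable_const.min stronglyMeasurable_condExp.measurable)
  · rw [abs_le]
    exact ⟨le_max_left _ _, max_le (by linarith) (min_le_left _ _)⟩
  · have := ae_bdd_abs_condExp_of_ae_bdd_abs (μ := μ) (m := m) (f := f) (R := C)
      (Eventually.of_forall hC)
    filter_upwards [this] with x hx
    have h2 := abs_le.1 hx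
    have h3 : -C ≤ (μ[f | m]) x := h2.1
    have h4 : (μ[f | m]) x ≤ C := h2.2
    rw [min_eq_right h4, max_eq_right h3]

theorem BdM.condExp_bm (hm : m ≤ mΩ) (hf : BdM mΩ f) : ∃ F, BdM m F ∧ μ[f | m] =ᵐ[μ] F := by
  obtain ⟨C, hC⟩ := hf.bdd
  obtain ⟨F, h1, h2, h3⟩ := BdM.exists_condExp (μ := μ) hm hf.meas hC
  exact ⟨F, ⟨h1, C, h2⟩, h3⟩

theorem integral_condExp_mul (hm : m ≤ mΩ) (hf : Integrable f μ) (hg : BdM m g) :
    ∫ x, (μ[f | m]) x * g x ∂μ = ∫ x, f x * g x ∂μ := by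
  obtain ⟨C, hC⟩ := hg.bdd
  have hfg : Integrable (f * g) μ :=
    (hf.mul_bdd (c := C) (hg.aemeas hm) (Eventually.of_forall hC))
  have := condExp_mul_of_stronglyMeasurable_right (μ := μ) (m := m)
    hg.meas.stronglyMeasurable hfg hf
  calc ∫ x, (μ[f | m]) x * g x ∂μ = ∫ x, (μ[f * g | m]) x ∂μ :=
        integral_congr_ae (this.symm.mono fun x hx => by simpa using hx)
    _ = ∫ x, f x * g x ∂μ := by rw [integral_condExp hm]; rfl

theorem integral_mul_condExp (hm : m ≤ mΩ) (hf : Integrable f μ) (hg : BdM m g) :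
    ∫ x, g x * (μ[f | m]) x ∂μ = ∫ x, g x * f x ∂μ := by
  simpa [mul_comm] using integral_condExp_mul hm hf hg

/-- Uniqueness of conditional expectations, tested against bounded functions. -/
theorem condExp_eq_of_integral (hm : m ≤ mΩ) (hf : Integrable f μ) (hgi : Integrable g μ)
    (hg : AEStronglyMeasurable[m] g μ)
    (h : ∀ A, MeasurableSet[m] A → ∫ x in A, g x ∂μ = ∫ x in A, f x ∂μ) :
    μ[f | m] =ᵐ[μ] g :=
  (ae_eq_condExp_of_forall_setIntegral_eq hm hf (fun _ _ _ => hgi.integrableOn)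
    (fun A hA _ => h A hA) hg).symm

theorem setIntegral_eq_indicator {A : Set Ω} (hA : MeasurableSet A) (f : Ω → ℝ) :
    ∫ x in A, f x ∂μ = ∫ x, f x * A.indicator (fun _ => (1 : ℝ)) x ∂μ := by
  rw [← integral_indicator hA]
  congr 1
  funext x
  by_cases hx : x ∈ A <;> simp [hx]

theorem condExp_eq_of_integral_mul (hm : m ≤ mΩ) (hf : Integrable f μ) (hgi : Integrable g μ)
    (hg : AEStronglyMeasurable[m] g μ)
    (h : ∀ k, BdM m k → ∫ x, g x * k x ∂μ = ∫ x, f x * k x ∂μ) :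
    μ[f | m] =ᵐ[μ] g := by
  refine condExp_eq_of_integral hm hf hgi hg fun A hA => ?_
  rw [setIntegral_eq_indicator (hm A hA), setIntegral_eq_indicator (hm A hA)]
  exact h _ (BdM.indicator hA)

/-- It is enough to test on a `π`-system. -/
theorem condExp_eq_of_piSystem (hm : m ≤ mΩ) {S : Set (Set Ω)}
    (hS : m = MeasurableSpace.generateFrom S) (hpi : IsPiSystem S)
    (hf : Integrable f μ) (hgi : Integrable g μ) (hg : AEStronglyMeasurable[m] g μ)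
    (huniv : ∫ x, g x ∂μ = ∫ x, f x ∂μ)
    (h : ∀ A ∈ S, ∫ x in A, g x ∂μ = ∫ x in A, f x ∂μ) :
    μ[f | m] =ᵐ[μ] g := by
  refine condExp_eq_of_integral hm hf hgi hg ?_
  intro A hA
  induction A, hA using MeasurableSpace.induction_on_inter hS hpi with
  | empty => simp
  | basic A hA => exact h A hA
  | compl A hA ih =>
    rw [setIntegral_compl (hm A hA) hgi, setIntegral_compl (hm A hA) hf, ih, huniv]
  | iUnion F hd hF ih =>
    rw [integral_iUnion (fun i => hm _ (hF i)) hd hgi.integrableOn,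
      integral_iUnion (fun i => hm _ (hF i)) hd hf.integrableOn]
    exact tsum_congr ih

/-- `m₁ ⊔ m₂` is generated by the `π`-system of the sets `A ∩ B`. -/
theorem sup_eq_generateFrom (m₁ m₂ : MeasurableSpace Ω) :
    m₁ ⊔ m₂ = MeasurableSpace.generateFrom
      {s | ∃ A B, MeasurableSet[m₁] A ∧ MeasurableSet[m₂] B ∧ s = A ∩ B} := by
  apply le_antisymm
  · refine sup_le (fun A hA => ?_) (fun B hB => ?_)
    · exact MeasurableSpace.measurableSet_generateFrom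
        ⟨A, univ, hA, @MeasurableSet.univ _ m₂, by simp⟩
    · exact MeasurableSpace.measurableSet_generateFrom
        ⟨univ, B, @MeasurableSet.univ _ m₁, hB, by simp⟩
  · refine MeasurableSpace.generateFrom_le ?_
    rintro s ⟨A, B, hA, hB, rfl⟩
    exact MeasurableSet.inter ((le_sup_left : m₁ ≤ m₁ ⊔ m₂) A hA)
      ((le_sup_right : m₂ ≤ m₁ ⊔ m₂) B hB)

theorem isPiSystem_inter (m₁ m₂ : MeasurableSpace Ω) :
    IsPiSystem {s | ∃ A B, MeasurableSet[m₁] A ∧ MeasurableSet[m₂] B ∧ s = A ∩ B} := by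
  rintro s ⟨A, B, hA, hB, rfl⟩ t ⟨A', B', hA', hB', rfl⟩ -
  exact ⟨A ∩ A', B ∩ B', @MeasurableSet.inter _ m₁ _ _ hA hA', @MeasurableSet.inter _ m₂ _ _ hB hB',
    by ext; simp; tauto⟩

/-- It is enough to test on the sets `A ∩ B`. -/
theorem condExp_sup_eq (h₁ : m₁ ≤ mΩ) (h₂ : m₂ ≤ mΩ) (hf : Integrable f μ) (hgi : Integrable g μ)
    (hg : AEStronglyMeasurable[m₁ ⊔ m₂] g μ)
    (h : ∀ A B, MeasurableSet[m₁] A → MeasurableSet[m₂] B →
      ∫ x in A ∩ B, g x ∂μ = ∫ x in A ∩ B, f x ∂μ) :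
    μ[f | m₁ ⊔ m₂] =ᵐ[μ] g := by
  refine condExp_eq_of_piSystem (sup_le h₁ h₂) (sup_eq_generateFrom m₁ m₂) (isPiSystem_inter m₁ m₂)
    hf hgi hg ?_ ?_
  · simpa using h univ univ (@MeasurableSet.univ _ m₁) (@MeasurableSet.univ _ m₂)
  · rintro s ⟨A, B, hA, hB, rfl⟩
    exact h A B hA hB

/-- Projection property. -/
theorem condExp_condExp (h : m ≤ m') (hm' : m' ≤ mΩ) : μ[μ[f | m'] | m] =ᵐ[μ] μ[f | m] :=
  condExp_condExp_of_le h hm'

theorem condExp_of_bm (hm : m ≤ mΩ) (hf : BdM m f) : μ[f | m] = f :=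
  condExp_of_stronglyMeasurable hm hf.meas.stronglyMeasurable (hf.integrable hm)

/-- Pythagoras: `∫ (f - E[f|m])² = ∫ f² - ∫ E[f|m]²`. -/
theorem integral_sub_condExp_sq (hm : m ≤ mΩ) (hf : BdM mΩ f) :
    ∫ x, (f x - (μ[f | m]) x) ^ 2 ∂μ = ∫ x, f x ^ 2 ∂μ - ∫ x, (μ[f | m]) x ^ 2 ∂μ := by
  obtain ⟨F, hF, hFe⟩ := hf.condExp_bm (μ := μ) hm
  have hfi := hf.integrable (μ := μ) le_rfl
  have e1 : ∫ x, f x * F x ∂μ = ∫ x, F x * F x ∂μ := by
    rw [← integral_condExp_mul hm hfi hF]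
    exact integral_congr_ae (hFe.mono fun x hx => by simp only [hx])
  have hFΩ : BdM mΩ F := hF.mono hm
  calc ∫ x, (f x - (μ[f | m]) x) ^ 2 ∂μ
      = ∫ x, (f x ^ 2 - 2 * (f x * F x) + F x * F x) ∂μ :=
        integral_congr_ae (hFe.mono fun x hx => by simp only [hx]; ring)
    _ = ∫ x, f x ^ 2 ∂μ - 2 * ∫ x, f x * F x ∂μ + ∫ x, F x * F x ∂μ := by
        have i1 : Integrable (fun x => f x ^ 2) μ := (hf.pow 2).integrable le_rfl
        have i2 : Integrable (fun x => 2 * (f x * F x)) μ :=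
          ((hf.mul hFΩ).const_mul 2).integrable le_rfl
        have i3 : Integrable (fun x => F x * F x) μ := (hFΩ.mul hFΩ).integrable le_rfl
        have i12 : Integrable (fun x => f x ^ 2 - 2 * (f x * F x)) μ := i1.sub i2
        rw [integral_add i12 i3, integral_sub i1 i2, integral_const_mul]
    _ = ∫ x, f x ^ 2 ∂μ - ∫ x, F x * F x ∂μ := by rw [e1]; ring
    _ = ∫ x, f x ^ 2 ∂μ - ∫ x, (μ[f | m]) x ^ 2 ∂μ := by
        congr 1
        exact integral_congr_ae (hFe.mono fun x hx => by simp only [hx]; ring)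

/-- `E[f|m] = f` as soon as the `L²` norms agree. -/
theorem condExp_eq_self_of_sq (hm : m ≤ mΩ) (hf : BdM mΩ f)
    (h : ∫ x, f x ^ 2 ∂μ ≤ ∫ x, (μ[f | m]) x ^ 2 ∂μ) : μ[f | m] =ᵐ[μ] f := by
  have h1 := integral_sub_condExp_sq (μ := μ) hm hf
  obtain ⟨F, hF, hFe⟩ := hf.condExp_bm (μ := μ) hm
  have hi : Integrable (fun x => (f x - F x) ^ 2) μ :=
    ((hf.sub (hF.mono hm)).pow 2).integrable le_rfl
  have h2 : ∫ x, (f x - F x) ^ 2 ∂μ = ∫ x, (f x - (μ[f | m]) x) ^ 2 ∂μ :=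
    integral_congr_ae (hFe.mono fun x hx => by simp only [hx])
  have h3 : ∫ x, (f x - F x) ^ 2 ∂μ = 0 := by
    apply le_antisymm
    · rw [h2, h1]; linarith
    · exact integral_nonneg fun x => sq_nonneg _
  have h4 := (integral_eq_zero_iff_of_nonneg (fun x => sq_nonneg (f x - F x)) hi).1 h3
  filter_upwards [h4, hFe] with x hx hx'
  have : f x - F x = 0 := by simpa using hx
  rw [hx']; linarith

/-- `E[f|m'] = E[f|m]` for `m ≤ m'` as soon as the `L²` norms agree. -/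
theorem condExp_eq_of_sq (hmm' : m ≤ m') (hm' : m' ≤ mΩ) (hf : BdM mΩ f)
    (h : ∫ x, (μ[f | m']) x ^ 2 ∂μ ≤ ∫ x, (μ[f | m]) x ^ 2 ∂μ) :
    μ[f | m'] =ᵐ[μ] μ[f | m] := by
  obtain ⟨F, hF, hFe⟩ := hf.condExp_bm (μ := μ) hm'
  have e : μ[F | m] =ᵐ[μ] μ[f | m] :=
    (condExp_congr_ae hFe.symm).trans (condExp_condExp hmm' hm')
  have h1 : μ[F | m] =ᵐ[μ] F := by
    refine condExp_eq_self_of_sq (hmm'.trans hm') (hF.mono hm') ?_
    calc ∫ x, F x ^ 2 ∂μ = ∫ x, (μ[f | m']) x ^ 2 ∂μ :=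
          integral_congr_ae (hFe.mono fun x hx => by simp only [hx])
      _ ≤ ∫ x, (μ[f | m]) x ^ 2 ∂μ := h
      _ = ∫ x, (μ[F | m]) x ^ 2 ∂μ :=
          integral_congr_ae (e.mono fun x hx => by simp only [hx])
  exact hFe.trans (h1.symm.trans e)

/-- Contraction: `∫ E[f|m]² ≤ ∫ f²`. -/
theorem integral_condExp_sq_le (hm : m ≤ mΩ) (hf : BdM mΩ f) :
    ∫ x, (μ[f | m]) x ^ 2 ∂μ ≤ ∫ x, f x ^ 2 ∂μ := by
  have h1 := integral_sub_condExp_sq (μ := μ) hm hf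
  have h2 : 0 ≤ ∫ x, (f x - (μ[f | m]) x) ^ 2 ∂μ := integral_nonneg fun x => sq_nonneg _
  linarith

theorem integral_condExp_sq_mono (hmm' : m ≤ m') (hm' : m' ≤ mΩ) (hf : BdM mΩ f) :
    ∫ x, (μ[f | m]) x ^ 2 ∂μ ≤ ∫ x, (μ[f | m']) x ^ 2 ∂μ := by
  obtain ⟨F, hF, hFe⟩ := hf.condExp_bm (μ := μ) hm'
  have e : μ[F | m] =ᵐ[μ] μ[f | m] :=
    (condExp_congr_ae hFe.symm).trans (condExp_condExp hmm' hm')
  calc ∫ x, (μ[f | m]) x ^ 2 ∂μ = ∫ x, (μ[F | m]) x ^ 2 ∂μ :=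
        integral_congr_ae (e.mono fun x hx => by simp only [hx])
    _ ≤ ∫ x, F x ^ 2 ∂μ := integral_condExp_sq_le (hmm'.trans hm') (hF.mono hm')
    _ = ∫ x, (μ[f | m']) x ^ 2 ∂μ :=
        integral_congr_ae (hFe.mono fun x hx => by simp only [hx])

end condExp

/-! ### Conditional independence -/

/-- `m₁ ⟂ m₂ | m`. -/
def CI (μ : Measure Ω) (m₁ m₂ m : MeasurableSpace Ω) : Prop :=
  ∀ f : Ω → ℝ, BdM m₁ f → μ[f | m₂ ⊔ m] =ᵐ[μ] μ[f | m]

section CI

variable [IsFiniteMeasure μ]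

/-- Criterion by sets. -/
theorem ci_of_sets (h₁ : m₁ ≤ mΩ) (h₂ : m₂ ≤ mΩ) (hm : m ≤ mΩ)
    (h : ∀ f : Ω → ℝ, BdM m₁ f → ∀ B C, MeasurableSet[m₂] B → MeasurableSet[m] C →
      ∫ x in B ∩ C, (μ[f | m]) x ∂μ = ∫ x in B ∩ C, f x ∂μ) : CI μ m₁ m₂ m := fun f hf =>
  condExp_sup_eq h₂ hm (hf.integrable h₁) integrable_condExp
    ((stronglyMeasurable_condExp (m := m)).mono
      (le_sup_right : m ≤ m₂ ⊔ m)).aestronglyMeasurable (h f hf)

theorem ci_of_integral (h₁ : m₁ ≤ mΩ) (h₂ : m₂ ≤ mΩ) (hm : m ≤ mΩ)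
    (h : ∀ f g k : Ω → ℝ, BdM m₁ f → BdM m₂ g → BdM m k →
      ∫ x, f x * g x * k x ∂μ = ∫ x, (μ[f | m]) x * g x * k x ∂μ) : CI μ m₁ m₂ m := by
  refine ci_of_sets h₁ h₂ hm fun f hf B C hB hC => ?_
  have e : (B ∩ C).indicator (fun _ => (1 : ℝ)) = fun x =>
      B.indicator (fun _ => (1 : ℝ)) x * C.indicator (fun _ => (1 : ℝ)) x := by
    funext x
    by_cases hx : x ∈ B <;> by_cases hy : x ∈ C <;> simp [hx, hy]
  rw [setIntegral_eq_indicator ((h₂ B hB).inter (hm C hC)),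
    setIntegral_eq_indicator ((h₂ B hB).inter (hm C hC)), e]
  have := h f _ _ hf (BdM.indicator hB) (BdM.indicator hC)
  simp only [mul_assoc] at this ⊢
  exact this.symm

theorem CI.integral (h₁ : m₁ ≤ mΩ) (h₂ : m₂ ≤ mΩ) (hm : m ≤ mΩ) (h : CI μ m₁ m₂ m)
    {f g k : Ω → ℝ} (hf : BdM m₁ f) (hg : BdM m₂ g) (hk : BdM m k) :
    ∫ x, f x * g x * k x ∂μ = ∫ x, (μ[f | m]) x * g x * k x ∂μ := by
  have hgk : BdM (m₂ ⊔ m) (fun x => g x * k x) := (hg.mono le_sup_left).mul (hk.mono le_sup_right)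
  have h3 := integral_condExp_mul (μ := μ) (sup_le h₂ hm) (hf.integrable h₁) hgk
  simp only [mul_assoc]
  rw [← h3]
  exact integral_congr_ae ((h f hf).mono fun x hx => by simp only [hx])

theorem CI.integral' (h₁ : m₁ ≤ mΩ) (h₂ : m₂ ≤ mΩ) (hm : m ≤ mΩ) (h : CI μ m₁ m₂ m)
    {f g k : Ω → ℝ} (hf : BdM m₁ f) (hg : BdM m₂ g) (hk : BdM m k) :
    ∫ x, f x * g x * k x ∂μ = ∫ x, (μ[f | m]) x * (μ[g | m]) x * k x ∂μ := by
  obtain ⟨F, hF, hFe⟩ := (hf.mono h₁).condExp_bm (μ := μ) hm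
  have hFk : BdM m (fun x => F x * k x) := hF.mul hk
  rw [h.integral h₁ h₂ hm hf hg hk]
  calc ∫ x, (μ[f | m]) x * g x * k x ∂μ = ∫ x, g x * (F x * k x) ∂μ :=
        integral_congr_ae (hFe.mono fun x hx => by simp only [hx]; ring)
    _ = ∫ x, (μ[g | m]) x * (F x * k x) ∂μ := (integral_condExp_mul hm (hg.integrable h₂) hFk).symm
    _ = ∫ x, (μ[f | m]) x * (μ[g | m]) x * k x ∂μ :=
        integral_congr_ae (hFe.mono fun x hx => by simp only [hx]; ring)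

theorem CI.symm (h₁ : m₁ ≤ mΩ) (h₂ : m₂ ≤ mΩ) (hm : m ≤ mΩ) (h : CI μ m₁ m₂ m) :
    CI μ m₂ m₁ m := by
  refine ci_of_integral h₂ h₁ hm fun g f k hg hf hk => ?_
  obtain ⟨G, hG, hGe⟩ := (hg.mono h₂).condExp_bm (μ := μ) hm
  have hGk : BdM m (fun x => G x * k x) := hG.mul hk
  calc ∫ x, g x * f x * k x ∂μ = ∫ x, f x * g x * k x ∂μ := by
        congr 1; funext x; ring
    _ = ∫ x, (μ[f | m]) x * (μ[g | m]) x * k x ∂μ := h.integral' h₁ h₂ hm hf hg hk
    _ = ∫ x, (μ[f | m]) x * (G x * k x) ∂μ :=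
        integral_congr_ae (hGe.mono fun x hx => by simp only [hx]; ring)
    _ = ∫ x, f x * (G x * k x) ∂μ := integral_condExp_mul hm (hf.integrable h₁) hGk
    _ = ∫ x, (μ[g | m]) x * f x * k x ∂μ :=
        integral_congr_ae (hGe.mono fun x hx => by simp only [hx]; ring)

theorem ci_comm (h₁ : m₁ ≤ mΩ) (h₂ : m₂ ≤ mΩ) (hm : m ≤ mΩ) : CI μ m₁ m₂ m ↔ CI μ m₂ m₁ m :=
  ⟨fun h => h.symm h₁ h₂ hm, fun h => h.symm h₂ h₁ hm⟩

/-- Product formula. -/
theorem CI.condExp_mul (h₁ : m₁ ≤ mΩ) (h₂ : m₂ ≤ mΩ) (hm : m ≤ mΩ) (h : CI μ m₁ m₂ m)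
    (hf : BdM m₁ f) (hg : BdM m₂ g) :
    μ[fun x => f x * g x | m] =ᵐ[μ] fun x => (μ[f | m]) x * (μ[g | m]) x := by
  obtain ⟨F, hF, hFe⟩ := (hf.mono h₁).condExp_bm (μ := μ) hm
  obtain ⟨G, hG, hGe⟩ := (hg.mono h₂).condExp_bm (μ := μ) hm
  have e : (fun x => (μ[f | m]) x * (μ[g | m]) x) =ᵐ[μ] fun x => F x * G x := by
    filter_upwards [hFe, hGe] with x hx hy
    rw [hx, hy]
  refine EventuallyEq.trans ?_ e.symm
  refine condExp_eq_of_integral_mul hm (((hf.mono h₁).mul (hg.mono h₂)).integrable le_rfl)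
    ((hF.mul hG).integrable hm) (hF.mul hG).aesm fun k hk => ?_
  rw [h.integral' h₁ h₂ hm hf hg hk]
  refine integral_congr_ae ?_
  filter_upwards [hFe, hGe] with x hx hy
  rw [hx, hy]

theorem ci_of_condExp_mul (h₁ : m₁ ≤ mΩ) (h₂ : m₂ ≤ mΩ) (hm : m ≤ mΩ)
    (h : ∀ f g : Ω → ℝ, BdM m₁ f → BdM m₂ g →
      μ[fun x => f x * g x | m] =ᵐ[μ] fun x => (μ[f | m]) x * (μ[g | m]) x) : CI μ m₁ m₂ m := by
  refine ci_of_integral h₁ h₂ hm fun f g k hf hg hk => ?_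
  obtain ⟨F, hF, hFe⟩ := (hf.mono h₁).condExp_bm (μ := μ) hm
  have hFk : BdM m (fun x => F x * k x) := hF.mul hk
  have hfg : Integrable (fun x => f x * g x) μ := ((hf.mono h₁).mul (hg.mono h₂)).integrable le_rfl
  calc ∫ x, f x * g x * k x ∂μ
      = ∫ x, (μ[fun x => f x * g x | m]) x * k x ∂μ :=
        (integral_condExp_mul (f := fun x => f x * g x) hm hfg hk).symm
    _ = ∫ x, (μ[g | m]) x * (F x * k x) ∂μ := by
        refine integral_congr_ae ?_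
        filter_upwards [h f g hf hg, hFe] with x hx hy
        rw [hx, hy]; ring
    _ = ∫ x, g x * (F x * k x) ∂μ := integral_condExp_mul hm (hg.integrable h₂) hFk
    _ = ∫ x, (μ[f | m]) x * g x * k x ∂μ :=
        integral_congr_ae (hFe.mono fun x hx => by simp only [hx]; ring)

theorem CI.mono_left (h : m₁' ≤ m₁) (hc : CI μ m₁ m₂ m) : CI μ m₁' m₂ m :=
  fun f hf => hc f (hf.mono h)

theorem CI.mono_right (h₂ : m₂ ≤ mΩ) (hm : m ≤ mΩ) (h : m₂' ≤ m₂) (hc : CI μ m₁ m₂ m) :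
    CI μ m₁ m₂' m := fun f hf => by
  have e1 : μ[μ[f | m₂ ⊔ m] | m₂' ⊔ m] =ᵐ[μ] μ[f | m₂' ⊔ m] :=
    condExp_condExp (sup_le_sup_right h m) (sup_le h₂ hm)
  have e2 : μ[μ[f | m₂ ⊔ m] | m₂' ⊔ m] =ᵐ[μ] μ[μ[f | m] | m₂' ⊔ m] := condExp_congr_ae (hc f hf)
  have e3 : μ[μ[f | m] | m₂' ⊔ m] = μ[f | m] :=
    condExp_of_stronglyMeasurable (sup_le (h.trans h₂) hm)
      (stronglyMeasurable_condExp.mono le_sup_right) integrable_condExp
  rw [e3] at e2
  exact e1.symm.trans e2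

theorem ci_self_right : CI μ m₁ m m := fun f _ => by rw [sup_idem]

theorem ci_of_le_right (h : m₂ ≤ m) : CI μ m₁ m₂ m := fun f _ => by rw [sup_eq_right.2 h]

/-- Adding the conditioning σ-algebra on the right. -/
theorem CI.sup_right (hc : CI μ m₁ m₂ m) : CI μ m₁ (m₂ ⊔ m) m := fun f hf => by
  rw [sup_assoc, sup_idem]; exact hc f hf

/-- Adding the conditioning σ-algebra on the left. -/
theorem CI.sup_left (h₁ : m₁ ≤ mΩ) (h₂ : m₂ ≤ mΩ) (hm : m ≤ mΩ) (hc : CI μ m₁ m₂ m) :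
    CI μ (m₁ ⊔ m) m₂ m :=
  ((hc.symm h₁ h₂ hm).sup_right).symm h₂ (sup_le h₁ hm) hm

/-- Weak union. -/
theorem CI.weak_union (h₂ : m₂ ≤ mΩ) (h₃ : m₃ ≤ mΩ) (hm : m ≤ mΩ)
    (hc : CI μ m₁ (m₂ ⊔ m₃) m) : CI μ m₁ m₃ (m₂ ⊔ m) := fun f hf => by
  have e1 : m₃ ⊔ (m₂ ⊔ m) = m₂ ⊔ m₃ ⊔ m := by rw [← sup_assoc, sup_comm m₃ m₂]
  rw [e1]
  exact (hc f hf).trans (hc.mono_right (sup_le h₂ h₃) hm le_sup_left f hf).symm

/-- Contraction. -/
theorem CI.contraction (hc : CI μ m₁ m₂ m) (hc' : CI μ m₁ m₃ (m₂ ⊔ m)) :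
    CI μ m₁ (m₂ ⊔ m₃) m := fun f hf => by
  have e1 : m₂ ⊔ m₃ ⊔ m = m₃ ⊔ (m₂ ⊔ m) := by rw [← sup_assoc, sup_comm m₃ m₂]
  rw [e1]
  exact (hc' f hf).trans (hc f hf)

/-- `m₁ ⟂ (m₂ ⊔ m₃) | m ↔ m₁ ⟂ m₂ | m ∧ m₁ ⟂ m₃ | m₂ ⊔ m`. -/
theorem ci_sup_iff (h₂ : m₂ ≤ mΩ) (h₃ : m₃ ≤ mΩ) (hm : m ≤ mΩ) :
    CI μ m₁ (m₂ ⊔ m₃) m ↔ CI μ m₁ m₂ m ∧ CI μ m₁ m₃ (m₂ ⊔ m) :=
  ⟨fun h => ⟨h.mono_right (sup_le h₂ h₃) hm le_sup_left, h.weak_union h₂ h₃ hm⟩,
    fun h => h.1.contraction h.2⟩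

/-- It is enough to check the defining property for indicator functions in a `π`-system
generating `m₁`. -/
theorem ci_of_piSystem (h₁ : m₁ ≤ mΩ) (h₂ : m₂ ≤ mΩ) (hm : m ≤ mΩ) {S : Set (Set Ω)}
    (hS : m₁ = MeasurableSpace.generateFrom S) (hpi : IsPiSystem S)
    (h : ∀ A ∈ S, μ[A.indicator (fun _ => (1 : ℝ)) | m₂ ⊔ m] =ᵐ[μ]
      μ[A.indicator (fun _ => (1 : ℝ)) | m]) : CI μ m₁ m₂ m := by
  -- `m₂ ⟂ m₁ | m` by testing on the π-system `A ∩ C`
  have key : ∀ g : Ω → ℝ, BdM m₂ g → ∀ A, MeasurableSet[m₁] A → ∀ k : Ω → ℝ, BdM m k →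
      ∫ x, A.indicator (fun _ => (1 : ℝ)) x * (g x * k x) ∂μ =
        ∫ x, A.indicator (fun _ => (1 : ℝ)) x * ((μ[g | m]) x * k x) ∂μ := by
    intro g hg A hA k hk
    obtain ⟨G, hG, hGe⟩ := (hg.mono h₂).condExp_bm (μ := μ) hm
    have hGk : BdM m (fun x => G x * k x) := hG.mul hk
    have hgk : BdM (m₂ ⊔ m) (fun x => g x * k x) := (hg.mono le_sup_left).mul (hk.mono le_sup_right)
    have hi1 : Integrable (fun x => g x * k x) μ := hgk.integrable (sup_le h₂ hm)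
    have hi2 : Integrable (fun x => (μ[g | m]) x * k x) μ :=
      (hGk.integrable hm).congr (hGe.symm.mono fun x hx => by simp only [hx])
    -- rewrite as set integrals
    have conv : ∀ (A : Set Ω), MeasurableSet A → ∀ F : Ω → ℝ,
        ∫ x, A.indicator (fun _ => (1 : ℝ)) x * F x ∂μ = ∫ x in A, F x ∂μ := by
      intro A hA F
      rw [setIntegral_eq_indicator hA]
      congr 1
      funext x
      ring
    rw [conv A (h₁ A hA), conv A (h₁ A hA)]
    induction A, hA using MeasurableSpace.induction_on_inter hS hpi with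
    | empty => simp
    | basic A hA =>
      have hA₁ : MeasurableSet[m₁] A := hS ▸ MeasurableSpace.measurableSet_generateFrom hA
      rw [← conv A (h₁ A hA₁), ← conv A (h₁ A hA₁)]
      have hAi : Integrable (A.indicator fun _ => (1 : ℝ)) μ :=
        (BdM.indicator hA₁).integrable h₁
      have e1 := integral_condExp_mul (μ := μ) (sup_le h₂ hm) hAi hgk
      have e2 := integral_condExp_mul (μ := μ) hm hAi hGk
      obtain ⟨H, hH, hHe⟩ := ((BdM.indicator hA₁).mono h₁).condExp_bm (μ := μ) hm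
      have hHk : BdM m (fun x => H x * k x) := hH.mul hk
      have e3 := integral_condExp_mul (μ := μ) hm (hg.integrable h₂) hHk
      calc ∫ x, A.indicator (fun _ => (1 : ℝ)) x * (g x * k x) ∂μ
          = ∫ x, (μ[A.indicator fun _ => (1 : ℝ) | m₂ ⊔ m]) x * (g x * k x) ∂μ := e1.symm
        _ = ∫ x, g x * (H x * k x) ∂μ := by
            refine integral_congr_ae ?_
            filter_upwards [h A hA, hHe] with x hx hy
            rw [hx, hy]; ring
        _ = ∫ x, (μ[g | m]) x * (H x * k x) ∂μ := e3.symm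
        _ = ∫ x, (μ[A.indicator fun _ => (1 : ℝ) | m]) x * (G x * k x) ∂μ := by
            refine integral_congr_ae ?_
            filter_upwards [hHe, hGe] with x hx hy
            rw [hx, hy]; ring
        _ = ∫ x, A.indicator (fun _ => (1 : ℝ)) x * (G x * k x) ∂μ := e2
        _ = ∫ x, A.indicator (fun _ => (1 : ℝ)) x * ((μ[g | m]) x * k x) ∂μ :=
            integral_congr_ae (hGe.symm.mono fun x hx => by simp only [hx])
    | compl A hA ih =>
      have e0 := integral_condExp_mul (μ := μ) hm (hg.integrable h₂) hk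
      rw [setIntegral_compl (h₁ A hA) hi1, setIntegral_compl (h₁ A hA) hi2, ih, e0]
    | iUnion F hd hF ih =>
      rw [integral_iUnion (fun i => h₁ _ (hF i)) hd hi1.integrableOn,
        integral_iUnion (fun i => h₁ _ (hF i)) hd hi2.integrableOn]
      exact tsum_congr ih
  refine CI.symm h₂ h₁ hm ?_
  refine ci_of_sets h₂ h₁ hm fun g hg A C hA hC => ?_
  have e : (A ∩ C).indicator (fun _ => (1 : ℝ)) = fun x =>
      A.indicator (fun _ => (1 : ℝ)) x * C.indicator (fun _ => (1 : ℝ)) x := by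
    funext x
    by_cases hx : x ∈ A <;> by_cases hy : x ∈ C <;> simp [hx, hy]
  rw [setIntegral_eq_indicator ((h₁ A hA).inter (hm C hC)),
    setIntegral_eq_indicator ((h₁ A hA).inter (hm C hC)), e]
  have := key g hg A hA _ (BdM.indicator hC)
  calc ∫ x, (μ[g | m]) x * (A.indicator (fun _ => (1 : ℝ)) x * C.indicator (fun _ => (1 : ℝ)) x) ∂μ
      = ∫ x, A.indicator (fun _ => (1 : ℝ)) x * ((μ[g | m]) x *
          C.indicator (fun _ => (1 : ℝ)) x) ∂μ := by congr 1; funext x; ring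
    _ = ∫ x, A.indicator (fun _ => (1 : ℝ)) x * (g x * C.indicator (fun _ => (1 : ℝ)) x) ∂μ :=
        this.symm
    _ = _ := by congr 1; funext x; ring

/-- Directed (monotone) unions on the left. -/
theorem CI.iSup_left {a : ℕ → MeasurableSpace Ω} (ha : Monotone a) (h₁ : ∀ n, a n ≤ mΩ)
    (h₂ : m₂ ≤ mΩ) (hm : m ≤ mΩ) (h : ∀ n, CI μ (a n) m₂ m) : CI μ (⨆ n, a n) m₂ m := by
  refine ci_of_piSystem (iSup_le h₁) h₂ hm (S := {s | ∃ n, MeasurableSet[a n] s}) ?_ ?_ ?_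
  · rw [MeasurableSpace.measurableSpace_iSup_eq]
  · rintro s ⟨n, hs⟩ t ⟨k, ht⟩ -
    refine ⟨max n k, ?_⟩
    exact @MeasurableSet.inter _ (a (max n k)) _ _ (ha (le_max_left n k) s hs)
      (ha (le_max_right n k) t ht)
  · rintro A ⟨n, hA⟩
    exact h n _ (BdM.indicator hA)

theorem CI.iSup_right {a : ℕ → MeasurableSpace Ω} (ha : Monotone a) (h₁ : m₁ ≤ mΩ)
    (h₂ : ∀ n, a n ≤ mΩ) (hm : m ≤ mΩ) (h : ∀ n, CI μ m₁ (a n) m) : CI μ m₁ (⨆ n, a n) m :=
  (CI.iSup_left ha h₂ h₁ hm fun n => (h n).symm h₁ (h₂ n) hm).symm (iSup_le h₂) h₁ hm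

/-- General directed suprema on the left. -/
theorem CI.iSup_left_directed {ι : Type*} [Nonempty ι] {a : ι → MeasurableSpace Ω}
    (ha : Directed (· ≤ ·) a) (h₁ : ∀ n, a n ≤ mΩ)
    (h₂ : m₂ ≤ mΩ) (hm : m ≤ mΩ) (h : ∀ n, CI μ (a n) m₂ m) : CI μ (⨆ n, a n) m₂ m := by
  refine ci_of_piSystem (iSup_le h₁) h₂ hm (S := {s | ∃ n, MeasurableSet[a n] s}) ?_ ?_ ?_
  · rw [MeasurableSpace.measurableSpace_iSup_eq]
  · rintro s ⟨n, hs⟩ t ⟨k, ht⟩ -
    obtain ⟨l, hn, hk⟩ := ha n k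
    exact ⟨l, @MeasurableSet.inter _ (a l) _ _ (hn s hs) (hk t ht)⟩
  · rintro A ⟨n, hA⟩
    exact h n _ (BdM.indicator hA)

end CI

section Prob

variable [IsProbabilityMeasure μ]

theorem integral_ind {A : Set Ω} (hA : MeasurableSet A) :
    ∫ x, A.indicator (fun _ => (1 : ℝ)) x ∂μ = μ.real A := integral_indicator_one hA

theorem ci_bot_iff (h₁ : m₁ ≤ mΩ) (h₂ : m₂ ≤ mΩ) :
    CI μ m₁ m₂ ⊥ ↔ ProbabilityTheory.Indep m₁ m₂ μ := by
  constructor
  · intro h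
    rw [ProbabilityTheory.Indep_iff]
    intro A B hA hB
    have h1 := h.integral' h₁ h₂ bot_le (BdM.indicator hA) (BdM.indicator hB) (BdM.one (m := ⊥))
    have e : (fun x => A.indicator (fun _ => (1 : ℝ)) x * B.indicator (fun _ => (1 : ℝ)) x * 1) =
        (A ∩ B).indicator (fun _ => (1 : ℝ)) := by
      funext x
      by_cases hx : x ∈ A <;> by_cases hy : x ∈ B <;> simp [hx, hy]
    rw [e] at h1
    simp only [condExp_bot] at h1
    rw [integral_ind ((h₁ A hA).inter (h₂ B hB)), integral_ind (h₁ A hA),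
      integral_ind (h₂ B hB)] at h1
    simp only [mul_one, integral_const, probReal_univ, one_smul] at h1
    rw [measureReal_def, measureReal_def, measureReal_def, ← ENNReal.toReal_mul] at h1
    exact (ENNReal.toReal_eq_toReal_iff' (by finiteness) (by finiteness)).1 h1
  · intro h f hf
    rw [sup_bot_eq, condExp_bot]
    exact condExp_indep_eq h₁ h₂ hf.meas.stronglyMeasurable h

/-- Independence as a statement about conditional expectations. -/
theorem indep_iff_condExp (h₁ : m₁ ≤ mΩ) (h₂ : m₂ ≤ mΩ) :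
    ProbabilityTheory.Indep m₁ m₂ μ ↔
      ∀ f : Ω → ℝ, BdM m₁ f → μ[f | m₂] =ᵐ[μ] fun _ => ∫ x, f x ∂μ := by
  rw [← ci_bot_iff h₁ h₂]
  constructor
  · intro h f hf
    have := h f hf
    rwa [sup_bot_eq, condExp_bot] at this
  · intro h f hf
    rw [sup_bot_eq, condExp_bot]
    exact h f hf

/-- Independence: `∫ f g = ∫ f ∫ g` for bounded functions. -/
theorem Indep.integral_mul (h₁ : m₁ ≤ mΩ) (h₂ : m₂ ≤ mΩ) (h : ProbabilityTheory.Indep m₁ m₂ μ)
    (hf : BdM m₁ f) (hg : BdM m₂ g) : ∫ x, f x * g x ∂μ = (∫ x, f x ∂μ) * ∫ x, g x ∂μ := by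
  have h1 := ((ci_bot_iff h₁ h₂).2 h).integral' h₁ h₂ bot_le hf hg (BdM.one (m := ⊥))
  simpa using h1

theorem indep_of_integral_mul (h₁ : m₁ ≤ mΩ) (h₂ : m₂ ≤ mΩ)
    (h : ∀ f g : Ω → ℝ, BdM m₁ f → BdM m₂ g →
      ∫ x, f x * g x ∂μ = (∫ x, f x ∂μ) * ∫ x, g x ∂μ) : ProbabilityTheory.Indep m₁ m₂ μ := by
  rw [indep_iff_condExp h₁ h₂]
  intro f hf
  refine condExp_eq_of_integral_mul h₂ (hf.integrable h₁) (integrable_const _)
    aestronglyMeasurable_const fun k hk => ?_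
  rw [integral_const_mul, h f k hf hk]

/-- Independence tested on centred functions of the first factor. -/
theorem indep_of_integral_eq_zero (h₁ : m₁ ≤ mΩ) (h₂ : m₂ ≤ mΩ)
    (h : ∀ f g : Ω → ℝ, BdM m₁ f → BdM m₂ g → ∫ x, f x ∂μ = 0 → ∫ x, f x * g x ∂μ = 0) :
    ProbabilityTheory.Indep m₁ m₂ μ := by
  refine indep_of_integral_mul h₁ h₂ fun f g hf hg => ?_
  have hc : BdM m₁ (fun x => f x - ∫ y, f y ∂μ) := hf.sub (BdM.const _)
  have h0 : ∫ x, (f x - ∫ y, f y ∂μ) ∂μ = 0 := by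
    rw [integral_sub (hf.integrable h₁) (integrable_const _)]
    simp
  have h1 := h _ g hc hg h0
  have h2 : ∫ x, (f x - ∫ y, f y ∂μ) * g x ∂μ =
      ∫ x, f x * g x ∂μ - (∫ y, f y ∂μ) * ∫ x, g x ∂μ := by
    have i1 : Integrable (fun x => f x * g x) μ := ((hf.mono h₁).mul (hg.mono h₂)).integrable le_rfl
    have i2 : Integrable (fun x => (∫ y, f y ∂μ) * g x) μ := (hg.const_mul _).integrable h₂
    rw [← integral_const_mul, ← integral_sub i1 i2]
    congr 1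
    funext x
    ring
  linarith

/-- `m₁ ⟂ m₂` and `m₁ ⟂ m₃ | m₂` give `m₁ ⟂ m₂ ⊔ m₃`. -/
theorem Indep.contraction (h₁ : m₁ ≤ mΩ) (h₂ : m₂ ≤ mΩ) (h₃ : m₃ ≤ mΩ)
    (h : ProbabilityTheory.Indep m₁ m₂ μ) (h' : CI μ m₁ m₃ m₂) :
    ProbabilityTheory.Indep m₁ (m₂ ⊔ m₃) μ := by
  rw [← ci_bot_iff h₁ (sup_le h₂ h₃)]
  refine CI.contraction ((ci_bot_iff h₁ h₂).2 h) ?_
  rwa [sup_bot_eq]

/-- `m₁ ⟂ m₂ ⊔ m₃` gives `m₁ ⟂ m₃ | m₂`. -/
theorem Indep.ci (h₁ : m₁ ≤ mΩ) (h₂ : m₂ ≤ mΩ) (h₃ : m₃ ≤ mΩ)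
    (h : ProbabilityTheory.Indep m₁ (m₂ ⊔ m₃) μ) : CI μ m₁ m₃ m₂ := by
  have := ((ci_bot_iff h₁ (sup_le h₂ h₃)).2 h).weak_union h₂ h₃ bot_le
  rwa [sup_bot_eq] at this

end Prob

/-! ### Containment of σ-algebras up to null sets -/

/-- Every `m₁`-measurable set is a.e. equal to an `m₂`-measurable set. -/
def AELe (μ : Measure Ω) (m₁ m₂ : MeasurableSpace Ω) : Prop :=
  ∀ A, MeasurableSet[m₁] A → ∃ B, MeasurableSet[m₂] B ∧ A =ᵐ[μ] B

theorem AELe.of_le (h : m₁ ≤ m₂) : AELe μ m₁ m₂ := fun A hA => ⟨A, h A hA, EventuallyEq.rfl⟩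

theorem AELe.refl : AELe μ m m := AELe.of_le le_rfl

theorem AELe.trans (h : AELe μ m₁ m₂) (h' : AELe μ m₂ m₃) : AELe μ m₁ m₃ := fun A hA => by
  obtain ⟨B, hB, hAB⟩ := h A hA
  obtain ⟨C, hC, hBC⟩ := h' B hB
  exact ⟨C, hC, hAB.trans hBC⟩

theorem aele_iff_le : AELe μ m₁ m₂ ↔ m₁ ≤ eventuallyMeasurableSpace m₂ (ae μ) := Iff.rfl

theorem AELe.sup (h₁ : AELe μ m₁ m) (h₂ : AELe μ m₂ m) : AELe μ (m₁ ⊔ m₂) m :=
  aele_iff_le.2 (sup_le (aele_iff_le.1 h₁) (aele_iff_le.1 h₂))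

theorem AELe.iSup {ι : Sort*} {a : ι → MeasurableSpace Ω} (h : ∀ i, AELe μ (a i) m) :
    AELe μ (⨆ i, a i) m :=
  aele_iff_le.2 (iSup_le fun i => aele_iff_le.1 (h i))

theorem AELe.generateFrom {S : Set (Set Ω)}
    (h : ∀ A ∈ S, ∃ B, MeasurableSet[m] B ∧ A =ᵐ[μ] B) :
    AELe μ (MeasurableSpace.generateFrom S) m :=
  aele_iff_le.2 (MeasurableSpace.generateFrom_le h)

theorem AELe.sup_sup (h₁ : AELe μ m₁ m₁') (h₂ : AELe μ m₂ m₂') : AELe μ (m₁ ⊔ m₂) (m₁' ⊔ m₂') :=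
  AELe.sup (h₁.trans (AELe.of_le le_sup_left)) (h₂.trans (AELe.of_le le_sup_right))

section AE

variable [IsFiniteMeasure μ]

/-- `m₁`-measurable functions have `m₂`-measurable versions. -/
theorem AELe.condExp_eq (h₁ : m₁ ≤ mΩ) (h₂ : m₂ ≤ mΩ) (h : AELe μ m₁ m₂) (hf : BdM m₁ f) :
    μ[f | m₂] =ᵐ[μ] f := by
  -- the functions with this property contain indicators; use the `L²` criterion
  have hset : ∀ A, MeasurableSet[m₁] A → μ[A.indicator (fun _ => (1 : ℝ)) | m₂] =ᵐ[μ]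
      A.indicator (fun _ => (1 : ℝ)) := by
    intro A hA
    obtain ⟨B, hB, hAB⟩ := h A hA
    have e : A.indicator (fun _ => (1 : ℝ)) =ᵐ[μ] B.indicator (fun _ => (1 : ℝ)) :=
      indicator_ae_eq_of_ae_eq_set hAB
    refine (condExp_congr_ae e).trans ?_
    rw [condExp_of_bm h₂ (BdM.indicator hB)]
    exact e.symm
  -- `E[f | m₂]` against `m₁`-sets
  have h1 : ∀ A, MeasurableSet[m₁] A → ∫ x in A, (μ[f | m₂]) x ∂μ = ∫ x in A, f x ∂μ := by
    intro A hA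
    obtain ⟨B, hB, hAB⟩ := h A hA
    rw [setIntegral_congr_set hAB, setIntegral_congr_set hAB]
    exact setIntegral_condExp h₂ (hf.integrable h₁) hB
  have h2 : μ[μ[f | m₂] | m₁] =ᵐ[μ] f :=
    condExp_eq_of_integral h₁ integrable_condExp (hf.integrable h₁) hf.aesm fun A hA =>
      (h1 A hA).symm
  -- norms
  obtain ⟨F, hF, hFe⟩ := (hf.mono h₁).condExp_bm (μ := μ) h₂
  refine condExp_eq_self_of_sq h₂ (hf.mono h₁) ?_
  calc ∫ x, f x ^ 2 ∂μ = ∫ x, (μ[F | m₁]) x ^ 2 ∂μ := by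
        refine integral_congr_ae ?_
        filter_upwards [h2, condExp_congr_ae (m := m₁) hFe] with x hx hy
        rw [← hy, hx]
    _ ≤ ∫ x, F x ^ 2 ∂μ := integral_condExp_sq_le h₁ (hF.mono h₂)
    _ = ∫ x, (μ[f | m₂]) x ^ 2 ∂μ :=
        integral_congr_ae (hFe.symm.mono fun x hx => by simp only [hx])

theorem AELe.exists_bm (h₁ : m₁ ≤ mΩ) (h₂ : m₂ ≤ mΩ) (h : AELe μ m₁ m₂) (hf : BdM m₁ f) :
    ∃ F, BdM m₂ F ∧ f =ᵐ[μ] F := by
  obtain ⟨F, hF, hFe⟩ := (hf.mono h₁).condExp_bm (μ := μ) h₂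
  exact ⟨F, hF, (h.condExp_eq h₁ h₂ hf).symm.trans hFe⟩

/-- Criterion for `AELe`. -/
theorem aele_of_condExp (h₁ : m₁ ≤ mΩ) (h₂ : m₂ ≤ mΩ)
    (h : ∀ f : Ω → ℝ, BdM m₁ f → μ[f | m₂] =ᵐ[μ] f) : AELe μ m₁ m₂ := by
  intro A hA
  have h1 := h _ (BdM.indicator hA)
  refine ⟨{x | (μ[A.indicator (fun _ => (1 : ℝ)) | m₂]) x = 1}, ?_, ?_⟩
  · exact stronglyMeasurable_condExp.measurable (measurableSet_singleton 1)
  · filter_upwards [h1] with x hx
    apply propext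
    change x ∈ A ↔ (μ[A.indicator (fun _ => (1 : ℝ)) | m₂]) x = 1
    rw [hx]
    by_cases hxA : x ∈ A <;> simp [hxA]

theorem aele_iff_condExp (h₁ : m₁ ≤ mΩ) (h₂ : m₂ ≤ mΩ) :
    AELe μ m₁ m₂ ↔ ∀ f : Ω → ℝ, BdM m₁ f → μ[f | m₂] =ᵐ[μ] f :=
  ⟨fun h _ hf => h.condExp_eq h₁ h₂ hf, aele_of_condExp h₁ h₂⟩

theorem aele_of_exists (h₁ : m₁ ≤ mΩ) (h₂ : m₂ ≤ mΩ)
    (h : ∀ f : Ω → ℝ, BdM m₁ f → ∃ F, BdM m₂ F ∧ f =ᵐ[μ] F) : AELe μ m₁ m₂ := by
  refine aele_of_condExp h₁ h₂ fun f hf => ?_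
  obtain ⟨F, hF, e⟩ := h f hf
  refine (condExp_congr_ae e).trans ?_
  rw [condExp_of_bm h₂ hF]
  exact e.symm

/-- Self-independence. -/
theorem CI.aele (h₁ : m₁ ≤ mΩ) (hm : m ≤ mΩ) (h : CI μ m₁ m₁ m) : AELe μ m₁ m := by
  refine aele_of_condExp h₁ hm fun f hf => ?_
  have h1 := h f hf
  rw [condExp_of_bm (sup_le h₁ hm) (hf.mono le_sup_left)] at h1
  exact h1.symm

theorem AELe.condExp_condExp (h₁ : m₁ ≤ mΩ) (h₂ : m₂ ≤ mΩ) (h : AELe μ m₁ m₂)
    (hf : BdM mΩ f) : μ[μ[f | m₂] | m₁] =ᵐ[μ] μ[f | m₁] := by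
  refine (condExp_eq_of_integral h₁ (hf.integrable le_rfl) integrable_condExp
    stronglyMeasurable_condExp.aestronglyMeasurable fun A hA => ?_).symm
  obtain ⟨B, hB, hAB⟩ := h A hA
  rw [setIntegral_condExp h₁ integrable_condExp hA, setIntegral_congr_set hAB,
    setIntegral_congr_set hAB]
  exact setIntegral_condExp h₂ (hf.integrable le_rfl) hB

/-- Conditional expectations with respect to a.e. equal σ-algebras. -/
theorem condExp_eq_of_aele (h₁ : m₁ ≤ mΩ) (h₂ : m₂ ≤ mΩ) (h : AELe μ m₁ m₂) (h' : AELe μ m₂ m₁)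
    (hf : BdM mΩ f) : μ[f | m₁] =ᵐ[μ] μ[f | m₂] := by
  obtain ⟨F, hF, hFe⟩ := hf.condExp_bm (μ := μ) h₂
  have e1 : μ[F | m₁] =ᵐ[μ] F := h'.condExp_eq h₂ h₁ hF
  exact (h.condExp_condExp h₁ h₂ hf).symm.trans
    ((condExp_congr_ae hFe).trans (e1.trans hFe.symm))

/-- `CI` does not see null sets on the left, up to the conditioning σ-algebra. -/
theorem CI.mono_left_ae (h₁ : m₁ ≤ mΩ) (h₁' : m₁' ≤ mΩ) (h₂ : m₂ ≤ mΩ) (hm : m ≤ mΩ)
    (h : AELe μ m₁' (m₁ ⊔ m)) (hc : CI μ m₁ m₂ m) : CI μ m₁' m₂ m := fun f hf => by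
  obtain ⟨F, hF, e⟩ := h.exists_bm h₁' (sup_le h₁ hm) hf
  exact (condExp_congr_ae e).trans ((hc.sup_left h₁ h₂ hm F hF).trans (condExp_congr_ae e.symm))

theorem CI.mono_right_ae (h₁ : m₁ ≤ mΩ) (h₂ : m₂ ≤ mΩ) (h₂' : m₂' ≤ mΩ) (hm : m ≤ mΩ)
    (h : AELe μ m₂' (m₂ ⊔ m)) (hc : CI μ m₁ m₂ m) : CI μ m₁ m₂' m :=
  ((hc.symm h₁ h₂ hm).mono_left_ae h₂ h₂' h₁ hm h).symm h₂' h₁ hm

/-- Changing the conditioning σ-algebra by null sets. -/
theorem CI.congr_cond (h₁ : m₁ ≤ mΩ) (h₂ : m₂ ≤ mΩ) (hm : m ≤ mΩ) (hm' : m' ≤ mΩ)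
    (h : AELe μ m m') (h' : AELe μ m' m) (hc : CI μ m₁ m₂ m) : CI μ m₁ m₂ m' := fun f hf => by
  have e1 : μ[f | m] =ᵐ[μ] μ[f | m'] := condExp_eq_of_aele hm hm' h h' (hf.mono h₁)
  have e2 : μ[f | m₂ ⊔ m] =ᵐ[μ] μ[f | m₂ ⊔ m'] :=
    condExp_eq_of_aele (sup_le h₂ hm) (sup_le h₂ hm') (AELe.refl.sup_sup h) (AELe.refl.sup_sup h')
      (hf.mono h₁)
  exact e2.symm.trans ((hc f hf).trans e1)

/-- Independence does not see null sets. -/
theorem Indep.mono_ae [IsProbabilityMeasure μ] (h₁ : m₁ ≤ mΩ) (h₁' : m₁' ≤ mΩ) (h₂ : m₂ ≤ mΩ)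
    (h₂' : m₂' ≤ mΩ) (h : AELe μ m₁' m₁) (h' : AELe μ m₂' m₂)
    (hc : ProbabilityTheory.Indep m₁ m₂ μ) : ProbabilityTheory.Indep m₁' m₂' μ := by
  rw [← ci_bot_iff h₁ h₂] at hc
  rw [← ci_bot_iff h₁' h₂']
  exact (hc.mono_left_ae h₁ h₁' h₂ bot_le (by rwa [sup_bot_eq])).mono_right_ae h₁' h₂ h₂' bot_le
    (by rwa [sup_bot_eq])

/-- Increase the conditioning σ-algebra inside `m₂`. -/
theorem CI.up (h₂ : m₂ ≤ mΩ) (hm : m ≤ mΩ) (h : m ≤ m') (h' : m' ≤ m₂ ⊔ m)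
    (hc : CI μ m₁ m₂ m) : CI μ m₁ m₂ m' := fun f hf => by
  have e : m₂ ⊔ m' = m₂ ⊔ m := le_antisymm (sup_le le_sup_left h') (sup_le_sup_left h m₂)
  have h1 : μ[f | m'] =ᵐ[μ] μ[f | m] := by
    have h2 : μ[μ[f | m₂ ⊔ m] | m'] =ᵐ[μ] μ[f | m'] :=
      R069.condExp_condExp h' (sup_le h₂ hm)
    have h3 : μ[μ[f | m₂ ⊔ m] | m'] =ᵐ[μ] μ[μ[f | m] | m'] := condExp_congr_ae (hc f hf)
    have h4 : μ[μ[f | m] | m'] = μ[f | m] :=
      condExp_of_stronglyMeasurable (h'.trans (sup_le h₂ hm))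
        ((stronglyMeasurable_condExp (m := m)).mono h) integrable_condExp
    rw [h4] at h3
    exact h2.symm.trans h3
  rw [e]
  exact (hc f hf).trans h1.symm

end AE

/-! ### Transport along measure preserving maps -/

section Transport

variable {Ω' : Type*} {mΩ' : MeasurableSpace Ω'} {μ' : Measure Ω'} {φ : Ω' → Ω}

theorem integral_comp_mp (hφ : MeasurePreserving φ μ' μ) {F : Ω → ℝ}
    (hF : AEStronglyMeasurable F μ) : ∫ x, F (φ x) ∂μ' = ∫ x, F x ∂μ := by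
  rw [← hφ.map_eq, integral_map hφ.measurable.aemeasurable (by rwa [hφ.map_eq])]

theorem comap_le_of_mp (hφ : MeasurePreserving φ μ' μ) (hm : m ≤ mΩ) : m.comap φ ≤ mΩ' :=
  (MeasurableSpace.comap_mono hm).trans hφ.measurable.comap_le

variable [IsFiniteMeasure μ] [IsFiniteMeasure μ']

/-- `E[f ∘ φ | φ⁻¹ m] = E[f | m] ∘ φ`. -/
theorem condExp_comp_mp (hφ : MeasurePreserving φ μ' μ) (hm : m ≤ mΩ) (hf : Integrable f μ) :
    μ'[f ∘ φ | m.comap φ] =ᵐ[μ'] (μ[f | m]) ∘ φ := by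
  refine condExp_eq_of_integral (comap_le_of_mp hφ hm) (hφ.integrable_comp_of_integrable hf)
    (hφ.integrable_comp_of_integrable integrable_condExp) ?_ ?_
  · exact (stronglyMeasurable_condExp.comp_measurable
      (comap_measurable φ)).aestronglyMeasurable
  · rintro A ⟨B, hB, rfl⟩
    have h1 : ∀ F : Ω → ℝ, Integrable F μ → ∫ x in φ ⁻¹' B, F (φ x) ∂μ' = ∫ x in B, F x ∂μ := by
      intro F hF
      rw [← setIntegral_map (hm B hB) (by rw [hφ.map_eq]; exact hF.aestronglyMeasurable)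
        hφ.measurable.aemeasurable, hφ.map_eq]
    have h2 := h1 _ (integrable_condExp (μ := μ) (m := m) (f := f))
    have h3 := h1 _ hf
    simp only [Function.comp]
    rw [h2, h3]
    exact setIntegral_condExp hm hf hB

theorem ae_comp_iff (hφ : MeasurePreserving φ μ' μ) {F G : Ω → ℝ} (hF : Measurable F)
    (hG : Measurable G) : F ∘ φ =ᵐ[μ'] G ∘ φ ↔ F =ᵐ[μ] G := by
  rw [← hφ.map_eq]
  exact (ae_map_iff hφ.measurable.aemeasurable (measurableSet_eq_fun hF hG)).symm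

theorem CI.comap (hφ : MeasurePreserving φ μ' μ) (h₁ : m₁ ≤ mΩ) (h₂ : m₂ ≤ mΩ) (hm : m ≤ mΩ)
    (h : CI μ m₁ m₂ m) : CI μ' (m₁.comap φ) (m₂.comap φ) (m.comap φ) := by
  intro F hF
  obtain ⟨f, hf, rfl⟩ := hF.factors
  rw [← MeasurableSpace.comap_sup]
  have e1 := condExp_comp_mp hφ (sup_le h₂ hm) (hf.integrable h₁)
  have e2 := condExp_comp_mp hφ hm (hf.integrable h₁)
  exact e1.trans ((hφ.quasiMeasurePreserving.ae_eq_comp (h f hf)).trans e2.symm)

theorem ci_comap_iff (hφ : MeasurePreserving φ μ' μ) (h₁ : m₁ ≤ mΩ) (h₂ : m₂ ≤ mΩ) (hm : m ≤ mΩ) :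
    CI μ' (m₁.comap φ) (m₂.comap φ) (m.comap φ) ↔ CI μ m₁ m₂ m := by
  refine ⟨fun h f hf => ?_, fun h => h.comap hφ h₁ h₂ hm⟩
  have h1 := h (f ∘ φ) hf.comp
  rw [← MeasurableSpace.comap_sup] at h1
  have e1 := condExp_comp_mp hφ (sup_le h₂ hm) (hf.integrable h₁)
  have e2 := condExp_comp_mp hφ hm (hf.integrable h₁)
  have h2 := e1.symm.trans (h1.trans e2)
  exact (ae_comp_iff hφ (stronglyMeasurable_condExp.measurable.mono (sup_le h₂ hm) le_rfl)
    (stronglyMeasurable_condExp.measurable.mono hm le_rfl)).1 h2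

theorem AELe.comap (hφ : MeasurePreserving φ μ' μ) (h : AELe μ m₁ m₂) :
    AELe μ' (m₁.comap φ) (m₂.comap φ) := by
  rintro A ⟨A₀, hA₀, rfl⟩
  obtain ⟨B, hB, hAB⟩ := h A₀ hA₀
  exact ⟨φ ⁻¹' B, ⟨B, hB, rfl⟩, hφ.quasiMeasurePreserving.preimage_ae_eq hAB⟩

theorem aele_comap_iff (hφ : MeasurePreserving φ μ' μ) (h₁ : m₁ ≤ mΩ) (h₂ : m₂ ≤ mΩ) :
    AELe μ' (m₁.comap φ) (m₂.comap φ) ↔ AELe μ m₁ m₂ := by
  refine ⟨fun h => ?_, fun h => h.comap hφ⟩
  refine aele_of_condExp h₁ h₂ fun f hf => ?_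
  have e1 := h.condExp_eq (comap_le_of_mp hφ h₁) (comap_le_of_mp hφ h₂) hf.comp
  have e2 := condExp_comp_mp hφ h₂ (hf.integrable h₁)
  have e3 := e2.symm.trans e1
  exact (ae_comp_iff hφ (stronglyMeasurable_condExp.measurable.mono h₂ le_rfl)
    (hf.meas.mono h₁ le_rfl)).1 e3

end Transport

section TransportProb

variable {Ω' : Type*} {mΩ' : MeasurableSpace Ω'} {μ' : Measure Ω'} {φ : Ω' → Ω}
variable [IsProbabilityMeasure μ] [IsProbabilityMeasure μ']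

theorem indep_comap_iff (hφ : MeasurePreserving φ μ' μ) (h₁ : m₁ ≤ mΩ) (h₂ : m₂ ≤ mΩ) :
    ProbabilityTheory.Indep (m₁.comap φ) (m₂.comap φ) μ' ↔ ProbabilityTheory.Indep m₁ m₂ μ := by
  rw [← ci_bot_iff (comap_le_of_mp hφ h₁) (comap_le_of_mp hφ h₂), ← ci_bot_iff h₁ h₂,
    ← ci_comap_iff hφ h₁ h₂ bot_le, MeasurableSpace.comap_bot]

end TransportProb

/-! ### Conditional independence of families -/

/-- The family `M i`, `i ∈ s`, is conditionally independent given `m`. -/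
def iCI {ι : Type*} (μ : Measure Ω) (M : ι → MeasurableSpace Ω) (s : Finset ι)
    (m : MeasurableSpace Ω) : Prop :=
  ∀ F : ι → Ω → ℝ, (∀ i ∈ s, BdM (M i) (F i)) →
    μ[fun x => ∏ i ∈ s, F i x | m] =ᵐ[μ] fun x => ∏ i ∈ s, (μ[F i | m]) x

section iCI

variable [IsProbabilityMeasure μ] {ι : Type*} {M : ι → MeasurableSpace Ω} {s t : Finset ι}

theorem iCI.mono (hm : m ≤ mΩ) (hts : t ⊆ s) (h : iCI μ M s m) : iCI μ M t m := by
  classical
  intro F hF
  let G : ι → Ω → ℝ := fun i => if i ∈ t then F i else fun _ => 1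
  have hG : ∀ i ∈ s, BdM (M i) (G i) := by
    intro i _
    by_cases hi : i ∈ t
    · simpa [G, hi] using hF i hi
    · simpa [G, hi] using (BdM.one : BdM (M i) _)
  have h1 := h G hG
  have e1 : (fun x => ∏ i ∈ s, G i x) = fun x => ∏ i ∈ t, F i x := by
    funext x
    rw [← Finset.prod_subset hts (f := fun i => G i x) ?_]
    · exact Finset.prod_congr rfl fun i hi => by simp [G, hi]
    · intro i _ hi
      simp [G, hi]
  have e2 : (fun x => ∏ i ∈ s, (μ[G i | m]) x) = fun x => ∏ i ∈ t, (μ[F i | m]) x := by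
    funext x
    rw [← Finset.prod_subset hts (f := fun i => (μ[G i | m]) x) ?_]
    · exact Finset.prod_congr rfl fun i hi => by simp [G, hi]
    · intro i _ hi
      simp only [G, hi, if_false]
      rw [condExp_const hm]
  rwa [e1, e2] at h1

/-- Iterated criterion. -/
theorem iCI_insert [DecidableEq ι] {a : ι} (ha : a ∉ s) (hM : ∀ i, M i ≤ mΩ) (hm : m ≤ mΩ)
    (h : iCI μ M s m) (h' : CI μ (M a) (⨆ i ∈ s, M i) m) : iCI μ M (insert a s) m := by
  intro F hF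
  have hFa := hF a (Finset.mem_insert_self a s)
  have hFs : ∀ i ∈ s, BdM (M i) (F i) := fun i hi => hF i (Finset.mem_insert_of_mem hi)
  have hP : BdM (⨆ i ∈ s, M i) (fun x => ∏ i ∈ s, F i x) :=
    BdM.prod fun i hi => (hFs i hi).mono (le_iSup₂_of_le i hi le_rfl)
  have h1 := h'.condExp_mul (hM a) (iSup₂_le fun i _ => hM i) hm hFa hP
  simp only [Finset.prod_insert ha]
  refine h1.trans ?_
  filter_upwards [h F hFs] with x hx
  rw [hx]

theorem iCI.ci_notMem [DecidableEq ι] {a : ι} (ha : a ∉ s) (hM : ∀ i, M i ≤ mΩ) (hm : m ≤ mΩ)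
    (h : iCI μ M (insert a s) m) : CI μ (M a) (⨆ i ∈ s, M i) m := by
  refine CI.symm (iSup₂_le fun i _ => hM i) (hM a) hm ?_
  -- π-system of finite intersections
  have hgen : (⨆ i ∈ s, M i) = MeasurableSpace.generateFrom
      (piiUnionInter (fun i => {A | MeasurableSet[M i] A}) (s : Set ι)) := by
    exact (generateFrom_piiUnionInter_measurableSet M (s : Set ι)).symm
  have hpi : IsPiSystem (piiUnionInter (fun i => {A | MeasurableSet[M i] A}) (s : Set ι)) :=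
    isPiSystem_piiUnionInter _ (fun i => @MeasurableSpace.isPiSystem_measurableSet Ω (M i)) _
  refine ci_of_piSystem (iSup₂_le fun i _ => hM i) (hM a) hm hgen hpi ?_
  rintro A ⟨t, hts, B, hB, rfl⟩
  have hts' : t ⊆ s := by exact_mod_cast hts
  have hAm : MeasurableSet (⋂ x ∈ t, B x) :=
    Finset.measurableSet_biInter _ fun i hi => hM i _ (hB i hi)
  -- the indicator is a product
  have e : ∀ x, (⋂ i ∈ t, B i).indicator (fun _ => (1 : ℝ)) x =
      ∏ i ∈ t, (B i).indicator (fun _ => (1 : ℝ)) x := by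
    intro x
    by_cases hx : x ∈ ⋂ i ∈ t, B i
    · rw [indicator_of_mem hx]
      simp only [mem_iInter] at hx
      rw [Finset.prod_eq_one]
      intro i hi
      rw [indicator_of_mem (hx i hi)]
    · rw [indicator_of_notMem hx]
      simp only [mem_iInter, not_forall] at hx
      obtain ⟨i, hi, hx⟩ := hx
      rw [Finset.prod_eq_zero hi]
      rw [indicator_of_notMem hx]
  have ef : (⋂ i ∈ t, B i).indicator (fun _ => (1 : ℝ)) = fun x =>
      ∏ i ∈ t, (B i).indicator (fun _ => (1 : ℝ)) x := funext e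
  have hat : a ∉ t := fun h => ha (hts' h)
  have hi1 : iCI μ M (insert a t) m := h.mono hm (Finset.insert_subset_insert a hts')
  have hi2 : iCI μ M t m := hi1.mono hm (Finset.subset_insert a t)
  have hBM : ∀ i ∈ t, BdM (M i) ((B i).indicator fun _ => (1 : ℝ)) := fun i hi =>
    BdM.indicator (hB i hi)
  have hmul : ∀ g, BdM (M a) g →
      μ[fun x => (⋂ i ∈ t, B i).indicator (fun _ => (1 : ℝ)) x * g x | m] =ᵐ[μ]
      fun x => (μ[(⋂ i ∈ t, B i).indicator (fun _ => (1 : ℝ)) | m]) x * (μ[g | m]) x := by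
    intro g hg
    let G : ι → Ω → ℝ := fun i => if i = a then g else (B i).indicator fun _ => (1 : ℝ)
    have hG : ∀ i ∈ insert a t, BdM (M i) (G i) := by
      intro i hi
      rcases Finset.mem_insert.1 hi with rfl | hi
      · simpa [G] using hg
      · have : i ≠ a := fun h => hat (h ▸ hi)
        simpa [G, this] using hBM i hi
    have h1 := hi1 G hG
    have h2 := hi2 (fun i => (B i).indicator fun _ => (1 : ℝ)) hBM
    have e1 : (fun x => ∏ i ∈ insert a t, G i x) = fun x =>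
        (⋂ i ∈ t, B i).indicator (fun _ => (1 : ℝ)) x * g x := by
      funext x
      rw [Finset.prod_insert hat, e x, mul_comm]
      congr 1
      · exact Finset.prod_congr rfl fun i hi => by
          have : i ≠ a := fun h => hat (h ▸ hi)
          simp [G, this]
      · simp [G]
    have e2 : (fun x => ∏ i ∈ insert a t, (μ[G i | m]) x) = fun x =>
        (∏ i ∈ t, (μ[(B i).indicator fun _ => (1 : ℝ) | m]) x) * (μ[g | m]) x := by
      funext x
      rw [Finset.prod_insert hat, mul_comm]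
      congr 1
      · exact Finset.prod_congr rfl fun i hi => by
          have : i ≠ a := fun h => hat (h ▸ hi)
          simp [G, this]
      · simp [G]
    rw [e1, e2] at h1
    refine h1.trans ?_
    rw [ef]
    filter_upwards [h2] with x hx
    rw [hx]
  -- conclude as in `ci_of_condExp_mul` for one function
  set f : Ω → ℝ := (⋂ i ∈ t, B i).indicator (fun _ => (1 : ℝ)) with hfdef
  have hf : BdM mΩ f := BdM.indicator hAm
  refine condExp_sup_eq (hM a) hm (hf.integrable le_rfl) integrable_condExp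
    ((stronglyMeasurable_condExp (m := m)).mono
      (le_sup_right : m ≤ M a ⊔ m)).aestronglyMeasurable ?_
  intro P Q hP hQ
  obtain ⟨F', hF', hFe⟩ := hf.condExp_bm (μ := μ) hm
  have ePQ : (P ∩ Q).indicator (fun _ => (1 : ℝ)) = fun x =>
      P.indicator (fun _ => (1 : ℝ)) x * Q.indicator (fun _ => (1 : ℝ)) x := by
    funext x
    by_cases hx : x ∈ P <;> by_cases hy : x ∈ Q <;> simp [hx, hy]
  have hPm := hM a P hP
  have hQm := hm Q hQ
  rw [setIntegral_eq_indicator (hPm.inter hQm), setIntegral_eq_indicator (hPm.inter hQm), ePQ]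
  have hg : BdM (M a) (P.indicator fun _ => (1 : ℝ)) := BdM.indicator hP
  have hk : BdM m (Q.indicator fun _ => (1 : ℝ)) := BdM.indicator hQ
  have hFk : BdM m (fun x => F' x * Q.indicator (fun _ => (1 : ℝ)) x) := hF'.mul hk
  have hfg : Integrable (fun x => f x * P.indicator (fun _ => (1 : ℝ)) x) μ :=
    (hf.mul (hg.mono (hM a))).integrable le_rfl
  calc ∫ x, (μ[f | m]) x * (P.indicator (fun _ => (1 : ℝ)) x * Q.indicator (fun _ => (1 : ℝ)) x) ∂μ
      = ∫ x, P.indicator (fun _ => (1 : ℝ)) x * (F' x * Q.indicator (fun _ => (1 : ℝ)) x) ∂μ :=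
        integral_congr_ae (hFe.mono fun x hx => by simp only [hx]; ring)
    _ = ∫ x, (μ[P.indicator (fun _ => (1 : ℝ)) | m]) x *
          (F' x * Q.indicator (fun _ => (1 : ℝ)) x) ∂μ :=
        (integral_condExp_mul hm (hg.integrable (hM a)) hFk).symm
    _ = ∫ x, (μ[fun x => f x * P.indicator (fun _ => (1 : ℝ)) x | m]) x *
          Q.indicator (fun _ => (1 : ℝ)) x ∂μ := by
        refine integral_congr_ae ?_
        filter_upwards [hmul _ hg, hFe] with x hx hy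
        rw [hx, hy]; ring
    _ = ∫ x, f x * P.indicator (fun _ => (1 : ℝ)) x * Q.indicator (fun _ => (1 : ℝ)) x ∂μ :=
        integral_condExp_mul (f := fun x => f x * P.indicator (fun _ => (1 : ℝ)) x) hm hfg hk
    _ = _ := by simp only [mul_assoc]

end iCI

end Crest.Agent.R069
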