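import Crest.Agent.R069.Arr1
import Crest.Agent.R069.CI

/-!
# Row 69: fibrewise consequences for environment kernels (node ARR1, second part)

`IsEnv mC P e w κ`: `w : L → V` is an `mC`-measurable variable and `κ : Kernel V Z` a Markov kernel
with `κ (w x)` = conditional law of `e` given `mC` at a.e. `x`.
-/

set_option autoImplicit false
set_option linter.unusedSectionVars false

open MeasureTheory Filter Set ProbabilityTheory
open scoped ENNReal Topology

namespace Crest.Agent.R069.Arr

section IsEnv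

variable {L : Type*} {mC : MeasurableSpace L} {mL : MeasurableSpace L} {P : Measure L}
  [IsProbabilityMeasure P]
  {Z : Type*} [mZ : MeasurableSpace Z] [StandardBorelSpace Z] [Nonempty Z]
  {V : Type*} [mV : MeasurableSpace V]

/-- `w` is an `mC`-measurable variable, `κ (w ·)` is the conditional law of `e` given `mC`. -/
structure IsEnv (mC : MeasurableSpace L) {mL : MeasurableSpace L} (P : Measure L)
    [IsProbabilityMeasure P] (e : L → Z) (w : L → V) (κ : Kernel V Z) : Prop where
  meas : Measurable[mC] w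
  markov : IsMarkovKernel κ
  eq : ∀ᵐ x ∂P, cK mC P e x = κ (w x)

theorem isEnv_env (hC : mC ≤ mL) {e : L → Z} (he : Measurable e) {S : ℤ → L → L}
    (hS0 : ∀ x, S 0 x = x) (hSC : ∀ n, Measurable[mC, mC] (S n))
    {b : ℕ → L → ℝ} (hb : ∀ j, Measurable[mC] (b j)) :
    IsEnv mC P e (env mC P e S b) (kap mC P e S b) :=
  ⟨measurable_env hSC e hb, inferInstance, cK_eq_kap hC he hS0 hSC hb⟩

variable {e : L → Z} {w : L → V} {κ : Kernel V Z}

namespace IsEnv

theorem measL (h : IsEnv mC P e w κ) (hC : mC ≤ mL) : Measurable w := h.meas.mono hC le_rfl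

theorem comap_le (h : IsEnv mC P e w κ) : mV.comap w ≤ mC := h.meas.comap_le

/-- conditional expectation through the kernel. -/
theorem condExp (h : IsEnv mC P e w κ) (hC : mC ≤ mL) (he : Measurable e)
    {f : Z → ℝ} (hf : StronglyMeasurable f) (hint : Integrable (fun x => f (e x)) P) :
    P[fun x => f (e x) | mC] =ᵐ[P] fun x => ∫ z, f z ∂(κ (w x)) := by
  filter_upwards [condExp_eq_cK hC he hf hint, h.eq] with x h1 h2
  rw [h1, h2]

theorem condExp_ind (h : IsEnv mC P e w κ) (hC : mC ≤ mL) (he : Measurable e)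
    {A : Set Z} (hA : MeasurableSet A) :
    P[(e ⁻¹' A).indicator (fun _ => (1 : ℝ)) | mC] =ᵐ[P] fun x => (κ (w x)).real A := by
  filter_upwards [condExp_ind_eq_cK hC he hA, h.eq] with x h1 h2
  rw [h1, h2]

/-- conditional expectation of a function of `(w, e)` through the kernel. -/
theorem condExp_prod (h : IsEnv mC P e w κ) (hC : mC ≤ mL) (he : Measurable e)
    {f : V × Z → ℝ} (hf : StronglyMeasurable f) (hint : Integrable (fun x => f (w x, e x)) P) :
    P[fun x => f (w x, e x) | mC] =ᵐ[P] fun x => ∫ z, f (w x, z) ∂(κ (w x)) := by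
  have hm1 : @Measurable (L × Z) V (@Prod.instMeasurableSpace L Z mC mZ) mV
      (fun p => w p.1) := h.meas.comp (@measurable_fst L Z mC mZ)
  have hm2 : @Measurable (L × Z) Z (@Prod.instMeasurableSpace L Z mC mZ) mZ
      (fun p => p.2) := @measurable_snd L Z mC mZ
  have hm : @Measurable (L × Z) (V × Z) (@Prod.instMeasurableSpace L Z mC mZ) _
      (fun p => (w p.1, p.2)) := hm1.prodMk hm2
  have h1 := condExp_prod_eq_cK (P := P) hC he (f := fun p : L × Z => f (w p.1, p.2))
    (hf.comp_measurable hm) hint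
  filter_upwards [h1, h.eq] with x hx1 hx2
  rw [hx1, hx2]

/-- Converse: identification of the kernel through a countable family of sets. -/
theorem of_condExp (hC : mC ≤ mL) (he : Measurable e) (hw : Measurable[mC] w)
    [IsMarkovKernel κ]
    (h : ∀ A : Set Z, MeasurableSet A →
      P[(e ⁻¹' A).indicator (fun _ => (1 : ℝ)) | mC] =ᵐ[P] fun x => (κ (w x)).real A) :
    IsEnv mC P e w κ := by
  refine ⟨hw, inferInstance, ?_⟩
  refine ae_eq_of_pi piA_pi piA_gen (fun x => isProb_cK e x) (fun x => inferInstance)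
    (fun n => ?_)
  filter_upwards [h _ (piA_meas (Z := Z) n), condExp_ind_eq_cK (P := P) hC he
    (piA_meas (Z := Z) n)] with x h1 h2
  exact (measureReal_eq_measureReal_iff).1 (by rw [← h2, h1])

/-- The law of `(w, e)`. -/
theorem map_prod (h : IsEnv mC P e w κ) (hC : mC ≤ mL) (he : Measurable e) :
    P.map (fun x => (w x, e x)) = (P.map w) ⊗ₘ κ := by
  have := h.markov
  have hw := h.measL hC
  have : IsProbabilityMeasure (P.map w) := Measure.isProbabilityMeasure_map hw.aemeasurable
  have : IsProbabilityMeasure (P.map (fun x => (w x, e x))) :=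
    Measure.isProbabilityMeasure_map (hw.prodMk he).aemeasurable
  refine Measure.ext_prod (fun {A B} hA hB => ?_)
  · show _ = _
    rw [Measure.compProd_apply_prod hA hB, Measure.map_apply (hw.prodMk he) (hA.prod hB)]
    rw [setLIntegral_map hA (Kernel.measurable_coe _ hB) hw]
    have h1 := h.condExp_ind hC he hB
    have h2 : ∫ x in w ⁻¹' A, (e ⁻¹' B).indicator (fun _ => (1 : ℝ)) x ∂P =
        ∫ x in w ⁻¹' A, (κ (w x)).real B ∂P := by
      rw [← setIntegral_condExp hC ((integrable_const (1 : ℝ)).indicator (he hB)) (h.meas hA)]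
      exact setIntegral_congr_ae (hw hA) (h1.mono fun x hx _ => hx)
    rw [integral_indicator_const _ (he hB)] at h2
    have h3 : ∫⁻ x in w ⁻¹' A, κ (w x) B ∂P = ENNReal.ofReal (∫ x in w ⁻¹' A, (κ (w x)).real B ∂P) := by
      rw [ofReal_integral_eq_lintegral_ofReal]
      · refine lintegral_congr fun x => ?_
        rw [Measure.real, ENNReal.ofReal_toReal (measure_ne_top _ _)]
      · refine Integrable.of_bound (C := 1) ?_ (ae_of_all _ fun x => ?_)
        · exact (((Kernel.measurable_coe _ hB).comp hw).ennreal_toReal).aestronglyMeasurable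
        · rw [Real.norm_of_nonneg measureReal_nonneg]; exact measureReal_le_one
      · exact ae_of_all _ fun x => measureReal_nonneg
    rw [h3, ← h2]
    simp only [smul_eq_mul, mul_one]
    rw [measureReal_restrict_apply (he hB), Measure.real,
      ENNReal.ofReal_toReal (measure_ne_top _ _), mk_preimage_prod, inter_comm]

/-- **Fibrewise independence**, hypothesis for products of indicators. -/
theorem ae_iIndepFun' (h : IsEnv mC P e w κ) (hC : mC ≤ mL) (he : Measurable e)
    {ι : Type*} [Fintype ι] {F : ι → Type*} [mF : ∀ i, MeasurableSpace (F i)]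
    [∀ i, MeasurableSpace.CountablyGenerated (F i)] {π : ∀ i, Z → F i}
    (hπ : ∀ i, Measurable (π i))
    (hI : ∀ A : ∀ i, Set (F i), (∀ i, MeasurableSet (A i)) →
      P[fun x => ∏ i, (A i).indicator (fun _ => (1 : ℝ)) (π i (e x)) | mC] =ᵐ[P]
        fun x => ∏ i, (P[fun x => (A i).indicator (fun _ => (1 : ℝ)) (π i (e x)) | mC]) x) :
    ∀ᵐ v ∂(P.map w), iIndepFun π (κ v) := by
  classical
  have := h.markov
  have hw := h.measL hC
  -- the countably many identities
  have key : ∀ n : ι → ℕ, ∀ᵐ v ∂(P.map w),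
      (κ v).real (⋂ i, π i ⁻¹' (piA (F i) (n i))) = ∏ i, (κ v).real (π i ⁻¹' (piA (F i) (n i))) := by
    intro n
    have hA : ∀ i, MeasurableSet (π i ⁻¹' (piA (F i) (n i))) := fun i => hπ i (piA_meas (n i))
    have hIA : MeasurableSet (⋂ i, π i ⁻¹' (piA (F i) (n i))) := MeasurableSet.iInter hA
    have hm : MeasurableSet {v | (κ v).real (⋂ i, π i ⁻¹' (piA (F i) (n i))) =
        ∏ i, (κ v).real (π i ⁻¹' (piA (F i) (n i)))} := by
      refine measurableSet_eq_fun ?_ ?_
      · exact (Kernel.measurable_coe _ hIA).ennreal_toReal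
      · exact Finset.measurable_fun_prod _ fun i _ =>
          (Kernel.measurable_coe _ (hA i)).ennreal_toReal
    rw [ae_map_iff hw.aemeasurable hm]
    have h1 : P[fun x => ∏ i, (e ⁻¹' (π i ⁻¹' (piA (F i) (n i)))).indicator (fun _ => (1 : ℝ)) x | mC]
        =ᵐ[P] fun x => ∏ i, (P[(e ⁻¹' (π i ⁻¹' (piA (F i) (n i)))).indicator
          (fun _ => (1 : ℝ)) | mC]) x := hI (fun i => piA (F i) (n i)) (fun i => piA_meas (n i))
    have h2 : (fun x => ∏ i, (e ⁻¹' (π i ⁻¹' (piA (F i) (n i)))).indicator (fun _ => (1 : ℝ)) x) =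
        (e ⁻¹' (⋂ i, π i ⁻¹' (piA (F i) (n i)))).indicator (fun _ => (1 : ℝ)) := by
      funext x
      by_cases hx : x ∈ e ⁻¹' (⋂ i, π i ⁻¹' (piA (F i) (n i)))
      · rw [indicator_of_mem hx]
        refine Finset.prod_eq_one fun i _ => ?_
        rw [indicator_of_mem]
        exact (mem_iInter.1 hx) i
      · rw [indicator_of_notMem hx]
        have hx' : ∃ i, e x ∉ π i ⁻¹' (piA (F i) (n i)) := by
          by_contra hcon
          push Not at hcon
          exact hx (mem_iInter.2 hcon)
        obtain ⟨i, hi⟩ := hx'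
        exact Finset.prod_eq_zero (Finset.mem_univ i)
          (indicator_of_notMem (show x ∉ e ⁻¹' (π i ⁻¹' (piA (F i) (n i))) from hi) _)
    rw [h2] at h1
    have h3 := h.condExp_ind hC he hIA
    have h4 : ∀ᵐ x ∂P, ∀ i, (P[(e ⁻¹' (π i ⁻¹' (piA (F i) (n i)))).indicator
        (fun _ => (1 : ℝ)) | mC]) x = (κ (w x)).real (π i ⁻¹' (piA (F i) (n i))) :=
      ae_all_iff.2 fun i => h.condExp_ind hC he (hA i)
    filter_upwards [h1, h3, h4] with x hx1 hx3 hx4
    rw [← hx3, hx1]
    exact Finset.prod_congr rfl fun i _ => hx4 i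
  have : Countable (ι → ℕ) := inferInstance
  filter_upwards [ae_all_iff.2 key] with v hv
  rw [iIndepFun_iff_map_fun_eq_pi_map (fun i => (hπ i).aemeasurable)]
  symm
  have hpr : ∀ i, IsProbabilityMeasure ((κ v).map (π i)) := fun i =>
    Measure.isProbabilityMeasure_map (hπ i).aemeasurable
  refine Measure.pi_eq_generateFrom (C := fun i => range (piA (F i)))
    (fun i => (piA_gen (Z := F i)).symm) (fun i => piA_pi) (fun i => ?_) ?_
  · exact
      { set := fun _ => univ
        set_mem := fun _ => piA_univ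
        finite := fun _ => measure_lt_top _ _
        spanning := iUnion_const univ }
  · intro s hs
    choose n hn using hs
    obtain rfl : s = fun i => piA (F i) (n i) := funext fun i => (hn i).symm
    have h1 := hv n
    rw [Measure.map_apply (measurable_pi_lambda _ hπ) (MeasurableSet.univ_pi fun i => piA_meas _)]
    have h2 : (fun z i => π i z) ⁻¹' (univ.pi fun i => piA (F i) (n i)) =
        ⋂ i, π i ⁻¹' (piA (F i) (n i)) := by
      ext z; simp
    rw [h2]
    have h3 : ∀ i, ((κ v).map (π i)) (piA (F i) (n i)) = (κ v) (π i ⁻¹' (piA (F i) (n i))) :=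
      fun i => Measure.map_apply (hπ i) (piA_meas _)
    simp only [h3]
    rw [← ENNReal.toReal_eq_toReal_iff' (measure_ne_top _ _)
      (ENNReal.prod_ne_top fun i _ => measure_ne_top _ _), ENNReal.toReal_prod]
    exact h1

/-- **Fibrewise independence.** -/
theorem ae_iIndepFun (h : IsEnv mC P e w κ) (hC : mC ≤ mL) (he : Measurable e)
    {ι : Type*} [Fintype ι] {F : ι → Type*} [mF : ∀ i, MeasurableSpace (F i)]
    [∀ i, MeasurableSpace.CountablyGenerated (F i)] {π : ∀ i, Z → F i}
    (hπ : ∀ i, Measurable (π i))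
    (hI : iCI P (fun i => (mF i).comap (fun x => π i (e x))) Finset.univ mC) :
    ∀ᵐ v ∂(P.map w), iIndepFun π (κ v) := by
  refine h.ae_iIndepFun' hC he hπ fun A hA => ?_
  exact hI (fun i x => (A i).indicator (fun _ => (1 : ℝ)) (π i (e x)))
    (fun i _ => (BdM.indicator (hA i)).comp)

/-- `e` is independent of the environment given `w`. -/
theorem ci (h : IsEnv mC P e w κ) (hC : mC ≤ mL) (he : Measurable e) :
    CI P (mZ.comap e) mC (mV.comap w) := by
  intro f hf
  obtain ⟨g, hg, rfl⟩ := hf.factors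
  have hle : mV.comap w ≤ mC := h.comap_le
  have hsup : mC ⊔ mV.comap w = mC := sup_eq_left.2 hle
  rw [hsup]
  have hint : Integrable (fun x => g (e x)) P := hg.comp.integrable (he.comap_le)
  have h1 := h.condExp hC he hg.meas.stronglyMeasurable hint
  have h2 : P[P[fun x => g (e x) | mC] | mV.comap w] =ᵐ[P] P[fun x => g (e x) | mV.comap w] :=
    R069.condExp_condExp hle hC
  have hmk := h.markov
  have h3 : P[P[fun x => g (e x) | mC] | mV.comap w] =ᵐ[P] P[fun x => g (e x) | mC] := by
    refine (condExp_congr_ae h1).trans ?_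
    have hm : StronglyMeasurable[mV.comap w] (fun x => ∫ z, g z ∂(κ (w x))) := by
      have h4 : StronglyMeasurable (fun v => ∫ z, g z ∂(κ v)) :=
        hg.meas.stronglyMeasurable.integral_kernel
      exact h4.comp_measurable (comap_measurable w)
    rw [condExp_of_stronglyMeasurable (hle.trans hC) hm]
    · exact h1.symm
    · exact integrable_condExp.congr h1
  exact h3.symm.trans h2

/-- **Fibrewise determinism**, joint form: if `π ∘ e` is measurable, up to null sets, with
respect to `ρ ∘ e` and the environment, then `π z = Φ (v, ρ z)` for `κ v`-a.e. `z`. -/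
theorem exists_determined (h : IsEnv mC P e w κ) (hC : mC ≤ mL) (he : Measurable e)
    {F : Type*} [mF : MeasurableSpace F] [StandardBorelSpace F] [Nonempty F]
    {G : Type*} [mG : MeasurableSpace G] {π : Z → F} (hπ : Measurable π) {ρ : Z → G}
    (hρ : Measurable ρ)
    (hd : AELe P (mF.comap (fun x => π (e x))) (mG.comap (fun x => ρ (e x)) ⊔ mC)) :
    ∃ Φ : V × G → F, Measurable Φ ∧ (∀ᵐ x ∂P, π (e x) = Φ (w x, ρ (e x))) ∧
      ∀ᵐ v ∂(P.map w), ∀ᵐ z ∂(κ v), π z = Φ (v, ρ z) := by
  have hmk := h.markov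
  have hw := h.measL hC
  -- a bounded measurable embedding of `F`
  set j : F → ℝ := fun y => ((unitInterval.sigmoid (embeddingReal F y) : unitInterval) : ℝ) with hj
  have hje : MeasurableEmbedding j :=
    (MeasurableEmbedding.subtype_coe measurableSet_Icc).comp
      (measurableEmbedding_sigmoid_comp_embeddingReal F)
  have hjb : ∀ y, |j y| ≤ 1 := by
    intro y
    have := (unitInterval.sigmoid (embeddingReal F y)).2
    rw [abs_le]; constructor <;> [linarith [this.1]; exact this.2]
  obtain ⟨j', hj'm, hj'⟩ := hje.exists_measurable_extend (measurable_id (α := F)) (fun _ => inferInstance)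
  have hj'j : ∀ y, j' (j y) = y := fun y => congrFun hj' y
  -- the sigma-algebras
  have hπe : Measurable (fun x => π (e x)) := hπ.comp he
  have hρe : Measurable (fun x => ρ (e x)) := hρ.comp he
  have hle : mV.comap w ≤ mC := h.comap_le
  have hleL : mV.comap w ≤ mL := hle.trans hC
  have h1 : BdM (mF.comap (fun x => π (e x))) (fun x => j (π (e x))) :=
    ⟨hje.measurable.comp (comap_measurable _), 1, fun x => hjb _⟩
  have h2 := hd.condExp_eq hπe.comap_le (sup_le hρe.comap_le hC) h1
  have hπle : mF.comap (fun x => π (e x)) ≤ mZ.comap e := by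
    have : (fun x => π (e x)) = π ∘ e := rfl
    rw [this, ← MeasurableSpace.comap_comp]
    exact MeasurableSpace.comap_mono hπ.comap_le
  have hρle : mG.comap (fun x => ρ (e x)) ≤ mZ.comap e := by
    have : (fun x => ρ (e x)) = ρ ∘ e := rfl
    rw [this, ← MeasurableSpace.comap_comp]
    exact MeasurableSpace.comap_mono hρ.comap_le
  -- conditional independence
  have c1 : CI P mC (mZ.comap e) (mV.comap w) := (h.ci hC he).symm he.comap_le hC hleL
  have c2 : CI P mC (mG.comap (fun x => ρ (e x)) ⊔ mZ.comap e) (mV.comap w) := by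
    rw [sup_eq_right.2 hρle]; exact c1
  have c3 := c2.weak_union hρe.comap_le he.comap_le hleL
  have c4 : CI P (mZ.comap e) mC (mG.comap (fun x => ρ (e x)) ⊔ mV.comap w) :=
    c3.symm hC he.comap_le (sup_le hρe.comap_le hleL)
  have h3 := c4 _ (h1.mono hπle)
  have hsup : mC ⊔ (mG.comap (fun x => ρ (e x)) ⊔ mV.comap w) =
      mG.comap (fun x => ρ (e x)) ⊔ mC := by
    rw [← sup_assoc, sup_comm mC, sup_assoc, sup_eq_left.2 hle]
  rw [hsup] at h3
  -- a version measurable with respect to `(w, ρ ∘ e)`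
  have hbd : BdM mL (fun x => j (π (e x))) := h1.mono hπe.comap_le
  obtain ⟨F0, hF0, hF0e⟩ := hbd.condExp_bm (μ := P) (sup_le hρe.comap_le hleL)
  have hcomap : mG.comap (fun x => ρ (e x)) ⊔ mV.comap w ≤
      (inferInstance : MeasurableSpace (V × G)).comap (fun x => (w x, ρ (e x))) := by
    refine sup_le ?_ ?_
    · rintro _ ⟨A, hA, rfl⟩
      exact ⟨Prod.snd ⁻¹' A, measurable_snd hA, rfl⟩
    · rintro _ ⟨A, hA, rfl⟩
      exact ⟨Prod.fst ⁻¹' A, measurable_fst hA, rfl⟩
  obtain ⟨Φ0, hΦ0, hΦ0e⟩ := (hF0.mono hcomap).factors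
  have h4 : ∀ᵐ x ∂P, j (π (e x)) = Φ0 (w x, ρ (e x)) := by
    filter_upwards [h2, h3, hF0e] with x hx2 hx3 hx4
    rw [← hx2, hx3, hx4, hΦ0e]
    rfl
  refine ⟨fun p => j' (Φ0 p), hj'm.comp hΦ0.meas, ?_, ?_⟩
  · filter_upwards [h4] with x hx
    rw [← hx, hj'j]
  · have hm : MeasurableSet {p : V × Z | j (π p.2) = Φ0 (p.1, ρ p.2)} := by
      refine measurableSet_eq_fun ?_ ?_
      · exact hje.measurable.comp (hπ.comp measurable_snd)
      · exact hΦ0.meas.comp (measurable_fst.prodMk (hρ.comp measurable_snd))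
    have h5 : ∀ᵐ p ∂((P.map w) ⊗ₘ κ), j (π p.2) = Φ0 (p.1, ρ p.2) := by
      rw [← h.map_prod hC he, ae_map_iff (hw.prodMk he).aemeasurable hm]
      exact h4
    have : IsProbabilityMeasure (P.map w) := Measure.isProbabilityMeasure_map hw.aemeasurable
    filter_upwards [Measure.ae_ae_of_ae_compProd h5] with v hv
    filter_upwards [hv] with z hz
    rw [← hz, hj'j]

/-- **Fibrewise determinism.** -/
theorem ae_determined (h : IsEnv mC P e w κ) (hC : mC ≤ mL) (he : Measurable e)
    {F : Type*} [mF : MeasurableSpace F] [StandardBorelSpace F] [Nonempty F]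
    {G : Type*} [mG : MeasurableSpace G] {π : Z → F} (hπ : Measurable π) {ρ : Z → G}
    (hρ : Measurable ρ)
    (hd : AELe P (mF.comap (fun x => π (e x))) (mG.comap (fun x => ρ (e x)) ⊔ mC)) :
    ∀ᵐ v ∂(P.map w), ∃ φ : G → F, Measurable φ ∧ ∀ᵐ z ∂(κ v), π z = φ (ρ z) := by
  obtain ⟨Φ, hΦ, -, h3⟩ := h.exists_determined hC he hπ hρ hd
  filter_upwards [h3] with v hv
  exact ⟨fun g => Φ (v, g), hΦ.comp measurable_prodMk_left, hv⟩

/-- Determinism, hypothesis in terms of preimages. -/
theorem exists_determined' (h : IsEnv mC P e w κ) (hC : mC ≤ mL) (he : Measurable e)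
    {F : Type*} [mF : MeasurableSpace F] [StandardBorelSpace F] [Nonempty F]
    {G : Type*} [mG : MeasurableSpace G] {π : Z → F} (hπ : Measurable π) {ρ : Z → G}
    (hρ : Measurable ρ)
    (hd : ∀ A, MeasurableSet A → ∃ B, MeasurableSet[mG.comap (fun x => ρ (e x)) ⊔ mC] B ∧
      (fun x => π (e x)) ⁻¹' A =ᵐ[P] B) :
    ∃ Φ : V × G → F, Measurable Φ ∧ (∀ᵐ x ∂P, π (e x) = Φ (w x, ρ (e x))) ∧
      ∀ᵐ v ∂(P.map w), ∀ᵐ z ∂(κ v), π z = Φ (v, ρ z) := by
  refine h.exists_determined hC he hπ hρ ?_
  rintro _ ⟨A, hA, rfl⟩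
  exact hd A hA

/-- Identification of the law of a function of `e` given the environment. -/
theorem ae_map_eq (h : IsEnv mC P e w κ) (hC : mC ≤ mL) (he : Measurable e)
    {Y : Type*} [mY : MeasurableSpace Y] [MeasurableSpace.CountablyGenerated Y]
    {U : Type*} [mU : MeasurableSpace U] {g : Z → Y} (hg : Measurable g)
    {η : Kernel U Y} [IsMarkovKernel η] {q : L → U} {q' : V → U} (hq' : Measurable q')
    (hqq : ∀ᵐ x ∂P, q x = q' (w x))
    (hη : ∀ A : Set Y, MeasurableSet A →
      P[((fun x => g (e x)) ⁻¹' A).indicator (fun _ => (1 : ℝ)) | mC] =ᵐ[P]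
        fun x => (η (q x)).real A) :
    ∀ᵐ v ∂(P.map w), (κ v).map g = η (q' v) := by
  have := h.markov
  have hw := h.measL hC
  refine ae_eq_of_pi piA_pi piA_gen
    (fun v => Measure.isProbabilityMeasure_map hg.aemeasurable) (fun v => inferInstance)
    (fun n => ?_)
  have hA := piA_meas (Z := Y) n
  have hm : MeasurableSet {v | (κ v).real (g ⁻¹' piA Y n) = (η (q' v)).real (piA Y n)} := by
    refine measurableSet_eq_fun ?_ ?_
    · exact (Kernel.measurable_coe _ (hg hA)).ennreal_toReal
    · exact ((Kernel.measurable_coe _ hA).comp hq').ennreal_toReal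
  have h1 : ∀ᵐ v ∂(P.map w), (κ v).real (g ⁻¹' piA Y n) = (η (q' v)).real (piA Y n) := by
    rw [ae_map_iff hw.aemeasurable hm]
    have h2 := h.condExp_ind hC he (hg hA)
    filter_upwards [h2, hη _ hA, hqq] with x hx1 hx2 hx3
    rw [← hx1, ← hx3, ← hx2]
    rfl
  filter_upwards [h1] with v hv
  rw [Measure.map_apply hg hA]
  exact (measureReal_eq_measureReal_iff).1 hv

end IsEnv

/-! ### Rows: `Z = R → E` -/

theorem comap_pi_eq_iSup {Ω ι : Type*} {F : ι → Type*} [mF : ∀ i, MeasurableSpace (F i)]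
    (f : ∀ i, Ω → F i) :
    (inferInstance : MeasurableSpace (∀ i, F i)).comap (fun x i => f i x) =
      ⨆ i, (mF i).comap (f i) := by
  show MeasurableSpace.comap _ (⨆ i, (mF i).comap (fun g : ∀ i, F i => g i)) = _
  rw [MeasurableSpace.comap_iSup]
  refine iSup_congr fun i => ?_
  rw [MeasurableSpace.comap_comp]
  rfl

/-- from a finset family to the family indexed by the subtype. -/
theorem iCI_subtype {Ω ι : Type*} {mΩ : MeasurableSpace Ω} {μ : Measure Ω}
    {M : ι → MeasurableSpace Ω} {s : Finset ι} {m : MeasurableSpace Ω} (p : ι → Prop)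
    [Fintype {i // p i}] (hs : ∀ i, i ∈ s ↔ p i) (h : iCI μ M s m) :
    iCI μ (fun i : {i // p i} => M i) Finset.univ m := by
  classical
  intro F hF
  let G : ι → Ω → ℝ := fun i => if hi : p i then F ⟨i, hi⟩ else fun _ => 1
  have hG : ∀ i ∈ s, BdM (M i) (G i) := by
    intro i hi
    have hp := (hs i).1 hi
    simpa [G, hp] using hF ⟨i, hp⟩ (Finset.mem_univ _)
  have h1 := h G hG
  have e1 : ∀ (Φ : ι → Ω → ℝ) (x : Ω), ∏ i ∈ s, Φ i x = ∏ i : {i // p i}, Φ i x := by
    intro Φ x
    exact Finset.prod_subtype s hs (fun i => Φ i x)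
  have e2 : (fun x => ∏ i ∈ s, G i x) = fun x => ∏ i : {i // p i}, F i x := by
    funext x
    rw [e1]
    exact Finset.prod_congr rfl fun i _ => by simp [G, i.2]
  have e3 : (fun x => ∏ i ∈ s, (μ[G i | m]) x) = fun x => ∏ i : {i // p i}, (μ[F i | m]) x := by
    funext x
    rw [e1 (fun i => μ[G i | m])]
    exact Finset.prod_congr rfl fun i _ => by simp [G, i.2]
  rwa [e2, e3] at h1

section row

variable {R : Type*} [Fintype R] [DecidableEq R] {E : Type*} [mE : MeasurableSpace E]
  [StandardBorelSpace E] [Nonempty E] {e : L → R → E} {w : L → V} {κ : Kernel V (R → E)}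

/-- **ARR1, rows**: any `r - 1` of the coordinates are independent and each coordinate is a
function of the others, at a.e. point of the environment. -/
theorem IsEnv.row (h : IsEnv mC P e w κ) (hC : mC ≤ mL) (he : Measurable e)
    (hind : ∀ i0 : R, iCI P (fun i => mE.comap (fun x => e x i)) (Finset.univ.erase i0) mC)
    (hdet : ∀ i : R, AELe P (mE.comap (fun x => e x i))
      ((⨆ j : {j // j ≠ i}, mE.comap (fun x => e x j)) ⊔ mC)) :
    ∀ᵐ v ∂(P.map w),
      (∀ i0 : R, iIndepFun (fun (i : {i // i ≠ i0}) (z : R → E) => z i) (κ v)) ∧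
      (∀ i : R, ∃ φ : ({j // j ≠ i} → E) → E, Measurable φ ∧
        ∀ᵐ z ∂(κ v), z i = φ (fun j => z j)) := by
  have h1 : ∀ i0 : R, ∀ᵐ v ∂(P.map w),
      iIndepFun (fun (i : {i // i ≠ i0}) (z : R → E) => z i) (κ v) := by
    intro i0
    refine h.ae_iIndepFun hC he (π := fun (i : {i // i ≠ i0}) (z : R → E) => z i)
      (fun i => measurable_pi_apply _) ?_
    exact iCI_subtype (fun i => i ≠ i0) (by simp) (hind i0)
  have h2 : ∀ i : R, ∀ᵐ v ∂(P.map w), ∃ φ : ({j // j ≠ i} → E) → E, Measurable φ ∧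
        ∀ᵐ z ∂(κ v), z i = φ (fun j => z j) := by
    intro i
    refine h.ae_determined hC he (π := fun z => z i) (measurable_pi_apply i)
      (ρ := fun z (j : {j // j ≠ i}) => z j) (measurable_pi_lambda _ fun j => measurable_pi_apply _)
      ?_
    have := hdet i
    rw [← comap_pi_eq_iSup (fun (j : {j // j ≠ i}) x => e x j)] at this
    exact this
  filter_upwards [ae_all_iff.2 h1, ae_all_iff.2 h2] with v a b using ⟨a, b⟩

end row

end IsEnv

section transfer

/-- Transfer of an a.e. statement (about an arbitrary, possibly non-measurable, predicate) through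
a measurable map between standard Borel spaces. -/
theorem ae_map_of_ae {Δ V : Type*} [MeasurableSpace Δ] [StandardBorelSpace Δ] [MeasurableSpace V]
    [StandardBorelSpace V] (ν : Measure Δ) [IsProbabilityMeasure ν] {q : Δ → V}
    (hq : Measurable q) {Q : V → Prop} (h : ∀ᵐ δ ∂ν, Q (q δ)) : ∀ᵐ v ∂(ν.map q), Q v := by
  have hne : Nonempty Δ := by
    by_contra hcon
    rw [not_nonempty_iff] at hcon
    have : ν univ = 0 := by rw [Subsingleton.elim (univ : Set Δ) ∅]; simp
    rw [measure_univ] at this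
    exact one_ne_zero this
  obtain ⟨N, hN, hNm, hN0⟩ := exists_measurable_superset_of_null (ae_iff.1 h)
  set κ := condDistrib id q ν with hκ
  have hlaw : (ν.map q) ⊗ₘ κ = ν.map (fun δ => (q δ, id δ)) :=
    compProd_map_condDistrib aemeasurable_id
  have hm : MeasurableSet {p : V × Δ | q p.2 = p.1 ∧ p.2 ∉ N} := by
    refine MeasurableSet.inter ?_ ?_
    · exact measurableSet_eq_fun (hq.comp measurable_snd) measurable_fst
    · exact (measurable_snd hNm).compl
  have h1 : ∀ᵐ p ∂((ν.map q) ⊗ₘ κ), q p.2 = p.1 ∧ p.2 ∉ N := by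
    rw [hlaw, ae_map_iff (hq.prodMk measurable_id).aemeasurable hm]
    have : ∀ᵐ δ ∂ν, δ ∉ N := by
      rw [ae_iff]; simpa using hN0
    filter_upwards [this] with δ hδ using ⟨rfl, hδ⟩
  have : IsProbabilityMeasure (ν.map q) := Measure.isProbabilityMeasure_map hq.aemeasurable
  filter_upwards [Measure.ae_ae_of_ae_compProd h1] with v hv
  obtain ⟨δ, hδ1, hδ2⟩ := hv.exists
  by_contra hQ
  refine hδ2 (hN ?_)
  show ¬ Q (q δ)
  rwa [show q δ = v from hδ1]

end transfer

end Crest.Agent.R069.Arr
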