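import Mathlib

/-! Row 69, module END: abstract data at ONE fibre of a closed pair, and its conclusion.
`X` is the mixing system (`S n` = `T^n`, `n : ℤ`), `Ω = E_c` a fibre, `pr : Ω → X` the factor map,
`N` an abstract abelian group of characters, `ev χ` the unimodular function of `χ`, `al` the
action of `T` transported to the fibre. -/

open MeasureTheory Filter Topology

namespace Crest.Agent.R069.End

/-- bounded measurable complex functions -/
def BM {X : Type*} [MeasurableSpace X] (h : X → ℂ) : Prop :=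
  Measurable h ∧ ∃ C : ℝ, ∀ x, ‖h x‖ ≤ C

/-- a `ℤ`-action by measure preserving maps -/
structure Act {X : Type*} [MeasurableSpace X] (μ : Measure X) (S : ℤ → X → X) : Prop where
  mp : ∀ n, MeasurePreserving (S n) μ μ
  add : ∀ a b x, S (a + b) x = S a (S b x)
  zero : ∀ x, S 0 x = x

/-- mixing, in the form used by END -/
def Mix {X : Type*} [MeasurableSpace X] (μ : Measure X) (S : ℤ → X → X) : Prop :=
  ∀ f g : X → ℂ, BM f → BM g →
    Tendsto (fun n : ℕ => ∫ x, f x * g (S n x) ∂μ) atTop (𝓝 ((∫ x, f x ∂μ) * ∫ x, g x ∂μ))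

/-- mixing of all orders (integer times, complex functions) -/
def MixAll {X : Type*} [MeasurableSpace X] (μ : Measure X) (S : ℤ → X → X) : Prop :=
  ∀ (I : Type) [Fintype I] (s : I → ℕ → ℤ),
    (∀ i j, i ≠ j → Tendsto (fun k => |s i k - s j k|) atTop atTop) →
    ∀ f : I → X → ℂ, (∀ i, BM (f i)) →
      Tendsto (fun k => ∫ x, ∏ i, f i (S (s i k) x) ∂μ) atTop (𝓝 (∏ i, ∫ x, f i x ∂μ))

/-- the data produced by the structure theory at one fibre -/
structure Data {X Ω : Type*} [MeasurableSpace X] [MeasurableSpace Ω]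
    (μ : Measure X) (S : ℤ → X → X) (P : Measure Ω) (N : Type*) [CommGroup N] where
  pr : Ω → X
  mp : MeasurePreserving pr P μ
  ev : N → Ω → ℂ
  ev_meas : ∀ χ, AEStronglyMeasurable (ev χ) P
  ev_norm : ∀ χ, ∀ᵐ w ∂P, ‖ev χ w‖ = 1
  ev_mul : ∀ χ ψ, ∀ᵐ w ∂P, ev (χ * ψ) w = ev χ w * ev ψ w
  /-- a character with non zero mean is constant -/
  ev_mean : ∀ χ, ∫ w, ev χ w ∂P ≠ 0 → ∃ z : ℂ, ∀ᵐ w ∂P, ev χ w = z
  /-- functions on `X` are in the closed span of the characters -/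
  span : ∀ h : X → ℂ, BM h → ∀ ε > 0, ∃ (F : Finset N) (c : N → ℂ),
    ∫ w, ‖h (pr w) - ∑ χ ∈ F, c χ * ev χ w‖ ^ 2 ∂P < ε
  al : MulAut N
  /-- constants are fixed by `al` and by its inverse -/
  al_const : ∀ χ, ∀ z : ℂ, (∀ᵐ w ∂P, ev χ w = z) ↔ (∀ᵐ w ∂P, ev (al χ) w = z)
  al_pair : ∀ h : X → ℂ, BM h → ∀ χ,
    ∫ w, h (S 1 (pr w)) * (starRingEnd ℂ) (ev (al χ) w) ∂P =
      ∫ w, h (pr w) * (starRingEnd ℂ) (ev χ w) ∂P

/-- the algebraic input (9b), multiplicative form -/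
def AlgFar.{u} : Prop :=
  ∀ (L : Type u) [CommGroup L] (t : MulAut L),
    (∀ x : L, ∀ r : ℕ, 0 < r → (t ^ r) x = x → x = 1) →
    ∀ (I : Type) [Fintype I] (x : I → L) (s : I → ℕ → ℤ),
      (∀ i j, i ≠ j → Tendsto (fun k => |s i k - s j k|) atTop atTop) →
      (∃ᶠ k in atTop, ∏ i, (t ^ (s i k)) (x i) = 1) → ∀ i, x i = 1

end Crest.Agent.R069.End
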