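import Mathlib
import Crest.Agent.R069.Arr3Core
import Crest.Agent.R069.Desc
import Crest.Agent.R069.ArrFib

/-! Row 69, node N-H (helper93): row characters, lemma G, and the hypotheses `Desc.Hyp`. -/

set_option linter.unusedVariables false
set_option linter.unusedSectionVars false

open MeasureTheory ProbabilityTheory Filter
open scoped ComplexConjugate ENNReal

namespace Crest.Agent.R069.Arr3

section rowch

variable {E E' J : Type*} [MeasurableSpace E] [MeasurableSpace E'] [Fintype J] [DecidableEq J]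

/-- row characters (same shape as `RowChar` of the static theorem) -/
def RowCh (ρ : Measure (J → E)) (j0 : J) : Set (E → ℂ) :=
  {χ | Measurable χ ∧ (∀ e, ‖χ e‖ = 1) ∧ ∃ g : J → E → ℂ, (∀ j, Measurable (g j)) ∧
    (∀ j e, ‖g j e‖ = 1) ∧ ∀ᵐ y ∂ρ, χ (y j0) = ∏ j ∈ Finset.univ.erase j0, g j (y j)}

/-- any `card J - 1` coordinates are independent -/
def Ind1 (ρ : Measure (J → E)) : Prop :=
  ∀ j0 : J, iIndepFun (fun (j : {j : J // j ≠ j0}) (y : J → E) => y j) ρ

theorem RowCh.meas {ρ : Measure (J → E)} {j0 : J} {χ : E → ℂ} (h : χ ∈ RowCh ρ j0) :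
    Measurable χ := h.1

theorem RowCh.norm {ρ : Measure (J → E)} {j0 : J} {χ : E → ℂ} (h : χ ∈ RowCh ρ j0) (e : E) :
    ‖χ e‖ = 1 := h.2.1 e

theorem RowCh.mul {ρ : Measure (J → E)} {j0 : J} {χ χ' : E → ℂ} (h : χ ∈ RowCh ρ j0)
    (h' : χ' ∈ RowCh ρ j0) : (fun e => χ e * χ' e) ∈ RowCh ρ j0 := by
  obtain ⟨m, n, g, gm, gn, hg⟩ := h
  obtain ⟨m', n', g', gm', gn', hg'⟩ := h'
  refine ⟨m.mul m', fun e => by rw [norm_mul, n, n', one_mul], fun j e => g j e * g' j e,
    fun j => (gm j).mul (gm' j), fun j e => by rw [norm_mul, gn, gn', one_mul], ?_⟩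
  filter_upwards [hg, hg'] with y hy hy'
  rw [hy, hy', Finset.prod_mul_distrib]

theorem RowCh.conj {ρ : Measure (J → E)} {j0 : J} {χ : E → ℂ} (h : χ ∈ RowCh ρ j0) :
    (fun e => conj (χ e)) ∈ RowCh ρ j0 := by
  obtain ⟨m, n, g, gm, gn, hg⟩ := h
  refine ⟨Complex.continuous_conj.measurable.comp m, fun e => by rw [RCLike.norm_conj, n],
    fun j e => conj (g j e), fun j => Complex.continuous_conj.measurable.comp (gm j),
    fun j e => by rw [RCLike.norm_conj, gn], ?_⟩
  filter_upwards [hg] with y hy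
  rw [hy, map_prod]

theorem RowCh.const {ρ : Measure (J → E)} {j0 j1 : J} (hj : j1 ≠ j0) {c : ℂ} (hc : ‖c‖ = 1) :
    (fun _ => c) ∈ RowCh ρ j0 := by
  refine ⟨measurable_const, fun _ => hc, fun j _ => if j = j1 then c else 1,
    fun j => measurable_const, fun j e => ?_, Eventually.of_forall fun y => ?_⟩
  · by_cases h : j = j1 <;> simp [h, hc]
  · rw [Finset.prod_ite_eq' (Finset.univ.erase j0) j1 (fun _ => c)]
    simp [hj]

theorem RowCh.pull {ρ : Measure (J → E')} {j0 : J} {f : E' → E} (hf : Measurable f) {χ : E → ℂ}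
    (h : χ ∈ RowCh (ρ.map fun y j => f (y j)) j0) : (fun e => χ (f e)) ∈ RowCh ρ j0 := by
  obtain ⟨m, n, g, gm, gn, hg⟩ := h
  have hF : Measurable (fun (y : J → E') j => f (y j)) := by fun_prop
  refine ⟨m.comp hf, fun e => n _, fun j e => g j (f e), fun j => (gm j).comp hf,
    fun j e => gn _ _, ?_⟩
  exact ae_of_ae_map hF.aemeasurable hg

/-- **Lemma O**: a row character is constant or has mean zero -/
theorem RowCh.cz {ρ : Measure (J → E)} [IsProbabilityMeasure ρ] (hJ : 3 ≤ Fintype.card J)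
    (hI : Ind1 ρ) {j0 : J} {χ : E → ℂ} (h : χ ∈ RowCh ρ j0) :
    (∃ z, ∀ᵐ y ∂ρ, χ (y j0) = z) ∨ ∫ y, χ (y j0) ∂ρ = 0 := by
  obtain ⟨m, n, g, gm, gn, hg⟩ := h
  let φ : J → E → ℂ := fun j e => if j = j0 then χ e else conj (g j e)
  have hφm : ∀ j, Measurable (φ j) := by
    intro j
    by_cases hj : j = j0
    · simp only [φ, hj, if_true]; exact m
    · simp only [φ, hj, if_false]; exact Complex.continuous_conj.measurable.comp (gm j)
  have hφn : ∀ j e, ‖φ j e‖ = 1 := by
    intro j e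
    by_cases hj : j = j0
    · simp only [φ, hj, if_true]; exact n e
    · simp only [φ, hj, if_false]; rw [RCLike.norm_conj]; exact gn j e
  have := const_or_mean_zero (P := ρ) hJ (u := fun j y => φ j (y j))
    (fun j => (hφm j).comp (measurable_pi_apply j))
    (fun j => Eventually.of_forall fun y => hφn _ _)
    (fun j1 => (hI j1).comp (fun (j : {j // j ≠ j1}) => φ j) fun j => hφm _) (θ := 1) ?_ j0
  · simpa only [φ, if_true] using this
  · filter_upwards [hg] with y hy
    rw [← Finset.mul_prod_erase _ _ (Finset.mem_univ j0)]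
    simp only [φ, if_true]
    rw [hy, ← Finset.prod_mul_distrib]
    refine Finset.prod_eq_one fun j hj => ?_
    rw [if_neg (Finset.ne_of_mem_erase hj)]
    exact conj_mul_self_of_norm (gn j _)

theorem RowCh.cz_map {ρ : Measure (J → E)} [IsProbabilityMeasure ρ] (hJ : 3 ≤ Fintype.card J)
    (hI : Ind1 ρ) {j0 : J} {χ : E → ℂ} (h : χ ∈ RowCh ρ j0) :
    (∃ z, ∀ᵐ e ∂(ρ.map fun y => y j0), χ e = z) ∨ ∫ e, χ e ∂(ρ.map fun y => y j0) = 0 := by
  rcases RowCh.cz hJ hI h with ⟨z, hz⟩ | h0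
  · left
    refine ⟨z, ?_⟩
    have hm : Measurable fun y : J → E => y j0 := measurable_pi_apply j0
    exact (ae_map_iff hm.aemeasurable (h.1 (measurableSet_singleton z))).2 hz
  · right
    have hm : Measurable fun y : J → E => y j0 := measurable_pi_apply j0
    rw [integral_map hm.aemeasurable h.1.aestronglyMeasurable]
    exact h0

/-- **Lemma G** -/
theorem RowCh.cz2 {ρ : Measure (J → E × E)} [IsProbabilityMeasure ρ] (hJ : 3 ≤ Fintype.card J)
    (hI : Ind1 ρ) {j0 : J} {χ χ' : E → ℂ} (h : χ ∈ RowCh (ρ.map fun y j => (y j).1) j0)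
    (h' : χ' ∈ RowCh (ρ.map fun y j => (y j).2) j0) :
    (∃ c : ℂ, ∀ᵐ z ∂(ρ.map fun y => y j0), χ z.1 * (starRingEnd ℂ) (χ' z.2) = c) ∨
      ∫ z, χ z.1 * (starRingEnd ℂ) (χ' z.2) ∂(ρ.map fun y => y j0) = 0 := by
  have h1 := RowCh.pull measurable_fst h
  have h2 := RowCh.conj (RowCh.pull measurable_snd h')
  exact RowCh.cz_map hJ hI (RowCh.mul h1 h2)

theorem RowCh.T_iff {ρ : Measure (J → E)} {j0 : J} (T : E ≃ᵐ E) (χ : E → ℂ) :
    χ ∈ RowCh (ρ.map fun y j => T (y j)) j0 ↔ (fun e => χ (T e)) ∈ RowCh ρ j0 := by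
  constructor
  · exact RowCh.pull T.measurable
  · intro h
    have hT : Measurable (fun (y : J → E) j => T (y j)) := by fun_prop
    have hT' : Measurable (fun (y : J → E) j => T.symm (y j)) := by fun_prop
    have h1 : ((ρ.map fun y j => T (y j)).map fun y j => T.symm (y j)) = ρ := by
      rw [Measure.map_map hT' hT]
      convert Measure.map_id
      funext y j
      simp
    rw [← h1] at h
    have := RowCh.pull T.symm.measurable h
    simpa using this

/-- from density of the row characters to totality -/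
theorem total_of_dense {P : Measure E} [IsProbabilityMeasure P] {C : Set (E → ℂ)}
    (hC : ∀ χ ∈ C, Measurable χ ∧ ∀ e, ‖χ e‖ = 1)
    (hd : ∀ h : E → ℂ, Measurable h → (∃ B, ∀ e, ‖h e‖ ≤ B) → ∀ ε > 0,
      ∃ (F : Finset (E → ℂ)) (a : (E → ℂ) → ℂ), (∀ f ∈ F, f ∈ C) ∧
        ∫ e, ‖h e - ∑ f ∈ F, a f * f e‖ ^ 2 ∂P < ε)
    {f : E → ℂ} (hf : MemLp f 2 P) (h0 : ∀ χ ∈ C, ∫ e, f e * conj (χ e) ∂P = 0) : f =ᵐ[P] 0 := by
  have hfi : Integrable f P := hf.integrable (by norm_num)
  have key : ∀ s, MeasurableSet s → ∫ e in s, f e ∂P = 0 := by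
    intro s hs
    have hh : Measurable (s.indicator (fun _ => (1 : ℂ))) := measurable_const.indicator hs
    have hbd : ∀ e, ‖s.indicator (fun _ => (1 : ℂ)) e‖ ≤ 1 := by
      intro e
      by_cases he : e ∈ s <;> simp [he]
    -- the bound
    have hbound : ∀ ε > 0, ‖∫ e in s, f e ∂P‖ ≤ (∫ e, ‖f e‖ ^ 2 ∂P) ^ ((1:ℝ)/2) * ε ^ ((1:ℝ)/2) := by
      intro ε hε
      obtain ⟨F, a, hF, hlt⟩ := hd _ hh ⟨1, hbd⟩ ε hε
      set S : E → ℂ := fun e => ∑ f ∈ F, a f * f e with hS
      have hSm : Measurable S := Finset.measurable_fun_sum F fun χ hχ => (hC χ (hF χ hχ)).1.const_mul _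
      have hSb : ∀ e, ‖S e‖ ≤ ∑ χ ∈ F, ‖a χ‖ := by
        intro e
        refine (norm_sum_le _ _).trans (Finset.sum_le_sum fun χ hχ => ?_)
        rw [norm_mul, (hC χ (hF χ hχ)).2 e, mul_one]
      have hSi : ∫ e, f e * conj (S e) ∂P = 0 := by
        have : (fun e => f e * conj (S e)) = fun e => ∑ χ ∈ F, conj (a χ) * (f e * conj (χ e)) := by
          funext e
          simp only [hS, map_sum, map_mul, Finset.mul_sum]
          exact Finset.sum_congr rfl fun χ _ => by ring
        rw [this, integral_finsetSum]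
        · refine Finset.sum_eq_zero fun χ hχ => ?_
          rw [integral_const_mul, h0 χ (hF χ hχ), mul_zero]
        · intro χ hχ
          refine Integrable.const_mul ?_ _
          refine hfi.mul_bdd (c := 1) ?_ (Eventually.of_forall fun e => ?_)
          · exact (Complex.continuous_conj.measurable.comp (hC χ (hF χ hχ)).1).aestronglyMeasurable
          · rw [RCLike.norm_conj, (hC χ (hF χ hχ)).2]
      set d : E → ℂ := fun e => s.indicator (fun _ => (1 : ℂ)) e - S e with hdd
      have hdm : Measurable d := hh.sub hSm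
      have hdb : ∀ e, ‖d e‖ ≤ 1 + ∑ χ ∈ F, ‖a χ‖ := fun e =>
        (norm_sub_le _ _).trans (add_le_add (hbd e) (hSb e))
      have hdL : MemLp d 2 P := MemLp.of_bound hdm.aestronglyMeasurable _
        (Eventually.of_forall hdb)
      have e1 : ∫ e in s, f e ∂P = ∫ e, f e * conj (d e) ∂P := by
        have e2 : ∫ e in s, f e ∂P = ∫ e, f e * conj (s.indicator (fun _ => (1 : ℂ)) e) ∂P := by
          rw [← integral_indicator hs]
          congr 1
          funext e
          by_cases he : e ∈ s <;> simp [he]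
        rw [e2, ← sub_zero (∫ e, f e * conj (s.indicator (fun _ => (1 : ℂ)) e) ∂P), ← hSi,
          ← integral_sub]
        · congr 1
          funext e
          simp only [hdd, map_sub]
          ring
        · refine hfi.mul_bdd (c := 1) ?_ (Eventually.of_forall fun e => ?_)
          · exact (Complex.continuous_conj.measurable.comp hh).aestronglyMeasurable
          · rw [RCLike.norm_conj]; exact hbd e
        · refine hfi.mul_bdd (c := ∑ χ ∈ F, ‖a χ‖) ?_ (Eventually.of_forall fun e => ?_)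
          · exact (Complex.continuous_conj.measurable.comp hSm).aestronglyMeasurable
          · rw [RCLike.norm_conj]; exact hSb e
      rw [e1]
      calc ‖∫ e, f e * conj (d e) ∂P‖ ≤ ∫ e, ‖f e * conj (d e)‖ ∂P := norm_integral_le_integral_norm _
        _ = ∫ e, ‖f e‖ * ‖d e‖ ∂P := by simp only [norm_mul, RCLike.norm_conj]
        _ ≤ (∫ e, ‖f e‖ ^ (2:ℝ) ∂P) ^ ((1:ℝ)/2) * (∫ e, ‖d e‖ ^ (2:ℝ) ∂P) ^ ((1:ℝ)/2) := by
            have hpq : Real.HolderConjugate 2 2 := Real.HolderConjugate.two_two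
            have := integral_mul_norm_le_Lp_mul_Lq (μ := P) hpq (f := f) (g := d)
              (by simpa using hf) (by simpa using hdL)
            simpa using this
        _ ≤ (∫ e, ‖f e‖ ^ 2 ∂P) ^ ((1:ℝ)/2) * ε ^ ((1:ℝ)/2) := by
            have e3 : ∀ (u : E → ℂ), (∫ e, ‖u e‖ ^ (2:ℝ) ∂P) = ∫ e, ‖u e‖ ^ 2 ∂P := fun u => by
              congr 1; funext e; exact Real.rpow_two _
            rw [e3, e3]
            gcongr
    have hz : ‖∫ e in s, f e ∂P‖ ≤ 0 := by
      have hlim : Tendsto (fun ε : ℝ => (∫ e, ‖f e‖ ^ 2 ∂P) ^ ((1:ℝ)/2) * ε ^ ((1:ℝ)/2))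
          (nhdsWithin 0 (Set.Ioi 0)) (nhds ((∫ e, ‖f e‖ ^ 2 ∂P) ^ ((1:ℝ)/2) * (0:ℝ) ^ ((1:ℝ)/2))) := by
        refine Tendsto.const_mul _ ?_
        have : ContinuousAt (fun ε : ℝ => ε ^ ((1:ℝ)/2)) 0 :=
          Real.continuousAt_rpow_const 0 _ (Or.inr (by norm_num))
        exact this.tendsto.mono_left nhdsWithin_le_nhds
      rw [Real.zero_rpow (by norm_num), mul_zero] at hlim
      exact ge_of_tendsto hlim (by
        filter_upwards [self_mem_nhdsWithin] with ε hε
        exact hbound ε hε)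
    exact norm_le_zero_iff.1 hz
  exact ae_eq_zero_of_forall_setIntegral_eq_of_sigmaFinite
    (fun s _ _ => hfi.integrableOn) (fun s hs _ => key s hs)

end rowch

section assembly

open Crest.Agent.R069.Arr (env kap shift W)

theorem IsEnv.of_arr {L Z V : Type*} {mC : MeasurableSpace L} [mL : MeasurableSpace L]
    [MeasurableSpace Z] [StandardBorelSpace Z] [Nonempty Z] [MeasurableSpace V] {P : Measure L}
    [IsProbabilityMeasure P] {z : L → Z} {w : L → V} {κ : Kernel V Z} (hC : mC ≤ mL)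
    (hz : Measurable z) (h : Arr.IsEnv mC P z w κ) : IsEnv mC P z w κ where
  hC := hC
  mz := hz
  mw := h.meas
  law s hs := h.condExp_ind hC hz hs

end assembly

end Crest.Agent.R069.Arr3
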