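import Mathlib
import Crest.Agent.R069.Arr3Hyp

/-! Row 69, node N-H (helper93): the hypotheses `Desc.Hyp` (H1)-(H8) from two copies. -/

set_option linter.unusedVariables false
set_option linter.unusedSectionVars false

open MeasureTheory ProbabilityTheory Filter
open scoped ComplexConjugate ENNReal

namespace Crest.Agent.R069.Arr3

open Crest.Agent.R069.Arr (env kap shift W isEnv_env kap_shift env_shift measurable_env
  measurable_shift)

/-- The row properties used on the first level: `L1` (later `Lb E`), `C1` (later `LL C`),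
`e x i` the site variables, `S` the action. -/
structure OneCopy {L1 E X R : Type*} (C1 : MeasurableSpace L1) [mL1 : MeasurableSpace L1]
    [mE : MeasurableSpace E] [mX : MeasurableSpace X] [Fintype R] [DecidableEq R]
    (P1 : Measure L1) (S : ℤ → L1 → L1) (e : L1 → R → E) (T : E ≃ᵐ E) (π : E → X)
    (μX : Measure X) (TX : X → X) (j0 : R) : Prop where
  hC : C1 ≤ mL1
  me : Measurable e
  mp : ∀ n, MeasurePreserving (S n) P1 P1
  add : ∀ a b x, S (a + b) x = S a (S b x)
  zero : ∀ x, S 0 x = x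
  SC : ∀ n, Measurable[C1, C1] (S n)
  eT : ∀ᵐ x ∂P1, e (S 1 x) = fun i => T (e x i)
  mπ : Measurable π
  mTX : Measurable TX
  lawX : P1.map (fun x => π (e x j0)) = μX
  indX : Indep (mX.comap (fun x => π (e x j0))) C1 P1
  πT : ∀ᵐ x ∂P1, π (T (e x j0)) = TX (π (e x j0))
  ind : ∀ i0 : R, iCI P1 (fun i => mE.comap (fun x => e x i)) (Finset.univ.erase i0) C1

/-- The second level: two measure preserving maps `q, q' : L2 → L1`. -/
structure TwoCopies {L1 L2 E X R : Type*} (C1 : MeasurableSpace L1) (C2 : MeasurableSpace L2)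
    [mL1 : MeasurableSpace L1] [mL2 : MeasurableSpace L2]
    [mE : MeasurableSpace E] [mX : MeasurableSpace X] [Fintype R] [DecidableEq R]
    (P1 : Measure L1) (P2 : Measure L2) (q q' : L2 → L1) (e : L1 → R → E) (π : E → X)
    (j0 : R) : Prop where
  hC2 : C2 ≤ mL2
  mq : MeasurePreserving q P2 P1
  mq' : MeasurePreserving q' P2 P1
  le : C1.comap q ≤ C2
  le' : C1.comap q' ≤ C2
  indCC : Indep (C1.comap q) (C1.comap q') P2
  S1 : ∀ F : L1 → ℝ, Measurable F → (∃ C, ∀ x, |F x| ≤ C) →
    P2[fun x => F (q x) | C2] =ᵐ[P2] fun x => (P1[F | C1]) (q x)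
  S1' : ∀ F : L1 → ℝ, Measurable F → (∃ C, ∀ x, |F x| ≤ C) →
    P2[fun x => F (q' x) | C2] =ᵐ[P2] fun x => (P1[F | C1]) (q' x)
  XX : ∀ᵐ x ∂P2, π (e (q x) j0) = π (e (q' x) j0)
  ind2 : ∀ i0 : R, iCI P2 (fun i => (inferInstance : MeasurableSpace (E × E)).comap
    (fun x => (e (q x) i, e (q' x) i))) (Finset.univ.erase i0) C2

section

variable {L1 L2 E X R : Type*} {C1 : MeasurableSpace L1} {C2 : MeasurableSpace L2}
    [mL1 : MeasurableSpace L1] [mL2 : MeasurableSpace L2]
    [mE : MeasurableSpace E] [StandardBorelSpace E] [Nonempty E]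
    [mX : MeasurableSpace X] [StandardBorelSpace X] [Fintype R] [DecidableEq R]
    {P1 : Measure L1} {P2 : Measure L2} [IsProbabilityMeasure P1] [IsProbabilityMeasure P2]
    {S : ℤ → L1 → L1} {e : L1 → R → E} {T : E ≃ᵐ E} {π : E → X}
    {μX : Measure X} {TX : X → X} {j0 : R} {q q' : L2 → L1}

/-- the environment variable of the first level (no extra functions needed) -/
noncomputable abbrev env1 (C1 : MeasurableSpace L1) {mL1 : MeasurableSpace L1} (P1 : Measure L1)
    [IsProbabilityMeasure P1] (e : L1 → R → E) (S : ℤ → L1 → L1) : L1 → W :=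
  env C1 P1 e S (fun _ _ => 0)

/-- the environment kernel of the first level -/
noncomputable abbrev kap1 (C1 : MeasurableSpace L1) {mL1 : MeasurableSpace L1} (P1 : Measure L1)
    [IsProbabilityMeasure P1] (e : L1 → R → E) (S : ℤ → L1 → L1) : Kernel W (R → E) :=
  kap C1 P1 e S (fun _ _ => 0)

/-- its marginal at the site `j0` -/
noncomputable def marg (C1 : MeasurableSpace L1) {mL1 : MeasurableSpace L1} (P1 : Measure L1)
    [IsProbabilityMeasure P1] (e : L1 → R → E) (S : ℤ → L1 → L1) (j0 : R) : Kernel W E :=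
  (kap1 C1 P1 e S).map (fun y => y j0)

instance (j0 : R) : IsMarkovKernel (marg C1 P1 e S j0) := by
  unfold marg; exact Kernel.IsMarkovKernel.map _ (measurable_pi_apply j0)

theorem marg_apply (j0 : R) (v : W) :
    marg C1 P1 e S j0 v = (kap1 C1 P1 e S v).map (fun y => y j0) := by
  unfold marg
  exact Kernel.map_apply _ (measurable_pi_apply j0) v

/-- environment of the second level -/
noncomputable abbrev env2' (C2 : MeasurableSpace L2) {mL2 : MeasurableSpace L2} (P2 : Measure L2)
    [IsProbabilityMeasure P2] (e : L1 → R → E) (q q' : L2 → L1) : L2 → W :=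
  env C2 P2 (z2 e q q') (fun _ x => x) (fun _ _ => 0)

noncomputable abbrev kap2' (C2 : MeasurableSpace L2) {mL2 : MeasurableSpace L2} (P2 : Measure L2)
    [IsProbabilityMeasure P2] (e : L1 → R → E) (q q' : L2 → L1) : Kernel W (R → E × E) :=
  kap C2 P2 (z2 e q q') (fun _ x => x) (fun _ _ => 0)

/-- the two-copy kernel at the site `j0` -/
noncomputable def marg2 (C2 : MeasurableSpace L2) {mL2 : MeasurableSpace L2} (P2 : Measure L2)
    [IsProbabilityMeasure P2] (e : L1 → R → E) (q q' : L2 → L1) (j0 : R) :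
    Kernel (W × W × W) (E × E) :=
  ((kap2' C2 P2 e q q').comap Prod.fst measurable_fst).map (fun y => y j0)

instance (j0 : R) : IsMarkovKernel (marg2 C2 P2 e q q' j0) := by
  unfold marg2; exact Kernel.IsMarkovKernel.map _ (measurable_pi_apply j0)

theorem marg2_apply (j0 : R) (v : W × W × W) :
    marg2 C2 P2 e q q' j0 v = (kap2' C2 P2 e q q' v.1).map (fun y => y j0) := by
  unfold marg2
  rw [Kernel.map_apply _ (measurable_pi_apply j0)]
  rfl

/-- law of the first environment -/
noncomputable abbrev nu1 (C1 : MeasurableSpace L1) {mL1 : MeasurableSpace L1} (P1 : Measure L1)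
    [IsProbabilityMeasure P1] (e : L1 → R → E) (S : ℤ → L1 → L1) : Measure W :=
  P1.map (env1 C1 P1 e S)

/-- law of the second environment -/
noncomputable abbrev nu2 (C1 : MeasurableSpace L1) (C2 : MeasurableSpace L2)
    {mL1 : MeasurableSpace L1} {mL2 : MeasurableSpace L2} (P1 : Measure L1) (P2 : Measure L2)
    [IsProbabilityMeasure P1] [IsProbabilityMeasure P2] (e : L1 → R → E) (S : ℤ → L1 → L1)
    (q q' : L2 → L1) : Measure (W × W × W) :=
  P2.map (w2 (env2' C2 P2 e q q') (env1 C1 P1 e S) q q')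

theorem isEnv1 (H : OneCopy C1 P1 S e T π μX TX j0) :
    IsEnv C1 P1 e (env1 C1 P1 e S) (kap1 C1 P1 e S) :=
  IsEnv.of_arr H.hC H.me (isEnv_env H.hC H.me H.zero H.SC fun _ => measurable_const)

theorem measurable_z2 (me : Measurable e) (mq : Measurable q) (mq' : Measurable q') :
    Measurable (z2 e q q') := by
  refine measurable_pi_lambda _ fun j => ?_
  exact ((measurable_pi_apply j).comp (me.comp mq)).prodMk
    ((measurable_pi_apply j).comp (me.comp mq'))

theorem isEnv2 (H : OneCopy C1 P1 S e T π μX TX j0) (H2 : TwoCopies C1 C2 P1 P2 q q' e π j0) :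
    IsEnv C2 P2 (z2 e q q') (env2' C2 P2 e q q') (kap2' C2 P2 e q q') :=
  IsEnv.of_arr H2.hC2 (measurable_z2 H.me H2.mq.measurable H2.mq'.measurable)
    (isEnv_env H2.hC2 (measurable_z2 H.me H2.mq.measurable H2.mq'.measurable) (fun _ => rfl)
      (fun _ => measurable_id) fun _ => measurable_const)

theorem ind1 (H : OneCopy C1 P1 S e T π μX TX j0) :
    ∀ᵐ v ∂(nu1 C1 P1 e S), Ind1 (kap1 C1 P1 e S v) := by
  have hE := isEnv_env (P := P1) H.hC H.me H.zero H.SC
    (b := fun _ _ => 0) fun _ => measurable_const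
  refine ae_all_iff.2 fun i0 => ?_
  refine hE.ae_iIndepFun H.hC H.me (π := fun (i : {i // i ≠ i0}) (z : R → E) => z i)
      (fun i => measurable_pi_apply _) ?_
  exact Arr.iCI_subtype (fun i => i ≠ i0) (by simp) (H.ind i0)

theorem ind2 (H : OneCopy C1 P1 S e T π μX TX j0) (H2 : TwoCopies C1 C2 P1 P2 q q' e π j0) :
    ∀ᵐ v ∂(nu2 C1 C2 P1 P2 e S q q'), Ind1 (kap2' C2 P2 e q q' v.1) := by
  have mz := measurable_z2 H.me H2.mq.measurable H2.mq'.measurable
  have hE := isEnv_env (P := P2) H2.hC2 mz (S := fun _ x => x) (fun _ => rfl)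
    (fun _ => measurable_id) (b := fun _ _ => 0) fun _ => measurable_const
  have h1 : ∀ᵐ v ∂(P2.map (env2' C2 P2 e q q')), Ind1 (kap2' C2 P2 e q q' v) := by
    refine ae_all_iff.2 fun i0 => ?_
    refine hE.ae_iIndepFun H2.hC2 mz (π := fun (i : {i // i ≠ i0}) (z : R → E × E) => z i)
        (fun i => measurable_pi_apply _) ?_
    exact Arr.iCI_subtype (fun i => i ≠ i0) (by simp) (H2.ind2 i0)
  have mw2 : Measurable (w2 (env2' C2 P2 e q q') (env1 C1 P1 e S) q q') :=
    (env2 (isEnv2 H H2) (isEnv1 H) H2.le H2.le').mw'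
  have h3 : P2.map (env2' C2 P2 e q q')
      = (nu2 C1 C2 P1 P2 e S q q').map Prod.fst := by
    rw [nu2, Measure.map_map measurable_fst mw2]; rfl
  rw [h3] at h1
  exact ae_of_ae_map measurable_fst.aemeasurable h1

theorem map_eval (μ : Measure (R → E)) (T : E ≃ᵐ E) (j0 : R) :
    (μ.map fun y j => T (y j)).map (fun y => y j0) = (μ.map fun y => y j0).map T := by
  rw [Measure.map_map (by fun_prop) (by fun_prop), Measure.map_map (by fun_prop) (by fun_prop)]
  rfl

theorem map_eval1 (μ : Measure (R → E × E)) (j0 : R) :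
    (μ.map fun y => y j0).map Prod.fst = (μ.map fun y j => (y j).1).map (fun y => y j0) := by
  rw [Measure.map_map (by fun_prop) (by fun_prop), Measure.map_map (by fun_prop) (by fun_prop)]
  rfl

theorem map_eval2 (μ : Measure (R → E × E)) (j0 : R) :
    (μ.map fun y => y j0).map Prod.snd = (μ.map fun y j => (y j).2).map (fun y => y j0) := by
  rw [Measure.map_map (by fun_prop) (by fun_prop), Measure.map_map (by fun_prop) (by fun_prop)]
  rfl

/-- **N-H**: (H1)-(H8) of the module DESC. -/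
theorem hyp (hR : 3 ≤ Fintype.card R) (H : OneCopy C1 P1 S e T π μX TX j0)
    (H2 : TwoCopies C1 C2 P1 P2 q q' e π j0) [IsProbabilityMeasure μX]
    {SX : ℤ → X → X} (hSX : SX 1 = TX)
    (hTot : ∀ᵐ v ∂(nu1 C1 P1 e S), ∀ h : E → ℂ, Measurable h → (∃ B, ∀ x, ‖h x‖ ≤ B) → ∀ ε > 0,
      ∃ (F : Finset (E → ℂ)) (a : (E → ℂ) → ℂ), (∀ f ∈ F, f ∈ RowCh (kap1 C1 P1 e S v) j0) ∧
        ∫ x, ‖h x - ∑ f ∈ F, a f * f x‖ ^ 2 ∂(marg C1 P1 e S j0 v) < ε) :
    Desc.Hyp μX SX (nu1 C1 P1 e S) (marg C1 P1 e S j0) (nu2 C1 C2 P1 P2 e S q q')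
      (marg2 C2 P2 e q q' j0) (fun v => v.2.1) (fun v => v.2.2) π T (shift 1)
      (fun v => RowCh (kap1 C1 P1 e S v) j0) := by
  have E1 := isEnv1 H
  have E2 := isEnv2 H H2
  have hI1 := ind1 H
  have hI2 := ind2 H H2
  have hcg : MeasurableSpace.CountablyGenerated (R → E) := inferInstance
  have hL := h2 E2 E1 H2.le H2.le' H2.mq H2.S1
  have hL' := h2' E2 E1 H2.le H2.le' H2.mq' H2.S1'
  obtain ⟨j1, hj1⟩ : ∃ j1, j1 ≠ j0 := by
    by_contra hc
    push Not at hc
    have : Fintype.card R ≤ 1 := Fintype.card_le_one_iff.2 fun a b => (hc a).trans (hc b).symm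
    omega
  refine ⟨by fun_prop, by fun_prop, ?_, ?_, ?_, ?_, ?_, ?_, ?_, H.mπ, ?_, ?_⟩
  · exact h1 E1.mw H.hC E2.mw' H2.mq H2.mq' H2.indCC
  · filter_upwards [hL, hL'] with v hv hv'
    constructor
    · rw [marg2_apply, marg_apply, map_eval1, hv]
    · rw [marg2_apply, marg_apply, map_eval2, hv']
  · have := h3 E2 E1 H2.le H2.le' π H.mπ j0 H2.XX
    filter_upwards [this] with v hv
    rw [marg2_apply]
    have hs : MeasurableSet {z : E × E | π z.1 = π z.2} :=
      measurableSet_eq_fun (H.mπ.comp measurable_fst) (H.mπ.comp measurable_snd)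
    have hm : Measurable fun y : R → E × E => y j0 := measurable_pi_apply j0
    exact (ae_map_iff hm.aemeasurable hs).2 hv
  · filter_upwards [hI1, hTot] with v hv ht
    have hpr : IsProbabilityMeasure (marg C1 P1 e S j0 v) := inferInstance
    refine ⟨fun χ h => h.1, fun χ h => h.2.1, fun c hc => RowCh.const hj1 hc,
      fun χ h χ' h' => RowCh.mul h h', fun χ h => RowCh.conj h, fun χ h => ?_, fun f hf h0 => ?_⟩
    · have := RowCh.cz_map hR hv h
      rw [marg_apply]
      exact this
    · exact total_of_dense (C := RowCh (kap1 C1 P1 e S v) j0) (fun χ h => ⟨h.1, h.2.1⟩) ht hf h0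
  · filter_upwards [hI2, hL, hL'] with v hv h1 h2 χ hχ χ' hχ'
    rw [← h1] at hχ
    rw [← h2] at hχ'
    rw [marg2_apply]
    exact RowCh.cz2 hR hv hχ hχ'
  · -- the shift preserves `ν`
    refine ⟨measurable_shift 1, ?_⟩
    rw [nu1, Measure.map_map (measurable_shift 1) E1.mw']
    have : shift 1 ∘ env1 C1 P1 e S = env1 C1 P1 e S ∘ S 1 := by
      funext x
      exact (env_shift H.add e _ 1 x).symm
    rw [this, ← Measure.map_map E1.mw' (H.mp 1).measurable, (H.mp 1).map_eq]
  · have hk := kap_shift (P := P1) H.hC H.me H.mp H.add H.zero H.SC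
      (b := fun _ _ => 0) (fun _ => measurable_const) (n := 1) (T := fun y i => T (y i))
      (by fun_prop) H.eT
    filter_upwards [hk] with v hv
    constructor
    · rw [marg_apply, marg_apply, ← map_eval, hv]
    · intro χ
      show χ ∈ RowCh (kap1 C1 P1 e S (shift 1 v)) j0 ↔ _
      rw [show kap1 C1 P1 e S (shift 1 v) = (kap1 C1 P1 e S v).map fun y j => T (y j) from hv]
      exact RowCh.T_iff T χ
  · have := h8 E1 π H.mπ j0 H.lawX H.indX
    filter_upwards [this] with v hv
    rw [marg_apply, Measure.map_map H.mπ (by fun_prop)]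
    exact hv
  · have hs : MeasurableSet {y : R → E | π (T (y j0)) = TX (π (y j0))} := by
      refine measurableSet_eq_fun (H.mπ.comp (by fun_prop)) (H.mTX.comp (H.mπ.comp (by fun_prop)))
    have := E1.ae_of_ae hs H.πT
    filter_upwards [this] with v hv
    rw [marg_apply, hSX]
    have hs2 : MeasurableSet {x : E | π (T x) = TX (π x)} :=
      measurableSet_eq_fun (H.mπ.comp T.measurable) (H.mTX.comp H.mπ)
    have hm : Measurable fun y : R → E => y j0 := measurable_pi_apply j0
    exact (ae_map_iff hm.aemeasurable hs2).2 hv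

end

end Crest.Agent.R069.Arr3
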