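import Mathlib

/-! Row 69, STATIC: Theorem CH (helper627). For a family of a.e. commuting averaging actions
`g j : V j → Y → Y` of a probability space (`g v y` independent of `y`, measure preserving, with
inverses), the unimodular joint eigenfunctions are total in `L²`. Proof by Hilbert--Schmidt
operators (fibrewise Bessel) and the spectral theorem for compact operators. -/

set_option autoImplicit false
set_option linter.deprecated false
set_option linter.unusedSectionVars false

open MeasureTheory ProbabilityTheory Filter Set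
open scoped ComplexConjugate ENNReal InnerProductSpace Topology

namespace Crest.Agent.R069.ArrCH

section Hilbert

variable {H : Type*} [NormedAddCommGroup H] [InnerProductSpace ℂ H] [CompleteSpace H]

/-- A family of commuting operators acting on a nonzero finite dimensional invariant subspace has
a joint eigenvector there. -/
theorem exists_joint_of_finite (F : Set (H →L[ℂ] H))
    (hcomm : ∀ A ∈ F, ∀ B ∈ F, ∀ x, A (B x) = B (A x))
    (n : ℕ) (W : Submodule ℂ H) (hfin : FiniteDimensional ℂ W) (hn : Module.finrank ℂ W ≤ n)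
    (hne : W ≠ ⊥) (hinv : ∀ A ∈ F, ∀ w ∈ W, A w ∈ W) :
    ∃ v ∈ W, v ≠ 0 ∧ ∀ A ∈ F, ∃ c : ℂ, A v = c • v := by
  induction n generalizing W with
  | zero =>
    exfalso
    apply hne
    exact Submodule.finrank_eq_zero.1 (Nat.le_zero.1 hn)
  | succ n ih =>
    by_cases hall : ∀ A ∈ F, ∃ c : ℂ, ∀ w ∈ W, A w = c • w
    · obtain ⟨v, hv, hv0⟩ := W.exists_mem_ne_zero_of_ne_bot hne
      refine ⟨v, hv, hv0, fun A hA => ?_⟩
      obtain ⟨c, hc⟩ := hall A hA
      exact ⟨c, hc v hv⟩
    · push Not at hall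
      obtain ⟨A, hA, hAc⟩ := hall
      -- restrict `A` to `W`
      let B : W →ₗ[ℂ] W := (A : H →ₗ[ℂ] H).restrict (fun w hw => hinv A hA w hw)
      have hnt : Nontrivial W := Submodule.nontrivial_iff_ne_bot.2 hne
      obtain ⟨c, hc⟩ := Module.End.exists_eigenvalue B
      obtain ⟨w0, hw0⟩ := hc.exists_hasEigenvector
      let W' : Submodule ℂ H := W ⊓ LinearMap.ker ((A : H →ₗ[ℂ] H) - c • LinearMap.id)
      have hmem : ∀ w, w ∈ W' ↔ w ∈ W ∧ A w = c • w := by
        intro w
        simp only [W', Submodule.mem_inf, LinearMap.mem_ker, LinearMap.sub_apply,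
          ContinuousLinearMap.coe_coe, LinearMap.smul_apply, LinearMap.id_apply, sub_eq_zero]
      have hle : W' ≤ W := inf_le_left
      have hfin' : FiniteDimensional ℂ W' := Submodule.finiteDimensional_of_le hle
      have hlt : W' < W := by
        refine lt_of_le_of_ne hle fun heq => ?_
        obtain ⟨w, hw, hw'⟩ := hAc c
        exact hw' ((hmem w).1 (heq ▸ hw)).2
      have hne' : W' ≠ ⊥ := by
        intro hbot
        have h1 : (w0 : H) ∈ W' := by
          rw [hmem]
          refine ⟨w0.2, ?_⟩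
          have := hw0.apply_eq_smul
          have h2 := congrArg (Subtype.val) this
          simpa [B] using h2
        rw [hbot, Submodule.mem_bot] at h1
        exact hw0.2 (Subtype.ext h1)
      have hinv' : ∀ B ∈ F, ∀ w ∈ W', B w ∈ W' := by
        intro B hB w hw
        rw [hmem] at hw ⊢
        refine ⟨hinv B hB w hw.1, ?_⟩
        rw [hcomm A hA B hB, hw.2, map_smul]
      have hrank : Module.finrank ℂ W' ≤ n := by
        have := Submodule.finrank_lt_finrank_of_lt hlt
        omega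
      obtain ⟨v, hv, hv0, hvF⟩ := ih W' hfin' hrank hne' hinv'
      exact ⟨v, hle hv, hv0, hvF⟩

/-- Commuting compact operators, closed under adjoints, with trivial joint kernel: the joint
eigenvectors are total. -/
theorem joint_total (F : Set (H →L[ℂ] H)) (hc : ∀ A ∈ F, IsCompactOperator A)
    (hadj : ∀ A ∈ F, ContinuousLinearMap.adjoint A ∈ F)
    (hcomm : ∀ A ∈ F, ∀ B ∈ F, ∀ x, A (B x) = B (A x))
    (hker : ∀ x : H, (∀ A ∈ F, A x = 0) → x = 0)
    (x : H) (hx : ∀ v : H, (∀ A ∈ F, ∃ c : ℂ, A v = c • v) → ⟪v, x⟫_ℂ = 0) : x = 0 := by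
  classical
  by_contra hx0
  set J : Set H := {v | ∀ A ∈ F, ∃ c : ℂ, A v = c • v} with hJ
  set K : Submodule ℂ H := (Submodule.span ℂ J)ᗮ with hK
  have hKmem : ∀ z, z ∈ K ↔ ∀ v ∈ J, ⟪v, z⟫_ℂ = 0 := by
    intro z
    constructor
    · intro hz v hv
      exact (Submodule.mem_orthogonal _ _).1 hz v (Submodule.subset_span hv)
    · intro hz
      rw [hK, Submodule.mem_orthogonal]
      intro u hu
      induction hu using Submodule.span_induction with
      | mem v hv => exact hz v hv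
      | zero => simp
      | add a b _ _ ha hb => rw [inner_add_left, ha, hb, add_zero]
      | smul c a _ ha => rw [inner_smul_left, ha, mul_zero]
  have hxK : x ∈ K := (hKmem x).2 hx
  have hKinv : ∀ A ∈ F, ∀ z ∈ K, A z ∈ K := by
    intro A hA z hz
    rw [hKmem] at hz ⊢
    intro v hv
    obtain ⟨c, hc⟩ := hv _ (hadj A hA)
    rw [← ContinuousLinearMap.adjoint_inner_left, hc, inner_smul_left, hz v hv, mul_zero]
  obtain ⟨A, hA, hAx⟩ : ∃ A ∈ F, A x ≠ 0 := by
    by_contra hcon
    push Not at hcon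
    exact hx0 (hker x hcon)
  -- a self-adjoint combination that does not kill `x`
  obtain ⟨S, hSc, hSs, hSx, hSK, hSF⟩ : ∃ S : H →L[ℂ] H, IsCompactOperator S ∧
      (S : H →ₗ[ℂ] H).IsSymmetric ∧ S x ≠ 0 ∧ (∀ z ∈ K, S z ∈ K) ∧
      (∀ B ∈ F, ∀ z, S (B z) = B (S z)) := by
    set A' := ContinuousLinearMap.adjoint A with hA'
    have hA'F := hadj A hA
    have hcA' : IsCompactOperator A' := hc _ hA'F
    by_cases h1 : (A + A') x = 0
    · refine ⟨(Complex.I : ℂ) • (A - A'), ?_, ?_, ?_, ?_, ?_⟩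
      · have := ((hc A hA).sub hcA').smul (Complex.I : ℂ)
        exact this
      · intro u w
        simp only [ContinuousLinearMap.coe_coe, ContinuousLinearMap.smul_apply,
          ContinuousLinearMap.sub_apply, inner_smul_left, inner_smul_right, inner_sub_left,
          inner_sub_right, hA']
        rw [ContinuousLinearMap.adjoint_inner_left, ContinuousLinearMap.adjoint_inner_right]
        simp only [Complex.conj_I]
        ring
      · intro h2
        simp only [ContinuousLinearMap.smul_apply, smul_eq_zero, Complex.I_ne_zero,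
          false_or, ContinuousLinearMap.sub_apply] at h2
        simp only [ContinuousLinearMap.add_apply] at h1
        have h3 : (2 : ℂ) • A x = 0 := by
          rw [two_smul]
          calc A x + A x = (A x + A' x) + (A x - A' x) := by abel
            _ = 0 := by rw [h1, h2, add_zero]
        exact hAx (by simpa using h3)
      · intro z hz
        simp only [ContinuousLinearMap.smul_apply, ContinuousLinearMap.sub_apply]
        exact K.smul_mem _ (K.sub_mem (hKinv A hA z hz) (hKinv _ hA'F z hz))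
      · intro B hB z
        simp only [ContinuousLinearMap.smul_apply, ContinuousLinearMap.sub_apply]
        rw [hcomm A hA B hB, hcomm A' hA'F B hB, map_smul, map_sub]
    · refine ⟨A + A', (hc A hA).add hcA', ?_, h1, ?_, ?_⟩
      · intro u w
        simp only [ContinuousLinearMap.coe_coe, ContinuousLinearMap.add_apply, inner_add_left,
          inner_add_right, hA']
        rw [ContinuousLinearMap.adjoint_inner_left, ContinuousLinearMap.adjoint_inner_right]
        exact add_comm _ _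
      · intro z hz
        simp only [ContinuousLinearMap.add_apply]
        exact K.add_mem (hKinv A hA z hz) (hKinv _ hA'F z hz)
      · intro B hB z
        simp only [ContinuousLinearMap.add_apply]
        rw [hcomm A hA B hB, hcomm A' hA'F B hB, map_add]
  have hclosed : IsClosed (K : Set H) := Submodule.isClosed_orthogonal _
  have hcomplete : CompleteSpace K := hclosed.completeSpace_coe
  let T : K →L[ℂ] K := S.restrict hSK
  have hTapp : ∀ z : K, ((T z : K) : H) = S z := fun z => rfl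
  have hTc : IsCompactOperator T := hSc.restrict' hSK
  have hTs : (T : K →ₗ[ℂ] K).IsSymmetric := by
    intro u w
    exact hSs u w
  have hT0 : T ≠ 0 := by
    intro h0
    apply hSx
    have := congrArg (fun R : K →L[ℂ] K => ((R ⟨x, hxK⟩ : K) : H)) h0
    simpa [hTapp] using this
  obtain ⟨μ, hμ, hμ0⟩ : ∃ μ, Module.End.HasEigenvalue (T : Module.End ℂ K) μ ∧ μ ≠ 0 := by
    by_contra hcon
    push Not at hcon
    exact hT0 ((ContinuousLinearMap.eq_zero_of_forall_hasEigenvalue_eq_zero hTc hTs).1 hcon)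
  have hfd := ContinuousLinearMap.finite_dimensional_eigenspace hTc μ hμ0
  let W0 : Submodule ℂ K := Module.End.eigenspace (T : Module.End ℂ K) μ
  have hfd' : FiniteDimensional ℂ W0 := hfd
  let W : Submodule ℂ H := W0.map K.subtype
  have hWmem : ∀ w, w ∈ W ↔ w ∈ K ∧ S w = μ • w := by
    intro w
    constructor
    · rintro ⟨z, hz, rfl⟩
      refine ⟨z.2, ?_⟩
      have h1 : T z = μ • z := Module.End.mem_eigenspace_iff.1 hz
      have := congrArg (Subtype.val) h1
      simpa [hTapp] using this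
    · rintro ⟨hw, hw'⟩
      refine ⟨⟨w, hw⟩, ?_, rfl⟩
      apply Module.End.mem_eigenspace_iff.2
      exact Subtype.ext hw'
  have hWfin : FiniteDimensional ℂ W := inferInstance
  have hWne : W ≠ ⊥ := by
    intro hbot
    obtain ⟨z, hz⟩ := hμ.exists_hasEigenvector
    have h1 : (z : H) ∈ W := ⟨z, hz.1, rfl⟩
    rw [hbot, Submodule.mem_bot] at h1
    exact hz.2 (Subtype.ext h1)
  have hWinv : ∀ B ∈ F, ∀ w ∈ W, B w ∈ W := by
    intro B hB w hw
    rw [hWmem] at hw ⊢
    refine ⟨hKinv B hB w hw.1, ?_⟩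
    rw [hSF B hB, hw.2, map_smul]
  obtain ⟨v, hv, hv0, hvF⟩ := exists_joint_of_finite F hcomm _ W hWfin le_rfl hWne hWinv
  have hvK : v ∈ K := ((hWmem v).1 hv).1
  have h2 := (hKmem v).1 hvK v hvF
  exact hv0 (inner_self_eq_zero.1 h2)

/-- Hilbert--Schmidt type criterion for compactness. -/
theorem compact_of_orthonormal_bound (A : H →L[ℂ] H) (C : ℝ)
    (hA : ∀ (n : ℕ) (e : Fin n → H), Orthonormal ℂ e → ∑ i, ‖A (e i)‖ ^ 2 ≤ C) :
    IsCompactOperator A := by
  classical
  set T : Set ℝ := {t | ∃ (n : ℕ) (e : Fin n → H), Orthonormal ℂ e ∧ t = ∑ i, ‖A (e i)‖ ^ 2}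
    with hT
  have hbdd : BddAbove T := ⟨C, by rintro t ⟨n, e, he, rfl⟩; exact hA n e he⟩
  have hne : T.Nonempty := by
    refine ⟨_, 0, (fun i => i.elim0), ?_, rfl⟩
    constructor
    · intro i; exact i.elim0
    · intro i; exact i.elim0
  have key : ∀ ε : ℝ, 0 < ε → ∃ M : Submodule ℂ H, FiniteDimensional ℂ M ∧
      ∀ x ∈ Mᗮ, ‖A x‖ ≤ ε * ‖x‖ := by
    intro ε hε
    obtain ⟨t, ⟨n, e, he, rfl⟩, ht⟩ := exists_lt_of_lt_csSup hne
      (show sSup T - ε ^ 2 < sSup T by nlinarith [pow_pos hε 2])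
    refine ⟨Submodule.span ℂ (Set.range e), ?_, ?_⟩
    · exact FiniteDimensional.span_of_finite ℂ (Set.finite_range e)
    · intro x hx
      by_cases hx0 : x = 0
      · simp [hx0]
      have hnx : 0 < ‖x‖ := norm_pos_iff.2 hx0
      set y : H := ((‖x‖⁻¹ : ℝ) : ℂ) • x with hy
      have hny : ‖y‖ = 1 := by
        rw [hy, norm_smul]
        simp [hnx.ne']
      have hye : ∀ i, ⟪e i, y⟫_ℂ = 0 := by
        intro i
        rw [hy, inner_smul_right, (Submodule.mem_orthogonal _ _).1 hx (e i)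
          (Submodule.subset_span ⟨i, rfl⟩), mul_zero]
      have hye' : ∀ i, ⟪y, e i⟫_ℂ = 0 := fun i => by
        rw [← inner_conj_symm, hye, map_zero]
      have hon : Orthonormal ℂ (Fin.cons y e : Fin (n + 1) → H) := by
        rw [orthonormal_iff_ite] at he ⊢
        intro i j
        refine Fin.cases ?_ (fun i => ?_) i <;> refine Fin.cases ?_ (fun j => ?_) j
        · simp only [Fin.cons_zero, if_true]
          rw [inner_self_eq_norm_sq_to_K, hny]; simp
        · simp only [Fin.cons_zero, Fin.cons_succ, hye' j]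
          rw [if_neg (Fin.succ_ne_zero j).symm]
        · simp only [Fin.cons_zero, Fin.cons_succ, hye i]
          rw [if_neg (Fin.succ_ne_zero i)]
        · simp only [Fin.cons_succ, he i j, Fin.succ_inj]
      have h1 : ∑ i, ‖A ((Fin.cons y e : Fin (n + 1) → H) i)‖ ^ 2 ≤ sSup T :=
        le_csSup hbdd ⟨n + 1, _, hon, rfl⟩
      rw [Fin.sum_univ_succ] at h1
      simp only [Fin.cons_zero, Fin.cons_succ] at h1
      have h2 : ‖A y‖ ^ 2 ≤ ε ^ 2 := by linarith
      have h3 : ‖A y‖ ≤ ε := abs_le_of_sq_le_sq' h2 hε.le |>.2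
      have h4 : ‖A y‖ = ‖x‖⁻¹ * ‖A x‖ := by
        rw [hy, map_smul, norm_smul]; simp
      rw [h4] at h3
      calc ‖A x‖ = ‖x‖⁻¹ * ‖A x‖ * ‖x‖ := by field_simp
        _ ≤ ε * ‖x‖ := mul_le_mul_of_nonneg_right h3 hnx.le
  choose! M hM1 hM2 using key
  set δ : ℕ → ℝ := fun k => 1 / ((k : ℝ) + 1) with hδ
  have hδpos : ∀ k, 0 < δ k := fun k => by positivity
  have hMc : ∀ k, (M (δ k)).HasOrthogonalProjection := fun k => by
    have := hM1 (δ k) (hδpos k)
    infer_instance
  let P : ℕ → (H →L[ℂ] H) := fun k => (M (δ k)).starProjection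
  have hcomp : ∀ k, IsCompactOperator (A ∘L P k) := by
    intro k
    have := hM1 (δ k) (hδpos k)
    have hloc : IsCompactOperator ((A ∘L (M (δ k)).subtypeL : M (δ k) →L[ℂ] H)) :=
      isCompactOperator_of_locallyCompactSpace_rng _
    exact hloc.comp_clm ((M (δ k)).orthogonalProjectionOnto)
  refine isCompactOperator_of_tendsto (F := fun k => A ∘L P k) (l := atTop) ?_
    (Eventually.of_forall hcomp)
  rw [tendsto_iff_norm_sub_tendsto_zero]
  have hle : ∀ k, ‖A ∘L P k - A‖ ≤ δ k := by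
    intro k
    refine ContinuousLinearMap.opNorm_le_bound _ (hδpos k).le fun x => ?_
    have h1 : (A ∘L P k - A) x = - A (x - P k x) := by
      simp
    rw [h1, norm_neg]
    have h2 : x - P k x ∈ (M (δ k))ᗮ := Submodule.sub_starProjection_mem_orthogonal x
    refine (hM2 (δ k) (hδpos k) _ h2).trans ?_
    refine mul_le_mul_of_nonneg_left ?_ (hδpos k).le
    have h3 : ‖x - P k x‖ = ‖(M (δ k))ᗮ.starProjection x‖ := by
      congr 1
      rw [Submodule.starProjection_orthogonal]
      simp [P]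
    rw [h3]
    calc ‖(M (δ k))ᗮ.starProjection x‖ ≤ ‖(M (δ k))ᗮ.starProjection‖ * ‖x‖ :=
          ContinuousLinearMap.le_opNorm _ _
      _ ≤ 1 * ‖x‖ := by
          gcongr
          exact Submodule.starProjection_norm_le _
      _ = ‖x‖ := one_mul _
  have hδ0 : Tendsto δ atTop (𝓝 0) := tendsto_one_div_add_atTop_nhds_zero_nat
  exact squeeze_zero (fun k => norm_nonneg _) hle hδ0

end Hilbert

section Rect

variable {Y V : Type*} [MeasurableSpace Y] [MeasurableSpace V]

theorem ae_ae_symm {ν : Measure V} {μ : Measure Y} [SFinite ν] [SFinite μ] {p : V × Y → Prop}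
    (h : ∀ᵐ z ∂(ν.prod μ), p z) : ∀ᵐ y ∂μ, ∀ᵐ v ∂ν, p (v, y) := by
  have h1 : ∀ᵐ z ∂(μ.prod ν), p z.swap :=
    (Measure.measurePreserving_swap (μ := μ) (ν := ν)).quasiMeasurePreserving.ae h
  exact Measure.ae_ae_of_ae_prod h1

/-- A function on a product space which integrates to zero over all rectangles is zero a.e. -/
theorem ae_zero_of_rect {ν : Measure V} {μ : Measure Y} [IsProbabilityMeasure ν]
    [IsProbabilityMeasure μ] {F : V × Y → ℂ} (hF : Integrable F (ν.prod μ))
    (h : ∀ S T, MeasurableSet S → MeasurableSet T → ∫ p in S ×ˢ T, F p ∂(ν.prod μ) = 0) :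
    F =ᵐ[ν.prod μ] 0 := by
  have huniv : ∫ p, F p ∂(ν.prod μ) = 0 := by
    have := h univ univ MeasurableSet.univ MeasurableSet.univ
    rwa [univ_prod_univ, setIntegral_univ] at this
  refine Integrable.ae_eq_of_forall_setIntegral_eq F 0 hF (integrable_zero _ _ _) ?_
  intro E hE _
  simp only [Pi.zero_apply, integral_zero]
  refine MeasurableSpace.induction_on_inter (C := fun E _ => ∫ p in E, F p ∂(ν.prod μ) = 0)
    generateFrom_prod.symm isPiSystem_prod ?_ ?_ ?_ ?_ E hE
  · simp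
  · rintro t ⟨S, hS, T, hT, rfl⟩
    exact h S T hS hT
  · intro t ht ih
    have := setIntegral_compl ht hF
    rw [this, huniv, ih, sub_zero]
  · intro f hd hm ih
    rw [integral_iUnion hm hd hF.integrableOn]
    simp [ih]

end Rect

section Op

variable {Y V : Type*} [MeasurableSpace Y] [MeasurableSpace V]

/-- A random transformation `g v` of `(Y, μ)`: `g v y` is independent of `y`, jointly measure
preserving, with inverses `g (inv v)`. -/
structure Act (ν : Measure V) (μ : Measure Y) (g : V → Y → Y) (inv : V → V) : Prop where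
  hg : Measurable (fun p : V × Y => g p.1 p.2)
  hinv : MeasurePreserving inv ν ν
  h1 : MeasurePreserving (fun p : V × Y => (g p.1 p.2, p.2)) (ν.prod μ) (μ.prod μ)
  h2 : MeasurePreserving (fun p : V × Y => (p.1, g p.1 p.2)) (ν.prod μ) (ν.prod μ)
  h3 : ∀ᵐ p ∂(ν.prod μ), g (inv p.1) (g p.1 p.2) = p.2

variable {ν : Measure V} {μ : Measure Y} [IsProbabilityMeasure ν] [IsProbabilityMeasure μ]
  {g : V → Y → Y} {inv : V → V}

theorem Act.mp (hA : Act ν μ g inv) :
    MeasurePreserving (fun p : V × Y => g p.1 p.2) (ν.prod μ) μ :=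
  measurePreserving_fst.comp hA.h1

theorem mp_snd : MeasurePreserving (fun p : V × Y => p.2) (ν.prod μ) μ := measurePreserving_snd

/-- integrability of the basic products -/
theorem Act.integrable (hA : Act ν μ g inv) {q : V → ℂ} (hq : Measurable q) {C : ℝ}
    (hb : ∀ v, ‖q v‖ ≤ C) {f h : Y → ℂ} (hf : MemLp f 2 μ) (hh : MemLp h 2 μ) :
    Integrable (fun p : V × Y => conj (h p.2) * (q p.1 * f (g p.1 p.2))) (ν.prod μ) := by
  have h1 : MemLp (fun p : V × Y => f (g p.1 p.2)) 2 (ν.prod μ) :=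
    hf.comp_measurePreserving hA.mp
  have h2 : MemLp (fun p : V × Y => h p.2) 2 (ν.prod μ) := hh.comp_measurePreserving mp_snd
  have h2' : MemLp (fun p : V × Y => conj (h p.2)) 2 (ν.prod μ) := h2.star
  have h3 : MemLp (fun p : V × Y => q p.1) ∞ (ν.prod μ) :=
    memLp_top_of_bound (hq.comp measurable_fst).aestronglyMeasurable C
      (Eventually.of_forall fun p => hb p.1)
  have h4 : MemLp (fun p : V × Y => q p.1 * f (g p.1 p.2)) 2 (ν.prod μ) := h1.mul' h3
  exact h2'.integrable_mul h4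

theorem Act.integrable' (hA : Act ν μ g inv) {q : V → ℂ} (hq : Measurable q) {C : ℝ}
    (hb : ∀ v, ‖q v‖ ≤ C) {f : Y → ℂ} (hf : MemLp f 2 μ) :
    Integrable (fun p : V × Y => q p.1 * f (g p.1 p.2)) (ν.prod μ) := by
  have := hA.integrable hq hb hf (h := fun _ => 1) (memLp_const 1)
  simpa using this

/-- `g v y` averaged over `v` forgets `y`. -/
theorem Act.ae_int (hA : Act ν μ g inv) {φ : Y → ℂ} (hφ : Integrable φ μ) :
    ∀ᵐ y ∂μ, ∫ v, φ (g v y) ∂ν = ∫ y, φ y ∂μ := by
  have hint : Integrable (fun p : V × Y => φ (g p.1 p.2)) (ν.prod μ) :=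
    (hA.mp.integrable_comp_of_integrable hφ)
  refine Integrable.ae_eq_of_forall_setIntegral_eq _ _ hint.integral_prod_right
    (integrable_const _) ?_
  intro S hS _
  rw [setIntegral_const]
  have e1 : ∫ y in S, ∫ v, φ (g v y) ∂ν ∂μ
      = ∫ p, (S.indicator (fun _ => (1 : ℂ)) p.2) * φ (g p.1 p.2) ∂(ν.prod μ) := by
    have hint2 : Integrable (fun p : V × Y => (S.indicator (fun _ => (1 : ℂ)) p.2)
        * φ (g p.1 p.2)) (ν.prod μ) := by
      refine hint.bdd_mul (c := 1) ?_ ?_
      · exact ((measurable_const.indicator hS).comp measurable_snd).aestronglyMeasurable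
      · refine Eventually.of_forall fun p => ?_
        by_cases hp : p.2 ∈ S <;> simp [hp]
    rw [integral_prod_symm _ hint2, ← integral_indicator hS]
    refine integral_congr_ae (Eventually.of_forall fun y => ?_)
    by_cases hy : y ∈ S <;> simp [hy]
  have e2 : ∫ p, (S.indicator (fun _ => (1 : ℂ)) p.2) * φ (g p.1 p.2) ∂(ν.prod μ)
      = ∫ p, φ p.1 * (S.indicator (fun _ => (1 : ℂ)) p.2) ∂(μ.prod μ) := by
    have hm : AEStronglyMeasurable (fun p : Y × Y => φ p.1 * (S.indicator (fun _ => (1 : ℂ)) p.2))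
        (μ.prod μ) :=
      (hφ.aestronglyMeasurable.comp_quasiMeasurePreserving
        Measure.quasiMeasurePreserving_fst).mul
        ((measurable_const.indicator hS).comp measurable_snd).aestronglyMeasurable
    rw [← hA.h1.map_eq] at hm ⊢
    rw [integral_map hA.h1.measurable.aemeasurable hm]
    refine integral_congr_ae (Eventually.of_forall fun p => ?_)
    simp [mul_comm]
  rw [e1, e2, integral_prod_mul]
  rw [integral_indicator hS]
  simp [Measure.real, mul_comm]

/-- averaging over `y` forgets `v`. -/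
theorem Act.ae_int' (hA : Act ν μ g inv) {φ : Y → ℂ} (hφ : Integrable φ μ) :
    ∀ᵐ v ∂ν, ∫ y, φ (g v y) ∂μ = ∫ y, φ y ∂μ := by
  have hint : Integrable (fun p : V × Y => φ (g p.1 p.2)) (ν.prod μ) :=
    (hA.mp.integrable_comp_of_integrable hφ)
  refine Integrable.ae_eq_of_forall_setIntegral_eq _ _ hint.integral_prod_left
    (integrable_const _) ?_
  intro S hS _
  rw [setIntegral_const]
  have e1 : ∫ v in S, ∫ y, φ (g v y) ∂μ ∂ν
      = ∫ p, (S.indicator (fun _ => (1 : ℂ)) p.1) * φ (g p.1 p.2) ∂(ν.prod μ) := by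
    have hint2 : Integrable (fun p : V × Y => (S.indicator (fun _ => (1 : ℂ)) p.1)
        * φ (g p.1 p.2)) (ν.prod μ) := by
      refine hint.bdd_mul (c := 1) ?_ ?_
      · exact ((measurable_const.indicator hS).comp measurable_fst).aestronglyMeasurable
      · refine Eventually.of_forall fun p => ?_
        by_cases hp : p.1 ∈ S <;> simp [hp]
    rw [integral_prod _ hint2, ← integral_indicator hS]
    refine integral_congr_ae (Eventually.of_forall fun y => ?_)
    by_cases hy : y ∈ S <;> simp [hy]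
  have e2 : ∫ p, (S.indicator (fun _ => (1 : ℂ)) p.1) * φ (g p.1 p.2) ∂(ν.prod μ)
      = ∫ p, (S.indicator (fun _ => (1 : ℂ)) p.1) * φ p.2 ∂(ν.prod μ) := by
    have hm : AEStronglyMeasurable (fun p : V × Y => (S.indicator (fun _ => (1 : ℂ)) p.1) * φ p.2)
        (ν.prod μ) :=
      ((measurable_const.indicator hS).comp measurable_fst).aestronglyMeasurable.mul
        (hφ.aestronglyMeasurable.comp_quasiMeasurePreserving
        Measure.quasiMeasurePreserving_snd)
    conv_rhs => rw [← hA.h2.map_eq]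
    rw [integral_map hA.h2.measurable.aemeasurable (by rw [hA.h2.map_eq]; exact hm)]
  rw [e1, e2, integral_prod_mul]
  rw [integral_indicator hS]
  simp [Measure.real, mul_comm]

/-- The adjoint of `f ↦ f ∘ snd` is integration over the first variable. -/
theorem adjoint_snd_ae (F : Lp ℂ 2 (ν.prod μ)) :
    ContinuousLinearMap.adjoint
      ((Lp.compMeasurePreservingₗᵢ ℂ (fun p : V × Y => p.2)
        (mp_snd (ν := ν) (μ := μ))).toContinuousLinearMap :
        Lp ℂ 2 μ →L[ℂ] Lp ℂ 2 (ν.prod μ)) F =ᵐ[μ] fun y => ∫ v, F (v, y) ∂ν := by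
  set C : Lp ℂ 2 μ →L[ℂ] Lp ℂ 2 (ν.prod μ) :=
    (Lp.compMeasurePreservingₗᵢ ℂ (fun p : V × Y => p.2)
        (mp_snd (ν := ν) (μ := μ))).toContinuousLinearMap with hC
  have hF1 : Integrable F (ν.prod μ) := (Lp.memLp F).integrable (by norm_num)
  refine Integrable.ae_eq_of_forall_setIntegral_eq _ _ ((Lp.memLp _).integrable (by norm_num))
    hF1.integral_prod_right ?_
  intro S hS hSf
  have e0 := L2.inner_indicatorConstLp_one (𝕜 := ℂ) hS hSf.ne (ContinuousLinearMap.adjoint C F)
  rw [← e0, ContinuousLinearMap.adjoint_inner_right, L2.inner_def]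
  have e1 : C (indicatorConstLp 2 hS hSf.ne (1 : ℂ)) =ᵐ[ν.prod μ]
      fun p => S.indicator (fun _ => (1 : ℂ)) p.2 := by
    have h1 := Lp.coeFn_compMeasurePreserving (indicatorConstLp 2 hS hSf.ne (1 : ℂ))
      (mp_snd (ν := ν) (μ := μ))
    have h2 : (indicatorConstLp 2 hS hSf.ne (1 : ℂ) : Y → ℂ) =ᵐ[μ] S.indicator fun _ => (1 : ℂ) :=
      indicatorConstLp_coeFn
    have h3 := (mp_snd (ν := ν) (μ := μ)).quasiMeasurePreserving.ae_eq_comp h2
    exact h1.trans h3
  have hint2 : Integrable (fun p : V × Y => (S.indicator (fun _ => (1 : ℂ)) p.2)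
      * F p) (ν.prod μ) := by
    refine hF1.bdd_mul (c := 1) ?_ ?_
    · exact ((measurable_const.indicator hS).comp measurable_snd).aestronglyMeasurable
    · refine Eventually.of_forall fun p => ?_
      by_cases hp : p.2 ∈ S <;> simp [hp]
  have e2 : ∫ p, ⟪C (indicatorConstLp 2 hS hSf.ne (1 : ℂ)) p, F p⟫_ℂ ∂(ν.prod μ)
      = ∫ p, (S.indicator (fun _ => (1 : ℂ)) p.2) * F p ∂(ν.prod μ) := by
    refine integral_congr_ae ?_
    filter_upwards [e1] with p hp
    rw [hp]
    by_cases h : p.2 ∈ S <;> simp [h]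
  rw [e2, integral_prod_symm _ hint2, ← integral_indicator hS]
  refine integral_congr_ae (Eventually.of_forall fun y => ?_)
  by_cases hy : y ∈ S <;> simp [hy]

/-- The averaged operator. -/
theorem Act.exists_op (hA : Act ν μ g inv) {q : V → ℂ} (hq : Measurable q) {C : ℝ}
    (hb : ∀ v, ‖q v‖ ≤ C) :
    ∃ A : Lp ℂ 2 μ →L[ℂ] Lp ℂ 2 μ, ∀ f : Lp ℂ 2 μ, A f =ᵐ[μ] fun y => ∫ v, q v * f (g v y) ∂ν := by
  have hqtop : MemLp (fun p : V × Y => q p.1) ∞ (ν.prod μ) :=
    memLp_top_of_bound (hq.comp measurable_fst).aestronglyMeasurable C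
      (Eventually.of_forall fun p => hb p.1)
  let D : Lp ℂ 2 μ →L[ℂ] Lp ℂ 2 (ν.prod μ) :=
    (Lp.compMeasurePreservingₗᵢ ℂ (fun p : V × Y => g p.1 p.2) hA.mp).toContinuousLinearMap
  let C' : Lp ℂ 2 μ →L[ℂ] Lp ℂ 2 (ν.prod μ) :=
    (Lp.compMeasurePreservingₗᵢ ℂ (fun p : V × Y => p.2)
        (mp_snd (ν := ν) (μ := μ))).toContinuousLinearMap
  let M : Lp ℂ 2 (ν.prod μ) →L[ℂ] Lp ℂ 2 (ν.prod μ) :=
    (ContinuousLinearMap.mul ℂ ℂ).holderL (ν.prod μ) ∞ 2 2 hqtop.toLp
  refine ⟨ContinuousLinearMap.adjoint C' ∘L M ∘L D, fun f => ?_⟩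
  have h1 := adjoint_snd_ae (ν := ν) (μ := μ) (M (D f))
  refine h1.trans ?_
  have h2 : M (D f) =ᵐ[ν.prod μ] fun p => q p.1 * f (g p.1 p.2) := by
    have h3 := (ContinuousLinearMap.mul ℂ ℂ).coeFn_holder (r := 2) hqtop.toLp (D f)
    have h4 := hqtop.coeFn_toLp
    have h5 := Lp.coeFn_compMeasurePreserving f hA.mp
    have h3' : M (D f) =ᵐ[ν.prod μ] fun p => (ContinuousLinearMap.mul ℂ ℂ) (hqtop.toLp _ p)
      (D f p) := h3
    filter_upwards [h3', h4, h5] with p hp3 hp4 hp5
    rw [hp3, hp4]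
    have : D f p = f (g p.1 p.2) := hp5
    rw [this]
    rfl
  have h6 : ∀ᵐ y ∂μ, ∀ᵐ v ∂ν, M (D f) (v, y) = q v * f (g v y) := by
    exact ae_ae_symm h2
  filter_upwards [h6] with y hy
  exact integral_congr_ae hy

/-- The operator of an action with symbol `q`. -/
def IsOp (ν : Measure V) (μ : Measure Y) [IsProbabilityMeasure μ] (g : V → Y → Y) (q : V → ℂ)
    (A : Lp ℂ 2 μ →L[ℂ] Lp ℂ 2 μ) : Prop :=
  ∀ f : Lp ℂ 2 μ, A f =ᵐ[μ] fun y => ∫ v, q v * f (g v y) ∂ν

theorem Act.inner_op (hA : Act ν μ g inv) {q : V → ℂ} (hq : Measurable q) {C : ℝ}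
    (hb : ∀ v, ‖q v‖ ≤ C) {A : Lp ℂ 2 μ →L[ℂ] Lp ℂ 2 μ} (hop : IsOp ν μ g q A)
    (h f : Lp ℂ 2 μ) :
    ⟪h, A f⟫_ℂ = ∫ p, conj (h p.2) * (q p.1 * f (g p.1 p.2)) ∂(ν.prod μ) := by
  rw [L2.inner_def, integral_prod_symm _ (hA.integrable hq hb (Lp.memLp f) (Lp.memLp h))]
  refine integral_congr_ae ?_
  filter_upwards [hop f] with y hy
  rw [hy]
  simp only [RCLike.inner_apply]
  rw [mul_comm, ← integral_const_mul]

theorem Act.op_adjoint (hA : Act ν μ g inv) {q : V → ℂ} (hq : Measurable q) {C : ℝ}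
    (hb : ∀ v, ‖q v‖ ≤ C) {A B : Lp ℂ 2 μ →L[ℂ] Lp ℂ 2 μ} (hop : IsOp ν μ g q A)
    (hop' : IsOp ν μ g (fun v => conj (q (inv v))) B) :
    ContinuousLinearMap.adjoint A = B := by
  symm
  rw [ContinuousLinearMap.eq_adjoint_iff]
  intro f h
  -- `⟪B f, h⟫ = ⟪f, A h⟫`
  have hq' : Measurable (fun v => conj (q (inv v))) :=
    Complex.continuous_conj.measurable.comp (hq.comp hA.hinv.measurable)
  have hb' : ∀ v, ‖(fun v => conj (q (inv v))) v‖ ≤ C := fun v => by
    simpa using hb (inv v)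
  rw [← inner_conj_symm, hA.inner_op hq' hb' hop' h f, hA.inner_op hq hb hop f h,
    ← integral_conj]
  -- substitution `(v, y) ↦ (inv v, g v y)`
  have hR : MeasurePreserving (fun p : V × Y => (inv p.1, g p.1 p.2)) (ν.prod μ) (ν.prod μ) := by
    have := (hA.hinv.prod (MeasurePreserving.id μ)).comp hA.h2
    exact this
  have hint := hA.integrable hq hb (Lp.memLp h) (Lp.memLp f)
  have hm : AEStronglyMeasurable (fun p : V × Y => conj (f p.2) * (q p.1 * h (g p.1 p.2)))
      ((ν.prod μ).map (fun p : V × Y => (inv p.1, g p.1 p.2))) := by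
    rw [hR.map_eq]; exact hint.aestronglyMeasurable
  conv_rhs => rw [← hR.map_eq]
  rw [integral_map hR.measurable.aemeasurable hm]
  refine integral_congr_ae ?_
  filter_upwards [hA.h3] with p hp
  rw [hp]
  simp only [map_mul, Complex.conj_conj]
  ring

theorem mp_swap3 {V' : Type*} [MeasurableSpace V'] {ν' : Measure V'} [IsProbabilityMeasure ν'] :
    MeasurePreserving (fun p : V' × (V × Y) => (p.2.1, (p.1, p.2.2))) (ν'.prod (ν.prod μ))
      (ν.prod (ν'.prod μ)) := by
  have h1 : MeasurePreserving (MeasurableEquiv.prodAssoc.symm : V' × (V × Y) → (V' × V) × Y)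
      (ν'.prod (ν.prod μ)) ((ν'.prod ν).prod μ) :=
    (measurePreserving_prodAssoc ν' ν μ).symm _
  have h2 : MeasurePreserving (Prod.map Prod.swap id : (V' × V) × Y → (V × V') × Y)
      ((ν'.prod ν).prod μ) ((ν.prod ν').prod μ) :=
    (Measure.measurePreserving_swap (μ := ν') (ν := ν)).prod (MeasurePreserving.id μ)
  have h3 := measurePreserving_prodAssoc ν ν' μ
  exact h3.comp (h2.comp h1)

theorem Act.op_comp {V' : Type*} [MeasurableSpace V'] {ν' : Measure V'} [IsProbabilityMeasure ν']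
    {g' : V' → Y → Y} {inv' : V' → V'} (hA : Act ν μ g inv) (hA' : Act ν' μ g' inv')
    {q : V → ℂ} (hq : Measurable q) {C : ℝ} (hb : ∀ v, ‖q v‖ ≤ C)
    {q' : V' → ℂ} (hq' : Measurable q') {C' : ℝ} (hb' : ∀ v, ‖q' v‖ ≤ C')
    {A B : Lp ℂ 2 μ →L[ℂ] Lp ℂ 2 μ} (hop : IsOp ν μ g q A) (hop' : IsOp ν' μ g' q' B)
    (h f : Lp ℂ 2 μ) :
    ⟪h, A (B f)⟫_ℂ = ∫ p, conj (h p.2.2) * (q p.2.1 * (q' p.1 * f (g' p.1 (g p.2.1 p.2.2))))
      ∂(ν'.prod (ν.prod μ)) := by
  rw [hA.inner_op hq hb hop]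
  have hmp : MeasurePreserving (fun p : V' × (V × Y) => g' p.1 (g p.2.1 p.2.2))
      (ν'.prod (ν.prod μ)) μ := hA'.mp.comp ((MeasurePreserving.id ν').prod hA.mp)
  have hmp2 : MeasurePreserving (fun p : V' × (V × Y) => p.2.2) (ν'.prod (ν.prod μ)) μ :=
    (mp_snd (ν := ν) (μ := μ)).comp measurePreserving_snd
  have i1 : MemLp (fun p : V' × (V × Y) => f (g' p.1 (g p.2.1 p.2.2))) 2 (ν'.prod (ν.prod μ)) :=
    (Lp.memLp f).comp_measurePreserving hmp
  have i2 : MemLp (fun p : V' × (V × Y) => conj (h p.2.2)) 2 (ν'.prod (ν.prod μ)) :=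
    ((Lp.memLp h).comp_measurePreserving hmp2).star
  have i3 : MemLp (fun p : V' × (V × Y) => q p.2.1) ∞ (ν'.prod (ν.prod μ)) :=
    memLp_top_of_bound (hq.comp (measurable_fst.comp measurable_snd)).aestronglyMeasurable C
      (Eventually.of_forall fun p => hb p.2.1)
  have i4 : MemLp (fun p : V' × (V × Y) => q' p.1) ∞ (ν'.prod (ν.prod μ)) :=
    memLp_top_of_bound (hq'.comp measurable_fst).aestronglyMeasurable C'
      (Eventually.of_forall fun p => hb' p.1)
  have i5 : MemLp (fun p : V' × (V × Y) => q' p.1 * f (g' p.1 (g p.2.1 p.2.2))) 2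
      (ν'.prod (ν.prod μ)) := i1.mul' i4
  have i6 : MemLp (fun p : V' × (V × Y) => q p.2.1 * (q' p.1 * f (g' p.1 (g p.2.1 p.2.2)))) 2
      (ν'.prod (ν.prod μ)) := i5.mul' i3
  have i7 : Integrable (fun p : V' × (V × Y) =>
      conj (h p.2.2) * (q p.2.1 * (q' p.1 * f (g' p.1 (g p.2.1 p.2.2))))) (ν'.prod (ν.prod μ)) :=
    i2.integrable_mul i6
  rw [integral_prod_symm _ i7]
  refine integral_congr_ae ?_
  have e1 := hA.mp.quasiMeasurePreserving.ae_eq_comp (hop' f)
  filter_upwards [e1] with p hp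
  have hp' : (B f) (g p.1 p.2) = ∫ v, q' v * f (g' v (g p.1 p.2)) ∂ν' := hp
  rw [hp', integral_const_mul, integral_const_mul]

theorem Act.op_comm {V' : Type*} [MeasurableSpace V'] {ν' : Measure V'} [IsProbabilityMeasure ν']
    {g' : V' → Y → Y} {inv' : V' → V'} (hA : Act ν μ g inv) (hA' : Act ν' μ g' inv')
    {q : V → ℂ} (hq : Measurable q) {C : ℝ} (hb : ∀ v, ‖q v‖ ≤ C)
    {q' : V' → ℂ} (hq' : Measurable q') {C' : ℝ} (hb' : ∀ v, ‖q' v‖ ≤ C')
    {A B : Lp ℂ 2 μ →L[ℂ] Lp ℂ 2 μ} (hop : IsOp ν μ g q A) (hop' : IsOp ν' μ g' q' B)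
    (hcomm : ∀ᵐ p ∂(ν'.prod (ν.prod μ)), g' p.1 (g p.2.1 p.2.2) = g p.2.1 (g' p.1 p.2.2))
    (f : Lp ℂ 2 μ) : A (B f) = B (A f) := by
  refine ext_inner_left ℂ fun h => ?_
  rw [hA.op_comp hA' hq hb hq' hb' hop hop' h f, hA'.op_comp hA hq' hb' hq hb hop' hop h f]
  have hmp : MeasurePreserving (fun p : V × (V' × Y) => g p.1 (g' p.2.1 p.2.2))
      (ν.prod (ν'.prod μ)) μ := hA.mp.comp ((MeasurePreserving.id ν).prod hA'.mp)
  have hmp2 : MeasurePreserving (fun p : V × (V' × Y) => p.2.2) (ν.prod (ν'.prod μ)) μ :=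
    (mp_snd (ν := ν') (μ := μ)).comp measurePreserving_snd
  have hm : AEStronglyMeasurable (fun p : V × (V' × Y) =>
      conj (h p.2.2) * (q' p.2.1 * (q p.1 * f (g p.1 (g' p.2.1 p.2.2))))) (ν.prod (ν'.prod μ)) := by
    refine AEStronglyMeasurable.mul ?_ (AEStronglyMeasurable.mul ?_ (AEStronglyMeasurable.mul ?_ ?_))
    · exact (((Lp.memLp h).comp_measurePreserving hmp2).star).aestronglyMeasurable
    · exact (hq'.comp (measurable_fst.comp measurable_snd)).aestronglyMeasurable
    · exact (hq.comp measurable_fst).aestronglyMeasurable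
    · exact ((Lp.memLp f).comp_measurePreserving hmp).aestronglyMeasurable
  have hs := mp_swap3 (ν := ν) (μ := μ) (ν' := ν')
  rw [← hs.map_eq] at hm
  conv_rhs => rw [← hs.map_eq]
  rw [integral_map hs.measurable.aemeasurable hm]
  refine integral_congr_ae ?_
  filter_upwards [hcomm] with p hp
  rw [hp]
  ring

/-- The averaged operators are compact. -/
theorem Act.op_compact (hA : Act ν μ g inv) {q : V → ℂ} (hq : Measurable q) {C : ℝ}
    (hb : ∀ v, ‖q v‖ ≤ C) {A : Lp ℂ 2 μ →L[ℂ] Lp ℂ 2 μ} (hop : IsOp ν μ g q A) :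
    IsCompactOperator A := by
  refine compact_of_orthonormal_bound A (C ^ 2) fun n e he => ?_
  have hqm : MemLp (fun v => conj (q v)) 2 ν := by
    refine MemLp.of_bound (Complex.continuous_conj.measurable.comp hq).aestronglyMeasurable C
      (Eventually.of_forall fun v => ?_)
    simpa using hb v
  -- sections of `e i ∘ g`
  have hsec : ∀ i, ∀ᵐ y ∂μ, MemLp (fun v => e i (g v y)) 2 ν := by
    intro i
    have h1 : MemLp (fun p : V × Y => e i (g p.1 p.2)) 2 (ν.prod μ) :=
      (Lp.memLp (e i)).comp_measurePreserving hA.mp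
    have h2 : Integrable (fun p : V × Y => ‖e i (g p.1 p.2)‖ ^ 2) (ν.prod μ) :=
      h1.integrable_norm_pow (by norm_num)
    filter_upwards [h2.prod_left_ae] with y hy
    have hmeas : AEStronglyMeasurable (fun v => e i (g v y)) ν :=
      ((Lp.stronglyMeasurable (e i)).comp_measurable
        (hA.hg.comp (measurable_id.prodMk measurable_const))).aestronglyMeasurable
    exact (memLp_two_iff_integrable_sq_norm hmeas).2 hy
  have horth : ∀ i k, ∀ᵐ y ∂μ, ∫ v, conj (e i (g v y)) * e k (g v y) ∂ν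
      = if i = k then 1 else 0 := by
    intro i k
    have hint : Integrable (fun y => conj (e i y) * e k y) μ :=
      ((Lp.memLp (e i)).star).integrable_mul (Lp.memLp (e k))
    filter_upwards [hA.ae_int hint] with y hy
    rw [hy]
    have h1 := (orthonormal_iff_ite.1 he) i k
    rw [L2.inner_def] at h1
    rw [← h1]
    refine integral_congr_ae (Eventually.of_forall fun y => ?_)
    simp only [RCLike.inner_apply]
    rw [mul_comm]
  -- pointwise Bessel
  have hbessel : ∀ᵐ y ∂μ, ∑ i, ‖A (e i) y‖ ^ 2 ≤ C ^ 2 := by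
    have hall1 : ∀ᵐ y ∂μ, ∀ i, MemLp (fun v => e i (g v y)) 2 ν := ae_all_iff.2 hsec
    have hall2 : ∀ᵐ y ∂μ, ∀ i k, ∫ v, conj (e i (g v y)) * e k (g v y) ∂ν
        = if i = k then 1 else 0 := ae_all_iff.2 fun i => ae_all_iff.2 fun k => horth i k
    have hall3 : ∀ᵐ y ∂μ, ∀ i, A (e i) y = ∫ v, q v * e i (g v y) ∂ν :=
      ae_all_iff.2 fun i => hop (e i)
    filter_upwards [hall1, hall2, hall3] with y h1 h2 h3
    let a : Fin n → Lp ℂ 2 ν := fun i => (h1 i).toLp
    have ha : Orthonormal ℂ a := by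
      rw [orthonormal_iff_ite]
      intro i k
      rw [L2.inner_def, ← h2 i k]
      refine integral_congr_ae ?_
      filter_upwards [(h1 i).coeFn_toLp, (h1 k).coeFn_toLp] with v hv1 hv2
      simp only [a, RCLike.inner_apply]
      rw [hv1, hv2, mul_comm]
    have hB := ha.sum_inner_products_le (s := Finset.univ) hqm.toLp
    have e1 : ∀ i, ‖⟪a i, hqm.toLp⟫_ℂ‖ = ‖A (e i) y‖ := by
      intro i
      rw [h3 i, L2.inner_def]
      have : ∫ v, ⟪a i v, hqm.toLp _ v⟫_ℂ ∂ν = conj (∫ v, q v * e i (g v y) ∂ν) := by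
        rw [← integral_conj]
        refine integral_congr_ae ?_
        filter_upwards [(h1 i).coeFn_toLp, hqm.coeFn_toLp] with v hv1 hv2
        simp only [a, RCLike.inner_apply]
        rw [hv1, hv2, map_mul]
      rw [this]; simp
    have e2 : ‖hqm.toLp‖ ≤ C := by
      have hC : 0 ≤ C := by
        obtain ⟨v⟩ : Nonempty V := by
          by_contra hne
          rw [not_nonempty_iff] at hne
          have := IsProbabilityMeasure.measure_univ (μ := ν)
          rw [univ_eq_empty_iff.2 hne, measure_empty] at this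
          exact zero_ne_one this
        exact (norm_nonneg _).trans (hb v)
      have := Lp.norm_le_of_ae_bound (f := hqm.toLp) hC (by
        filter_upwards [hqm.coeFn_toLp] with v hv
        rw [hv]; simpa using hb v)
      have h1 : measureUnivNNReal ν = 1 := by simp [measureUnivNNReal]
      rw [h1] at this
      simpa using this
    calc ∑ i, ‖A (e i) y‖ ^ 2 = ∑ i, ‖⟪a i, hqm.toLp⟫_ℂ‖ ^ 2 := by
          simp only [e1]
      _ ≤ ‖hqm.toLp‖ ^ 2 := hB
      _ ≤ C ^ 2 := by gcongr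
  -- integrate
  have hn : ∀ i, ‖A (e i)‖ ^ 2 = ∫ y, ‖A (e i) y‖ ^ 2 ∂μ := by
    intro i
    have h1 := L2.inner_def (𝕜 := ℂ) (A (e i)) (A (e i))
    rw [inner_self_eq_norm_sq_to_K] at h1
    have h2 : ∫ y, ⟪A (e i) y, A (e i) y⟫_ℂ ∂μ = ((∫ y, ‖A (e i) y‖ ^ 2 ∂μ : ℝ) : ℂ) := by
      rw [← integral_complex_ofReal]
      refine integral_congr_ae (Eventually.of_forall fun y => ?_)
      simp only [inner_self_eq_norm_sq_to_K]
      push_cast; rfl
    rw [h2] at h1
    apply Complex.ofReal_injective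
    rw [← h1]
    simp
  simp only [hn]
  rw [← integral_finset_sum _ (fun i _ => (Lp.memLp (A (e i))).integrable_norm_pow (by norm_num))]
  calc ∫ y, ∑ i, ‖A (e i) y‖ ^ 2 ∂μ ≤ ∫ _, C ^ 2 ∂μ := by
        refine integral_mono_ae ?_ (integrable_const _) hbessel
        exact integrable_finset_sum _
          (fun i _ => (Lp.memLp (A (e i))).integrable_norm_pow (by norm_num))
    _ = C ^ 2 := by simp

/-- integral over a rectangle of `f ∘ g`. -/
theorem Act.setIntegral_rect (hA : Act ν μ g inv) {f : Y → ℂ} (hf : MemLp f 2 μ)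
    {S : Set V} {T : Set Y} (hS : MeasurableSet S) (hT : MeasurableSet T) :
    ∫ p in S ×ˢ T, f (g p.1 p.2) ∂(ν.prod μ)
      = ∫ y in T, ∫ v, S.indicator (fun _ => (1 : ℂ)) v * f (g v y) ∂ν ∂μ := by
  have hint := hA.integrable (q := S.indicator (fun _ => (1 : ℂ)))
    (measurable_const.indicator hS) (C := 1)
    (fun v => by by_cases h : v ∈ S <;> simp [h]) hf (h := T.indicator (fun _ => (1 : ℂ)))
    ((memLp_const 1).indicator hT)
  rw [← integral_indicator (hS.prod hT), ← integral_indicator hT]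
  have e1 : ∀ p : V × Y, (S ×ˢ T).indicator (fun p : V × Y => f (g p.1 p.2)) p
      = conj (T.indicator (fun _ => (1 : ℂ)) p.2) *
        (S.indicator (fun _ => (1 : ℂ)) p.1 * f (g p.1 p.2)) := by
    intro p
    by_cases h1 : p.1 ∈ S <;> by_cases h2 : p.2 ∈ T <;> simp [h1, h2, Set.indicator]
  rw [integral_congr_ae (Eventually.of_forall e1), integral_prod_symm _ hint]
  refine integral_congr_ae (Eventually.of_forall fun y => ?_)
  simp only
  by_cases hy : y ∈ T
  · simp [hy]
  · simp [hy]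

theorem Act.ker_trivial (hA : Act ν μ g inv) (f : Lp ℂ 2 μ)
    (h : ∀ q : V → ℂ, Measurable q → (∀ v, ‖q v‖ ≤ 1) → ∀ᵐ y ∂μ, ∫ v, q v * f (g v y) ∂ν = 0) :
    f = 0 := by
  have h1 : (fun p : V × Y => f (g p.1 p.2)) =ᵐ[ν.prod μ] 0 := by
    refine ae_zero_of_rect ?_ fun S T hS hT => ?_
    · exact ((Lp.memLp f).comp_measurePreserving hA.mp).integrable (by norm_num)
    · rw [hA.setIntegral_rect (Lp.memLp f) hS hT]
      have h2 := h (S.indicator (fun _ => (1 : ℂ))) (measurable_const.indicator hS)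
        (fun v => by by_cases h : v ∈ S <;> simp [h])
      rw [integral_congr_ae (ae_restrict_of_ae h2)]
      simp
  have h3 : Lp.compMeasurePreserving (fun p : V × Y => g p.1 p.2) hA.mp f = 0 := by
    refine Lp.ext ?_
    refine (Lp.coeFn_compMeasurePreserving f hA.mp).trans ?_
    refine EventuallyEq.trans ?_ (Lp.coeFn_zero _ _ _).symm
    exact h1
  have h4 := Lp.norm_compMeasurePreserving f hA.mp
  rw [h3, norm_zero] at h4
  exact norm_eq_zero.1 h4.symm

/-- unimodular part of a function -/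
noncomputable def unimod {α : Type*} (f : α → ℂ) : α → ℂ :=
  fun y => if f y = 0 then 1 else f y / (‖f y‖ : ℂ)

theorem norm_unimod {α : Type*} (f : α → ℂ) (y : α) : ‖unimod f y‖ = 1 := by
  unfold unimod
  split_ifs with h
  · simp
  · rw [norm_div]
    simp [h]

theorem measurable_unimod {α : Type*} [MeasurableSpace α] {f : α → ℂ} (hf : Measurable f) :
    Measurable (unimod f) := by
  unfold unimod
  refine Measurable.ite (hf (measurableSet_singleton 0)) measurable_const ?_
  exact hf.div (Complex.continuous_ofReal.measurable.comp hf.norm)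

theorem unimod_mul {α β : Type*} {f : α → ℂ} {k : β → ℂ} {a b : α} {v : β}
    (hk : k v ≠ 0) (h : f b = k v * f a) (ha : f a ≠ 0) :
    unimod f b = unimod k v * unimod f a := by
  have hb : f b ≠ 0 := by rw [h]; exact mul_ne_zero hk ha
  simp only [unimod, if_neg hb, if_neg hk, if_neg ha]
  rw [h, norm_mul]
  have h1 : (‖k v‖ : ℂ) ≠ 0 := by
    simpa using hk
  have h2 : (‖f a‖ : ℂ) ≠ 0 := by
    simpa using ha
  push_cast
  field_simp

theorem norm_sq_Lp (f : Lp ℂ 2 μ) : ‖f‖ ^ 2 = ∫ y, ‖f y‖ ^ 2 ∂μ := by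
  have h1 := L2.inner_def (𝕜 := ℂ) f f
  rw [inner_self_eq_norm_sq_to_K] at h1
  have h2 : ∫ y, ⟪f y, f y⟫_ℂ ∂μ = ((∫ y, ‖f y‖ ^ 2 ∂μ : ℝ) : ℂ) := by
    rw [← integral_complex_ofReal]
    refine integral_congr_ae (Eventually.of_forall fun y => ?_)
    simp only [inner_self_eq_norm_sq_to_K]
    push_cast; rfl
  rw [h2] at h1
  apply Complex.ofReal_injective
  rw [← h1]
  simp

/-- Joint eigenfunctions are unimodular (up to a constant) and transform by a unimodular
factor. -/
theorem Act.eigen (hA : Act ν μ g inv) (f : Lp ℂ 2 μ) (hf : f ≠ 0)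
    (hE : ∀ q : V → ℂ, Measurable q → (∀ v, ‖q v‖ ≤ 1) →
      ∃ c : ℂ, ∀ᵐ y ∂μ, ∫ v, q v * f (g v y) ∂ν = c * f y) :
    (∃ c : ℝ, 0 < c ∧ ∀ᵐ y ∂μ, ‖f y‖ = c) ∧ ∃ kap : V → ℂ, Measurable kap ∧ (∀ v, ‖kap v‖ = 1) ∧
      ∀ᵐ p ∂(ν.prod μ), unimod f (g p.1 p.2) = kap p.1 * unimod f p.2 := by
  have hfm : Measurable (f : Y → ℂ) := (Lp.stronglyMeasurable f).measurable
  set N : ℂ := ((‖f‖ ^ 2 : ℝ) : ℂ) with hN
  have hN0 : N ≠ 0 := by
    rw [hN]
    have : ‖f‖ ≠ 0 := norm_ne_zero_iff.2 hf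
    exact_mod_cast pow_ne_zero 2 this
  have hNint : ∫ y, conj (f y) * f y ∂μ = N := by
    rw [hN, norm_sq_Lp, ← integral_complex_ofReal]
    refine integral_congr_ae (Eventually.of_forall fun y => ?_)
    simp only
    rw [← Complex.normSq_eq_conj_mul_self, Complex.normSq_eq_norm_sq]
  have hone : Measurable (fun _ : V => (1 : ℂ)) := measurable_const
  have hint0 := hA.integrable (q := fun _ => 1) hone (C := 1) (by simp) (Lp.memLp f) (Lp.memLp f)
  simp only [one_mul] at hint0
  set k0 : V → ℂ := fun v => (∫ y, conj (f y) * f (g v y) ∂μ) / N with hk0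
  have hk0m : Measurable k0 := by
    have h1 : StronglyMeasurable (fun p : V × Y => conj (f p.2) * f (g p.1 p.2)) :=
      ((Complex.continuous_conj.measurable.comp (hfm.comp measurable_snd)).mul
        (hfm.comp hA.hg)).stronglyMeasurable
    exact (h1.integral_prod_right').measurable.div_const _
  have hk0i : Integrable k0 ν := hint0.integral_prod_left.div_const _
  -- eigenvalues
  have hc : ∀ q : V → ℂ, Measurable q → (∀ v, ‖q v‖ ≤ 1) → ∀ᵐ y ∂μ,
      ∫ v, q v * f (g v y) ∂ν = (∫ v, q v * k0 v ∂ν) * f y := by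
    intro q hq hb
    obtain ⟨c, hc⟩ := hE q hq hb
    have hint := hA.integrable hq hb (Lp.memLp f) (Lp.memLp f)
    have e1 : ∫ p, conj (f p.2) * (q p.1 * f (g p.1 p.2)) ∂(ν.prod μ) = c * N := by
      rw [integral_prod_symm _ hint]
      simp only
      have : ∀ᵐ y ∂μ, ∫ v, conj (f y) * (q v * f (g v y)) ∂ν = c * (conj (f y) * f y) := by
        filter_upwards [hc] with y hy
        rw [integral_const_mul, hy]; ring
      rw [integral_congr_ae this, integral_const_mul, hNint]
    have e2 : ∫ p, conj (f p.2) * (q p.1 * f (g p.1 p.2)) ∂(ν.prod μ)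
        = (∫ v, q v * k0 v ∂ν) * N := by
      rw [integral_prod _ hint, ← integral_mul_const]
      refine integral_congr_ae (Eventually.of_forall fun v => ?_)
      simp only [hk0]
      rw [mul_assoc, div_mul_cancel₀ _ hN0, ← integral_const_mul]
      refine integral_congr_ae (Eventually.of_forall fun y => ?_)
      simp only
      ring
    have e3 : c = ∫ v, q v * k0 v ∂ν := mul_right_cancel₀ hN0 (e1.symm.trans e2)
    rw [← e3]; exact hc
  -- the eigenvalue equation
  have hker : ∀ᵐ p ∂(ν.prod μ), f (g p.1 p.2) = k0 p.1 * f p.2 := by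
    have hfi : Integrable (f : Y → ℂ) μ := (Lp.memLp f).integrable (by norm_num)
    have i1 : Integrable (fun p : V × Y => f (g p.1 p.2)) (ν.prod μ) :=
      ((Lp.memLp f).comp_measurePreserving hA.mp).integrable (by norm_num)
    have i2 : Integrable (fun p : V × Y => k0 p.1 * f p.2) (ν.prod μ) := hk0i.mul_prod hfi
    have h0 : (fun p : V × Y => f (g p.1 p.2) - k0 p.1 * f p.2) =ᵐ[ν.prod μ] 0 := by
      refine ae_zero_of_rect (i1.sub i2) fun S T hS hT => ?_
      rw [integral_sub i1.integrableOn i2.integrableOn, hA.setIntegral_rect (Lp.memLp f) hS hT]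
      have h1 := hc (S.indicator (fun _ => (1 : ℂ))) (measurable_const.indicator hS)
        (fun v => by by_cases h : v ∈ S <;> simp [h])
      rw [integral_congr_ae (ae_restrict_of_ae h1), integral_const_mul]
      rw [setIntegral_prod_mul]
      have h2 : ∫ v, S.indicator (fun _ => (1 : ℂ)) v * k0 v ∂ν = ∫ v in S, k0 v ∂ν := by
        rw [← integral_indicator hS]
        refine integral_congr_ae (Eventually.of_forall fun v => ?_)
        by_cases hv : v ∈ S <;> simp [hv]
      rw [h2, sub_self]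
    filter_upwards [h0] with p hp
    exact sub_eq_zero.1 hp
  -- `|k0| = 1`
  have hk1 : ∀ᵐ v ∂ν, ‖k0 v‖ = 1 := by
    have hφ : Integrable (fun y => conj (f y) * f y) μ :=
      ((Lp.memLp f).star).integrable_mul (Lp.memLp f)
    have h1 := hA.ae_int' hφ
    have h2 := Measure.ae_ae_of_ae_prod hker
    filter_upwards [h1, h2] with v hv1 hv2
    rw [hNint] at hv1
    have h3 : ∫ y, conj (f (g v y)) * f (g v y) ∂μ = conj (k0 v) * k0 v * N := by
      rw [← hNint, ← integral_const_mul]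
      refine integral_congr_ae ?_
      filter_upwards [hv2] with y hy
      have hy' : f (g v y) = k0 v * f y := hy
      rw [hy', map_mul]; ring
    rw [h3] at hv1
    have h4 : conj (k0 v) * k0 v = 1 := by
      have : conj (k0 v) * k0 v * N = 1 * N := by rw [hv1, one_mul]
      exact mul_right_cancel₀ hN0 this
    rw [← Complex.normSq_eq_conj_mul_self, Complex.normSq_eq_norm_sq] at h4
    have h5 : ‖k0 v‖ ^ 2 = 1 := by exact_mod_cast h4
    nlinarith [norm_nonneg (k0 v), sq_nonneg (‖k0 v‖ - 1)]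
  have hk1' : ∀ᵐ p ∂(ν.prod μ), ‖k0 p.1‖ = 1 :=
    (Measure.quasiMeasurePreserving_fst (μ := ν) (ν := μ)).ae hk1
  -- `|f|` is constant
  have hinvn : ∀ᵐ z ∂(μ.prod μ), ‖f z.1‖ = ‖f z.2‖ := by
    have hms : MeasurableSet {z : Y × Y | ‖f z.1‖ = ‖f z.2‖} :=
      measurableSet_eq_fun (hfm.norm.comp measurable_fst) (hfm.norm.comp measurable_snd)
    rw [← hA.h1.map_eq, ae_map_iff hA.h1.measurable.aemeasurable hms]
    filter_upwards [hker, hk1'] with p hp1 hp2
    rw [hp1, norm_mul, hp2, one_mul]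
  have hconst : ∃ c : ℝ, 0 < c ∧ ∀ᵐ y ∂μ, ‖f y‖ = c := by
    have h1 := ae_ae_symm hinvn
    obtain ⟨y2, hy2⟩ := h1.exists
    refine ⟨‖f y2‖, ?_, hy2⟩
    by_contra hneg
    have h3 : ‖f y2‖ = 0 := le_antisymm (not_lt.1 hneg) (norm_nonneg _)
    apply hf
    refine Lp.ext ?_
    refine EventuallyEq.trans ?_ (Lp.coeFn_zero _ _ _).symm
    filter_upwards [hy2] with y hy
    have hy' : ‖f y‖ = ‖f y2‖ := hy
    rw [h3] at hy'
    exact norm_eq_zero.1 hy'
  refine ⟨hconst, unimod k0, measurable_unimod hk0m, norm_unimod k0, ?_⟩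
  obtain ⟨c, hc0, hcc⟩ := hconst
  have hcc' : ∀ᵐ p ∂(ν.prod μ), ‖f p.2‖ = c :=
    (Measure.quasiMeasurePreserving_snd (μ := ν) (ν := μ)).ae hcc
  filter_upwards [hker, hk1', hcc'] with p h1 h2 h3
  refine unimod_mul ?_ h1 ?_
  · intro h; rw [h, norm_zero] at h2; exact zero_ne_one h2
  · intro h; rw [h, norm_zero] at h3; exact hc0.ne h3

end Op

section Total

/-- **Theorem CH**: for a family of commuting averaging actions, the unimodular joint
eigenfunctions are total in `L²`. -/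
theorem total {J : Type*} [Nonempty J] {Y : Type*} [MeasurableSpace Y] {μ : Measure Y}
    [IsProbabilityMeasure μ] {V : J → Type*} [∀ j, MeasurableSpace (V j)]
    {ν : ∀ j, Measure (V j)} [∀ j, IsProbabilityMeasure (ν j)]
    {g : ∀ j, V j → Y → Y} {inv : ∀ j, V j → V j}
    (hA : ∀ j, Act (ν j) μ (g j) (inv j))
    (hcomm : ∀ j l, ∀ᵐ p ∂((ν l).prod ((ν j).prod μ)),
      g l p.1 (g j p.2.1 p.2.2) = g j p.2.1 (g l p.1 p.2.2))
    {h : Y → ℂ} (hh : MemLp h 2 μ)
    (horth : ∀ (f : Y → ℂ) (kap : ∀ j, V j → ℂ), Measurable f → (∀ y, ‖f y‖ = 1) →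
      (∀ j, Measurable (kap j)) → (∀ j v, ‖kap j v‖ = 1) →
      (∀ j, ∀ᵐ p ∂((ν j).prod μ), f (g j p.1 p.2) = kap j p.1 * f p.2) →
      ∫ y, h y * conj (f y) ∂μ = 0) :
    h =ᵐ[μ] 0 := by
  classical
  set F : Set (Lp ℂ 2 μ →L[ℂ] Lp ℂ 2 μ) := {A | ∃ (j : J) (q : V j → ℂ), Measurable q ∧
    (∀ v, ‖q v‖ ≤ 1) ∧ IsOp (ν j) μ (g j) q A} with hF
  have h0 : hh.toLp h = 0 := by
    refine joint_total F ?_ ?_ ?_ ?_ _ ?_
    · rintro A ⟨j, q, hq, hb, hop⟩
      exact (hA j).op_compact hq hb hop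
    · rintro A ⟨j, q, hq, hb, hop⟩
      have hq' : Measurable (fun v => conj (q (inv j v))) :=
        Complex.continuous_conj.measurable.comp (hq.comp (hA j).hinv.measurable)
      have hb' : ∀ v, ‖(fun v => conj (q (inv j v))) v‖ ≤ 1 := fun v => by
        simpa using hb (inv j v)
      obtain ⟨B, hB⟩ := (hA j).exists_op hq' hb'
      rw [(hA j).op_adjoint hq hb hop hB]
      exact ⟨j, _, hq', hb', hB⟩
    · rintro A ⟨j, q, hq, hb, hop⟩ B ⟨l, r, hr, hb', hop'⟩ x
      exact (hA j).op_comm (hA l) hq hb hr hb' hop hop' (hcomm j l) x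
    · intro x hx
      obtain ⟨j⟩ := ‹Nonempty J›
      refine (hA j).ker_trivial x fun q hq hb => ?_
      obtain ⟨B, hB⟩ := (hA j).exists_op hq hb
      have h1 := hx B ⟨j, q, hq, hb, hB⟩
      have h2 := hB x
      rw [h1] at h2
      filter_upwards [h2, Lp.coeFn_zero ℂ 2 μ] with y hy hy0
      rw [← hy, hy0]; rfl
    · intro f hf
      by_cases hf0 : f = 0
      · rw [hf0, inner_zero_left]
      have hE : ∀ j, ∀ q : V j → ℂ, Measurable q → (∀ v, ‖q v‖ ≤ 1) →
          ∃ c : ℂ, ∀ᵐ y ∂μ, ∫ v, q v * f (g j v y) ∂(ν j) = c * f y := by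
        intro j q hq hb
        obtain ⟨B, hB⟩ := (hA j).exists_op hq hb
        obtain ⟨c, hc⟩ := hf B ⟨j, q, hq, hb, hB⟩
        refine ⟨c, ?_⟩
        have h2 := hB f
        rw [hc] at h2
        filter_upwards [h2, Lp.coeFn_smul c f] with y hy hy0
        rw [← hy, hy0]; rfl
      have hE' := fun j => (hA j).eigen f hf0 (hE j)
      choose kap hk1 hk2 hk3 using fun j => (hE' j).2
      obtain ⟨j0⟩ := ‹Nonempty J›
      obtain ⟨c, hc0, hcc⟩ := (hE' j0).1
      have hfm : Measurable (f : Y → ℂ) := (Lp.stronglyMeasurable f).measurable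
      have h1 := horth (unimod f) kap (measurable_unimod hfm) (norm_unimod _) hk1 hk2 hk3
      rw [L2.inner_def]
      have h2 : ∫ y, ⟪f y, hh.toLp h y⟫_ℂ ∂μ = ∫ y, (c : ℂ) * (h y * conj (unimod f y)) ∂μ := by
        refine integral_congr_ae ?_
        filter_upwards [hcc, hh.coeFn_toLp] with y hy1 hy2
        simp only [RCLike.inner_apply]
        rw [hy2]
        have hne : f y ≠ 0 := by
          intro h; rw [h, norm_zero] at hy1; exact hc0.ne hy1
        simp only [unimod, if_neg hne, hy1, map_div₀, Complex.conj_ofReal]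
        have : (c : ℂ) ≠ 0 := by exact_mod_cast hc0.ne'
        field_simp
      rw [h2, integral_const_mul, h1, mul_zero]
  have h1 := hh.coeFn_toLp
  rw [h0] at h1
  exact h1.symm.trans (Lp.coeFn_zero _ _ _)

end Total

end Crest.Agent.R069.ArrCH
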