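import Crest.Agent.R069.LoebPt
import Crest.Agent.R069.LoebInt
import Crest.Agent.R069.CI

/-!
# Site variables on the Loeb space (row 69)

`sv g : Lb α → M` for a sequence `g k : α → M` of measure preserving maps into a standard Borel
space: the `M`-valued random variable with internal lift `g`.  For `g k = S (s k)` this is the
site variable `e_s`.
-/

set_option autoImplicit false
set_option linter.unusedSectionVars false

open MeasureTheory Filter Set ProbabilityTheory
open scoped ENNReal Topology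

namespace Crest.Agent.R069

section pt

variable {M : Type*} [MeasurableSpace M] [StandardBorelSpace M] [Nonempty M]

theorem cod_congr {x y : Lb M} (h : ∀ᶠ k in (UU : Filter ℕ), x k = y k) : cod x = cod y := by
  funext n
  rw [Bool.eq_iff_iff, cod_apply_true, cod_apply_true]
  constructor
  · intro h1
    filter_upwards [h, h1] with k hk hk1
    rw [← hk]; exact hk1
  · intro h1
    filter_upwards [h, h1] with k hk hk1
    rw [hk]; exact hk1

/-- `pt x` only depends on the germ of `x`. -/
theorem pt_congr {x y : Lb M} (h : ∀ᶠ k in (UU : Filter ℕ), x k = y k) : pt x = pt y := by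
  unfold pt
  rw [cod_congr h]

end pt

section sv

variable {α M : Type*} [mα : MeasurableSpace α] [MeasurableSpace M] [StandardBorelSpace M]
  [Nonempty M] {μ : Measure α} {ν : Measure M} [IsProbabilityMeasure μ] [IsProbabilityMeasure ν]
  {g : ℕ → α → M}

/-- The `M`-valued random variable on `Lb α` with internal lift `g`. -/
noncomputable def sv {α M : Type*} [MeasurableSpace M] [StandardBorelSpace M] [Nonempty M]
    (g : ℕ → α → M) : Lb α → M := fun x => pt (lbmap g x)

omit mα in
theorem sv_apply (x : Lb α) : sv g x = pt (lbmap g x) := rfl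

omit mα in
/-- shift rule -/
theorem sv_lbmap {β : Type*} (h : ℕ → β → α) (x : Lb β) :
    sv g (lbmap h x) = sv (fun k => g k ∘ h k) x := rfl

theorem measurable_sv (hg : ∀ k, Measurable (g k)) : Measurable (sv g) :=
  measurable_pt.comp (measurable_lbmap hg)

omit mα in
theorem measurable_sv' {m : MeasurableSpace α} (hg : ∀ k, Measurable[m] (g k)) :
    Measurable[LL m] (sv g) :=
  measurable_pt.comp (measurable_lbmap' hg)

theorem measurePreserving_sv (hg : ∀ k, MeasurePreserving (g k) μ ν) :
    MeasurePreserving (sv g) (lb μ) ν :=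
  (measurePreserving_pt ν).comp (measurePreserving_lbmap hg)

theorem sv_preimage (A : Set M) : sv g ⁻¹' A = lbmap g ⁻¹' (pt ⁻¹' A) := rfl

theorem sv_preimage_ae (hg : ∀ k, MeasurePreserving (g k) μ ν) {A : Set M}
    (hA : MeasurableSet A) : sv g ⁻¹' A =ᵐ[lb μ] intl (fun k => g k ⁻¹' A) := by
  have h1 : ∀ᵐ y ∂(lb ν), (pt y ∈ A ↔ ∀ᶠ k in (UU : Filter ℕ), y k ∈ A) := ae_mem_iff_pt hA
  have h2 : Tendsto (lbmap g) (ae (lb μ)) (ae (lb ν)) :=
    (measurePreserving_lbmap hg).quasiMeasurePreserving.tendsto_ae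
  have h3 := h2.eventually h1
  filter_upwards [h3] with x hx
  exact propext hx

theorem ae_tendsto_sv (hg : ∀ k, MeasurePreserving (g k) μ ν) {N : Type*} [TopologicalSpace N]
    [SecondCountableTopology N] [MeasurableSpace N] [OpensMeasurableSpace N] {f : M → N}
    (hf : Measurable f) :
    ∀ᵐ x ∂(lb μ), Tendsto (fun k => f (g k (x k))) (UU : Filter ℕ) (𝓝 (f (sv g x))) := by
  have h1 : ∀ᵐ y ∂(lb ν), Tendsto (fun k => f (y k)) (UU : Filter ℕ) (𝓝 (f (pt y))) :=
    ae_tendsto_pt hf
  have h2 : Tendsto (lbmap g) (ae (lb μ)) (ae (lb ν)) :=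
    (measurePreserving_lbmap hg).quasiMeasurePreserving.tendsto_ae
  have h3 := h2.eventually h1
  exact h3

/-- the value of a function at a site is the standard part of the internal function -/
theorem comp_sv_ae_eq_st (hg : ∀ k, MeasurePreserving (g k) μ ν) {N : Type*} [TopologicalSpace N]
    [T2Space N] [Nonempty N] [SecondCountableTopology N] [MeasurableSpace N]
    [OpensMeasurableSpace N] {f : M → N} (hf : Measurable f) :
    (fun x => f (sv g x)) =ᵐ[lb μ] st (fun k x => f (g k x)) := by
  filter_upwards [ae_tendsto_sv hg hf] with x hx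
  exact (st_eq hx).symm

/-- naturality: site variables of a factor -/
theorem sv_comp_ae (hg : ∀ k, MeasurePreserving (g k) μ ν) {N : Type*} [MeasurableSpace N]
    [StandardBorelSpace N] [Nonempty N] {f : M → N} (hf : Measurable f) :
    ∀ᵐ x ∂(lb μ), sv (fun k => f ∘ g k) x = f (sv g x) := by
  have h1 : ∀ᵐ y ∂(lb ν), pt (lbmap (fun _ => f) y) = f (pt y) := pt_lbmap_ae hf
  have h2 : Tendsto (lbmap g) (ae (lb μ)) (ae (lb ν)) :=
    (measurePreserving_lbmap hg).quasiMeasurePreserving.tendsto_ae
  have h3 := h2.eventually h1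
  exact h3

theorem sv_congr_ae {g' : ℕ → α → M} (h : ∀ k, g k =ᵐ[μ] g' k) : sv g =ᵐ[lb μ] sv g' := by
  filter_upwards [ae_lb_of_forall_ae (μ := μ) (p := fun k x => g k x = g' k x) h] with x hx
  exact pt_congr hx

/-- The sigma-algebra generated by the internal sets `g k ⁻¹' A`. -/
@[implicit_reducible]
def siteG {α M : Type*} (m : MeasurableSpace M) (g : ℕ → α → M) : MeasurableSpace (Lb α) :=
  MeasurableSpace.generateFrom {B | ∃ A : Set M, MeasurableSet[m] A ∧ B = intl (fun k => g k ⁻¹' A)}

omit [MeasurableSpace M] [StandardBorelSpace M] [Nonempty M] in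
theorem siteG_le {m' : MeasurableSpace α} {m : MeasurableSpace M}
    (hg : ∀ k, Measurable[m', m] (g k)) : siteG m g ≤ LL m' := by
  refine MeasurableSpace.generateFrom_le ?_
  rintro _ ⟨A, hA, rfl⟩
  exact measurableSet_intl (fun k => hg k hA)

end sv

section aele

variable {α M : Type*} {m : MeasurableSpace M} {m' : MeasurableSpace α} [mα : MeasurableSpace α]
  [mM : MeasurableSpace M] [StandardBorelSpace M]
  [Nonempty M] {μ : Measure α} {ν : Measure M} [IsProbabilityMeasure μ] [IsProbabilityMeasure ν]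
  {g : ℕ → α → M}

theorem aele_siteG_comap (hg : ∀ k, MeasurePreserving (g k) μ ν) (hm : m ≤ mM) :
    AELe (lb μ) (siteG m g) (m.comap (sv g)) := by
  refine AELe.generateFrom ?_
  rintro _ ⟨A, hA, rfl⟩
  exact ⟨sv g ⁻¹' A, ⟨A, hA, rfl⟩, (sv_preimage_ae hg (hm _ hA)).symm⟩

theorem aele_comap_siteG (hg : ∀ k, MeasurePreserving (g k) μ ν) (hm : m ≤ mM) :
    AELe (lb μ) (m.comap (sv g)) (siteG m g) := by
  rintro _ ⟨A, hA, rfl⟩
  exact ⟨_, MeasurableSpace.measurableSet_generateFrom ⟨A, hA, rfl⟩, sv_preimage_ae hg (hm _ hA)⟩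

/-- values of `m`-measurable functions at a site are measurable w.r.t. the Loeb sigma-algebra -/
theorem aele_comap_LL (hg : ∀ k, MeasurePreserving (g k) μ ν)
    (hm : m ≤ mM) (hg' : ∀ k, Measurable[m', m] (g k)) :
    AELe (lb μ) (m.comap (sv g)) (LL m') :=
  (aele_comap_siteG hg hm).trans (AELe.of_le (siteG_le hg'))

end aele

section integral

variable {α M : Type*} [mα : MeasurableSpace α] [MeasurableSpace M] [StandardBorelSpace M]
  [Nonempty M] {μ : Measure α} {ν : Measure M} [IsProbabilityMeasure μ] [IsProbabilityMeasure ν]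

/-- integrals of products over sites with an environment function. -/
theorem tendsto_integral_sites {ι : Type*} [Fintype ι] {g : ι → ℕ → α → M}
    (hg : ∀ i k, MeasurePreserving (g i k) μ ν) {f : ι → M → ℝ} (hf : ∀ i, Measurable (f i))
    {C : ι → ℝ} (hC : ∀ i x, |f i x| ≤ C i) {b : ℕ → α → ℝ} (hb : ∀ k, Measurable (b k)) {D : ℝ}
    (hD : ∀ k x, |b k x| ≤ D) :
    Tendsto (fun k => ∫ x, (∏ i, f i (g i k x)) * b k x ∂μ) (UU : Filter ℕ)
      (𝓝 (∫ x, (∏ i, f i (sv (g i) x)) * st b x ∂(lb μ))) := by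
  classical
  have hC0 : ∀ i, ∀ x : M, 0 ≤ C i := fun i x => (abs_nonneg _).trans (hC i x)
  have hCn : ∀ i, 0 ≤ C i := fun i => hC0 i (Classical.arbitrary M)
  have hbd : ∀ k x, |(∏ i, f i (g i k x)) * b k x| ≤ (∏ i, C i) * |D| := by
    intro k x
    rw [abs_mul, Finset.abs_prod]
    refine mul_le_mul (Finset.prod_le_prod (fun i _ => abs_nonneg _) (fun i _ => hC i _))
      ((hD k x).trans (le_abs_self D)) (abs_nonneg _) (Finset.prod_nonneg fun i _ => hCn i)
  have hmeas : ∀ k, Measurable (fun x => (∏ i, f i (g i k x)) * b k x) := fun k =>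
    (Finset.measurable_prod _ (fun i _ => (hf i).comp (hg i k).measurable)).mul (hb k)
  have h1 := tendsto_integral_st (μ := μ) (f := fun k x => (∏ i, f i (g i k x)) * b k x)
    ⟨hmeas, hbd⟩
  have h2 : ∫ x, (∏ i, f i (sv (g i) x)) * st b x ∂(lb μ) =
      ∫ x, st (fun k x => (∏ i, f i (g i k x)) * b k x) x ∂(lb μ) := by
    refine integral_congr_ae ?_
    have h3 : ∀ᵐ x ∂(lb μ), ∀ i, Tendsto (fun k => f i (g i k (x k))) (UU : Filter ℕ)
        (𝓝 (f i (sv (g i) x))) := by
      rw [ae_all_iff]
      exact fun i => ae_tendsto_sv (hg i) (hf i)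
    filter_upwards [h3] with x hx
    symm
    apply st_eq
    have h4 : Tendsto (fun k => b k (x k)) (UU : Filter ℕ) (𝓝 (st b x)) :=
      stOK_of_bdd (C := D) (fun k x => by simpa using hD k x) x
    exact (tendsto_finsetProd _ (fun i _ => hx i)).mul h4
  rw [h2]
  exact h1

end integral

end Crest.Agent.R069
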