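import Crest.Agent.R069.Defs
import Crest.Agent.R069.ArrFib
import Crest.Agent.R069.Sites
import Crest.Agent.R69.Red

/-!
# Row 69 (S0092): FROZEN INTERFACE (architect helper720).  One `Prop` per node.

Every node owner proves `theorem <node> : N_<NODE>` (any file, own sub-namespace
`Crest.Agent.R069.<File>` for all auxiliary lemmas!).
-/

set_option autoImplicit false

open MeasureTheory Filter Set ProbabilityTheory
open scoped ENNReal Topology

namespace Crest.Agent.R069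

/-! ## upstream: from `X` to a closed `S1`-sated pair over a factor `Y` -/

/-- N_SAT (716, 265, 972): existence of sated pairs (sated against ALL extensions). -/
def N_SAT : Prop :=
  ∀ (X : Sys), StandardBorelSpace X.Ω → ∀ (P : Pair X), StandardBorelSpace P.Ω →
    ∀ (ι : Type) [Fintype ι] (s : ι → ℕ → ℤ),
      ∃ (Q : Pair X) (_ : Ext P Q), StandardBorelSpace Q.Ω ∧ S1 Q ∧ S2 s Q

/-- N_IND (731, 9): conditional independence of the sites of a sated pair, extension form. -/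
def N_IND : Prop :=
  ∀ (X : Sys), StandardBorelSpace X.Ω → ∀ (P : Pair X), StandardBorelSpace P.Ω → S1 P →
    ∀ (ι : Type) [Fintype ι] (s : ι → ℕ → ℤ) (J : Finset ι), XInd X s J →
      ∀ (Q : Pair X) (e : Ext P Q), IndAt s J P Q e

/-- N_RULE (225, 714, 804, 212): functions orthogonal to the visible part of the base do not
contribute to `tau`. -/
def N_RULE : Prop :=
  ∀ (X : Sys), StandardBorelSpace X.Ω → ∀ (P : Pair X), StandardBorelSpace P.Ω →
    ∀ (ι : Type) [Fintype ι] (s : ι → ℕ → ℤ), 3 ≤ Fintype.card ι → XIndP X s → S1 P → S2 s P →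
      ∀ f : ι → X.Ω → ℝ, (∀ i, Bd X.ms (f i)) → (∃ i0, X.μ[f i0 | P.visX s] =ᵐ[X.μ] 0) →
        tau X s f = 0

/-- N_CLOSED (804, 359, 805): the visible algebra of a sated pair is closed. -/
def N_CLOSED : Prop :=
  ∀ (X : Sys), StandardBorelSpace X.Ω → ∀ (P : Pair X), StandardBorelSpace P.Ω →
    ∀ (ι : Type) [Fintype ι] (s : ι → ℕ → ℤ), 3 ≤ Fintype.card ι → XIndP X s → S1 P → S2 s P →
      ∀ i, siteM P.toSys (s i) (P.vis s) ≤ restM s i P.toSys (P.vis s) P.C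

/-- N_FAC (357): standard models of invariant sub-sigma-algebras. -/
def N_FAC : Prop :=
  ∀ (M : Sys), StandardBorelSpace M.Ω → ∀ m : MeasurableSpace M.Ω, m ≤ M.ms →
    (∀ n, Measurable[m, m] (M.S n)) →
    ∃ (F : Sys) (φ : M.Ω → F.Ω), StandardBorelSpace F.Ω ∧
      @MeasurePreserving _ _ M.ms F.ms φ M.μ F.μ ∧
      (∀ n x, φ (M.S n x) = F.S n (φ x)) ∧ F.ms.comap φ ≤ m ∧
      m ≤ F.ms.comap φ ⊔ @nul _ M.ms M.μ

/-- `F` is a factor of `P` containing the base and the environment algebra. -/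
structure FacOf {X : Sys} (P F : Pair X) (φ : P.Ω → F.Ω) : Prop where
  mp : MeasurePreserving φ P.μ F.μ
  equi : ∀ n x, φ (P.S n x) = F.S n (φ x)
  pi_eq : P.π =ᵐ[P.μ] F.π ∘ φ
  C_eq : P.C = F.C.comap φ ⊔ nul P.μ

/-- N_S1F (895): (S1) passes to such factors (relative product of an extension of `F` with `P`
over `F`; only `P`, `F`, `X` are standard Borel). -/
def N_S1F : Prop :=
  ∀ (X : Sys), StandardBorelSpace X.Ω → ∀ (P F : Pair X), StandardBorelSpace P.Ω →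
    StandardBorelSpace F.Ω → ∀ φ : P.Ω → F.Ω, FacOf P F φ → S1 P → S1 F

/-- the pair is closed: every site is a function of the others and of the environment -/
def Closed {X : Sys} {ι : Type} (s : ι → ℕ → ℤ) (F : Pair X) : Prop :=
  ∀ i, siteA F.toSys (s i) ≤ rest s i F

/-- N_YE (768): the upstream assembly. -/
def N_YE : Prop :=
  ∀ (X : Sys), StandardBorelSpace X.Ω → ∀ (ι : Type) [Fintype ι] (s : ι → ℕ → ℤ),
    3 ≤ Fintype.card ι → XIndP X s →
    ∀ f : ι → X.Ω → ℝ, (∀ i, Bd X.ms (f i)) → tau X s f ≠ ∏ i, ∫ x, f i x ∂X.μ →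
    ∃ (Y : Sys) (φ : X.Ω → Y.Ω), StandardBorelSpace Y.Ω ∧ MeasurePreserving φ X.μ Y.μ ∧
      (∀ n x, φ (X.S n x) = Y.S n (φ x)) ∧
      (∃ g : ι → Y.Ω → ℝ, (∀ i, Bd Y.ms (g i)) ∧ tau Y s g ≠ ∏ i, ∫ y, g i y ∂Y.μ) ∧
      ∃ F : Pair Y, StandardBorelSpace F.Ω ∧ S1 F ∧ Closed s F

/-! ## downstream: from a closed `S1`-sated pair to `Data` -/

/-- N_TWO (778, 380, 471): two copies of a pair over `Y` below a sated pair. -/
def N_TWO : Prop :=
  ∀ (Y : Sys), StandardBorelSpace Y.Ω → ∀ (F : Pair Y), StandardBorelSpace F.Ω →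
    ∃ (Q : Pair Y) (e e' : Ext F Q), StandardBorelSpace Q.Ω ∧ S1 Q ∧
      Indep (F.C.comap e.f) (F.C.comap e'.f) Q.μ

/-- the character of the row law `κ` (on `ι → E`) at the slot `j0` -/
def RowChar {ι E : Type*} [Fintype ι] [DecidableEq ι] [MeasurableSpace E]
    (κ : Measure (ι → E)) (j0 : ι) (f : E → ℂ) : Prop :=
  Measurable f ∧ (∀ e, ‖f e‖ = 1) ∧
    ∃ g : ι → E → ℂ, (∀ j, Measurable (g j)) ∧ (∀ j e, ‖g j e‖ = 1) ∧
      ∀ᵐ x ∂κ, f (x j0) = ∏ j ∈ Finset.univ.erase j0, g j (x j)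

/-- totality of the characters of a row law at the slot `j0` -/
def TotAt {ι E : Type*} [Fintype ι] [DecidableEq ι] [MeasurableSpace E]
    (κ : Measure (ι → E)) (j0 : ι) : Prop :=
  ∀ h : E → ℂ, Measurable h → (∃ C : ℝ, ∀ e, ‖h e‖ ≤ C) → ∀ ε : ℝ, 0 < ε →
    ∃ (F : Finset (E → ℂ)) (a : (E → ℂ) → ℂ), (∀ f ∈ F, RowChar κ j0 f) ∧
      ∫ x, ‖h (x j0) - ∑ f ∈ F, a f * f (x j0)‖ ^ 2 ∂κ < ε

/-- static arrays (287) -/
structure StaticArray {ι E : Type*} [Fintype ι] [MeasurableSpace E]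
    (ρ : Measure (ι → ι → E)) : Prop where
  prob : IsProbabilityMeasure ρ
  indep : ∀ i0 j0 : ι, iIndepFun
    (fun (p : {p : ι × ι // p.1 ≠ i0 ∧ p.2 ≠ j0}) (x : ι → ι → E) => x p.1.1 p.1.2) ρ
  rowcl : ∀ i j0 : ι, ∃ g : ({j // j ≠ j0} → E) → E, Measurable g ∧
    ∀ᵐ x ∂ρ, x i j0 = g (fun j => x i j)
  colcl : ∀ i0 j : ι, ∃ g : ({i // i ≠ i0} → E) → E, Measurable g ∧
    ∀ᵐ x ∂ρ, x i0 j = g (fun i => x i j)

/-- N_STATIC (287, 410): the static theorem. -/
def N_STATIC : Prop :=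
  ∀ (ι : Type) [Fintype ι] [DecidableEq ι] (E : Type) [MeasurableSpace E] [StandardBorelSpace E],
    3 ≤ Fintype.card ι → ∀ ρ : Measure (ι → ι → E), StaticArray ρ →
      ∀ i0 j0, TotAt (ρ.map (fun x => x i0)) j0

/-- the sites of a standard Borel system as points: `sv (fun k => M.S (s j k))` (91's Sites) -/
noncomputable def sitev (M : Sys) [StandardBorelSpace M.Ω] [Nonempty M.Ω] {ι : Type}
    (s : ι → ℕ → ℤ) : Lb M.Ω → ι → M.Ω :=
  fun x j => sv (fun k => M.S (s j k)) x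

/-- N_TOT (827, 67, 796; 639): for the environment kernel of a closed sated pair the row characters
are total at a.e. environment point. -/
def N_TOT : Prop :=
  ∀ (Y : Sys), StandardBorelSpace Y.Ω → ∀ (F : Pair Y) [StandardBorelSpace F.Ω] [Nonempty F.Ω]
    (ι : Type) [Fintype ι] [DecidableEq ι] (s : ι → ℕ → ℤ), 3 ≤ Fintype.card ι → XIndP Y s →
    S1 F → Closed s F →
    ∃ (w : Lb F.Ω → Arr.W) (κ : Kernel Arr.W (ι → F.Ω)),
      Arr.IsEnv (LL F.C) (lb F.μ) (sitev F.toSys s) w κ ∧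
        ∀ j0, ∀ᵐ v ∂((lb F.μ).map w), TotAt (κ v) j0

/-- N_H (93, 853, 993, 662): from a closed sated pair to the input of DESC, i.e. (with 662's
`Desc.exists_data`) `Data` at one point. -/
def N_DATA : Prop :=
  ∀ (Y : Sys), StandardBorelSpace Y.Ω → ∀ (F : Pair Y), StandardBorelSpace F.Ω →
    ∀ (ι : Type) [Fintype ι] (s : ι → ℕ → ℤ), 3 ≤ Fintype.card ι → XIndP Y s →
    S1 F → Closed s F →
    ∃ (Ω : Type) (_ : MeasurableSpace Ω) (P : Measure Ω) (N : Type) (_ : CommGroup N),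
      IsProbabilityMeasure P ∧ Nonempty (End.Data Y.μ Y.S P N)

/-- N_ASM (744, 930, 126, 895): the induction on the number of sites, with 357's `S0092_of`. -/
def N_ASM : Prop :=
  N_YE → N_DATA →
    ∀ (Γ : Type) [MeasurableSpace Γ] [StandardBorelSpace Γ] (ν : Measure Γ)
      [IsProbabilityMeasure ν] (S : Γ ≃ᵐ Γ), MeasurePreserving S ν ν → R69.Mix ν S →
        R69.MixAll ν S

end Crest.Agent.R069
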