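import Crest.Agent.R069.AsmFar
import Crest.Agent.R069.Iface

/-!
Row 69 (S0092), node `N_ASM`: the induction on the number of sites.
-/

set_option autoImplicit false

open MeasureTheory Filter Set
open scoped Topology

noncomputable section

namespace Crest.Agent.R069.AsmFar

/-- the step from the two blocks of the interface -/
theorem step_of (hYE : N_YE) (hD : N_DATA) : STEP := by
  intro r hr s hs low X hX hbad
  have hstd : StandardBorelSpace X.Ω := hX.std
  have hXi : XIndP X s := xIndP_of_lower (by omega) (fun s' hs' => low X hX s' hs') hs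
  obtain ⟨f, hf, hne⟩ := not_mixAt_iff.1 hbad
  have hcard : 3 ≤ Fintype.card (Fin r) := by rwa [Fintype.card_fin]
  obtain ⟨Y, φ, hYstd, hφ, hφS, ⟨g, hg, hgne⟩, F, hFstd, hF1, hFc⟩ :=
    hYE X hstd (Fin r) s hcard hXi f hf hne
  have hYSM : SM Y := SM.of hYstd
    (Sys.Mixing.factor hφ (fun n => Eventually.of_forall fun x => hφS n x) hX.mixing)
  have hYi : XIndP Y s := xIndP_of_lower (by omega) (fun s' hs' => low Y hYSM s' hs') hs
  obtain ⟨Ω, mΩ, P, N, hN, -, hData⟩ := hD Y hYstd F hFstd (Fin r) s hcard hYi hF1 hFc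
  exact ⟨Y, hYSM, not_mixAt_iff.2 ⟨g, hg, hgne⟩, Ω, mΩ, P, N, hN, hData⟩

end Crest.Agent.R069.AsmFar

namespace Crest.Agent.R069

/-- **node `N_ASM`** -/
theorem n_asm : N_ASM := by
  intro hYE hD Γ _ hΓ ν _ S hS hm r
  have hall := AsmFar.allMix_of_step (AsmFar.step_of hYE hD)
  have h1 : (Sys.of ν S hS).Mixing := by
    unfold Sys.Mixing
    rw [Sys.of_eqv]
    exact hm
  have h2 := ((Sys.of ν S hS).mixQ_iff r).1 (hall (Sys.of ν S hS) hΓ h1 r)
  rw [Sys.of_eqv] at h2
  exact h2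

/-- **S0092 from the two blocks of the interface.** -/
theorem S0092_of_blocks (hYE : N_YE) (hD : N_DATA)
    {Ω : Type*} [MeasurableSpace Ω] (μ : Measure Ω) [IsProbabilityMeasure μ]
    (T : Ω ≃ᵐ Ω) (hT : MeasurePreserving T μ μ)
    (hmix : ∀ A B : Set Ω, MeasurableSet A → MeasurableSet B →
      Tendsto (fun n : ℕ => μ (A ∩ (T^[n]) ⁻¹' B)) atTop (nhds (μ A * μ B)))
    (k : ℕ) (A : Fin (k + 1) → Set Ω) (hA : ∀ i, MeasurableSet (A i)) :
    Tendsto (fun n : Fin k → ℕ =>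
        μ (⋂ i : Fin (k + 1), (T^[∑ j : Fin k, if (j : ℕ) < (i : ℕ) then n j else 0]) ⁻¹' A i))
      atTop (nhds (∏ i, μ (A i))) :=
  AsmFar.S0092_of_step (AsmFar.step_of hYE hD) μ T hT hmix k A hA

end Crest.Agent.R069
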