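import Crest.Agent.R069.End2
import Crest.Agent.R69.Alg4

/-! Row 69, END part 3: relations between characters, mixing of all orders. -/

set_option linter.unusedSectionVars false
set_option linter.unusedVariables false

open MeasureTheory Filter Topology

namespace Crest.Agent.R069.End

variable {X Ω : Type*} [MeasurableSpace X] [MeasurableSpace Ω]
variable {μ : Measure X} {S : ℤ → X → X} {P : Measure Ω} {N : Type*} [CommGroup N]

namespace Data

variable (D : Data μ S P N)

/-- the factors during the replacement process -/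
noncomputable def G {I : Type*} [DecidableEq I] (f : I → X → ℂ) (F : I → Finset N)
    (c : I → N → ℂ) (J : Finset I) (n : I → ℤ) (i : I) (w : Ω) : ℂ :=
  if i ∈ J then ∑ χ ∈ F i, c i χ * D.ev ((D.al ^ (n i)) χ) w else f i (S (n i) (D.pr w))

variable [IsProbabilityMeasure μ]

theorem G_AB (hS : Act μ S) {I : Type*} [DecidableEq I] (f : I → X → ℂ) (hf : ∀ i, BM (f i))
    (F : I → Finset N) (c : I → N → ℂ) (J : Finset I) (n : I → ℤ) (i : I) :
    AB P (D.G f F c J n i) := by
  unfold G
  split_ifs with h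
  · exact D.sum_AB (F i) (c i) _
  · exact D.pr_AB ((hf i).comp (hS.mp _).measurable)

theorem approx (hS : Act μ S) {I : Type*} [Fintype I] [DecidableEq I] (f : I → X → ℂ)
    (hf : ∀ i, BM (f i)) (J : Finset I) : ∀ ε : ℝ, 0 < ε →
    ∃ (F : I → Finset N) (c : I → N → ℂ),
      (∀ i ∈ J, ∀ χ ∈ F i, ∫ w, f i (D.pr w) * (starRingEnd ℂ) (D.ev χ w) ∂P ≠ 0) ∧
      ∀ n : I → ℤ, ‖∫ w, ∏ i, f i (S (n i) (D.pr w)) ∂P - ∫ w, ∏ i, D.G f F c J n i w ∂P‖ ≤ ε := by
  have hP := D.isProb
  choose C hC using fun i => (hf i).2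
  induction J using Finset.induction_on with
  | empty =>
    intro ε hε
    refine ⟨fun _ => ∅, fun _ _ => 0, by simp, fun n => ?_⟩
    simp only [G, Finset.notMem_empty, if_false, sub_self, norm_zero]
    exact hε.le
  | insert j J hj ih =>
    intro ε hε
    obtain ⟨F, c, h1, h2⟩ := ih (ε / 2) (half_pos hε)
    set B : I → ℝ := fun i => (∑ χ ∈ F i, ‖c i χ‖) + |C i| with hB
    have hB0 : ∀ i, 0 ≤ B i := fun i => by positivity
    set K : ℝ := ∏ i ∈ Finset.univ.erase j, B i with hK
    have hK0 : 0 ≤ K := Finset.prod_nonneg fun i _ => hB0 i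
    have hη : 0 < (ε / 2 / (K + 1)) ^ 2 := by positivity
    obtain ⟨Fj, cj, h3, h4⟩ := D.span' (hf j) hη
    set F' := Function.update F j Fj with hF'
    set c' := Function.update c j cj with hc'
    refine ⟨F', c', ?_, ?_⟩
    · intro i hi χ hχ
      rcases Finset.mem_insert.1 hi with rfl | hi
      · rw [hF', Function.update_self] at hχ
        exact h3 χ hχ
      · have hij : i ≠ j := fun h => hj (h ▸ hi)
        rw [hF', Function.update_of_ne hij] at hχ
        exact h1 i hi χ hχ
    · intro n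
      have hGe : ∀ i, i ≠ j → ∀ w, D.G f F' c' (insert j J) n i w = D.G f F c J n i w := by
        intro i hij w
        unfold G
        rw [hF', hc', Function.update_of_ne hij, Function.update_of_ne hij]
        simp only [Finset.mem_insert, hij, false_or]
      have hGj : ∀ w, D.G f F' c' (insert j J) n j w =
          ∑ χ ∈ Fj, cj χ * D.ev ((D.al ^ (n j)) χ) w := by
        intro w
        unfold G
        rw [if_pos (Finset.mem_insert_self _ _), hF', hc', Function.update_self,
          Function.update_self]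
      have hGj' : ∀ w, D.G f F c J n j w = f j (S (n j) (D.pr w)) := by
        intro w
        unfold G
        rw [if_neg hj]
      have hbd : ∀ᵐ w ∂P, ∀ i, ‖D.G f F c J n i w‖ ≤ B i := by
        rw [ae_all_iff]
        intro i
        have hall : ∀ᵐ w ∂P, ∀ χ ∈ F i, ‖D.ev ((D.al ^ (n i)) χ) w‖ = 1 :=
          (ae_ball_iff (F i).countable_toSet).2 fun χ _ => D.ev_norm _
        filter_upwards [hall] with w hw
        unfold G
        split_ifs with h
        · refine (norm_sum_le _ _).trans ?_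
          have : ∑ χ ∈ F i, ‖c i χ * D.ev ((D.al ^ (n i)) χ) w‖ = ∑ χ ∈ F i, ‖c i χ‖ :=
            Finset.sum_congr rfl fun χ hχ => by rw [norm_mul, hw χ hχ, mul_one]
          rw [this, hB]
          have := abs_nonneg (C i)
          simp only; linarith
        · refine ((hC i _).trans (le_abs_self _)).trans ?_
          rw [hB]
          have : 0 ≤ ∑ χ ∈ F i, ‖c i χ‖ := by positivity
          simp only; linarith
      set A : Ω → ℂ := fun w => ∏ i ∈ Finset.univ.erase j, D.G f F c J n i w with hA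
      have hAAB : AB P A := AB.prod _ fun i _ => D.G_AB hS f hf F c J n i
      set E : Ω → ℂ := fun w => f j (S (n j) (D.pr w)) -
        ∑ χ ∈ Fj, cj χ * D.ev ((D.al ^ (n j)) χ) w with hE
      have hEAB : AB P E := (D.pr_AB ((hf j).comp (hS.mp _).measurable)).sub (D.sum_AB Fj cj _)
      have hAb : ∀ᵐ w ∂P, ‖A w‖ ≤ K := by
        filter_upwards [hbd] with w hw
        rw [hA, hK]
        simp only
        rw [norm_prod]
        exact Finset.prod_le_prod (fun i _ => norm_nonneg _) fun i _ => hw i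
      have e1 : ∫ w, ∏ i, D.G f F c J n i w ∂P - ∫ w, ∏ i, D.G f F' c' (insert j J) n i w ∂P =
          ∫ w, A w * E w ∂P := by
        rw [← integral_sub (AB.prod _ fun i _ => D.G_AB hS f hf F c J n i).int
          (AB.prod _ fun i _ => D.G_AB hS f hf F' c' (insert j J) n i).int]
        refine integral_congr_ae (Eventually.of_forall fun w => ?_)
        simp only
        rw [← Finset.mul_prod_erase Finset.univ (fun i => D.G f F c J n i w) (Finset.mem_univ j),
          ← Finset.mul_prod_erase Finset.univ (fun i => D.G f F' c' (insert j J) n i w)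
            (Finset.mem_univ j), hGj, hGj']
        have : ∏ i ∈ Finset.univ.erase j, D.G f F' c' (insert j J) n i w = A w :=
          Finset.prod_congr rfl fun i hi => hGe i (Finset.ne_of_mem_erase hi) w
        rw [this, hE]
        simp only [hA]
        ring
      have e2 : ∫ w, ‖E w‖ ^ 2 ∂P < (ε / 2 / (K + 1)) ^ 2 := by
        rw [hE]
        simp only
        rw [D.norm_shift hS (hf j) Fj cj (n j)]
        exact h4
      have e3 : ‖∫ w, A w * E w ∂P‖ ≤ ε / 2 := by
        have q1 : ‖∫ w, A w * E w ∂P‖ ≤ ∫ w, K * ‖E w‖ ∂P := by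
          refine norm_integral_le_of_norm_le (hEAB.int.norm.const_mul K) ?_
          filter_upwards [hAb] with w hw
          rw [norm_mul]
          exact mul_le_mul_of_nonneg_right hw (norm_nonneg _)
        rw [integral_const_mul] at q1
        obtain ⟨CE, hCE⟩ := hEAB.2
        have q2 : (∫ w, ‖E w‖ ∂P) ^ 2 ≤ ∫ w, ‖E w‖ ^ 2 ∂P := by
          have := norm_int_sq_le (P := P) (F := fun w => ((‖E w‖ : ℝ) : ℂ)) (C := CE)
            (Complex.continuous_ofReal.comp_aestronglyMeasurable hEAB.1.norm) (by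
              filter_upwards [hCE] with w hw
              rw [Complex.norm_real, norm_norm]; exact hw)
          have hc9 : ∫ w, ((‖E w‖ : ℝ) : ℂ) ∂P = ((∫ w, ‖E w‖ ∂P : ℝ) : ℂ) := integral_ofReal
          rw [hc9, Complex.norm_real, Real.norm_eq_abs, sq_abs] at this
          simpa only [Complex.norm_real, norm_norm] using this
        have q3 : ∫ w, ‖E w‖ ∂P ≤ ε / 2 / (K + 1) :=
          le_of_lt (lt_of_pow_lt_pow_left₀ 2 (by positivity) (q2.trans_lt e2))
        calc ‖∫ w, A w * E w ∂P‖ ≤ K * ∫ w, ‖E w‖ ∂P := q1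
          _ ≤ (K + 1) * (ε / 2 / (K + 1)) :=
            mul_le_mul (by linarith) q3 (integral_nonneg fun _ => norm_nonneg _) (by linarith)
          _ = ε / 2 := by field_simp
      have := h2 n
      calc _ = ‖(∫ w, ∏ i, f i (S (n i) (D.pr w)) ∂P - ∫ w, ∏ i, D.G f F c J n i w ∂P) +
            (∫ w, ∏ i, D.G f F c J n i w ∂P -
              ∫ w, ∏ i, D.G f F' c' (insert j J) n i w ∂P)‖ := by
            congr 1; ring
        _ ≤ ε / 2 + ε / 2 := (norm_add_le _ _).trans (add_le_add this (by rw [e1]; exact e3))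
        _ = ε := add_halves ε

theorem ev_prod {I : Type*} (s : Finset I) (g : I → N) :
    ∀ᵐ w ∂P, D.ev (∏ i ∈ s, g i) w = ∏ i ∈ s, D.ev (g i) w := by
  classical
  induction s using Finset.induction_on with
  | empty => simpa using D.ev_one
  | insert a s ha ih =>
    filter_upwards [ih, D.ev_mul (g a) (∏ i ∈ s, g i)] with w h1 h2
    rw [Finset.prod_insert ha, Finset.prod_insert ha, h2, h1]

theorem scal_map : D.scal.map (D.al : N →* N) = D.scal := by
  ext χ
  constructor
  · rintro ⟨ψ, hψ, rfl⟩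
    exact D.al_mem_scal.2 hψ
  · intro h
    refine ⟨D.al⁻¹ χ, ?_, ?_⟩
    · have : D.al (D.al⁻¹ χ) ∈ D.scal := by
        rw [← MulAut.mul_apply, mul_inv_cancel]; exact h
      exact D.al_mem_scal.1 this
    · change D.al (D.al⁻¹ χ) = χ
      rw [← MulAut.mul_apply, mul_inv_cancel]; rfl

/-- the induced automorphism of `N / scal` -/
noncomputable def th : MulAut (N ⧸ D.scal) :=
  QuotientGroup.congr D.scal D.scal D.al D.scal_map

theorem th_mk (χ : N) : D.th (QuotientGroup.mk χ) = QuotientGroup.mk (D.al χ) := rfl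

theorem th_pow_mk (n : ℕ) (χ : N) :
    (D.th ^ n) (QuotientGroup.mk χ) = QuotientGroup.mk ((D.al ^ n) χ) := by
  induction n with
  | zero => simp
  | succ n ih => rw [pow_succ', MulAut.mul_apply, ih, th_mk, pow_succ', MulAut.mul_apply]

theorem th_zpow_mk (n : ℤ) (χ : N) :
    (D.th ^ n) (QuotientGroup.mk χ) = QuotientGroup.mk ((D.al ^ n) χ) := by
  obtain ⟨m, rfl | rfl⟩ := n.eq_nat_or_neg
  · rw [zpow_natCast, zpow_natCast]; exact D.th_pow_mk m χ
  · apply (D.th ^ m).injective
    rw [← MulAut.mul_apply, ← zpow_natCast, ← zpow_add, zpow_natCast, D.th_pow_mk,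
      ← MulAut.mul_apply, ← zpow_natCast, ← zpow_add]
    simp

theorem exists_lev {q : N ⧸ D.scal} (h : Crest.Agent.R69.Alg.Tors D.th q) :
    ∀ χ : N, QuotientGroup.mk χ = q → ∃ l : List ℕ, (∀ r ∈ l, 0 < r) ∧ χ ∈ D.lev l := by
  induction h with
  | one =>
    intro χ hχ
    exact ⟨[], by simp, (QuotientGroup.eq_one_iff χ).1 hχ⟩
  | step q r hr h ih =>
    intro χ hχ
    obtain ⟨l, h1, h2⟩ := ih (D.dl r χ) (by
      rw [← hχ, D.th_pow_mk, D.dl_apply, div_eq_mul_inv]
      rfl)
    exact ⟨r :: l, by simpa using ⟨hr, h1⟩, h2⟩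

include D in
/-- **END, mean zero form.** -/
theorem tendsto_zero (hS : Act μ S) (hmix : Mix μ S) (I : Type) [Fintype I] [Nonempty I]
    (s : I → ℕ → ℤ) (hs : ∀ i j, i ≠ j → Tendsto (fun k => |s i k - s j k|) atTop atTop)
    (f : I → X → ℂ) (hf : ∀ i, BM (f i)) (hf0 : ∀ i, ∫ x, f i x ∂μ = 0) :
    Tendsto (fun k => ∫ x, ∏ i, f i (S (s i k) x) ∂μ) atTop (𝓝 0) := by
  classical
  have hP := D.isProb
  have hpr : ∀ n : I → ℤ, ∫ x, ∏ i, f i (S (n i) x) ∂μ =
      ∫ w, ∏ i, f i (S (n i) (D.pr w)) ∂P := by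
    intro n
    refine (D.int_pr (h := fun x => ∏ i, f i (S (n i) x)) ?_).symm
    choose C hC using fun i => (hf i).2
    refine ⟨Finset.measurable_fun_prod _ fun i _ => (hf i).1.comp (hS.mp _).measurable,
      ∏ i, C i, fun x => ?_⟩
    rw [norm_prod]
    exact Finset.prod_le_prod (fun i _ => norm_nonneg _) fun i _ => hC i _
  by_contra hnot
  rw [Metric.tendsto_atTop] at hnot
  push Not at hnot
  obtain ⟨δ, hδ, hfr⟩ := hnot
  have hfr' : ∃ᶠ k in atTop, δ ≤ ‖∫ w, ∏ i, f i (S (s i k) (D.pr w)) ∂P‖ := by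
    rw [frequently_atTop]
    intro a
    obtain ⟨b, hb, h⟩ := hfr a
    refine ⟨b, hb, ?_⟩
    rw [← hpr (fun i => s i b)]
    simpa using h
  obtain ⟨F, c, h1, h2⟩ := D.approx hS f hf Finset.univ (δ / 2) (half_pos hδ)
  -- the trigonometric product
  have hexp : ∀ n : I → ℤ, ∫ w, ∏ i, D.G f F c Finset.univ n i w ∂P =
      ∑ φ ∈ Fintype.piFinset F, (∏ i, c i (φ i)) *
        ∫ w, D.ev (∏ i, (D.al ^ (n i)) (φ i)) w ∂P := by
    intro n
    have e1 : ∀ w, ∏ i, D.G f F c Finset.univ n i w = ∑ φ ∈ Fintype.piFinset F,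
        (∏ i, c i (φ i)) * ∏ i, D.ev ((D.al ^ (n i)) (φ i)) w := by
      intro w
      simp only [G, Finset.mem_univ, if_true]
      rw [Finset.prod_univ_sum]
      exact Finset.sum_congr rfl fun φ _ => Finset.prod_mul_distrib
    simp_rw [e1]
    rw [integral_finsetSum _ fun φ _ => ((AB.const (∏ i, c i (φ i))).mul
      (AB.prod _ fun i _ => D.ev_AB _)).int]
    refine Finset.sum_congr rfl fun φ _ => ?_
    rw [integral_const_mul]
    congr 1
    refine integral_congr_ae ?_
    filter_upwards [D.ev_prod Finset.univ (fun i => (D.al ^ (n i)) (φ i))] with w hw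
    exact hw.symm
  have hfr2 : ∃ φ ∈ Fintype.piFinset F, ∃ᶠ k in atTop,
      ∫ w, D.ev (∏ i, (D.al ^ (s i k)) (φ i)) w ∂P ≠ 0 := by
    by_contra hno
    push Not at hno
    have hev : ∀ᶠ k in (atTop : Filter ℕ), ∀ φ ∈ Fintype.piFinset F,
        ∫ w, D.ev (∏ i, (D.al ^ (s i k)) (φ i)) w ∂P = 0 := by
      rw [eventually_all_finset]
      exact hno
    obtain ⟨k, hk1, hk2⟩ := (hfr'.and_eventually hev).exists
    have h3 := h2 (fun i => s i k)
    rw [hexp, Finset.sum_eq_zero fun φ hφ => by rw [hk2 φ hφ, mul_zero], sub_zero] at h3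
    linarith
  obtain ⟨φ, hφ, hfr3⟩ := hfr2
  have hfr4 : ∃ᶠ k in atTop,
      ∏ i, (D.th ^ (s i k)) (QuotientGroup.mk (φ i) : N ⧸ D.scal) = 1 := by
    refine hfr3.mono fun k hk => ?_
    obtain ⟨z, hz⟩ := D.ev_mean _ hk
    simp_rw [D.th_zpow_mk]
    have hm : ∏ i, (D.al ^ (s i k)) (φ i) ∈ D.scal := ⟨z, hz⟩
    have h5 := (QuotientGroup.eq_one_iff _).2 hm
    rw [← h5]
    exact (map_prod (QuotientGroup.mk' D.scal) _ _).symm
  have hne : (atTop ⊓ 𝓟 {k : ℕ | ∏ i, (D.th ^ (s i k)) (QuotientGroup.mk (φ i) : N ⧸ D.scal) = 1}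
      : Filter ℕ).NeBot := frequently_mem_iff_neBot.1 hfr4
  set U : Ultrafilter ℕ := @Ultrafilter.of _ _ hne with hU
  have hU1 : (U : Filter ℕ) ≤ atTop ⊓ 𝓟 _ := @Ultrafilter.of_le _ _ hne
  have htor := Crest.Agent.R69.Alg.group_dominant D.th (fun i => QuotientGroup.mk (φ i)) U
    (fun k i => s i k) (fun i j hij => (hs i j hij).mono_left (hU1.trans inf_le_left))
    ((hU1.trans inf_le_right) (mem_principal_self _))
  obtain ⟨i⟩ := (inferInstance : Nonempty I)
  obtain ⟨l, hl1, hl2⟩ := D.exists_lev (htor i) (φ i) rfl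
  exact h1 i (Finset.mem_univ i) (φ i) (Fintype.mem_piFinset.1 hφ i)
    (D.nine_a hS hmix l hl1 (φ i) hl2 (f i) (hf i) (hf0 i))

include D in
/-- **END.** -/
theorem mixAll (hS : Act μ S) (hmix : Mix μ S) : MixAll μ S := by
  classical
  intro I _ s hs f hf
  have hP := D.isProb
  set m : I → ℂ := fun i => ∫ x, f i x ∂μ with hm
  set g : I → X → ℂ := fun i x => f i x - m i with hg
  have hgB : ∀ i, BM (g i) := fun i => (hf i).sub (BM.const _)
  have hg0 : ∀ i, ∫ x, g i x ∂μ = 0 := fun i => by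
    simp only [hg]
    rw [integral_sub (hf i).integrable (integrable_const _)]; simp [hm]
  have e1 : ∀ k x, ∏ i, f i (S (s i k) x) = ∑ t ∈ Finset.univ.powerset,
      (∏ i ∈ t, g i (S (s i k) x)) * ∏ i ∈ Finset.univ \ t, m i := by
    intro k x
    rw [← Finset.prod_add]
    exact Finset.prod_congr rfl fun i _ => by simp [hg]
  have hint : ∀ k, ∀ t ∈ (Finset.univ : Finset I).powerset, Integrable (fun x =>
      (∏ i ∈ t, g i (S (s i k) x)) * ∏ i ∈ Finset.univ \ t, m i) μ := by
    intro k t _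
    refine Integrable.mul_const ?_ _
    have : BM (fun x => ∏ i ∈ t, g i (S (s i k) x)) := by
      choose C hC using fun i => (hgB i).2
      refine ⟨Finset.measurable_fun_prod _ fun i _ => (hgB i).1.comp (hS.mp _).measurable,
        ∏ i ∈ t, C i, fun x => ?_⟩
      rw [norm_prod]
      exact Finset.prod_le_prod (fun i _ => norm_nonneg _) fun i _ => hC i _
    exact this.integrable
  simp_rw [e1]
  have e2 : ∀ k, ∫ x, ∑ t ∈ Finset.univ.powerset,
      (∏ i ∈ t, g i (S (s i k) x)) * ∏ i ∈ Finset.univ \ t, m i ∂μ =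
      ∑ t ∈ Finset.univ.powerset, (∫ x, ∏ i ∈ t, g i (S (s i k) x) ∂μ) *
        ∏ i ∈ Finset.univ \ t, m i := by
    intro k
    rw [integral_finsetSum _ (hint k)]
    exact Finset.sum_congr rfl fun t _ => integral_mul_const _ _
  simp_rw [e2]
  have e3 : ∏ i, m i = ∑ t ∈ (Finset.univ : Finset I).powerset,
      (if t = ∅ then 1 else 0) * ∏ i ∈ Finset.univ \ t, m i := by
    rw [Finset.sum_eq_single ∅]
    · simp
    · intro t _ ht; simp [ht]
    · intro h; simp at h
  rw [e3]
  refine tendsto_finsetSum _ fun t _ => Tendsto.mul_const _ ?_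
  split_ifs with ht
  · subst ht
    simp
  · have hne : Nonempty t := (Finset.nonempty_of_ne_empty ht).to_subtype
    have := D.tendsto_zero hS hmix t (fun i k => s i k)
      (fun i j hij => hs i j (fun h => hij (Subtype.ext h))) (fun i => g i) (fun i => hgB i)
      (fun i => hg0 i)
    refine this.congr fun k => ?_
    refine integral_congr_ae (Eventually.of_forall fun x => ?_)
    exact Finset.prod_coe_sort t (fun i => g i (S (s i k) x))

end Data

end Crest.Agent.R069.End
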