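import Crest.Agent.R069.SatDefs
import Crest.Agent.R069.End3
import Crest.Agent.R69.Red

/-!
# Row 69 (S0092): the very end of the assembly (helper126)

`Top.STEP` is the structural step (for `r ≥ 3`, a standard Borel mixing system with a failing
`r`-tuple, all standard Borel mixing systems being `(r-1)`-mixing, has a bad factor carrying
`End.Data`); `Top.S0092_of_step` is the theorem.
-/

set_option autoImplicit false

open MeasureTheory Filter Set
open scoped ENNReal Topology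

noncomputable section

namespace Crest.Agent.R069.Top

/-- bounded measurable real functions -/
def BR {α : Type*} [MeasurableSpace α] (f : α → ℝ) : Prop :=
  Measurable f ∧ ∃ C : ℝ, ∀ x, |f x| ≤ C

/-- a tuple of integer sequences whose mutual distances tend to infinity along `UU` -/
def Far {ι : Type} (s : ι → ℕ → ℤ) : Prop :=
  ∀ i j, i ≠ j → Tendsto (fun k => |s i k - s j k|) (UU : Filter ℕ) atTop

/-- `X` is mixing along the tuple `s` -/
def MixAt (X : Sys) {ι : Type} [Fintype ι] (s : ι → ℕ → ℤ) : Prop :=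
  ∀ f : ι → X.Ω → ℝ, (∀ i, BR (f i)) →
    Tendsto (fun k => ∫ x, ∏ i, f i (X.S (s i k) x) ∂X.μ) (UU : Filter ℕ)
      (𝓝 (∏ i, ∫ x, f i x ∂X.μ))

/-- standard Borel mixing systems -/
structure SM (X : Sys) : Prop where
  std : StandardBorelSpace X.Ω
  mix : ∀ A B : Set X.Ω, MeasurableSet A → MeasurableSet B →
    Tendsto (fun n : ℕ => X.μ (A ∩ X.S n ⁻¹' B)) atTop (𝓝 (X.μ A * X.μ B))

/-- the structural step -/
def STEP : Prop :=
  ∀ r : ℕ, 3 ≤ r → ∀ s : Fin r → ℕ → ℤ, Far s →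
    (∀ Z : Sys, SM Z → ∀ s' : Fin (r - 1) → ℕ → ℤ, Far s' → MixAt Z s') →
    ∀ X : Sys, SM X → ¬ MixAt X s →
      ∃ Y : Sys, SM Y ∧ ¬ MixAt Y s ∧
        ∃ (Ω : Type) (_ : MeasurableSpace Ω) (P : Measure Ω) (N : Type) (_ : CommGroup N),
          Nonempty (End.Data Y.μ Y.S P N)

/-! ### bounded functions -/

theorem BR.integrable {α : Type*} [MeasurableSpace α] {μ : Measure α} [IsFiniteMeasure μ]
    {f : α → ℝ} (h : BR f) : Integrable f μ := by
  obtain ⟨C, hC⟩ := h.2
  exact Integrable.of_bound h.1.aestronglyMeasurable C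
    (Eventually.of_forall fun x => by rw [Real.norm_eq_abs]; exact hC x)

theorem BR.memLp {α : Type*} [MeasurableSpace α] {μ : Measure α} [IsFiniteMeasure μ]
    {f : α → ℝ} (h : BR f) : MemLp f 2 μ := by
  obtain ⟨C, hC⟩ := h.2
  exact MemLp.of_bound h.1.aestronglyMeasurable C
    (Eventually.of_forall fun x => by rw [Real.norm_eq_abs]; exact hC x)

theorem BR.one {α : Type*} [MeasurableSpace α] : BR (fun _ : α => (1 : ℝ)) :=
  ⟨measurable_const, 1, fun _ => by simp⟩

theorem BR.ofReal {α : Type*} [MeasurableSpace α] {f : α → ℝ} (h : BR f) :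
    End.BM (fun x => (f x : ℂ)) := by
  obtain ⟨C, hC⟩ := h.2
  exact ⟨Complex.measurable_ofReal.comp h.1, C, fun x => by
    rw [Complex.norm_real, Real.norm_eq_abs]; exact hC x⟩

theorem BR.re {α : Type*} [MeasurableSpace α] {f : α → ℂ} (h : End.BM f) :
    BR (fun x => (f x).re) := by
  obtain ⟨C, hC⟩ := h.2
  exact ⟨Complex.measurable_re.comp h.1, C, fun x => (Complex.abs_re_le_norm _).trans (hC x)⟩

theorem BR.im {α : Type*} [MeasurableSpace α] {f : α → ℂ} (h : End.BM f) :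
    BR (fun x => (f x).im) := by
  obtain ⟨C, hC⟩ := h.2
  exact ⟨Complex.measurable_im.comp h.1, C, fun x => (Complex.abs_im_le_norm _).trans (hC x)⟩

/-! ### systems and measurable equivalences -/

/-- the `Act` structure of a system -/
theorem _root_.Crest.Agent.R069.Sys.act (X : Sys) : End.Act X.μ X.S where
  mp := X.S_mp
  add := X.S_add
  zero := X.S_zero

/-- the time one map -/
def _root_.Crest.Agent.R069.Sys.T (X : Sys) : X.Ω ≃ᵐ X.Ω where
  toFun := X.S 1
  invFun := X.S (-1)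
  left_inv x := by rw [← X.S_add]; simpa using X.S_zero x
  right_inv x := by rw [← X.S_add]; simpa using X.S_zero x
  measurable_toFun := (X.S_mp 1).measurable
  measurable_invFun := (X.S_mp (-1)).measurable

theorem T_apply (X : Sys) (x : X.Ω) : X.T x = X.S 1 x := rfl

theorem T_symm_apply (X : Sys) (x : X.Ω) : (X.T)⁻¹ x = X.S (-1) x := rfl

theorem T_pow (X : Sys) (n : ℕ) (x : X.Ω) : (X.T ^ n : X.Ω ≃ᵐ X.Ω) x = X.S n x := by
  induction n generalizing x with
  | zero => rw [pow_zero, R69.me_one_apply, Nat.cast_zero, X.S_zero]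
  | succ n ih =>
    rw [pow_succ, R69.me_mul_apply, ih, T_apply, ← X.S_add]
    push_cast
    rfl

theorem T_zpow (X : Sys) (n : ℤ) (x : X.Ω) : (X.T ^ n : X.Ω ≃ᵐ X.Ω) x = X.S n x := by
  cases n with
  | ofNat n => rw [Int.ofNat_eq_natCast, zpow_natCast, T_pow]
  | negSucc n =>
    rw [zpow_negSucc]
    have h1 : (X.T ^ (n + 1) : X.Ω ≃ᵐ X.Ω) (X.S (Int.negSucc n) x) = x := by
      rw [T_pow, ← X.S_add]
      have : ((n + 1 : ℕ) : ℤ) + Int.negSucc n = 0 := by
        rw [Int.negSucc_eq]; push_cast; ring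
      rw [this, X.S_zero]
    have h2 := R69.me_inv_apply_self (X.T ^ (n + 1)) (X.S (Int.negSucc n) x)
    rw [h1] at h2
    exact h2

theorem SM.mixR {X : Sys} (h : SM X) : R69.Mix X.μ X.T := by
  intro A B hA hB
  refine (h.mix A B hA hB).congr fun n => ?_
  rw [← R69.me_pow_coe]
  congr 2
  ext x
  rw [mem_preimage, mem_preimage, T_pow]

/-- the system of a measurable equivalence -/
def sysOf {Γ : Type} [MeasurableSpace Γ] (ν : Measure Γ) [IsProbabilityMeasure ν] (T : Γ ≃ᵐ Γ)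
    (hT : MeasurePreserving T ν ν) : Sys where
  Ω := Γ
  μ := ν
  S n x := (T ^ n : Γ ≃ᵐ Γ) x
  S_zero x := by rw [zpow_zero]; rfl
  S_add a b x := R69.me_zpow_add T a b x
  S_mp n := R69.mp_zpow hT n

theorem sysOf_SM {Γ : Type} [MeasurableSpace Γ] [h : StandardBorelSpace Γ] (ν : Measure Γ)
    [IsProbabilityMeasure ν] (T : Γ ≃ᵐ Γ) (hT : MeasurePreserving T ν ν) (hm : R69.Mix ν T) :
    SM (sysOf ν T hT) where
  std := h
  mix A B hA hB := by
    refine (hm A B hA hB).congr fun n => ?_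
    rw [← R69.me_pow_coe, ← zpow_natCast]
    rfl

/-! ### two sites -/

/-- mixing of real functions at integer times -/
theorem SM.tendsto_real {X : Sys} (h : SM X) {f g : X.Ω → ℝ} (hf : BR f) (hg : BR g) :
    Tendsto (fun n : ℤ => ∫ x, f x * g (X.S n x) ∂X.μ) cofinite
      (𝓝 ((∫ x, f x ∂X.μ) * ∫ x, g x ∂X.μ)) := by
  have h1 := h.mixR.tendsto_L2 (X.S_mp 1) hf.memLp hg.memLp
  refine h1.congr fun n => ?_
  simp_rw [T_zpow]

theorem abs_atTop_iff {κ : Type*} {l : Filter κ} {u : κ → ℤ} :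
    Tendsto (fun k => |u k|) l atTop ↔ Tendsto u l cofinite := by
  rw [Int.cofinite_eq, ← Filter.comap_abs_atTop, tendsto_comap_iff]
  rfl

/-- mixing of complex functions -/
theorem SM.endMix {X : Sys} (h : SM X) : End.Mix X.μ X.S := by
  intro f g hf hg
  have hint : ∀ {F : X.Ω → ℂ}, End.BM F → Integrable F X.μ := fun {F} hF => by
    obtain ⟨C, hC⟩ := hF.2
    exact Integrable.of_bound hF.1.aestronglyMeasurable C (Eventually.of_forall hC)
  have hcast : Tendsto (fun n : ℕ => (n : ℤ)) atTop cofinite := by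
    rw [Int.cofinite_eq]
    exact tendsto_natCast_atTop_atTop.mono_right le_sup_right
  have key : ∀ {u v : X.Ω → ℝ}, BR u → BR v →
      Tendsto (fun n : ℕ => ∫ x, u x * v (X.S n x) ∂X.μ) atTop
        (𝓝 ((∫ x, u x ∂X.μ) * ∫ x, v x ∂X.μ)) := fun hu hv => (h.tendsto_real hu hv).comp hcast
  have hrr := key (BR.re hf) (BR.re hg)
  have hri := key (BR.re hf) (BR.im hg)
  have hir := key (BR.im hf) (BR.re hg)
  have hii := key (BR.im hf) (BR.im hg)
  have hiu : ∀ {u v : X.Ω → ℝ}, BR u → BR v → ∀ n : ℤ,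
      Integrable (fun x => u x * v (X.S n x)) X.μ := by
    intro u v hu hv n
    obtain ⟨C, hC⟩ := hu.2
    obtain ⟨D, hD⟩ := hv.2
    refine Integrable.of_bound (hu.1.mul (hv.1.comp (X.S_mp n).measurable)).aestronglyMeasurable
      (C * D) (Eventually.of_forall fun x => ?_)
    rw [Real.norm_eq_abs, abs_mul]
    exact mul_le_mul (hC x) (hD _) (abs_nonneg _) ((abs_nonneg _).trans (hC x))
  have hcomp : ∀ n : ℕ, ∫ x, f x * g (X.S n x) ∂X.μ =
      (((∫ x, (f x).re * (g (X.S n x)).re ∂X.μ) - ∫ x, (f x).im * (g (X.S n x)).im ∂X.μ : ℝ) : ℂ)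
      + (((∫ x, (f x).re * (g (X.S n x)).im ∂X.μ) +
        ∫ x, (f x).im * (g (X.S n x)).re ∂X.μ : ℝ) : ℂ) * Complex.I := by
    intro n
    rw [← integral_sub (hiu (BR.re hf) (BR.re hg) n) (hiu (BR.im hf) (BR.im hg) n),
      ← integral_add (hiu (BR.re hf) (BR.im hg) n) (hiu (BR.im hf) (BR.re hg) n)]
    have hI : Integrable (fun x => f x * g (X.S n x)) X.μ := by
      obtain ⟨C, hC⟩ := hf.2
      obtain ⟨D, hD⟩ := hg.2
      refine Integrable.of_bound (hf.1.mul (hg.1.comp (X.S_mp n).measurable)).aestronglyMeasurable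
        (C * D) (Eventually.of_forall fun x => ?_)
      rw [norm_mul]
      exact mul_le_mul (hC x) (hD _) (norm_nonneg _) ((norm_nonneg _).trans (hC x))
    have e := integral_re_add_im hI
    rw [← e]
    simp only [RCLike.re_to_complex, RCLike.im_to_complex, Complex.mul_re, Complex.mul_im,
      RCLike.I_to_complex]
    rfl
  have hlim : (∫ x, f x ∂X.μ) * ∫ x, g x ∂X.μ =
      ((((∫ x, (f x).re ∂X.μ) * ∫ x, (g x).re ∂X.μ) -
        ((∫ x, (f x).im ∂X.μ) * ∫ x, (g x).im ∂X.μ) : ℝ) : ℂ) +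
      ((((∫ x, (f x).re ∂X.μ) * ∫ x, (g x).im ∂X.μ) +
        ((∫ x, (f x).im ∂X.μ) * ∫ x, (g x).re ∂X.μ) : ℝ) : ℂ) * Complex.I := by
    have e1 := integral_re_add_im (hint hf)
    have e2 := integral_re_add_im (hint hg)
    rw [← e1, ← e2]
    simp only [RCLike.re_to_complex, RCLike.im_to_complex, RCLike.I_to_complex]
    push_cast
    have hI := Complex.I_mul_I
    linear_combination
      (((∫ x, (f x).im ∂X.μ : ℝ) : ℂ) * ((∫ x, (g x).im ∂X.μ : ℝ) : ℂ)) * hI
  simp_rw [hcomp]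
  rw [hlim]
  have t1 := (Complex.continuous_ofReal.tendsto _).comp (hrr.sub hii)
  have t2 := ((Complex.continuous_ofReal.tendsto _).comp (hri.add hir)).mul_const Complex.I
  exact t1.add t2

/-! ### `End.MixAll` along an arbitrary filter -/

theorem _root_.Crest.Agent.R069.End.MixAll.filter {X : Type*} [MeasurableSpace X] {μ : Measure X}
    {S : ℤ → X → X} (h : End.MixAll μ S) {κ : Type*} {l : Filter κ} {I : Type} [Fintype I]
    {s : I → κ → ℤ} (hs : ∀ i j, i ≠ j → Tendsto (fun k => |s i k - s j k|) l atTop)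
    {f : I → X → ℂ} (hf : ∀ i, End.BM (f i)) :
    Tendsto (fun k => ∫ x, ∏ i, f i (S (s i k) x) ∂μ) l (𝓝 (∏ i, ∫ x, f i x ∂μ)) := by
  rw [Metric.tendsto_nhds]
  intro ε hε
  by_contra hne
  rw [Filter.not_eventually] at hne
  have hev : ∀ n : ℕ, ∀ᶠ k in l, ∀ i j, i ≠ j → (n : ℤ) ≤ |s i k - s j k| := by
    intro n
    rw [eventually_all]
    intro i
    rw [eventually_all]
    intro j
    by_cases hij : i = j
    · exact Eventually.of_forall fun k hk => absurd hij hk
    · filter_upwards [(hs i j hij).eventually_ge_atTop (n : ℤ)] with k hk _ using hk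
  choose k hk1 hk2 using fun n => (hne.and_eventually (hev n)).exists
  have h1 := h I (fun i n => s i (k n)) (fun i j hij =>
    tendsto_atTop_mono (fun n => hk2 n i j hij) tendsto_natCast_atTop_atTop) f hf
  obtain ⟨N, hN⟩ := (Metric.tendsto_atTop.1 h1) ε hε
  exact hk1 N (hN N le_rfl)

/-- mixing of all orders gives `MixAt` -/
theorem mixAt_of_mixAll {X : Sys} (h : End.MixAll X.μ X.S) {ι : Type} [Fintype ι]
    {s : ι → ℕ → ℤ} (hs : Far s) : MixAt X s := by
  intro f hf
  have h1 := h.filter hs (f := fun i x => (f i x : ℂ)) (fun i => (hf i).ofReal)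
  have h2 := (Complex.continuous_re.tendsto _).comp h1
  have e1 : ∀ k, (∫ x, ∏ i, ((f i (X.S (s i k) x) : ℝ) : ℂ) ∂X.μ).re =
      ∫ x, ∏ i, f i (X.S (s i k) x) ∂X.μ := fun k => by
    have : ∀ x, ∏ i, ((f i (X.S (s i k) x) : ℝ) : ℂ) = ((∏ i, f i (X.S (s i k) x) : ℝ) : ℂ) :=
      fun x => by rw [Complex.ofReal_prod]
    simp_rw [this]
    have h3 : ∫ x, ((∏ i, f i (X.S (s i k) x) : ℝ) : ℂ) ∂X.μ =
        ((∫ x, ∏ i, f i (X.S (s i k) x) ∂X.μ : ℝ) : ℂ) := integral_ofReal
    rw [h3]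
    exact Complex.ofReal_re _
  have e2 : (∏ i, ∫ x, ((f i x : ℝ) : ℂ) ∂X.μ).re = ∏ i, ∫ x, f i x ∂X.μ := by
    have : ∀ i, ∫ x, ((f i x : ℝ) : ℂ) ∂X.μ = ((∫ x, f i x ∂X.μ : ℝ) : ℂ) := fun i =>
      integral_ofReal
    simp_rw [this]
    rw [← Complex.ofReal_prod]
    exact Complex.ofReal_re _
  rw [e2] at h2
  exact h2.congr e1

/-! ### few sites -/

theorem mixAt_zero (X : Sys) (s : Fin 0 → ℕ → ℤ) : MixAt X s := by
  intro f _
  simp

theorem integral_S (X : Sys) (n : ℤ) {f : X.Ω → ℝ} (hf : Measurable f) :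
    ∫ x, f (X.S n x) ∂X.μ = ∫ x, f x ∂X.μ := by
  have h1 := integral_map (μ := X.μ) (φ := X.S n) (X.S_mp n).measurable.aemeasurable
    (f := f) hf.aestronglyMeasurable
  rw [(X.S_mp n).map_eq] at h1
  exact h1.symm

theorem mixAt_one (X : Sys) (s : Fin 1 → ℕ → ℤ) : MixAt X s := by
  intro f hf
  simp only [Finset.univ_unique, Fin.default_eq_zero, Finset.prod_singleton]
  refine tendsto_const_nhds.congr fun k => ?_
  exact (integral_S X (s 0 k) (hf 0).1).symm

theorem SM.mixAt_two {X : Sys} (h : SM X) {s : Fin 2 → ℕ → ℤ} (hs : Far s) : MixAt X s := by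
  intro f hf
  simp only [Fin.prod_univ_two]
  have h1 := hs 1 0 (by decide)
  rw [abs_atTop_iff] at h1
  refine ((h.tendsto_real (hf 0) (hf 1)).comp h1).congr fun k => ?_
  have h2 := integral_S X (s 0 k) (f := fun x => f 0 x * f 1 (X.S (s 1 k - s 0 k) x))
    ((hf 0).1.mul ((hf 1).1.comp (X.S_mp _).measurable))
  simp only [← X.S_add, sub_add_cancel] at h2
  exact h2.symm

/-! ### padding -/

theorem MixAt.reindex {X : Sys} {ι κ : Type} [Fintype ι] [Fintype κ] (e : κ ≃ ι)
    {s : ι → ℕ → ℤ} (h : MixAt X (fun i => s (e i))) : MixAt X s := by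
  intro f hf
  have h1 := h (fun i => f (e i)) (fun i => hf _)
  have e2 : ∏ i, ∫ x, f (e i) x ∂X.μ = ∏ i, ∫ x, f i x ∂X.μ :=
    Equiv.prod_comp e (fun i => ∫ x, f i x ∂X.μ)
  rw [e2] at h1
  refine h1.congr fun k => ?_
  refine integral_congr_ae (Eventually.of_forall fun x => ?_)
  exact Equiv.prod_comp e (fun i => f i (X.S (s i k) x))

theorem Far.reindex {ι κ : Type} {e : κ → ι} (he : Function.Injective e)
    {s : ι → ℕ → ℤ} (h : Far s) : Far (fun i => s (e i)) :=
  fun i j hij => h (e i) (e j) fun h' => hij (he h')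

/-- a sequence far from finitely many others -/
def pad {ι : Type} [Fintype ι] (s : ι → ℕ → ℤ) (k : ℕ) : ℤ := k + ∑ i, |s i k|

theorem pad_far {ι : Type} [Fintype ι] (s : ι → ℕ → ℤ) (i : ι) (k : ℕ) :
    (k : ℤ) ≤ |pad s k - s i k| := by
  have h1 : |s i k| ≤ ∑ j, |s j k| :=
    Finset.single_le_sum (f := fun j => |s j k|) (fun j _ => abs_nonneg _) (Finset.mem_univ i)
  have h2 := le_abs_self (s i k)
  refine le_trans ?_ (le_abs_self _)
  unfold pad
  linarith

/-- add one far site -/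
def padS {q : ℕ} (s : Fin q → ℕ → ℤ) : Fin (q + 1) → ℕ → ℤ := Fin.cons (pad s) s

theorem padS_far {q : ℕ} {s : Fin q → ℕ → ℤ} (hs : Far s) : Far (padS s) := by
  have hle : Tendsto (fun k : ℕ => (k : ℤ)) (UU : Filter ℕ) atTop := by
    refine tendsto_natCast_atTop_atTop.mono_left ?_
    rw [← Nat.cofinite_eq_atTop]
    exact Filter.hyperfilter_le_cofinite
  intro i j hij
  induction i using Fin.cases with
  | zero =>
    induction j using Fin.cases with
    | zero => exact absurd rfl hij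
    | succ j => exact tendsto_atTop_mono (fun k => pad_far s j k) hle
  | succ i =>
    induction j using Fin.cases with
    | zero =>
      refine tendsto_atTop_mono (fun k => ?_) hle
      rw [abs_sub_comm]
      exact pad_far s i k
    | succ j => exact hs i j fun h => hij (by rw [h])

theorem mixAt_of_succ {X : Sys} {q : ℕ}
    (h : ∀ s' : Fin (q + 1) → ℕ → ℤ, Far s' → MixAt X s') {s : Fin q → ℕ → ℤ} (hs : Far s) :
    MixAt X s := by
  intro f hf
  have h1 := h (padS s) (padS_far hs) (Fin.cons (fun _ => 1) f) (fun i => by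
    induction i using Fin.cases with
    | zero => exact BR.one
    | succ i => exact hf i)
  simp only [Fin.prod_univ_succ, Fin.cons_zero, Fin.cons_succ, padS, one_mul] at h1
  simpa using h1

theorem mixAt_of_le {X : Sys} {q r : ℕ} (hqr : q ≤ r)
    (h : ∀ s' : Fin r → ℕ → ℤ, Far s' → MixAt X s') {s : Fin q → ℕ → ℤ} (hs : Far s) :
    MixAt X s := by
  induction r, hqr using Nat.le_induction with
  | base => exact h s hs
  | succ r _ ih => exact ih fun s' hs' => mixAt_of_succ h hs'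

/-- mixing along all far `r`-tuples gives mixing along all far tuples with at most `r` sites -/
theorem mixAt_of_card_le {X : Sys} {r : ℕ} (h : ∀ s' : Fin r → ℕ → ℤ, Far s' → MixAt X s')
    {ι : Type} [Fintype ι] (hι : Fintype.card ι ≤ r) {s : ι → ℕ → ℤ} (hs : Far s) :
    MixAt X s := by
  classical
  have e := (Fintype.equivFin ι).symm
  exact MixAt.reindex e (mixAt_of_le hι h (hs.reindex e.injective))

/-! ### the induction on the order -/

theorem mixAt_all (hSTEP : STEP) (r : ℕ) (X : Sys) (hX : SM X) (s : Fin r → ℕ → ℤ) (hs : Far s) :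
    MixAt X s := by
  induction r generalizing X with
  | zero => exact mixAt_zero X s
  | succ r ih =>
    by_cases h3 : 3 ≤ r + 1
    · by_contra hne
      obtain ⟨Y, hY, hbad, Ω, ms, P, N, cg, ⟨D⟩⟩ := hSTEP (r + 1) h3 s hs
        (fun Z hZ s' hs' => ih Z hZ s' hs') X hX hne
      exact hbad (mixAt_of_mixAll (D.mixAll Y.act hY.endMix) hs)
    · have hr : r ≤ 1 := by omega
      interval_cases r
      · exact mixAt_one X s
      · exact hX.mixAt_two hs

theorem mixAll_of_step (hSTEP : STEP) (Γ : Type) [MeasurableSpace Γ] [StandardBorelSpace Γ]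
    (ν : Measure Γ) [IsProbabilityMeasure ν] (T : Γ ≃ᵐ Γ) (hT : MeasurePreserving T ν ν)
    (hm : R69.Mix ν T) : R69.MixAll ν T := by
  intro r s hs f hf hfb
  have hall := mixAt_all hSTEP r (sysOf ν T hT) (sysOf_SM ν T hT hm)
  rw [Metric.tendsto_nhds]
  intro ε hε
  by_contra hne
  rw [Filter.not_eventually] at hne
  have hev : ∀ n : ℕ, ∀ᶠ k in (atTop : Filter ℕ), ∀ i j, i ≠ j → (n : ℤ) ≤ |s i k - s j k| := by
    intro n
    rw [eventually_all]
    intro i
    rw [eventually_all]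
    intro j
    by_cases hij : i = j
    · exact Eventually.of_forall fun k hk => absurd hij hk
    · filter_upwards [(abs_atTop_iff.2 (hs i j hij)).eventually_ge_atTop (n : ℤ)] with k hk _
        using hk
  choose k hk1 hk2 using fun n => (hne.and_eventually (hev n)).exists
  have hle : Tendsto (fun k : ℕ => (k : ℤ)) (UU : Filter ℕ) atTop := by
    refine tendsto_natCast_atTop_atTop.mono_left ?_
    rw [← Nat.cofinite_eq_atTop]
    exact Filter.hyperfilter_le_cofinite
  have h1 := hall (fun i n => s i (k n))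
    (fun i j hij => tendsto_atTop_mono (fun n => hk2 n i j hij) hle) f
    (fun i => ⟨hf i, hfb i⟩)
  obtain ⟨n, hn⟩ := ((Metric.tendsto_nhds.1 h1) ε hε).exists
  exact hk1 n hn

/-- **`S0092` from the structural step** -/
theorem S0092_of_step (hSTEP : STEP) {Ω : Type*} [MeasurableSpace Ω] (μ : Measure Ω)
    [IsProbabilityMeasure μ] (T : Ω ≃ᵐ Ω) (hT : MeasurePreserving T μ μ)
    (hmix : ∀ A B : Set Ω, MeasurableSet A → MeasurableSet B →
      Tendsto (fun n : ℕ => μ (A ∩ (T^[n]) ⁻¹' B)) atTop (nhds (μ A * μ B)))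
    (k : ℕ) (A : Fin (k + 1) → Set Ω) (hA : ∀ i, MeasurableSet (A i)) :
    Tendsto (fun n : Fin k → ℕ =>
        μ (⋂ i : Fin (k + 1), (T^[∑ j : Fin k, if (j : ℕ) < (i : ℕ) then n j else 0]) ⁻¹' A i))
      atTop (nhds (∏ i, μ (A i))) :=
  R69.S0092_of (fun Γ _ _ ν _ S hS hm => mixAll_of_step hSTEP Γ ν S hS hm) μ T hT hmix k A hA

/-! ### factors -/

/-- a standard Borel factor of a mixing system is mixing -/
theorem SM.factor {X Y : Sys} (hX : SM X) (hY : StandardBorelSpace Y.Ω) {π : X.Ω → Y.Ω}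
    (hπ : MeasurePreserving π X.μ Y.μ)
    (hS : ∀ n, (fun x => π (X.S n x)) =ᵐ[X.μ] fun x => Y.S n (π x)) : SM Y where
  std := hY
  mix A B hA hB := by
    have h1 := hX.mix _ _ (hπ.measurable hA) (hπ.measurable hB)
    rw [hπ.measure_preimage hA.nullMeasurableSet, hπ.measure_preimage hB.nullMeasurableSet] at h1
    refine h1.congr fun n => ?_
    rw [← hπ.measure_preimage
      (hA.inter ((Y.S_mp n).measurable hB)).nullMeasurableSet]
    refine measure_congr ?_
    filter_upwards [hS n] with x hx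
    refine propext ?_
    show (π x ∈ A ∧ π (X.S n x) ∈ B) ↔ (π x ∈ A ∧ Y.S n (π x) ∈ B)
    rw [hx]

/-- If `Y` is a factor of `X`, the correlations of `f` on `X` and `g` on `Y` have the same limits
and `g i` has the same integral as `f i`, then mixing of `Y` along `s` gives the limit for `f`. -/
theorem MixAt.lift {X Y : Sys} {ι : Type} [Fintype ι] {s : ι → ℕ → ℤ} (hY : MixAt Y s)
    {f : ι → X.Ω → ℝ} {g : ι → Y.Ω → ℝ} (hg : ∀ i, BR (g i))
    (hint : ∀ i, ∫ y, g i y ∂Y.μ = ∫ x, f i x ∂X.μ)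
    (hlim : Tendsto (fun k => (∫ x, ∏ i, f i (X.S (s i k) x) ∂X.μ) -
      ∫ y, ∏ i, g i (Y.S (s i k) y) ∂Y.μ) (UU : Filter ℕ) (𝓝 0)) :
    Tendsto (fun k => ∫ x, ∏ i, f i (X.S (s i k) x) ∂X.μ) (UU : Filter ℕ)
      (𝓝 (∏ i, ∫ x, f i x ∂X.μ)) := by
  have h1 := hlim.add (hY g hg)
  simp_rw [hint, zero_add] at h1
  exact h1.congr fun k => by ring

/-- correlations of functions pulled back from a factor -/
theorem integral_prod_factor {X Y : Sys} {π : X.Ω → Y.Ω}
    (hπ : MeasurePreserving π X.μ Y.μ)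
    (hS : ∀ n, (fun x => π (X.S n x)) =ᵐ[X.μ] fun x => Y.S n (π x)) {ι : Type} [Fintype ι]
    {g : ι → Y.Ω → ℝ} (hg : ∀ i, Measurable (g i)) (n : ι → ℤ) :
    ∫ x, ∏ i, g i (π (X.S (n i) x)) ∂X.μ = ∫ y, ∏ i, g i (Y.S (n i) y) ∂Y.μ := by
  have hm : Measurable fun y => ∏ i, g i (Y.S (n i) y) :=
    Finset.measurable_fun_prod _ fun i _ => (hg i).comp (Y.S_mp (n i)).measurable
  have h1 := integral_map (μ := X.μ) (φ := π) hπ.measurable.aemeasurable
    (f := fun y => ∏ i, g i (Y.S (n i) y)) hm.aestronglyMeasurable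
  rw [hπ.map_eq] at h1
  rw [h1]
  refine integral_congr_ae ?_
  have h2 : ∀ᵐ x ∂X.μ, ∀ i, π (X.S (n i) x) = Y.S (n i) (π x) :=
    ae_all_iff.2 fun i => hS (n i)
  filter_upwards [h2] with x hx
  simp_rw [hx]

end Crest.Agent.R069.Top
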