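import Crest.Agent.R069.Least
import Crest.Agent.R069.Defs
import Crest.Agent.R069.End3

/-!
Row 69 (S0092), the very end of the assembly: interface `STEP` (own namespace `AsmFar`; helper126 has an independent version in `AsmEnd`) and
`S0092_of_step`; padding of sites; `MixAt` in terms of the Loeb space (`tau`, `XInd`, `XIndP`).
-/

set_option autoImplicit false

open MeasureTheory Filter Set
open scoped Topology

noncomputable section

namespace Crest.Agent.R069.AsmFar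

/-- bounded measurable real function -/
def BR {α : Type*} [MeasurableSpace α] (f : α → ℝ) : Prop := Measurable f ∧ ∃ C : ℝ, ∀ x, |f x| ≤ C

/-- `τ` is the product along the sites `s` -/
def MixAt (X : Sys) {ι : Type} [Fintype ι] (s : ι → ℕ → ℤ) : Prop :=
  ∀ f : ι → X.Ω → ℝ, (∀ i, BR (f i)) →
    Tendsto (fun k => ∫ x, ∏ i, f i (X.S (s i k) x) ∂X.μ) (UU : Filter ℕ)
      (𝓝 (∏ i, ∫ x, f i x ∂X.μ))

/-- standard Borel and mixing -/
structure SM (X : Sys) : Prop where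
  std : StandardBorelSpace X.Ω
  mix : ∀ A B : Set X.Ω, MeasurableSet A → MeasurableSet B →
    Tendsto (fun n : ℕ => X.μ (A ∩ X.S n ⁻¹' B)) atTop (𝓝 (X.μ A * X.μ B))

/-- the output of the structure theory -/
def HasData (Y : Sys) : Prop :=
  ∃ (Ω : Type) (_ : MeasurableSpace Ω) (P : Measure Ω) (N : Type) (_ : CommGroup N),
    Nonempty (End.Data Y.μ Y.S P N)

/-- **the step**, everything between the bad tuple and the data at one fibre -/
def STEP : Prop := ∀ r, 3 ≤ r → ∀ s : Fin r → ℕ → ℤ, Far s →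
  (∀ Z : Sys, SM Z → ∀ s' : Fin (r - 1) → ℕ → ℤ, Far s' → MixAt Z s') →
  ∀ X : Sys, SM X → ¬ MixAt X s →
    ∃ Y : Sys, SM Y ∧ ¬ MixAt Y s ∧
      ∃ (Ω : Type) (_ : MeasurableSpace Ω) (P : Measure Ω) (N : Type) (_ : CommGroup N),
        Nonempty (End.Data Y.μ Y.S P N)

theorem mixAt_iff {X : Sys} {ι : Type} [Fintype ι] {s : ι → ℕ → ℤ} : MixAt X s ↔ X.TauProd s :=
  ⟨fun h f hf hb => h f fun i => ⟨hf i, hb i⟩, fun h f hf => h f (fun i => (hf i).1) fun i => (hf i).2⟩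

theorem SM.mixing {X : Sys} (h : SM X) : X.Mixing := X.mixing_iff.2 h.mix

theorem SM.of {X : Sys} (h : StandardBorelSpace X.Ω) (hm : X.Mixing) : SM X :=
  ⟨h, X.mixing_iff.1 hm⟩

theorem SM.end_mix {X : Sys} (h : SM X) : End.Mix X.μ X.S := X.end_mix h.mixing

/-- data at one fibre give the product along all far sites -/
theorem mixAt_of_data {Y : Sys} (hY : SM Y) {Ω : Type} [MeasurableSpace Ω] {P : Measure Ω} {N : Type}
    [CommGroup N] (D : End.Data Y.μ Y.S P N) {ι : Type} [Fintype ι] (s : ι → ℕ → ℤ) (hs : Far s) :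
    MixAt Y s :=
  mixAt_iff.2 (Y.tauProd_of_mixAll (D.mixAll Y.end_act hY.end_mix) s hs)

/-- the statement for standard Borel systems -/
theorem allMix_of_step (h : STEP) : AllMix := by
  by_contra hc
  obtain ⟨r, hr, hb, X, hX1, hX2, s, hs, hX3⟩ := exists_least hc
  obtain ⟨Y, hY, hY2, Ω, _, P, N, _, ⟨D⟩⟩ := h r hr s hs
    (fun Z hZ s' hs' => mixAt_iff.2 (hb Z hZ.std hZ.mixing (r - 1) (by omega) s' hs'))
    X (SM.of hX1 hX2) (fun h => hX3 (mixAt_iff.1 h))
  exact hY2 (mixAt_of_data hY D s hs)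

/-- **S0092 from the step.** -/
theorem S0092_of_step (H : STEP)
    {Ω : Type*} [MeasurableSpace Ω] (μ : Measure Ω) [IsProbabilityMeasure μ]
    (T : Ω ≃ᵐ Ω) (hT : MeasurePreserving T μ μ)
    (hmix : ∀ A B : Set Ω, MeasurableSet A → MeasurableSet B →
      Tendsto (fun n : ℕ => μ (A ∩ (T^[n]) ⁻¹' B)) atTop (nhds (μ A * μ B)))
    (k : ℕ) (A : Fin (k + 1) → Set Ω) (hA : ∀ i, MeasurableSet (A i)) :
    Tendsto (fun n : Fin k → ℕ =>
        μ (⋂ i : Fin (k + 1), (T^[∑ j : Fin k, if (j : ℕ) < (i : ℕ) then n j else 0]) ⁻¹' A i))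
      atTop (nhds (∏ i, μ (A i))) :=
  S0092_of_allMix (allMix_of_step H) μ T hT hmix k A hA

/-! ### changing the index type, fewer sites -/

theorem MixAt.reindex {X : Sys} {ι κ : Type} [Fintype ι] [Fintype κ] (e : κ ≃ ι) {s : ι → ℕ → ℤ}
    (h : MixAt X (fun j => s (e j))) : MixAt X s := by
  intro f hf
  have h1 := h (fun j => f (e j)) (fun j => hf _)
  have e2 : ∀ k x, ∏ j, f (e j) (X.S (s (e j) k) x) = ∏ i, f i (X.S (s i k) x) := fun k x =>
    Equiv.prod_comp e fun i => f i (X.S (s i k) x)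
  simp_rw [e2] at h1
  rwa [Equiv.prod_comp e fun i => ∫ x, f i x ∂X.μ] at h1

/-- far sites can be completed to far sites -/
theorem exists_far {ι : Type} [Fintype ι] {s : ι → ℕ → ℤ} (hs : Far s) (m : ℕ) :
    ∃ t : Fin m → ℕ → ℤ, Far (Sum.elim s t) := by
  classical
  let M : ℕ → ℤ := fun k => k + ∑ i, |s i k|
  have hM0 : ∀ k, 0 ≤ M k := fun k => by
    have : (0 : ℤ) ≤ ∑ i, |s i k| := Finset.sum_nonneg fun i _ => abs_nonneg _
    show (0 : ℤ) ≤ (k : ℤ) + _
    positivity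
  have hMk : ∀ k : ℕ, (k : ℤ) ≤ M k := fun k => by
    have : (0 : ℤ) ≤ ∑ i, |s i k| := Finset.sum_nonneg fun i _ => abs_nonneg _
    show (k : ℤ) ≤ (k : ℤ) + _
    linarith
  have hMs : ∀ (k : ℕ) i, |s i k| ≤ M k := fun k i => by
    have h1 : |s i k| ≤ ∑ i, |s i k| :=
      Finset.single_le_sum (f := fun i => |s i k|) (fun i _ => abs_nonneg _) (Finset.mem_univ i)
    show |s i k| ≤ (k : ℤ) + _
    have : (0 : ℤ) ≤ k := by positivity
    linarith
  have hMt : Tendsto (fun k : ℕ => (k : ℤ)) (UU : Filter ℕ) atTop :=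
    tendsto_natCast_atTop_atTop.mono_left UU_le_atTop
  refine ⟨fun j k => ((j : ℕ) + 2 : ℤ) * M k, ?_⟩
  have hst : ∀ (i : ι) (j : Fin m) (k : ℕ), (k : ℤ) ≤ |((j : ℕ) + 2 : ℤ) * M k - s i k| := by
    intro i j k
    have h1 := hMs k i
    have h2 := hMk k
    have h3 := hM0 k
    have h4 : (2 : ℤ) * M k ≤ ((j : ℕ) + 2 : ℤ) * M k := by
      have : (0 : ℤ) ≤ ((j : ℕ) : ℤ) * M k := by positivity
      nlinarith
    have h5 := le_abs_self (s i k)
    have h6 := le_abs_self (((j : ℕ) + 2 : ℤ) * M k - s i k)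
    linarith
  rintro (i | j) (i' | j') hne
  · exact hs i i' fun h => hne (by rw [h])
  · refine tendsto_atTop_mono (fun k => ?_) hMt
    show (k : ℤ) ≤ |s i k - ((j' : ℕ) + 2 : ℤ) * M k|
    rw [abs_sub_comm]
    exact hst i j' k
  · refine tendsto_atTop_mono (fun k => ?_) hMt
    exact hst i' j k
  · refine tendsto_atTop_mono (fun k => ?_) hMt
    show (k : ℤ) ≤ |((j : ℕ) + 2 : ℤ) * M k - ((j' : ℕ) + 2 : ℤ) * M k|
    rw [← sub_mul, abs_mul, abs_of_nonneg (hM0 k)]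
    have h7 : (1 : ℤ) ≤ |((j : ℕ) + 2 : ℤ) - ((j' : ℕ) + 2 : ℤ)| := by
      apply Int.one_le_abs
      intro h8
      apply hne
      have : (j : ℕ) = (j' : ℕ) := by omega
      rw [Fin.ext this]
    have := hMk k
    nlinarith [hM0 k]

/-- **fewer sites** -/
theorem mixAt_of_lower {X : Sys} {n : ℕ}
    (h : ∀ s' : Fin n → ℕ → ℤ, Far s' → MixAt X s') {ι : Type} [Fintype ι]
    (hι : Fintype.card ι ≤ n) (s : ι → ℕ → ℤ) (hs : Far s) : MixAt X s := by
  classical
  obtain ⟨t, ht⟩ := exists_far hs (n - Fintype.card ι)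
  have e : Fin n ≃ ι ⊕ Fin (n - Fintype.card ι) := by
    refine (Fintype.equivFinOfCardEq ?_).symm
    rw [Fintype.card_sum, Fintype.card_fin]
    omega
  have h1 : MixAt X (Sum.elim s t) := by
    refine MixAt.reindex e (h _ ?_)
    intro i j hij
    exact ht _ _ fun h => hij (e.injective h)
  intro f hf
  have h2 := h1 (Sum.elim f fun _ _ => 1) (by
    rintro (i | j)
    · exact hf i
    · exact ⟨measurable_const, 1, fun x => by simp⟩)
  simpa using h2

/-- all proper sub-families of sites -/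
theorem mixAt_sub {X : Sys} {r : ℕ} (hr : 1 ≤ r)
    (h : ∀ s' : Fin (r - 1) → ℕ → ℤ, Far s' → MixAt X s') {s : Fin r → ℕ → ℤ} (hs : Far s)
    (J : Finset (Fin r)) (hJ : J ≠ Finset.univ) : MixAt X (fun i : J => s i) := by
  refine mixAt_of_lower h ?_ _ fun i j hij => hs _ _ fun h => hij (Subtype.ext h)
  rw [Fintype.card_coe]
  have h1 : J.card < (Finset.univ : Finset (Fin r)).card :=
    Finset.card_lt_card (Finset.ssubset_univ_iff.2 hJ)
  rw [Finset.card_univ, Fintype.card_fin] at h1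
  omega

/-! ### the Loeb space -/

theorem bd_iff {X : Sys} {f : X.Ω → ℝ} : Bd X.ms f ↔ BR f := Iff.rfl

theorem tendsto_tau {X : Sys} {ι : Type} (J : Finset ι) (s : ι → ℕ → ℤ) {f : ι → X.Ω → ℝ}
    (hf : ∀ i, Bd X.ms (f i)) :
    Tendsto (fun k => ∫ x, ∏ i ∈ J, f i (X.S (s i k) x) ∂X.μ) (UU : Filter ℕ)
      (𝓝 (∫ x, ∏ i ∈ J, sitef X (s i) (f i) x ∂(lb X.μ))) := by
  choose C hC using fun i => (hf i).2
  have hB : ∀ i, BM X.ms (fun k x => f i (X.S (s i k) x)) (C i) := fun i =>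
    ⟨fun k => (hf i).1.comp (X.S_mp _).measurable, fun k x => hC i _⟩
  have h1 : ∀ x, ∏ i ∈ J, sitef X (s i) (f i) x =
      st (fun k x => ∏ i ∈ J, f i (X.S (s i k) x)) x := fun x => by
    rw [st_prod J (f := fun i k x => f i (X.S (s i k) x)) fun i _ => (hB i).ok]
    rfl
  simp_rw [h1]
  refine tendsto_integral_st (C := ∏ i ∈ J, C i) ⟨fun k => ?_, fun k x => ?_⟩
  · exact Finset.measurable_fun_prod _ fun i _ => (hf i).1.comp (X.S_mp _).measurable
  · rw [Finset.abs_prod]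
    exact Finset.prod_le_prod (fun i _ => abs_nonneg _) fun i _ => hC i _

theorem xInd_of_mixAt {X : Sys} {ι : Type} {s : ι → ℕ → ℤ} {J : Finset ι}
    (h : MixAt X (fun i : J => s i)) : XInd X s J := by
  intro f hf
  have h1 := tendsto_tau J s hf
  have h2 := h (fun i => f i) (fun i => hf i)
  have e : ∀ g : ι → ℝ, ∏ i : J, g i = ∏ i ∈ J, g i := fun g => Finset.prod_coe_sort J g
  have e2 : ∀ k x, ∏ i : J, f i (X.S (s i k) x) = ∏ i ∈ J, f i (X.S (s i k) x) := fun k x =>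
    e fun i => f i (X.S (s i k) x)
  simp_rw [e2] at h2
  rw [e fun i => ∫ x, f i x ∂X.μ] at h2
  exact tendsto_nhds_unique h1 h2

/-- `(r-1)`-mixing gives the independence of every proper family of sites -/
theorem xIndP_of_lower {X : Sys} {r : ℕ} (hr : 1 ≤ r)
    (h : ∀ s' : Fin (r - 1) → ℕ → ℤ, Far s' → MixAt X s') {s : Fin r → ℕ → ℤ} (hs : Far s) :
    XIndP X s := fun J hJ => xInd_of_mixAt (mixAt_sub hr h hs J hJ)

theorem mixAt_iff_tau {X : Sys} {ι : Type} [Fintype ι] {s : ι → ℕ → ℤ} :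
    MixAt X s ↔ ∀ f : ι → X.Ω → ℝ, (∀ i, Bd X.ms (f i)) → tau X s f = ∏ i, ∫ x, f i x ∂X.μ := by
  constructor
  · intro h f hf
    exact tendsto_nhds_unique (tendsto_tau Finset.univ s hf) (h f hf)
  · intro h f hf
    have h1 := tendsto_tau Finset.univ s hf
    have h2 := h f hf
    rw [tau] at h2
    rwa [h2] at h1

theorem not_mixAt_iff {X : Sys} {ι : Type} [Fintype ι] {s : ι → ℕ → ℤ} :
    ¬ MixAt X s ↔ ∃ f : ι → X.Ω → ℝ, (∀ i, Bd X.ms (f i)) ∧
      tau X s f ≠ ∏ i, ∫ x, f i x ∂X.μ := by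
  rw [mixAt_iff_tau]
  push Not
  rfl

end Crest.Agent.R069.AsmFar
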