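import Crest.Agent.R069.CI

/-!
Row 69: further conditional expectation lemmas (PUSH / CLOSED glue).
-/

open MeasureTheory Filter Set
open scoped ENNReal Topology

set_option linter.unusedSectionVars false
set_option linter.unusedVariables false

namespace Crest.Agent.R069

variable {Ω : Type*} {m m' m₁ m₂ m₃ m₁' m₂' E D C E1 W : MeasurableSpace Ω}
  {mΩ : MeasurableSpace Ω} {μ : Measure Ω} {f g : Ω → ℝ}

section

variable [IsFiniteMeasure μ]

/-- From `E ⟂ D | C` and `C ≤ E1 ≤ E` one gets `E ⟂ D | E1`. -/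
theorem CI.up_left (hE : E ≤ mΩ) (hD : D ≤ mΩ) (hC : C ≤ E1) (h1 : E1 ≤ E)
    (hc : CI μ E D C) : CI μ E D E1 := by
  have h1' : E1 ≤ mΩ := h1.trans hE
  have hC' : C ≤ mΩ := hC.trans h1'
  exact ((hc.symm hE hD hC').up hE hC' hC (h1.trans le_sup_left)).symm hD hE h1'

/-- `∫ G F b = ∫ G E[F|E1] b` for `G` measurable w.r.t. `E1 ⊔ D`. -/
theorem CI.integral_replace (hE : E ≤ mΩ) (hD : D ≤ mΩ) (h1 : E1 ≤ mΩ)
    (hc : CI μ E D E1) {G F b : Ω → ℝ} (hG : BdM (D ⊔ E1) G) (hF : BdM E F) (hb : BdM D b) :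
    ∫ x, G x * F x * b x ∂μ = ∫ x, G x * (μ[F | E1]) x * b x ∂μ := by
  have hGb : BdM (D ⊔ E1) (fun x => G x * b x) := hG.mul (hb.mono le_sup_left)
  have e := integral_mul_condExp (μ := μ) (sup_le hD h1) (hF.integrable hE) hGb
  calc ∫ x, G x * F x * b x ∂μ = ∫ x, G x * b x * F x ∂μ := by
        congr 1; funext x; ring
    _ = ∫ x, G x * b x * (μ[F | D ⊔ E1]) x ∂μ := e.symm
    _ = ∫ x, G x * (μ[F | E1]) x * b x ∂μ := by
        refine integral_congr_ae ?_
        filter_upwards [hc F hF] with x hx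
        rw [hx]; ring

/-- **Last step of PUSH.**  `E ⟂ D | C`, `C ≤ E1 ≤ E`, `G` bounded and `E ⊔ D`-measurable,
and `E[G b | E]` is a.e. `E1`-measurable for all bounded `D`-measurable `b`; then `G` is a.e.
`E1 ⊔ D`-measurable. -/
theorem push_last (hE : E ≤ mΩ) (hD : D ≤ mΩ) (hC : C ≤ E1) (h1 : E1 ≤ E)
    (hc : CI μ E D C) {G : Ω → ℝ} (hG : BdM (E ⊔ D) G)
    (h : ∀ b, BdM D b → AEStronglyMeasurable[E1] (μ[fun x => G x * b x | E]) μ) :
    μ[G | E1 ⊔ D] =ᵐ[μ] G := by
  have h1' : E1 ≤ mΩ := h1.trans hE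
  have hc1 : CI μ E D E1 := hc.up_left hE hD hC h1
  have hGm : BdM mΩ G := hG.mono (sup_le hE hD)
  have hle : E1 ⊔ D ≤ E ⊔ D := sup_le_sup_right h1 D
  obtain ⟨G0, hG0, hG0e⟩ := hGm.condExp_bm (μ := μ) (sup_le h1' hD)
  -- both sides against `F b`
  have key : ∀ F b : Ω → ℝ, BdM E F → BdM D b →
      ∫ x, (μ[G | E1 ⊔ D]) x * (F x * b x) ∂μ = ∫ x, G x * (F x * b x) ∂μ := by
    intro F b hF hb
    obtain ⟨F1, hF1, hF1e⟩ := (hF.mono hE).condExp_bm (μ := μ) h1'
    have hGb : BdM mΩ (fun x => G x * b x) := hGm.mul (hb.mono hD)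
    -- left hand side
    have l1 : ∫ x, (μ[G | E1 ⊔ D]) x * (F x * b x) ∂μ = ∫ x, G0 x * F x * b x ∂μ :=
      integral_congr_ae (hG0e.mono fun x hx => by simp only [hx]; ring)
    have l2 := hc1.integral_replace hE hD h1' (hG0.mono (by rw [sup_comm])) hF hb
    have l3 : ∫ x, G0 x * (μ[F | E1]) x * b x ∂μ = ∫ x, (μ[G | E1 ⊔ D]) x * (F1 x * b x) ∂μ := by
      refine integral_congr_ae ?_
      filter_upwards [hG0e, hF1e] with x hx hy
      rw [hx, hy]; ring
    have l4 : ∫ x, (μ[G | E1 ⊔ D]) x * (F1 x * b x) ∂μ = ∫ x, G x * (F1 x * b x) ∂μ :=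
      integral_condExp_mul (sup_le h1' hD) (hGm.integrable le_rfl)
        ((hF1.mono le_sup_left).mul (hb.mono le_sup_right))
    -- right hand side
    have r1 : ∫ x, G x * (F x * b x) ∂μ = ∫ x, (μ[fun x => G x * b x | E]) x * F x ∂μ := by
      rw [integral_condExp_mul hE (hGb.integrable le_rfl) hF]
      congr 1; funext x; ring
    have r2 : ∫ x, G x * (F1 x * b x) ∂μ = ∫ x, (μ[fun x => G x * b x | E]) x * F1 x ∂μ := by
      rw [integral_condExp_mul hE (hGb.integrable le_rfl) (hF1.mono h1)]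
      congr 1; funext x; ring
    -- `E[Gb|E]` is `E1`-measurable
    obtain ⟨H, hH, hHe⟩ := hGb.condExp_bm (μ := μ) hE
    have hH1 : μ[H | E1] =ᵐ[μ] H := by
      refine condExp_of_aestronglyMeasurable' h1' ?_ (hH.integrable hE)
      exact (h b hb).congr hHe
    obtain ⟨H1, hH1m, hH1e⟩ := (hH.mono hE).condExp_bm (μ := μ) h1'
    have hHH1 : H =ᵐ[μ] H1 := hH1.symm.trans hH1e
    have r3 : ∫ x, (μ[fun x => G x * b x | E]) x * F x ∂μ =
        ∫ x, (μ[fun x => G x * b x | E]) x * F1 x ∂μ := by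
      calc ∫ x, (μ[fun x => G x * b x | E]) x * F x ∂μ = ∫ x, H1 x * F x ∂μ := by
            refine integral_congr_ae ?_
            filter_upwards [hHe, hHH1] with x hx hy
            rw [hx, hy]
        _ = ∫ x, H1 x * (μ[F | E1]) x ∂μ :=
            (integral_mul_condExp h1' (hF.integrable hE) hH1m).symm
        _ = ∫ x, (μ[fun x => G x * b x | E]) x * F1 x ∂μ := by
            refine integral_congr_ae ?_
            filter_upwards [hHe, hHH1, hF1e] with x hx hy hz
            rw [hx, hy, hz]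
    rw [l1, l2, l3, l4, r1, r2, r3]
  have hGG : μ[G | E ⊔ D] = G := condExp_of_bm (sup_le hE hD) hG
  rw [← hGG]
  symm
  rw [hGG]
  have hmeas : AEStronglyMeasurable[E ⊔ D] (μ[G | E1 ⊔ D]) μ :=
    ((stronglyMeasurable_condExp (m := E1 ⊔ D)).mono hle).aestronglyMeasurable
  have := condExp_sup_eq (μ := μ) hE hD (hGm.integrable le_rfl)
    (integrable_condExp (m := E1 ⊔ D) (f := G)) hmeas ?_
  · rwa [hGG] at this
  · intro A B hA hB
    have e : (A ∩ B).indicator (fun _ => (1 : ℝ)) = fun x =>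
        A.indicator (fun _ => (1 : ℝ)) x * B.indicator (fun _ => (1 : ℝ)) x := by
      funext x
      by_cases hx : x ∈ A <;> by_cases hy : x ∈ B <;> simp [hx, hy]
    rw [setIntegral_eq_indicator ((hE A hA).inter (hD B hB)),
      setIntegral_eq_indicator ((hE A hA).inter (hD B hB)), e]
    exact key _ _ (BdM.indicator hA) (BdM.indicator hB)

/-- `∫ F (∏_{j∈s} u_j) (∏_{j∉s} u'_j) w` does not change when `u_j` is replaced by a version
`u'_j` of `E[u_j | E1 j]`, provided one slot can be replaced at a time. -/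
theorem replace_all {ι : Type*} [Fintype ι] [DecidableEq ι] {E E1 : ι → MeasurableSpace Ω}
    (h1 : ∀ j, E1 j ≤ E j) {F : Ω → ℝ}
    (h : ∀ j (u u' v : Ω → ℝ), BdM (E j) u → BdM (E1 j) u' → μ[u | E1 j] =ᵐ[μ] u' →
      BdM ((⨆ i, ⨆ _ : i ≠ j, E i) ⊔ W) v →
      ∫ x, F x * (u x * v x) ∂μ = ∫ x, F x * (u' x * v x) ∂μ)
    (u u' : ι → Ω → ℝ) (hu : ∀ j, BdM (E j) (u j)) (hu' : ∀ j, BdM (E1 j) (u' j))
    (he : ∀ j, μ[u j | E1 j] =ᵐ[μ] u' j) {w : Ω → ℝ} (hw : BdM W w) :
    ∫ x, F x * ((∏ j, u j x) * w x) ∂μ = ∫ x, F x * ((∏ j, u' j x) * w x) ∂μ := by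
  -- partial replacement
  have key : ∀ s : Finset ι,
      ∫ x, F x * ((∏ j, u j x) * w x) ∂μ =
        ∫ x, F x * ((∏ j, (if j ∈ s then u' j x else u j x)) * w x) ∂μ := by
    intro s
    induction s using Finset.induction_on with
    | empty => simp
    | insert a s ha ih =>
      rw [ih]
      -- the other factors
      let V : Ω → ℝ := fun x =>
        (∏ j ∈ Finset.univ.erase a, (if j ∈ s then u' j x else u j x)) * w x
      have hV : BdM ((⨆ i, ⨆ _ : i ≠ a, E i) ⊔ W) V := by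
        refine BdM.mul ?_ (hw.mono le_sup_right)
        refine BdM.prod (F := fun j x => if j ∈ s then u' j x else u j x) fun j hj => ?_
        have hja : j ≠ a := (Finset.mem_erase.1 hj).1
        have hle : E j ≤ (⨆ i, ⨆ _ : i ≠ a, E i) ⊔ W :=
          le_sup_of_le_left (le_iSup₂_of_le j hja le_rfl)
        by_cases hjs : j ∈ s
        · simpa [hjs] using ((hu' j).mono ((h1 j).trans hle))
        · simpa [hjs] using ((hu j).mono hle)
      have e := h a (u a) (u' a) V (hu a) (hu' a) (he a) hV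
      have e1 : ∀ x, (∏ j, (if j ∈ s then u' j x else u j x)) * w x = u a x * V x := by
        intro x
        simp only [V]
        rw [← Finset.mul_prod_erase Finset.univ _ (Finset.mem_univ a)]
        simp only [ha, if_false]
        ring
      have e2 : ∀ x, (∏ j, (if j ∈ insert a s then u' j x else u j x)) * w x = u' a x * V x := by
        intro x
        simp only [V]
        rw [← Finset.mul_prod_erase Finset.univ _ (Finset.mem_univ a)]
        simp only [Finset.mem_insert_self, if_true]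
        rw [mul_assoc]
        congr 1
        congr 1
        refine Finset.prod_congr rfl fun j hj => ?_
        have hja : j ≠ a := (Finset.mem_erase.1 hj).1
        simp [Finset.mem_insert, hja]
      simp only [e1, e2]
      exact e
  have := key Finset.univ
  simpa using this

/-- **Last step of CLOSED.**  `E j`, `j : ι`, and `W` are sub-σ-algebras, `E1 j ≤ E j`,
`E j ⟂ (⨆_{i≠j} E i) ⊔ W | E1 j`, `F` is bounded and `(⨆ E j) ⊔ W`-measurable and
`∫ F u v = ∫ F E[u|E1 j] v` for all bounded `u` (`E j`-measurable) and `v`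
(`(⨆_{i≠j} E i) ⊔ W`-measurable).  Then `F` is a.e. `(⨆ E1 j) ⊔ W`-measurable. -/
theorem closed_last {ι : Type*} [Fintype ι] [DecidableEq ι] {E E1 : ι → MeasurableSpace Ω}
    (hE : ∀ j, E j ≤ mΩ) (hW : W ≤ mΩ) (h1 : ∀ j, E1 j ≤ E j)
    (hCI : ∀ j, CI μ (E j) ((⨆ i, ⨆ _ : i ≠ j, E i) ⊔ W) (E1 j))
    {F : Ω → ℝ} (hF : BdM ((⨆ j, E j) ⊔ W) F)
    (h : ∀ j (u v : Ω → ℝ), BdM (E j) u → BdM ((⨆ i, ⨆ _ : i ≠ j, E i) ⊔ W) v →
      ∫ x, F x * (u x * v x) ∂μ = ∫ x, F x * ((μ[u | E1 j]) x * v x) ∂μ) :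
    μ[F | (⨆ j, E1 j) ⊔ W] =ᵐ[μ] F := by
  have h1' : ∀ j, E1 j ≤ mΩ := fun j => (h1 j).trans (hE j)
  have hD : ∀ j, (⨆ i, ⨆ _ : i ≠ j, E i) ⊔ W ≤ mΩ := fun j =>
    sup_le (iSup₂_le fun i _ => hE i) hW
  have hG0 : (⨆ j, E1 j) ⊔ W ≤ mΩ := sup_le (iSup_le h1') hW
  have hall : (⨆ j, E j) ⊔ W ≤ mΩ := sup_le (iSup_le hE) hW
  have hFm : BdM mΩ F := hF.mono hall
  obtain ⟨F0, hF0, hF0e⟩ := hFm.condExp_bm (μ := μ) hG0
  -- the replacement property for `F`
  have hr : ∀ j (u u' v : Ω → ℝ), BdM (E j) u → BdM (E1 j) u' → μ[u | E1 j] =ᵐ[μ] u' →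
      BdM ((⨆ i, ⨆ _ : i ≠ j, E i) ⊔ W) v →
      ∫ x, F x * (u x * v x) ∂μ = ∫ x, F x * (u' x * v x) ∂μ := by
    intro j u u' v hu _ he hv
    rw [h j u v hu hv]
    exact integral_congr_ae (he.mono fun x hx => by simp only [hx])
  -- the replacement property for `F0`
  have hr0 : ∀ j (u u' v : Ω → ℝ), BdM (E j) u → BdM (E1 j) u' → μ[u | E1 j] =ᵐ[μ] u' →
      BdM ((⨆ i, ⨆ _ : i ≠ j, E i) ⊔ W) v →
      ∫ x, F0 x * (u x * v x) ∂μ = ∫ x, F0 x * (u' x * v x) ∂μ := by
    intro j u u' v hu _ he hv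
    have hF0' : BdM ((⨆ i, ⨆ _ : i ≠ j, E i) ⊔ W ⊔ E1 j) F0 := by
      refine hF0.mono (sup_le (iSup_le fun i => ?_) ?_)
      · by_cases hij : i = j
        · subst hij; exact le_sup_right
        · exact (h1 i).trans (le_sup_of_le_left (le_sup_of_le_left
            (le_iSup₂_of_le i hij le_rfl)))
      · exact le_sup_of_le_left le_sup_right
    have e := (hCI j).integral_replace (hE j) (hD j) (h1' j) hF0' hu hv
    calc ∫ x, F0 x * (u x * v x) ∂μ = ∫ x, F0 x * u x * v x ∂μ := by simp only [mul_assoc]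
      _ = ∫ x, F0 x * (μ[u | E1 j]) x * v x ∂μ := e
      _ = ∫ x, F0 x * (u' x * v x) ∂μ :=
          integral_congr_ae (he.mono fun x hx => by simp only [hx]; ring)
  -- generating π-system
  have hgen : (⨆ j, E j) ⊔ W = MeasurableSpace.generateFrom
      {s | ∃ (A : ι → Set Ω) (B : Set Ω), (∀ j, MeasurableSet[E j] (A j)) ∧ MeasurableSet[W] B ∧
        s = (⋂ j, A j) ∩ B} := by
    apply le_antisymm
    · refine sup_le (iSup_le fun j A hA => ?_) (fun B hB => ?_)
      · refine MeasurableSpace.measurableSet_generateFrom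
          ⟨fun i => if i = j then A else univ, univ, fun i => ?_, @MeasurableSet.univ _ W, ?_⟩
        · by_cases hij : i = j
          · subst hij; simpa using hA
          · simp only [hij, if_false]; exact @MeasurableSet.univ _ (E i)
        · ext x
          simp only [mem_inter_iff, mem_iInter, mem_univ, and_true]
          constructor
          · intro hx i
            by_cases hij : i = j <;> simp [hij, hx]
          · intro hx
            simpa using hx j
      · exact MeasurableSpace.measurableSet_generateFrom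
          ⟨fun _ => univ, B, fun i => @MeasurableSet.univ _ (E i), hB, by simp⟩
    · refine MeasurableSpace.generateFrom_le ?_
      rintro s ⟨A, B, hA, hB, rfl⟩
      refine MeasurableSet.inter (MeasurableSet.iInter fun j => ?_) ?_
      · exact (le_sup_of_le_left (le_iSup E j) : E j ≤ (⨆ j, E j) ⊔ W) _ (hA j)
      · exact (le_sup_right : W ≤ (⨆ j, E j) ⊔ W) _ hB
  have hpi : IsPiSystem {s | ∃ (A : ι → Set Ω) (B : Set Ω), (∀ j, MeasurableSet[E j] (A j)) ∧
      MeasurableSet[W] B ∧ s = (⋂ j, A j) ∩ B} := by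
    rintro s ⟨A, B, hA, hB, rfl⟩ t ⟨A', B', hA', hB', rfl⟩ -
    refine ⟨fun j => A j ∩ A' j, B ∩ B', fun j => @MeasurableSet.inter _ (E j) _ _ (hA j) (hA' j),
      @MeasurableSet.inter _ W _ _ hB hB', ?_⟩
    ext x
    simp only [mem_inter_iff, mem_iInter]
    constructor
    · rintro ⟨⟨h1, h2⟩, h3, h4⟩
      exact ⟨fun j => ⟨h1 j, h3 j⟩, h2, h4⟩
    · rintro ⟨h1, h2, h3⟩
      exact ⟨⟨fun j => (h1 j).1, h2⟩, fun j => (h1 j).2, h3⟩
  have hle : (⨆ j, E1 j) ⊔ W ≤ (⨆ j, E j) ⊔ W := sup_le_sup_right (iSup_mono h1) W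
  -- equality on the π-system
  have heq : ∀ (A : ι → Set Ω) (B : Set Ω), (∀ j, MeasurableSet[E j] (A j)) →
      MeasurableSet[W] B →
      ∫ x in (⋂ j, A j) ∩ B, (μ[F | (⨆ j, E1 j) ⊔ W]) x ∂μ = ∫ x in (⋂ j, A j) ∩ B, F x ∂μ := by
    intro A B hA hB
    have hm : MeasurableSet ((⋂ j, A j) ∩ B) :=
      (MeasurableSet.iInter fun j => hE j _ (hA j)).inter (hW _ hB)
    have e : ((⋂ j, A j) ∩ B).indicator (fun _ => (1 : ℝ)) = fun x =>
        (∏ j, (A j).indicator (fun _ => (1 : ℝ)) x) * B.indicator (fun _ => (1 : ℝ)) x := by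
      funext x
      by_cases hx : x ∈ (⋂ j, A j) ∩ B
      · rw [indicator_of_mem hx, indicator_of_mem hx.2]
        rw [Finset.prod_eq_one]
        · simp
        · intro j _
          rw [indicator_of_mem (mem_iInter.1 hx.1 j)]
      · rw [indicator_of_notMem hx]
        by_cases hxB : x ∈ B
        · have : ¬ ∀ j, x ∈ A j := fun h => hx ⟨mem_iInter.2 h, hxB⟩
          push Not at this
          obtain ⟨j, hj⟩ := this
          rw [Finset.prod_eq_zero (Finset.mem_univ j)]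
          · simp
          · rw [indicator_of_notMem hj]
        · rw [indicator_of_notMem hxB, mul_zero]
    rw [setIntegral_eq_indicator hm, setIntegral_eq_indicator hm, e]
    have hu : ∀ j, BdM (E j) ((A j).indicator fun _ => (1 : ℝ)) := fun j => BdM.indicator (hA j)
    choose u' hu' hue using fun j => ((hu j).mono (hE j)).condExp_bm (μ := μ) (h1' j)
    have hw : BdM W (B.indicator fun _ => (1 : ℝ)) := BdM.indicator hB
    have a1 := replace_all (μ := μ) (W := W) h1 hr _ u' hu hu' hue hw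
    have a2 := replace_all (μ := μ) (W := W) h1 hr0 _ u' hu hu' hue hw
    have a3 : BdM ((⨆ j, E1 j) ⊔ W)
        (fun x => (∏ j, u' j x) * B.indicator (fun _ => (1 : ℝ)) x) :=
      (BdM.prod fun j _ => (hu' j).mono (le_sup_of_le_left (le_iSup E1 j))).mul
        (hw.mono le_sup_right)
    have a4 := integral_condExp_mul (μ := μ) hG0 (hFm.integrable le_rfl) a3
    rw [a1, ← a4]
    calc ∫ x, (μ[F | (⨆ j, E1 j) ⊔ W]) x *
          ((∏ j, (A j).indicator (fun _ => (1 : ℝ)) x) * B.indicator (fun _ => (1 : ℝ)) x) ∂μ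
        = ∫ x, F0 x *
          ((∏ j, (A j).indicator (fun _ => (1 : ℝ)) x) * B.indicator (fun _ => (1 : ℝ)) x) ∂μ :=
          integral_congr_ae (hF0e.mono fun x hx => by simp only [hx])
      _ = ∫ x, F0 x * ((∏ j, u' j x) * B.indicator (fun _ => (1 : ℝ)) x) ∂μ := a2
      _ = _ := integral_congr_ae (hF0e.symm.mono fun x hx => by simp only [hx])
  have hGG : μ[F | (⨆ j, E j) ⊔ W] = F := condExp_of_bm hall hF
  have := condExp_eq_of_piSystem (μ := μ) hall hgen hpi (hFm.integrable le_rfl)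
    (integrable_condExp (m := (⨆ j, E1 j) ⊔ W) (f := F))
    ((stronglyMeasurable_condExp (m := (⨆ j, E1 j) ⊔ W)).mono hle).aestronglyMeasurable
    (integral_condExp hG0) (by rintro s ⟨A, B, hA, hB, rfl⟩; exact heq A B hA hB)
  rw [hGG] at this
  exact this.symm

end

end Crest.Agent.R069
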