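import Crest.Agent.R069.LoebLift

/-!
# Conditional expectations on the Loeb space (row 69)

* `condExp_st` : `(lb μ)[st f | LL m] =ᵐ st g` whenever `g k =ᵐ μ[f k | m]`;
* `condExp_st_cl` : the same with the canonical bounded version `cl C (μ[f k | m])`;
* `condExp_LL_eq` : transfer of `E[f|m₂] = E[f|m₃]` (conditional independence) to the Loeb space.
-/

set_option autoImplicit false

open MeasureTheory Filter Set ProbabilityTheory
open scoped ENNReal Topology

namespace Crest.Agent.R069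

section ce

variable {α : Type*} {m m₁ m₂ m₃ : MeasurableSpace α} {mα : MeasurableSpace α} {μ : Measure α}
  [IsProbabilityMeasure μ]

/-- The set integral of a standard part over an `LL m`-measurable set, computed with a lift. -/
theorem tendsto_setIntegral_st_of_ae_eq {f : ℕ → α → ℝ} {C : ℝ} (hf : BM mα f C)
    {A : ℕ → Set α} (hA : ∀ k, MeasurableSet (A k)) {B : Set (Lb α)} (hB : B =ᵐ[lb μ] intl A) :
    Tendsto (fun k => ∫ x in A k, f k x ∂μ) (UU : Filter ℕ) (𝓝 (∫ x in B, st f x ∂(lb μ))) := by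
  rw [setIntegral_congr_set hB]
  exact tendsto_setIntegral_st hf hA

/-- **Conditional expectation of a standard part.** -/
theorem condExp_st (hm : m ≤ mα) {f g : ℕ → α → ℝ} {C C' : ℝ} (hf : BM mα f C) (hg : BM m g C')
    (hfg : ∀ k, g k =ᵐ[μ] μ[f k | m]) :
    (lb μ)[st f | LL m] =ᵐ[lb μ] st g := by
  have hmm : LL m ≤ LL mα := LL_mono hm
  have hfi : Integrable (st f) (lb μ) := hf.integrable_st le_rfl
  have hgi : Integrable (st g) (lb μ) := hg.integrable_st hm
  refine (ae_eq_condExp_of_forall_setIntegral_eq hmm hfi (fun s _ _ => hgi.integrableOn) ?_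
    hg.meas_st.stronglyMeasurable.aestronglyMeasurable).symm
  intro s hs _
  obtain ⟨A, hA, hsA⟩ := setLift_of_measurable (μ := μ) hm hs
  have hA' : ∀ k, MeasurableSet (A k) := fun k => hm _ (hA k)
  have h1 := tendsto_setIntegral_st_of_ae_eq (μ := μ) hf hA' hsA
  have h2 := tendsto_setIntegral_st_of_ae_eq (μ := μ) (hg.mono hm) hA' hsA
  refine tendsto_nhds_unique h2 (h1.congr (fun k => ?_))
  have h3 : ∫ x in A k, g k x ∂μ = ∫ x in A k, (μ[f k | m]) x ∂μ :=
    integral_congr_ae (ae_restrict_of_ae (hfg k))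
  rw [h3, setIntegral_condExp hm (hf.integrable le_rfl k) (hA k)]

/-- The canonical bounded version of the entrywise conditional expectation. -/
noncomputable def ce (m : MeasurableSpace α) {mα : MeasurableSpace α} (μ : Measure α) (C : ℝ)
    (f : ℕ → α → ℝ) : ℕ → α → ℝ := fun k x => cl C ((μ[f k | m]) x)

omit [IsProbabilityMeasure μ] in
theorem ce_BM {f : ℕ → α → ℝ} {C : ℝ} (hC : 0 ≤ C) : BM m (ce m μ C f) C := by
  refine ⟨fun k => ?_, fun k x => abs_cl_le hC _⟩
  exact (measurable_cl C).comp stronglyMeasurable_condExp.measurable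

omit [IsProbabilityMeasure μ] in
theorem ce_ae_eq {f : ℕ → α → ℝ} {C : ℝ} (_hC : 0 ≤ C) (hf : BM mα f C) (k : ℕ) :
    ce m μ C f k =ᵐ[μ] μ[f k | m] := by
  have h := ae_bdd_abs_condExp_of_ae_bdd_abs (μ := μ) (m := m) (R := C) (f := f k)
    (Eventually.of_forall (fun x => hf.bdd k x))
  filter_upwards [h] with x hx
  exact cl_of_abs_le hx

/-- `(lb μ)[st f | LL m]` is the standard part of the entrywise conditional expectations. -/
theorem condExp_st_ce (hm : m ≤ mα) {f : ℕ → α → ℝ} {C : ℝ} (hC : 0 ≤ C) (hf : BM mα f C) :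
    (lb μ)[st f | LL m] =ᵐ[lb μ] st (ce m μ C f) :=
  condExp_st hm hf (ce_BM hC) (fun k => ce_ae_eq hC hf k)

/-- If `μ[f|m₂] = μ[f|m₃]` for all bounded `m₁`-measurable `f`, then the same holds on the Loeb
space (conditional independence transfers). -/
theorem condExp_LL_eq (h1 : m₁ ≤ mα) (h2 : m₂ ≤ mα) (h3 : m₃ ≤ mα)
    (h : ∀ f : α → ℝ, Measurable[m₁] f → (∃ C, ∀ x, |f x| ≤ C) → μ[f | m₂] =ᵐ[μ] μ[f | m₃])
    {F : Lb α → ℝ} (hF : Measurable[LL m₁] F) {C : ℝ} (hb : ∀ x, |F x| ≤ C) :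
    (lb μ)[F | LL m₂] =ᵐ[lb μ] (lb μ)[F | LL m₃] := by
  have hne : Nonempty (Lb α) := by
    have : (lb μ) univ ≠ 0 := by simp
    exact (nonempty_of_measure_ne_zero this).to_type
  have hC : 0 ≤ C := (abs_nonneg _).trans (hb (Classical.arbitrary _))
  obtain ⟨f, hf, hFf⟩ := funLift_of_measurable (μ := μ) h1 hF hb
  have hf' : BM mα f C := hf.mono h1
  have e1 : (lb μ)[F | LL m₂] =ᵐ[lb μ] (lb μ)[st f | LL m₂] := condExp_congr_ae hFf
  have e2 : (lb μ)[F | LL m₃] =ᵐ[lb μ] (lb μ)[st f | LL m₃] := condExp_congr_ae hFf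
  have e3 : (lb μ)[st f | LL m₂] =ᵐ[lb μ] st (ce m₂ μ C f) := condExp_st_ce h2 hC hf'
  have e4 : (lb μ)[st f | LL m₃] =ᵐ[lb μ] st (ce m₃ μ C f) := condExp_st_ce h3 hC hf'
  have e5 : st (ce m₂ μ C f) =ᵐ[lb μ] st (ce m₃ μ C f) := by
    have hd : ∀ k, ce m₂ μ C f k =ᵐ[μ] ce m₃ μ C f k := by
      intro k
      exact ((ce_ae_eq hC hf' k).trans (h (f k) (hf.meas k) ⟨C, hf.bdd k⟩)).trans
        (ce_ae_eq hC hf' k).symm
    have hz := tendsto_integral_st (μ := μ) (f := fun k x => |ce m₂ μ C f k x - ce m₃ μ C f k x|)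
      (C := C + C) ⟨fun k => ?_, fun k x => ?_⟩
    · have hz' : ∀ k, ∫ x, |ce m₂ μ C f k x - ce m₃ μ C f k x| ∂μ = 0 := by
        intro k
        rw [integral_eq_zero_of_ae]
        filter_upwards [hd k] with x hx
        simp [hx]
      simp only [hz'] at hz
      have h0 : ∫ x, st (fun k x => |ce m₂ μ C f k x - ce m₃ μ C f k x|) x ∂(lb μ) = 0 :=
        (tendsto_nhds_unique tendsto_const_nhds hz).symm
      have hb2 : BM m₂ (ce m₂ μ C f) C := ce_BM hC
      have hb3 : BM m₃ (ce m₃ μ C f) C := ce_BM hC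
      have hst : st (fun k x => |ce m₂ μ C f k x - ce m₃ μ C f k x|)
          = fun x => |st (ce m₂ μ C f) x - st (ce m₃ μ C f) x| := by
        funext x
        exact st_eq (((hb2.ok x).sub (hb3.ok x)).abs)
      rw [hst] at h0
      rw [integral_eq_zero_iff_of_nonneg (fun x => abs_nonneg _)] at h0
      · filter_upwards [h0] with x hx
        have : |st (ce m₂ μ C f) x - st (ce m₃ μ C f) x| = 0 := hx
        exact sub_eq_zero.1 (abs_eq_zero.1 this)
      · exact ((hb2.integrable_st h2).sub (hb3.integrable_st h3)).abs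
    · exact (((ce_BM hC : BM m₂ (ce m₂ μ C f) C).mono h2).meas k).sub
        (((ce_BM hC : BM m₃ (ce m₃ μ C f) C).mono h3).meas k) |>.abs
    · rw [abs_abs]
      refine (abs_sub _ _).trans (add_le_add ?_ ?_)
      · exact (ce_BM (m := m₂) (μ := μ) (f := f) hC).bdd k x
      · exact (ce_BM (m := m₃) (μ := μ) (f := f) hC).bdd k x
  exact ((e1.trans e3).trans e5).trans (e4.symm.trans e2.symm)

end ce

end Crest.Agent.R069
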