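import Crest.Agent.R069.CI2
import Crest.Agent.R069.LoebCE
import Crest.Agent.R069.LoebMap

/-!
Row 69: transfer of `CI`, `AELe`, `Indep` to Loeb spaces, and of conditional expectations along
measure preserving maps.
-/

open MeasureTheory Filter Set ProbabilityTheory
open scoped ENNReal Topology

set_option linter.unusedSectionVars false
set_option linter.unusedVariables false

namespace Crest.Agent.R069

variable {α β : Type*} {m m₁ m₂ m₃ : MeasurableSpace α} {mα : MeasurableSpace α} {μ : Measure α}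
  [IsProbabilityMeasure μ]

/-- `m₁ ⟂ m₂ | m` transfers to the Loeb space. -/
theorem CI.loeb (h₁ : m₁ ≤ mα) (h₂ : m₂ ≤ mα) (hm : m ≤ mα) (h : CI μ m₁ m₂ m) :
    CI (lb μ) (LL m₁) (LL m₂) (LL m) := by
  intro F hF
  obtain ⟨C, hC⟩ := hF.bdd
  have e := condExp_LL_eq (μ := μ) h₁ (sup_le h₂ hm) hm
    (fun f hf hb => h f ⟨hf, hb⟩) hF.meas hC
  have hle : LL m₂ ⊔ LL m ≤ LL (m₂ ⊔ m) := sup_le (LL_mono le_sup_left) (LL_mono le_sup_right)
  have hle' : LL (m₂ ⊔ m) ≤ LL mα := LL_mono (sup_le h₂ hm)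
  have e1 : (lb μ)[(lb μ)[F | LL (m₂ ⊔ m)] | LL m₂ ⊔ LL m] =ᵐ[lb μ] (lb μ)[F | LL m₂ ⊔ LL m] :=
    R069.condExp_condExp hle hle'
  have e2 : (lb μ)[(lb μ)[F | LL (m₂ ⊔ m)] | LL m₂ ⊔ LL m] =ᵐ[lb μ]
      (lb μ)[(lb μ)[F | LL m] | LL m₂ ⊔ LL m] := condExp_congr_ae e
  have e3 : (lb μ)[(lb μ)[F | LL m] | LL m₂ ⊔ LL m] = (lb μ)[F | LL m] :=
    condExp_of_stronglyMeasurable (hle.trans hle')
      ((stronglyMeasurable_condExp (m := LL m)).mono le_sup_right) integrable_condExp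
  rw [e3] at e2
  exact e1.symm.trans e2

/-- The strong form: `E[F | LL (m₂ ⊔ m)] = E[F | LL m]`. -/
theorem CI.loeb_sup (h₁ : m₁ ≤ mα) (h₂ : m₂ ≤ mα) (hm : m ≤ mα) (h : CI μ m₁ m₂ m) :
    CI (lb μ) (LL m₁) (LL (m₂ ⊔ m)) (LL m) := by
  intro F hF
  obtain ⟨C, hC⟩ := hF.bdd
  rw [sup_eq_left.2 (LL_mono (le_sup_right : m ≤ m₂ ⊔ m))]
  exact condExp_LL_eq (μ := μ) h₁ (sup_le h₂ hm) hm (fun f hf hb => h f ⟨hf, hb⟩) hF.meas hC

/-- `AELe` transfers to the Loeb space. -/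
theorem AELe.loeb (h₁ : m₁ ≤ mα) (h₂ : m₂ ≤ mα) (h : AELe μ m₁ m₂) :
    AELe (lb μ) (LL m₁) (LL m₂) := by
  refine AELe.generateFrom ?_
  rintro S ⟨A, hA, rfl⟩
  choose B hB hAB using fun k => h (A k) (hA k)
  exact ⟨intl B, measurableSet_intl hB,
    intl_ae_eq hAB⟩

/-- **S1-TRANSFER.**  If `E[f ∘ ρ | D] = E[f | C] ∘ ρ` for all bounded measurable `f` on `β`,
then the same holds on the Loeb spaces. -/
theorem condExp_loeb_comp {α β : Type*} {mD : MeasurableSpace α} {mα : MeasurableSpace α}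
    {mC : MeasurableSpace β} {mβ : MeasurableSpace β} {μ : Measure α} {ν : Measure β}
    [IsProbabilityMeasure μ] [IsProbabilityMeasure ν] (hD : mD ≤ mα) (hC : mC ≤ mβ) {ρ : α → β}
    (hρ : MeasurePreserving ρ μ ν)
    (h : ∀ f : β → ℝ, BdM mβ f → μ[f ∘ ρ | mD] =ᵐ[μ] (ν[f | mC]) ∘ ρ)
    {F : Lb β → ℝ} (hF : BdM (LL mβ) F) :
    (lb μ)[F ∘ lbmap (fun _ => ρ) | LL mD] =ᵐ[lb μ] ((lb ν)[F | LL mC]) ∘ lbmap (fun _ => ρ) := by
  obtain ⟨C, hb⟩ := hF.bdd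
  have hρL : MeasurePreserving (lbmap (fun _ : ℕ => ρ)) (lb μ) (lb ν) :=
    measurePreserving_lbmap fun _ => hρ
  have h' : ∀ f : α → ℝ, Measurable[mβ.comap ρ] f → (∃ C, ∀ x, |f x| ≤ C) →
      μ[f | mD] =ᵐ[μ] μ[f | mC.comap ρ] := by
    intro f hf hfb
    obtain ⟨g, hg, rfl⟩ := BdM.factors (⟨hf, hfb⟩ : BdM (mβ.comap ρ) f)
    exact (h g hg).trans (condExp_comp_mp hρ hC (hg.integrable le_rfl)).symm
  have hFm : Measurable[LL (mβ.comap ρ)] (F ∘ lbmap (fun _ : ℕ => ρ)) := by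
    rw [← comap_lbmap_LL]
    exact hF.comp.meas
  have e1 := condExp_LL_eq (μ := μ) (m₁ := mβ.comap ρ) (m₂ := mD) (m₃ := mC.comap ρ)
    hρ.measurable.comap_le hD (comap_le_of_mp hρ hC) h' hFm (C := C) (fun x => hb _)
  rw [← comap_lbmap_LL] at e1
  exact e1.trans (condExp_comp_mp hρL (LL_mono hC) (hF.integrable le_rfl))

/-- Form without composition on the right hand side. -/
theorem condExp_loeb_comap {α β : Type*} {mD : MeasurableSpace α} {mα : MeasurableSpace α}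
    {mC : MeasurableSpace β} {mβ : MeasurableSpace β} {μ : Measure α} {ν : Measure β}
    [IsProbabilityMeasure μ] [IsProbabilityMeasure ν] (hD : mD ≤ mα) (hC : mC ≤ mβ) {ρ : α → β}
    (hρ : MeasurePreserving ρ μ ν)
    (h : ∀ f : β → ℝ, BdM mβ f → μ[f ∘ ρ | mD] =ᵐ[μ] μ[f ∘ ρ | mC.comap ρ])
    {F : Lb β → ℝ} (hF : BdM (LL mβ) F) :
    (lb μ)[F ∘ lbmap (fun _ => ρ) | LL mD] =ᵐ[lb μ]
      (lb μ)[F ∘ lbmap (fun _ => ρ) | (LL mC).comap (lbmap (fun _ => ρ))] := by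
  have hρL : MeasurePreserving (lbmap (fun _ : ℕ => ρ)) (lb μ) (lb ν) :=
    measurePreserving_lbmap fun _ => hρ
  refine (condExp_loeb_comp hD hC hρ (fun f hf => ?_) hF).trans
    (condExp_comp_mp hρL (LL_mono hC) (hF.integrable le_rfl)).symm
  exact (h f hf).trans (condExp_comp_mp hρ hC (hf.integrable le_rfl))

end Crest.Agent.R069
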