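import Crest.Agent.R069.Iface
import Crest.Agent.R069.AsmEnd

/-!
# Row 69 (S0092): the final link (helper126)

`Chain.step : N_YE → N_DATA → Top.STEP`, `Chain.n_asm : N_ASM`, and
`Chain.S0092_of_nodes` (the statement of `S0092` from the two nodes).
-/

set_option autoImplicit false

open MeasureTheory Filter Set
open scoped ENNReal Topology

namespace Crest.Agent.R069.Chain

open Crest.Agent.R069.Top

/-- correlations over the sites in `J` converge to the integral over the Loeb space -/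
theorem tendsto_sites (X : Sys) {ι : Type} (s : ι → ℕ → ℤ) (J : Finset ι) {f : ι → X.Ω → ℝ}
    (hf : ∀ i, Bd X.ms (f i)) :
    Tendsto (fun k => ∫ x, ∏ i ∈ J, f i (X.S (s i k) x) ∂X.μ) (UU : Filter ℕ)
      (𝓝 (∫ x, ∏ i ∈ J, sitef X (s i) (f i) x ∂(lb X.μ))) := by
  choose hm C hC using hf
  have h0 : ∀ i, ∀ k x, ‖(fun (k : ℕ) (x : X.Ω) => f i (X.S (s i k) x)) k x‖ ≤ C i :=
    fun i k x => by rw [Real.norm_eq_abs]; exact hC i _
  have hst : ∀ i ∈ J, StOK (fun (k : ℕ) (x : X.Ω) => f i (X.S (s i k) x)) :=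
    fun i _ => stOK_of_bdd (h0 i)
  have hBM : BM X.ms (fun k x => ∏ i ∈ J, f i (X.S (s i k) x)) (∏ i ∈ J, C i) := by
    refine ⟨fun k => Finset.measurable_fun_prod _ fun i _ =>
      (hm i).comp (X.S_mp (s i k)).measurable, fun k x => ?_⟩
    rw [Finset.abs_prod]
    exact Finset.prod_le_prod (fun i _ => abs_nonneg _) fun i _ => hC i _
  have h1 := tendsto_integral_st (μ := X.μ) hBM
  rw [st_prod J hst] at h1
  exact h1

theorem XInd_of_mixAt {X : Sys} {ι : Type} {s : ι → ℕ → ℤ} (J : Finset ι)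
    (h : MixAt X (fun i : J => s i)) : XInd X s J := by
  intro f hf
  have h1 := tendsto_sites X s J hf
  have h2 := h (fun i => f i) (fun i => hf i)
  have e1 : ∀ k, ∫ x, ∏ i : J, f i (X.S (s i k) x) ∂X.μ =
      ∫ x, ∏ i ∈ J, f i (X.S (s i k) x) ∂X.μ := fun k => by
    congr 1
    funext x
    exact Finset.prod_coe_sort J (fun i => f i (X.S (s i k) x))
  have e2 : ∏ i : J, ∫ x, f i x ∂X.μ = ∏ i ∈ J, ∫ x, f i x ∂X.μ :=
    Finset.prod_coe_sort J (fun i => ∫ x, f i x ∂X.μ)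
  simp_rw [e1] at h2
  rw [e2] at h2
  exact tendsto_nhds_unique h1 h2

theorem tau_eq_lim (X : Sys) {ι : Type} [Fintype ι] (s : ι → ℕ → ℤ) {f : ι → X.Ω → ℝ}
    (hf : ∀ i, Bd X.ms (f i)) :
    Tendsto (fun k => ∫ x, ∏ i, f i (X.S (s i k) x) ∂X.μ) (UU : Filter ℕ) (𝓝 (tau X s f)) :=
  tendsto_sites X s Finset.univ hf

/-- `MixAt` in terms of `tau` -/
theorem mixAt_iff_tau {X : Sys} {ι : Type} [Fintype ι] {s : ι → ℕ → ℤ} :
    MixAt X s ↔ ∀ f : ι → X.Ω → ℝ, (∀ i, Bd X.ms (f i)) → tau X s f = ∏ i, ∫ x, f i x ∂X.μ := by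
  constructor
  · intro h f hf
    exact tendsto_nhds_unique (tau_eq_lim X s hf) (h f hf)
  · intro h f hf
    rw [← h f hf]
    exact tau_eq_lim X s hf

/-- `(r-1)`-mixing gives the independence of proper subsets of the sites -/
theorem XIndP_of_lower {X : Sys} {r : ℕ} (hr : 1 ≤ r)
    (h : ∀ s' : Fin (r - 1) → ℕ → ℤ, Far s' → MixAt X s') {s : Fin r → ℕ → ℤ} (hs : Far s) :
    XIndP X s := by
  intro J hJ
  refine XInd_of_mixAt J (mixAt_of_card_le h ?_ (hs.reindex Subtype.val_injective))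
  rw [Fintype.card_coe]
  have h1 : J.card < (Finset.univ : Finset (Fin r)).card :=
    Finset.card_lt_card (Finset.ssubset_univ_iff.2 hJ)
  rw [Finset.card_univ, Fintype.card_fin] at h1
  omega

/-- **the final link** -/
theorem step (hYE : N_YE) (hDATA : N_DATA) : STEP := by
  intro r hr s hs hlow X hX hbad
  have hstd := hX.std
  rw [mixAt_iff_tau] at hbad
  push Not at hbad
  obtain ⟨f, hf, hne⟩ := hbad
  have hcard : 3 ≤ Fintype.card (Fin r) := by rw [Fintype.card_fin]; exact hr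
  obtain ⟨Y, φ, hYstd, hφ, hequi, ⟨g, hg, hgne⟩, F, hFstd, hS1, hcl⟩ :=
    hYE X hstd (Fin r) s hcard (XIndP_of_lower (by omega) (hlow X hX) hs) f hf hne
  have hY : SM Y := hX.factor hYstd hφ fun n => Eventually.of_forall fun x => hequi n x
  have hbadY : ¬ MixAt Y s := by
    rw [mixAt_iff_tau]
    intro h
    exact hgne (h g hg)
  obtain ⟨Ω, ms, P, N, cg, _, hD⟩ :=
    hDATA Y hYstd F hFstd (Fin r) s hcard (XIndP_of_lower (by omega) (hlow Y hY) hs) hS1 hcl
  exact ⟨Y, hY, hbadY, Ω, ms, P, N, cg, hD⟩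

/-- the node `N_ASM` -/
theorem n_asm : N_ASM := fun hYE hDATA Γ _ _ ν _ S hS hm =>
  mixAll_of_step (step hYE hDATA) Γ ν S hS hm

/-- **the statement of `S0092` from the nodes `N_YE` and `N_DATA`** -/
theorem S0092_of_nodes (hYE : N_YE) (hDATA : N_DATA) {Ω : Type*} [MeasurableSpace Ω]
    (μ : Measure Ω) [IsProbabilityMeasure μ] (T : Ω ≃ᵐ Ω) (hT : MeasurePreserving T μ μ)
    (hmix : ∀ A B : Set Ω, MeasurableSet A → MeasurableSet B →
      Tendsto (fun n : ℕ => μ (A ∩ (T^[n]) ⁻¹' B)) atTop (nhds (μ A * μ B)))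
    (k : ℕ) (A : Fin (k + 1) → Set Ω) (hA : ∀ i, MeasurableSet (A i)) :
    Tendsto (fun n : Fin k → ℕ =>
        μ (⋂ i : Fin (k + 1), (T^[∑ j : Fin k, if (j : ℕ) < (i : ℕ) then n j else 0]) ⁻¹' A i))
      atTop (nhds (∏ i, μ (A i))) :=
  S0092_of_step (step hYE hDATA) μ T hT hmix k A hA

end Crest.Agent.R069.Chain
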