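import Crest.Agent.R069.Defs
import Crest.Agent.R069.Sites
import Crest.Agent.R069.LoebCE

/-!
# Glue: site sigma-algebras, internal sigma-algebras and factor maps (row 69)

`siteG m u` is the sigma-algebra on `Lb α` of the sets `{x | ∀ᶠ k, u k (x k) ∈ A}`, `A ∈ m`, for a
sequence of maps `u k : α → β` (for `u k = S (s k)` this is the algebra of the site `s`).
Everything is stated for arbitrary probability spaces and a.e. equivariant maps; inclusions of
sigma-algebras are in the sense `AELe` (up to null sets).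

* `sg_comap`, `sg_comap_base`, `sg_congr_ae`, `sg_aele`, `LL_aele`;
* `comap_sg_factor` : `comap (lbmap e) (siteG m uβ) = siteG (m.comap e) uα` mod null sets;
* `st_congr_ae`, `st_comp_factor`;
* Sys level: `siteM`, `restM`, `rest`, `vis`, `visX` under factor maps, invariance under the shift;
* the Loeb system `M.loeb`, its invariant sub-sigma-algebras, point sites as factor maps
  `E.loeb → E`, pairs and extensions carried by the Loeb system.
-/

set_option autoImplicit false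

open MeasureTheory Filter Set ProbabilityTheory
open scoped ENNReal Topology

namespace Crest.Agent.R069.Glue

/-! ### general facts on `AELe` -/

section aele

variable {Ω : Type*} {mΩ : MeasurableSpace Ω} {μ : Measure Ω} {m₁ m₂ m₁' m₂' m : MeasurableSpace Ω}

theorem aele_iSup_iSup {ι : Sort*} {a b : ι → MeasurableSpace Ω} (h : ∀ i, AELe μ (a i) (b i)) :
    AELe μ (⨆ i, a i) (⨆ i, b i) :=
  AELe.iSup fun i => (h i).trans (AELe.of_le (le_iSup b i))

/-- a sigma-algebra all of whose sets are null or conull is contained mod null in every other -/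
theorem aele_of_triv (h : ∀ A, MeasurableSet[m₁] A → μ A = 0 ∨ μ Aᶜ = 0) : AELe μ m₁ m := by
  intro A hA
  rcases h A hA with h0 | h1
  · exact ⟨∅, @MeasurableSet.empty _ m, ae_eq_empty.2 h0⟩
  · exact ⟨univ, @MeasurableSet.univ _ m, ae_eq_univ.2 h1⟩

/-- Pulling back along a.e. equal maps. -/
theorem aele_comap_congr {Ω' : Type*} {μ' : Measure Ω} {f g : Ω → Ω'} {m' : MeasurableSpace Ω'}
    (h : f =ᵐ[μ'] g) : AELe μ' (m'.comap f) (m'.comap g) := by
  rintro _ ⟨B, hB, rfl⟩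
  refine ⟨g ⁻¹' B, ⟨B, hB, rfl⟩, ?_⟩
  filter_upwards [h] with x hx
  apply propext
  show f x ∈ B ↔ g x ∈ B
  rw [hx]

end aele

/-! ### the sigma-algebra of a site -/

section sg

variable {α β γ δ : Type*}

theorem measurableSet_sg (u : ℕ → α → β) {m : MeasurableSpace β} {A : Set β}
    (hA : MeasurableSet[m] A) : MeasurableSet[siteG m u] (intl (fun k => u k ⁻¹' A)) :=
  MeasurableSpace.measurableSet_generateFrom ⟨A, hA, rfl⟩

theorem sg_mono (u : ℕ → α → β) {m m' : MeasurableSpace β} (h : m ≤ m') : siteG m u ≤ siteG m' u := by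
  refine MeasurableSpace.generateFrom_le ?_
  rintro _ ⟨A, hA, rfl⟩
  exact measurableSet_sg u (h _ hA)

theorem sg_le_LL {u : ℕ → α → β} {mα : MeasurableSpace α} {m : MeasurableSpace β}
    (hu : ∀ k, Measurable[mα, m] (u k)) : siteG m u ≤ LL mα := by
  refine MeasurableSpace.generateFrom_le ?_
  rintro _ ⟨A, hA, rfl⟩
  exact measurableSet_intl (fun k => hu k hA)

/-- Pulling back along an internal map. -/
theorem sg_comap (u : ℕ → β → γ) (v : ℕ → α → β) (m : MeasurableSpace γ) :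
    (siteG m u).comap (lbmap v) = siteG m (fun k => u k ∘ v k) := by
  rw [siteG, MeasurableSpace.comap_generateFrom]
  apply le_antisymm
  · refine MeasurableSpace.generateFrom_le ?_
    rintro _ ⟨_, ⟨A, hA, rfl⟩, rfl⟩
    rw [lbmap_preimage]
    exact measurableSet_sg (fun k => u k ∘ v k) hA
  · refine MeasurableSpace.generateFrom_le ?_
    rintro _ ⟨A, hA, rfl⟩
    refine MeasurableSpace.measurableSet_generateFrom ?_
    exact ⟨_, ⟨A, hA, rfl⟩, rfl⟩

theorem sg_eq_comap (u : ℕ → α → β) (m : MeasurableSpace β) :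
    siteG m u = (siteG m (fun _ => id)).comap (lbmap u) := by
  rw [sg_comap]; rfl

/-- The site algebra of a pulled back sigma-algebra. -/
theorem sg_comap_base (u : ℕ → α → β) (e : β → γ) (m : MeasurableSpace γ) :
    siteG (m.comap e) u = siteG m (fun k => e ∘ u k) := by
  apply le_antisymm
  · refine MeasurableSpace.generateFrom_le ?_
    rintro _ ⟨_, ⟨A, hA, rfl⟩, rfl⟩
    exact measurableSet_sg (fun k => e ∘ u k) hA
  · refine MeasurableSpace.generateFrom_le ?_
    rintro _ ⟨A, hA, rfl⟩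
    exact measurableSet_sg (m := m.comap e) u ⟨A, hA, rfl⟩

/-- `lbmap v` is measurable between site algebras. -/
theorem measurable_lbmap_sg {u : ℕ → β → γ} {v : ℕ → α → β} {m : MeasurableSpace γ}
    {m' : MeasurableSpace (Lb α)} (h : siteG m (fun k => u k ∘ v k) ≤ m') :
    Measurable[m', siteG m u] (lbmap v) := by
  rw [measurable_iff_comap_le, sg_comap]
  exact h

/-- Invariance of the site algebra under an internal map commuting with the site maps. -/
theorem measurable_lbmap_sg_self {u : ℕ → α → β} {T : α → α} {T' : β → β}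
    {m : MeasurableSpace β} (hT' : Measurable[m, m] T') (hc : ∀ k x, u k (T x) = T' (u k x)) :
    Measurable[siteG m u, siteG m u] (lbmap (fun _ => T)) := by
  refine measurable_lbmap_sg ?_
  have : (fun k => u k ∘ T) = fun k => T' ∘ u k := by
    funext k x; exact hc k x
  rw [this, ← sg_comap_base]
  exact sg_mono u hT'.comap_le

theorem sg_congr_ae {mα : MeasurableSpace α} {u u' : ℕ → α → β} {μ : Measure α}
    (h : ∀ k, u k =ᵐ[μ] u' k) (m : MeasurableSpace β) : AELe (lb μ) (siteG m u) (siteG m u') := by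
  refine AELe.generateFrom ?_
  rintro _ ⟨A, hA, rfl⟩
  refine ⟨_, measurableSet_sg u' hA, intl_ae_eq (fun k => ?_)⟩
  filter_upwards [h k] with x hx
  apply propext
  show u k x ∈ A ↔ u' k x ∈ A
  rw [hx]

theorem sg_aele {m₁ m₂ : MeasurableSpace β} {mα : MeasurableSpace α} {mβ : MeasurableSpace β}
    {u : ℕ → α → β} {μ : Measure α} {ν : Measure β}
    (hu : ∀ k, MeasurePreserving (u k) μ ν) (h : AELe ν m₁ m₂) :
    AELe (lb μ) (siteG m₁ u) (siteG m₂ u) := by
  refine AELe.generateFrom ?_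
  rintro _ ⟨A, hA, rfl⟩
  obtain ⟨B, hB, hAB⟩ := h A hA
  exact ⟨_, measurableSet_sg u hB,
    intl_ae_eq (fun k => (hu k).quasiMeasurePreserving.preimage_ae_eq hAB)⟩

theorem LL_aele {m₁ m₂ : MeasurableSpace α} {mα : MeasurableSpace α} {μ : Measure α}
    (h : AELe μ m₁ m₂) : AELe (lb μ) (LL m₁) (LL m₂) := by
  refine AELe.generateFrom ?_
  rintro _ ⟨A, hA, rfl⟩
  have h1 : ∀ k, ∃ B, MeasurableSet[m₂] B ∧ A k =ᵐ[μ] B := fun k => h (A k) (hA k)
  choose B hB hAB using h1
  exact ⟨_, measurableSet_intl hB, intl_ae_eq hAB⟩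

/-- A site of `m` is contained in the environment of `m'`. -/
theorem sg_aele_LL {m : MeasurableSpace β} {m' : MeasurableSpace α} {mα : MeasurableSpace α}
    {u : ℕ → α → β} {μ : Measure α} (h : ∀ k, AELe μ (m.comap (u k)) m') :
    AELe (lb μ) (siteG m u) (LL m') := by
  refine AELe.generateFrom ?_
  rintro _ ⟨A, hA, rfl⟩
  have h1 : ∀ k, ∃ B, MeasurableSet[m'] B ∧ u k ⁻¹' A =ᵐ[μ] B := fun k => h k _ ⟨A, hA, rfl⟩
  choose B hB hAB using h1
  exact ⟨_, measurableSet_intl hB, intl_ae_eq hAB⟩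

/-- **Factor maps and sites**: for an a.e. equivariant map `e`,
`(lbmap e)⁻¹ (site of m) = site of e⁻¹ m` up to null sets. -/
theorem comap_sg_factor {mα : MeasurableSpace α} {uα : ℕ → α → α} {uβ : ℕ → β → β}
    {μ : Measure α} {e : α → β}
    (he : ∀ k, e ∘ uα k =ᵐ[μ] uβ k ∘ e) (m : MeasurableSpace β) :
    AELe (lb μ) ((siteG m uβ).comap (lbmap (fun _ => e))) (siteG (m.comap e) uα) ∧
      AELe (lb μ) (siteG (m.comap e) uα) ((siteG m uβ).comap (lbmap (fun _ => e))) := by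
  rw [sg_comap, sg_comap_base]
  exact ⟨sg_congr_ae (fun k => (he k).symm) m, sg_congr_ae he m⟩

end sg

/-! ### standard parts -/

section st

variable {α β : Type*} {E : Type*} [TopologicalSpace E] [Nonempty E]

theorem ulim_congr {f g : ℕ → E} (h : ∀ᶠ k in (UU : Filter ℕ), f k = g k) :
    ulim f = ulim g := by
  have h1 : (UU.map f : Filter E) = (UU.map g : Filter E) := by
    rw [Ultrafilter.coe_map, Ultrafilter.coe_map]
    exact Filter.map_congr h
  unfold ulim
  rw [h1]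

theorem st_congr_ae {mα : MeasurableSpace α} {f g : ℕ → α → E} {μ : Measure α}
    (h : ∀ k, f k =ᵐ[μ] g k) : st f =ᵐ[lb μ] st g := by
  filter_upwards [ae_lb_of_forall_ae (p := fun k x => f k x = g k x) h] with x hx
  exact ulim_congr hx

theorem st_lbmap (f : ℕ → β → E) (u : ℕ → α → β) (x : Lb α) :
    st f (lbmap u x) = st (fun k => f k ∘ u k) x := rfl

/-- `(f ∘ e)_s = f_s ∘ lbmap e` a.e. -/
theorem st_comp_factor {mα : MeasurableSpace α} {uα : ℕ → α → α} {uβ : ℕ → β → β}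
    {μ : Measure α} {e : α → β} (he : ∀ k, e ∘ uα k =ᵐ[μ] uβ k ∘ e) (f : β → E) :
    st (fun k => (f ∘ e) ∘ uα k) =ᵐ[lb μ] st (fun k => f ∘ uβ k) ∘ lbmap (fun _ => e) := by
  have h1 : ∀ k, (f ∘ e) ∘ uα k =ᵐ[μ] f ∘ (uβ k ∘ e) := by
    intro k
    filter_upwards [he k] with x hx
    have hx' : e (uα k x) = uβ k (e x) := hx
    show f (e (uα k x)) = f (uβ k (e x))
    rw [hx']
  have h2 := st_congr_ae h1
  filter_upwards [h2] with x hx
  rw [hx]
  rfl

omit [TopologicalSpace E] [Nonempty E] in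
/-- The set version. -/
theorem intl_comp_factor {mα : MeasurableSpace α} {uα : ℕ → α → α} {uβ : ℕ → β → β}
    {μ : Measure α} {e : α → β} (he : ∀ k, e ∘ uα k =ᵐ[μ] uβ k ∘ e) (A : Set β) :
    intl (fun k => uα k ⁻¹' (e ⁻¹' A)) =ᵐ[lb μ]
      lbmap (fun _ => e) ⁻¹' intl (fun k => uβ k ⁻¹' A) := by
  rw [lbmap_preimage]
  refine intl_ae_eq (fun k => ?_)
  filter_upwards [he k] with x hx
  apply propext
  show e (uα k x) ∈ A ↔ uβ k (e x) ∈ A
  have hx' : e (uα k x) = uβ k (e x) := hx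
  rw [hx']

end st

/-! ### null sets -/

section nul

variable {α β : Type*}

theorem intl_ae_eq' {mα : MeasurableSpace α} {μ : Measure α} {A B : ℕ → Set α}
    (h : ∀ k, A k =ᵐ[μ] B k) : intl A =ᵐ[lb μ] intl B := intl_ae_eq h

theorem of_ae_nul {m mα : MeasurableSpace α} {μ : Measure α} (hm : m ≤ mα)
    (hn : @nul α mα μ ≤ m) {A B : Set α} (hA : MeasurableSet[mα] A)
    (hB : MeasurableSet[m] B) (hAB : A =ᵐ[μ] B) : MeasurableSet[m] A :=
  measurableSet_of_ae_nul hm hn hA hB hAB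

theorem aele_nul {m mα : MeasurableSpace α} {μ : Measure α} : AELe μ (@nul α mα μ) m :=
  aele_of_triv fun _ hA => hA.2

theorem comap_nul_le {mα : MeasurableSpace α} {mβ : MeasurableSpace β} {μ : Measure α}
    {ν : Measure β} {f : α → β} (hf : MeasurePreserving f μ ν) :
    (@nul β mβ ν).comap f ≤ @nul α mα μ := by
  rintro _ ⟨A, ⟨hA, h⟩, rfl⟩
  refine ⟨hf.measurable hA, ?_⟩
  rw [← preimage_compl, hf.measure_preimage hA.nullMeasurableSet,
    hf.measure_preimage hA.compl.nullMeasurableSet]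
  exact h

/-- `AELe` into a complete sigma-algebra is inclusion. -/
theorem le_of_aele {m₁ m₂ : MeasurableSpace α} {mα : MeasurableSpace α} {μ : Measure α}
    (h₁ : m₁ ≤ mα) (h₂ : m₂ ≤ mα) (hn : @nul α mα μ ≤ m₂) (h : AELe μ m₁ m₂) : m₁ ≤ m₂ := by
  intro A hA
  obtain ⟨B, hB, hAB⟩ := h A hA
  exact measurableSet_of_ae_nul h₂ hn (h₁ _ hA) hB hAB

/-- adding null sets does not change conditional expectations -/
theorem condExp_sup_nul {m : MeasurableSpace α} {mα : MeasurableSpace α} {μ : Measure α}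
    [IsProbabilityMeasure μ] (hm : m ≤ mα) {f : α → ℝ} (hf : BdM mα f) :
    μ[f | m ⊔ @nul α mα μ] =ᵐ[μ] μ[f | m] :=
  condExp_eq_of_aele (sup_le hm (fun _ h => h.1)) hm (AELe.sup AELe.refl aele_nul)
    (AELe.of_le le_sup_left) hf

theorem bdM_iff_Bd {m : MeasurableSpace α} {f : α → ℝ} : BdM m f ↔ Bd m f :=
  ⟨fun h => ⟨h.meas, h.bdd⟩, fun h => ⟨h.1, h.2⟩⟩

end nul

/-! ### factor maps of systems -/

section sys

theorem S_meas (M : Sys) (a : ℤ) : @Measurable M.Ω M.Ω M.ms M.ms (M.S a) :=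
  (M.S_mp a).measurable

/-- the null sigma-algebra of a system -/
@[implicit_reducible]
noncomputable def nulM (M : Sys) : MeasurableSpace M.Ω := @nul M.Ω M.ms M.μ

theorem nulM_eq (M : Sys) : nulM M = @nul M.Ω M.ms M.μ := rfl

/-- the Loeb measure of a system (to avoid instance problems when sub-sigma-algebras are in
context) -/
noncomputable abbrev lbm (M : Sys) : @Measure (Lb M.Ω) (LL M.ms) := lb M.μ

/-- A factor map between systems (a.e. equivariant). -/
structure IsFac (N M : Sys) (f : N.Ω → M.Ω) : Prop where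
  mp : MeasurePreserving f N.μ M.μ
  equi : ∀ n, (fun x => f (N.S n x)) =ᵐ[N.μ] fun x => M.S n (f x)

theorem IsFac.meas {N M : Sys} {f : N.Ω → M.Ω} (hf : IsFac N M f) :
    @Measurable N.Ω M.Ω N.ms M.ms f := hf.mp.measurable

theorem IsFac.of_ext {X : Sys} {P Q : Pair X} (e : Ext P Q) : IsFac Q.toSys P.toSys e.f :=
  ⟨e.f_mp, e.f_S⟩

theorem IsFac.of_pair {X : Sys} (P : Pair X) : IsFac P.toSys X P.π := ⟨P.π_mp, P.π_S⟩

theorem IsFac.id (M : Sys) : IsFac M M id := ⟨MeasurePreserving.id _, fun _ => EventuallyEq.rfl⟩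

theorem IsFac.shift (M : Sys) (a : ℤ) : IsFac M M (M.S a) :=
  ⟨M.S_mp a, fun n => Eventually.of_forall fun x => by
    show M.S a (M.S n x) = M.S n (M.S a x)
    rw [← M.S_add, ← M.S_add, add_comm]⟩

variable {N M L : Sys} {f : N.Ω → M.Ω}

theorem IsFac.comp {g : M.Ω → L.Ω} (hg : IsFac M L g) (hf : IsFac N M f) :
    IsFac N L (g ∘ f) := by
  refine ⟨hg.mp.comp hf.mp, fun n => ?_⟩
  filter_upwards [hf.equi n, hf.mp.quasiMeasurePreserving.ae (hg.equi n)] with x h1 h2
  show g (f (N.S n x)) = L.S n (g (f x))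
  rw [h1, h2]

theorem IsFac.congr (hf : IsFac N M f) {g : N.Ω → M.Ω} (hg : Measurable g)
    (h : f =ᵐ[N.μ] g) : IsFac N M g := by
  refine ⟨⟨hg, ?_⟩, fun n => ?_⟩
  · rw [← Measure.map_congr h, hf.mp.map_eq]
  · filter_upwards [hf.equi n, h, (N.S_mp n).quasiMeasurePreserving.ae h] with x h1 h2 h3
    rw [← h3, h1, h2]

theorem IsFac.ae_comp (hf : IsFac N M f) (n : ℤ) : f ∘ N.S n =ᵐ[N.μ] M.S n ∘ f := hf.equi n

theorem lbmp_eq {α β : Type*} (g : α → β) : Lb.mp g = lbmap (fun _ => g) := rfl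

/-- `Lb` of a measure preserving map is measure preserving. -/
theorem lbmp_mp {α β : Type*} {mα : MeasurableSpace α} {mβ : MeasurableSpace β} {μ : Measure α}
    {ν : Measure β} [IsProbabilityMeasure μ] [IsProbabilityMeasure ν] {g : α → β}
    (hg : MeasurePreserving g μ ν) : MeasurePreserving (Lb.mp g) (lb μ) (lb ν) :=
  measurePreserving_lbmap (fun _ => hg)

theorem IsFac.lbmeas (hf : IsFac N M f) :
    @Measurable (Lb N.Ω) (Lb M.Ω) (LL N.ms) (LL M.ms) (Lb.mp f) := (lbmp_mp hf.mp).measurable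

theorem siteM_eq_siteG (M : Sys) (s : ℕ → ℤ) (m : MeasurableSpace M.Ω) :
    siteM M s m = siteG m (fun k => M.S (s k)) := rfl

/-- sites and factor maps -/
theorem IsFac.comap_siteM (hf : IsFac N M f) (s : ℕ → ℤ) (m : MeasurableSpace M.Ω) :
    AELe (lbm N) ((siteM M s m).comap (Lb.mp f)) (siteM N s (m.comap f)) ∧
      AELe (lbm N) (siteM N s (m.comap f)) ((siteM M s m).comap (Lb.mp f)) :=
  comap_sg_factor (uα := fun k => N.S (s k)) (uβ := fun k => M.S (s k))
    (fun k => hf.equi (s k)) m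

theorem comap_LL (g : N.Ω → M.Ω) (C : MeasurableSpace M.Ω) :
    (LL C).comap (Lb.mp g) = LL (C.comap g) := comap_lbmap_LL g

theorem IsFac.comap_nulL (hf : IsFac N M f) : (nulL M).comap (Lb.mp f) ≤ nulL N :=
  comap_nul_le (lbmp_mp hf.mp)

theorem siteM_le_restM {ι : Type} (s : ι → ℕ → ℤ) {i j : ι} (h : j ≠ i) (M : Sys)
    (m C : MeasurableSpace M.Ω) : siteM M (s j) m ≤ restM s i M m C :=
  ((le_iSup₂ (f := fun j (_ : j ≠ i) => siteM M (s j) m) j h).trans le_sup_left).trans le_sup_left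

theorem LL_le_restM {ι : Type} (s : ι → ℕ → ℤ) (i : ι) (M : Sys)
    (m C : MeasurableSpace M.Ω) : LL C ≤ restM s i M m C :=
  le_sup_right.trans le_sup_left

theorem nulL_le_restM {ι : Type} (s : ι → ℕ → ℤ) (i : ι) (M : Sys)
    (m C : MeasurableSpace M.Ω) : nulL M ≤ restM s i M m C := le_sup_right

theorem restM_mono {ι : Type} (s : ι → ℕ → ℤ) (i : ι) (M : Sys)
    {m m' C C' : MeasurableSpace M.Ω} (h : m ≤ m') (h' : C ≤ C') :
    restM s i M m C ≤ restM s i M m' C' :=
  sup_le_sup (sup_le_sup (iSup₂_mono fun j _ => siteM_mono M (s j) h) (LL_mono h')) le_rfl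

/-- functoriality of the rest algebra, up to null sets -/
theorem IsFac.aele_restM (hf : IsFac N M f) {ι : Type} (s : ι → ℕ → ℤ) (i : ι)
    {m C : MeasurableSpace M.Ω} {m' C' : MeasurableSpace N.Ω} (hm : m.comap f ≤ m')
    (hC : C.comap f ≤ C') :
    AELe (lbm N) ((restM s i M m C).comap (Lb.mp f)) (restM s i N m' C') := by
  unfold restM
  rw [MeasurableSpace.comap_sup, MeasurableSpace.comap_sup, MeasurableSpace.comap_iSup]
  refine AELe.sup_sup (AELe.sup_sup ?_ ?_) ?_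
  · refine aele_iSup_iSup fun j => ?_
    rw [MeasurableSpace.comap_iSup]
    refine aele_iSup_iSup fun _ => ?_
    exact (hf.comap_siteM (s j) m).1.trans (AELe.of_le (siteM_mono N (s j) hm))
  · rw [comap_LL]
    exact AELe.of_le (LL_mono hC)
  · exact AELe.of_le hf.comap_nulL

theorem IsFac.comap_restM_le (hf : IsFac N M f) {ι : Type} (s : ι → ℕ → ℤ) (i : ι)
    {m C : MeasurableSpace M.Ω} {m' C' : MeasurableSpace N.Ω} (hm : m.comap f ≤ m')
    (hC : C.comap f ≤ C') (hm' : m' ≤ N.ms) (hC' : C' ≤ N.ms) (hMm : m ≤ M.ms)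
    (hMC : C ≤ M.ms) :
    (restM s i M m C).comap (Lb.mp f) ≤ restM s i N m' C' := by
  refine le_of_aele (mα := LL N.ms) (μ := lbm N) ?_ (restM_le s i N hm' hC')
    (nulL_le_restM s i N m' C') (hf.aele_restM s i hm hC)
  exact (MeasurableSpace.comap_mono (restM_le s i M hMm hMC)).trans
    hf.lbmeas.comap_le

/-- the rest algebra of a pulled back sub-sigma-algebra, up to null sets -/
theorem IsFac.restM_aele_comap (hf : IsFac N M f) {ι : Type} (s : ι → ℕ → ℤ) (i : ι)
    (m C : MeasurableSpace M.Ω) :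
    AELe (lbm N) (restM s i N (m.comap f) (C.comap f)) ((restM s i M m C).comap (Lb.mp f)) := by
  unfold restM
  rw [MeasurableSpace.comap_sup, MeasurableSpace.comap_sup, MeasurableSpace.comap_iSup]
  refine AELe.sup_sup (AELe.sup_sup ?_ ?_) aele_nul
  · refine aele_iSup_iSup fun j => ?_
    rw [MeasurableSpace.comap_iSup]
    refine aele_iSup_iSup fun _ => ?_
    exact (hf.comap_siteM (s j) m).2
  · rw [comap_LL]
    exact AELe.refl

theorem comap_rest_le {X : Sys} {ι : Type} (s : ι → ℕ → ℤ) (i : ι) {P Q : Pair X}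
    (e : Ext P Q) : (rest s i P).comap (Lb.mp e.f) ≤ rest s i Q :=
  (IsFac.of_ext e).comap_restM_le s i e.f_mp.measurable.comap_le e.f_C le_rfl Q.C_le le_rfl P.C_le

/-- functions at a site and factor maps -/
theorem IsFac.sitef_comp (hf : IsFac N M f) (s : ℕ → ℤ) (g : M.Ω → ℝ) :
    sitef N s (g ∘ f) =ᵐ[lbm N] sitef M s g ∘ Lb.mp f :=
  st_comp_factor (uα := fun k => N.S (s k)) (uβ := fun k => M.S (s k)) (fun k => hf.equi (s k)) g

/-- sets at a site and factor maps -/
theorem IsFac.site_preimage (hf : IsFac N M f) (s : ℕ → ℤ) (A : Set M.Ω) :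
    intl (fun k => N.S (s k) ⁻¹' (f ⁻¹' A)) =ᵐ[lbm N]
      Lb.mp f ⁻¹' intl (fun k => M.S (s k) ⁻¹' A) :=
  intl_comp_factor (uα := fun k => N.S (s k)) (uβ := fun k => M.S (s k))
    (fun k => hf.equi (s k)) A

/-- translation of a site by the shift -/
theorem site_preimage_S (M : Sys) (s : ℕ → ℤ) (a : ℤ) (A : Set M.Ω) :
    intl (fun k => M.S (s k) ⁻¹' (M.S a ⁻¹' A)) =
      Lb.mp (M.S a) ⁻¹' intl (fun k => M.S (s k) ⁻¹' A) := by
  rw [lbmp_eq, lbmap_preimage]
  congr 1
  funext k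
  ext x
  show M.S a (M.S (s k) x) ∈ A ↔ M.S (s k) (M.S a x) ∈ A
  rw [← M.S_add, ← M.S_add, add_comm]

/-! ### invariance under the shift -/

theorem siteM_S (M : Sys) (s : ℕ → ℤ) {m : MeasurableSpace M.Ω} (a : ℤ)
    (hm : Measurable[m, m] (M.S a)) :
    Measurable[siteM M s m, siteM M s m] (Lb.mp (M.S a)) :=
  measurable_lbmap_sg_self (u := fun k => M.S (s k)) (T := M.S a) (T' := M.S a) hm
    (fun k x => by rw [← M.S_add, ← M.S_add, add_comm])

theorem LL_S (M : Sys) {C : MeasurableSpace M.Ω} (a : ℤ) (hC : Measurable[C, C] (M.S a)) :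
    Measurable[LL C, LL C] (Lb.mp (M.S a)) := measurable_lbmap' (fun _ => hC)

theorem nulL_S (M : Sys) (a : ℤ) : Measurable[nulL M, nulL M] (Lb.mp (M.S a)) := by
  rw [measurable_iff_comap_le]
  exact (IsFac.shift M a).comap_nulL

theorem nul_S (M : Sys) (a : ℤ) : Measurable[nul M.μ, nul M.μ] (M.S a) := by
  rw [measurable_iff_comap_le]
  exact comap_nul_le (M.S_mp a)

theorem measurable_sup_self {α : Type*} {m₁ m₂ : MeasurableSpace α} {T : α → α}
    (h₁ : Measurable[m₁, m₁] T) (h₂ : Measurable[m₂, m₂] T) :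
    Measurable[m₁ ⊔ m₂, m₁ ⊔ m₂] T := by
  rw [measurable_iff_comap_le, MeasurableSpace.comap_sup]
  exact sup_le_sup h₁.comap_le h₂.comap_le

theorem measurable_iSup_self {α : Type*} {κ : Sort*} {m : κ → MeasurableSpace α} {T : α → α}
    (h : ∀ i, Measurable[m i, m i] T) : Measurable[⨆ i, m i, ⨆ i, m i] T := by
  rw [measurable_iff_comap_le, MeasurableSpace.comap_iSup]
  exact iSup_mono fun i => (h i).comap_le

theorem restM_S {ι : Type} (s : ι → ℕ → ℤ) (i : ι) (M : Sys) {m C : MeasurableSpace M.Ω} (a : ℤ)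
    (hm : Measurable[m, m] (M.S a)) (hC : Measurable[C, C] (M.S a)) :
    Measurable[restM s i M m C, restM s i M m C] (Lb.mp (M.S a)) :=
  measurable_sup_self (measurable_sup_self
    (measurable_iSup_self fun j => measurable_iSup_self fun _ => siteM_S M (s j) a hm)
    (LL_S M a hC)) (nulL_S M a)

theorem rest_S {X : Sys} {ι : Type} (s : ι → ℕ → ℤ) (i : ι) (P : Pair X) (a : ℤ) :
    Measurable[rest s i P, rest s i P] (Lb.mp (P.S a)) :=
  restM_S s i P.toSys a (P.S_mp a).measurable (P.C_S a)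

/-! ### the visible algebra -/

section vis

variable {ι : Type} (s : ι → ℕ → ℤ)

/-- sets at a site are a.e. equal if the sets are -/
theorem site_congr_ae (M : Sys) (t : ℕ → ℤ) {A B : Set M.Ω} (h : A =ᵐ[M.μ] B) :
    intl (fun k => M.S (t k) ⁻¹' A) =ᵐ[lbm M] intl (fun k => M.S (t k) ⁻¹' B) :=
  intl_ae_eq' fun k => (M.S_mp (t k)).quasiMeasurePreserving.preimage_ae_eq h

/-- The visible algebra is complete: closed under a.e. equality. -/
theorem visσ_of_ae {M : Sys} {C : MeasurableSpace M.Ω} (hC : C ≤ M.ms) {A B : Set M.Ω}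
    (hA : MeasurableSet[M.ms] A) (hB : MeasurableSet[visσ s M C hC] B) (h : A =ᵐ[M.μ] B) :
    MeasurableSet[visσ s M C hC] A := by
  refine ⟨hA, fun i => ?_⟩
  exact of_ae_nul (μ := lbm M) (restM_le s i M le_rfl hC)
    (nulL_le_restM s i M M.ms C) (M.measurableSet_site (s i) hA) (hB.2 i)
    (site_congr_ae M (s i) h)

theorem nul_le_visσ {M : Sys} {C : MeasurableSpace M.Ω} (hC : C ≤ M.ms) :
    nulM M ≤ visσ s M C hC := by
  rintro A ⟨hA, h | h⟩
  · exact visσ_of_ae s hC hA (@MeasurableSet.empty _ (visσ s M C hC)) (ae_eq_empty.2 h)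
  · exact visσ_of_ae s hC hA (@MeasurableSet.univ _ (visσ s M C hC)) (ae_eq_univ.2 h)

theorem C_le_visσ {M : Sys} {C : MeasurableSpace M.Ω} (hC : C ≤ M.ms)
    (hCS : ∀ n, Measurable[C, C] (M.S n)) : C ≤ visσ s M C hC := fun A hA =>
  ⟨hC _ hA, fun i => LL_le_restM s i M M.ms C _ (measurableSet_intl fun k => hCS (s i k) hA)⟩

theorem visσ_S {M : Sys} {C : MeasurableSpace M.Ω} (hC : C ≤ M.ms)
    (hCS : ∀ n, Measurable[C, C] (M.S n)) (a : ℤ) :
    Measurable[visσ s M C hC, visσ s M C hC] (M.S a) := by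
  rintro A ⟨hA, h⟩
  refine ⟨(S_meas M a) hA, fun i => ?_⟩
  rw [site_preimage_S]
  exact restM_S s i M a (S_meas M a) (hCS a) (h i)

/-- Visible stays visible. -/
theorem IsFac.comap_visσ_le (hf : IsFac N M f) {C : MeasurableSpace M.Ω}
    {C' : MeasurableSpace N.Ω} (hC : C ≤ M.ms) (hC' : C' ≤ N.ms) (h : C.comap f ≤ C') :
    (visσ s M C hC).comap f ≤ visσ s N C' hC' := by
  rintro _ ⟨A, ⟨hA, hs⟩, rfl⟩
  refine ⟨hf.meas hA, fun i => ?_⟩
  refine of_ae_nul (μ := lbm N) (restM_le s i N le_rfl hC')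
    (nulL_le_restM s i N N.ms C') (N.measurableSet_site (s i) (hf.meas hA)) ?_
    (hf.site_preimage (s i) A)
  exact hf.comap_restM_le s i hf.meas.comap_le h le_rfl hC' le_rfl hC _ ⟨_, hs i, rfl⟩

variable {X : Sys}

theorem nul_le_vis (P : Pair X) : nulM P.toSys ≤ P.vis s := nul_le_visσ s P.C_le

theorem C_le_vis (P : Pair X) : P.C ≤ P.vis s := C_le_visσ s P.C_le P.C_S

theorem vis_S (P : Pair X) (a : ℤ) : Measurable[P.vis s, P.vis s] (P.S a) :=
  visσ_S s P.C_le P.C_S a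

theorem vis_of_ae (P : Pair X) {A B : Set P.Ω} (hA : MeasurableSet[P.ms] A)
    (hB : MeasurableSet[P.vis s] B) (h : A =ᵐ[P.μ] B) : MeasurableSet[P.vis s] A :=
  visσ_of_ae s P.C_le hA hB h

theorem comap_vis_le {P Q : Pair X} (e : Ext P Q) : (P.vis s).comap e.f ≤ Q.vis s :=
  (IsFac.of_ext e).comap_visσ_le s P.C_le Q.C_le e.f_C

theorem visX_le (P : Pair X) : P.visX s ≤ X.ms := fun _ h => h.1

theorem nul_le_visX (P : Pair X) : nulM X ≤ P.visX s := fun A hA =>
  ⟨hA.1, nul_le_vis s P _ (comap_nul_le P.π_mp _ ⟨A, hA, rfl⟩)⟩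

theorem visX_S (P : Pair X) (a : ℤ) : Measurable[P.visX s, P.visX s] (X.S a) := by
  rintro A ⟨hA, h⟩
  refine ⟨(X.S_mp a).measurable hA, ?_⟩
  have h1 : P.π ⁻¹' (X.S a ⁻¹' A) =ᵐ[P.μ] P.S a ⁻¹' (P.π ⁻¹' A) := by
    filter_upwards [P.π_S a] with x hx
    apply propext
    show X.S a (P.π x) ∈ A ↔ P.π (P.S a x) ∈ A
    rw [hx]
  exact vis_of_ae s P (P.π_mp.measurable ((X.S_mp a).measurable hA)) (vis_S s P a h) h1

/-- the visible part of the base grows under extensions -/
theorem visX_mono {P Q : Pair X} (e : Ext P Q) : P.visX s ≤ Q.visX s := by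
  rintro A ⟨hA, h⟩
  refine ⟨hA, ?_⟩
  have h1 : Q.π ⁻¹' A =ᵐ[Q.μ] e.f ⁻¹' (P.π ⁻¹' A) := by
    filter_upwards [e.f_π] with x hx
    apply propext
    show Q.π x ∈ A ↔ P.π (e.f x) ∈ A
    rw [hx]; rfl
  exact vis_of_ae s Q (Q.π_mp.measurable hA) (comap_vis_le s e _ ⟨_, h, rfl⟩) h1

end vis

/-! ### point sites as factor maps of the Loeb system -/

section point

theorem sys_nonempty (M : Sys) : Nonempty M.Ω :=
  (nonempty_of_measure_ne_zero (μ := M.μ) (s := univ) (by simp)).to_type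

theorem loeb_μ (M : Sys) : M.loeb.μ = lbm M := rfl

theorem loeb_S (M : Sys) (n : ℤ) : M.loeb.S n = Lb.mp (M.S n) := rfl

theorem loeb_ms (M : Sys) : M.loeb.ms = LL M.ms := rfl

/-- the site variable with an internal lift `g k : M → E`, `E` standard Borel -/
noncomputable def sV (E : Sys) [StandardBorelSpace E.Ω] {α : Type*} (g : ℕ → α → E.Ω) :
    Lb α → E.Ω :=
  haveI := sys_nonempty E
  sv g

/-- the point site `e_s : Lb E → E` -/
noncomputable def pS (E : Sys) [StandardBorelSpace E.Ω] (s : ℕ → ℤ) : Lb E.Ω → E.Ω :=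
  sV E (fun k => E.S (s k))

variable {E : Sys} [StandardBorelSpace E.Ω]

theorem sV_mp {α : Type*} {mα : MeasurableSpace α} {μ : Measure α} [IsProbabilityMeasure μ]
    {g : ℕ → α → E.Ω} (hg : ∀ k, MeasurePreserving (g k) μ E.μ) :
    MeasurePreserving (sV E g) (lb μ) E.μ :=
  haveI := sys_nonempty E
  measurePreserving_sv hg

theorem sV_congr {α : Type*} {mα : MeasurableSpace α} {μ : Measure α} [IsProbabilityMeasure μ]
    {g g' : ℕ → α → E.Ω} (h : ∀ k, g k =ᵐ[μ] g' k) : sV E g =ᵐ[lb μ] sV E g' :=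
  haveI := sys_nonempty E
  sv_congr_ae h

theorem sV_comp {α : Type*} {mα : MeasurableSpace α} {μ : Measure α} [IsProbabilityMeasure μ]
    {g : ℕ → α → E.Ω} (hg : ∀ k, MeasurePreserving (g k) μ E.μ) {F : Sys}
    [StandardBorelSpace F.Ω] {φ : E.Ω → F.Ω} (hφ : Measurable φ) :
    sV F (fun k => φ ∘ g k) =ᵐ[lb μ] fun x => φ (sV E g x) :=
  haveI := sys_nonempty E
  haveI := sys_nonempty F
  sv_comp_ae hg hφ

theorem sV_lbmap {α β : Type*} (g : ℕ → α → E.Ω) (h : ℕ → β → α) (x : Lb β) :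
    sV E g (lbmap h x) = sV E (fun k => g k ∘ h k) x := rfl

theorem sV_preimage {α : Type*} {mα : MeasurableSpace α} {μ : Measure α}
    [IsProbabilityMeasure μ] {g : ℕ → α → E.Ω} (hg : ∀ k, MeasurePreserving (g k) μ E.μ)
    {A : Set E.Ω} (hA : MeasurableSet A) : sV E g ⁻¹' A =ᵐ[lb μ] intl (fun k => g k ⁻¹' A) :=
  haveI := sys_nonempty E
  sv_preimage_ae hg hA

theorem sV_st {α : Type*} {mα : MeasurableSpace α} {μ : Measure α}
    [IsProbabilityMeasure μ] {g : ℕ → α → E.Ω} (hg : ∀ k, MeasurePreserving (g k) μ E.μ)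
    {f : E.Ω → ℝ} (hf : Measurable f) :
    f ∘ sV E g =ᵐ[lb μ] st (fun k x => f (g k x)) :=
  haveI := sys_nonempty E
  comp_sv_ae_eq_st hg hf

theorem pS_mp (E : Sys) [StandardBorelSpace E.Ω] (s : ℕ → ℤ) :
    MeasurePreserving (pS E s) E.loeb.μ E.μ := sV_mp (fun k => E.S_mp (s k))

/-- **The point site is a factor map of systems `E.loeb → E`.** -/
theorem pS_isFac (E : Sys) [StandardBorelSpace E.Ω] (s : ℕ → ℤ) : IsFac E.loeb E (pS E s) := by
  refine ⟨pS_mp E s, fun n => ?_⟩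
  have h1 : ∀ x : Lb E.Ω, pS E s (Lb.mp (E.S n) x) = sV E (fun k => E.S n ∘ E.S (s k)) x := by
    intro x
    have h2 : (fun k => E.S (s k) ∘ E.S n) = fun k => E.S n ∘ E.S (s k) := by
      funext k x
      show E.S (s k) (E.S n x) = E.S n (E.S (s k) x)
      rw [← E.S_add, ← E.S_add, add_comm]
    rw [← h2]
    rfl
  have h3 := sV_comp (E := E) (F := E) (g := fun k => E.S (s k)) (fun k => E.S_mp (s k))
    (S_meas E n)
  filter_upwards [h3] with x hx
  exact (h1 x).trans hx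

/-- functions at a site through the point site -/
theorem comp_pS {s : ℕ → ℤ} {f : E.Ω → ℝ} (hf : Measurable f) :
    f ∘ pS E s =ᵐ[lbm E] sitef E s f := sV_st (fun k => E.S_mp (s k)) hf

theorem pS_preimage {s : ℕ → ℤ} {A : Set E.Ω} (hA : MeasurableSet A) :
    pS E s ⁻¹' A =ᵐ[lbm E] intl (fun k => E.S (s k) ⁻¹' A) :=
  sV_preimage (fun k => E.S_mp (s k)) hA

/-- the algebra of a site through the point site -/
theorem comap_pS_aele {s : ℕ → ℤ} {m : MeasurableSpace E.Ω} (hm : m ≤ E.ms) :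
    AELe (lbm E) (m.comap (pS E s)) (siteM E s m) := by
  rintro _ ⟨A, hA, rfl⟩
  exact ⟨_, MeasurableSpace.measurableSet_generateFrom ⟨A, hA, rfl⟩, pS_preimage (hm _ hA)⟩

theorem siteM_aele_pS {s : ℕ → ℤ} {m : MeasurableSpace E.Ω} (hm : m ≤ E.ms) :
    AELe (lbm E) (siteM E s m) (m.comap (pS E s)) := by
  refine AELe.generateFrom ?_
  rintro _ ⟨A, hA, rfl⟩
  exact ⟨_, ⟨A, hA, rfl⟩, (pS_preimage (hm _ hA)).symm⟩

/-- with null sets the two algebras coincide -/
theorem comap_pS_sup_nul {s : ℕ → ℤ} {m : MeasurableSpace E.Ω} (hm : m ≤ E.ms) :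
    m.comap (pS E s) ⊔ nulL E = siteM E s m ⊔ nulL E := by
  have h1 : m.comap (pS E s) ≤ LL E.ms :=
    (MeasurableSpace.comap_mono hm).trans (pS_isFac E s).meas.comap_le
  apply le_antisymm
  · exact le_of_aele (μ := lbm E) (sup_le h1 (nulL_le E)) (sup_le (siteM_le E s hm) (nulL_le E))
      le_sup_right (AELe.sup_sup (comap_pS_aele hm) AELe.refl)
  · exact le_of_aele (μ := lbm E) (sup_le (siteM_le E s hm) (nulL_le E)) (sup_le h1 (nulL_le E))
      le_sup_right (AELe.sup_sup (siteM_aele_pS hm) AELe.refl)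

/-- an invariant algebra at a site is contained in its ultrapower -/
theorem siteM_le_LL (M : Sys) (s : ℕ → ℤ) {C : MeasurableSpace M.Ω}
    (hCS : ∀ n, Measurable[C, C] (M.S n)) : siteM M s C ≤ LL C := by
  refine MeasurableSpace.generateFrom_le ?_
  rintro _ ⟨A, hA, rfl⟩
  exact measurableSet_intl fun k => hCS (s k) hA

theorem comap_pS_le {s : ℕ → ℤ} {C : MeasurableSpace E.Ω} (hC : C ≤ E.ms)
    (hCS : ∀ n, Measurable[C, C] (E.S n)) : C.comap (pS E s) ≤ LL C ⊔ nulL E :=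
  (le_sup_left.trans (comap_pS_sup_nul hC).le).trans (sup_le_sup_right (siteM_le_LL E s hCS) _)

/-- naturality of point sites under factor maps (the source may be arbitrary) -/
theorem IsFac.sV_eq {N : Sys} {f : N.Ω → E.Ω} (hf : IsFac N E f) (s : ℕ → ℤ) :
    sV E (fun k => f ∘ N.S (s k)) =ᵐ[lbm N] pS E s ∘ Lb.mp f := by
  have h1 := sV_congr (E := E) (μ := N.μ) (g := fun k => f ∘ N.S (s k))
    (g' := fun k => E.S (s k) ∘ f) (fun k => hf.equi (s k))
  exact h1

/-- naturality of point sites under factor maps of standard Borel systems -/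
theorem IsFac.pS_comp {N : Sys} [StandardBorelSpace N.Ω] {f : N.Ω → E.Ω} (hf : IsFac N E f)
    (s : ℕ → ℤ) : f ∘ pS N s =ᵐ[lbm N] pS E s ∘ Lb.mp f := by
  have h1 := sV_comp (E := N) (F := E) (g := fun k => N.S (s k)) (fun k => N.S_mp (s k)) hf.meas
  have h2 := hf.sV_eq s
  exact h1.symm.trans h2

end point

end sys

end Crest.Agent.R069.Glue
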