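import Crest.Agent.R069.Iface
import Crest.Agent.R069.Glue

/-!
# Row 69 (S0092): closedness descends to the factor of the visible algebra
-/

set_option autoImplicit false

open MeasureTheory Filter Set ProbabilityTheory
open scoped ENNReal Topology

namespace Crest.Agent.R069.ClTr

variable {X : Sys} {P F : Pair X} {φ : P.Ω → F.Ω}

theorem isFac_of_facOf (h : FacOf P F φ) : Glue.IsFac P.toSys F.toSys φ :=
  ⟨h.mp, fun n => Eventually.of_forall fun x => h.equi n x⟩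

/-- site algebras of a.e. equal sub-sigma-algebras -/
theorem siteM_aele (M : Sys) (s : ℕ → ℤ) {m₁ m₂ : MeasurableSpace M.Ω}
    (h : AELe M.μ m₁ m₂) : AELe (Glue.lbm M) (siteM M s m₁) (siteM M s m₂) :=
  Glue.sg_aele (u := fun k => M.S (s k)) (fun k => M.S_mp (s k)) h

theorem restM_aele (M : Sys) {ι : Type} (s : ι → ℕ → ℤ) (i : ι)
    {m₁ m₂ C₁ C₂ : MeasurableSpace M.Ω} (h : AELe M.μ m₁ m₂) (hC : AELe M.μ C₁ C₂) :
    AELe (Glue.lbm M) (restM s i M m₁ C₁) (restM s i M m₂ C₂) := by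
  unfold restM
  refine AELe.sup_sup (AELe.sup_sup ?_ ?_) AELe.refl
  · exact Glue.aele_iSup_iSup fun j => Glue.aele_iSup_iSup fun _ => siteM_aele M (s j) h
  · exact Glue.LL_aele hC

/-- if `m ≤ comap φ m' ⊔ nul` and `C ≤ comap φ C' ⊔ nul`, the rest algebra of `(m, C)` is, up to
null sets, contained in the pull back of the rest algebra of `(m', C')`. -/
theorem restM_aele_comap_fac (h : Glue.IsFac P.toSys F.toSys φ) {ι : Type} (s : ι → ℕ → ℤ) (i : ι)
    {m C : MeasurableSpace P.Ω} {m' C' : MeasurableSpace F.Ω}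
    (hm : m ≤ m'.comap φ ⊔ @nul _ P.ms P.μ) (hC : C ≤ C'.comap φ ⊔ @nul _ P.ms P.μ) :
    AELe (Glue.lbm P.toSys) (restM s i P.toSys m C)
      ((restM s i F.toSys m' C').comap (Lb.mp φ)) := by
  refine AELe.trans (restM_aele P.toSys s i (m₂ := m'.comap φ) (C₂ := C'.comap φ) ?_ ?_)
    (h.restM_aele_comap s i m' C')
  · exact (AELe.of_le hm).trans (AELe.sup AELe.refl Glue.aele_nul)
  · exact (AELe.of_le hC).trans (AELe.sup AELe.refl Glue.aele_nul)

/-- **Closedness descends to the factor of the visible algebra.** -/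
theorem closed_of_fac (h : FacOf P F φ) {ι : Type} (s : ι → ℕ → ℤ)
    (h1 : F.ms.comap φ ≤ P.vis s) (h2 : P.vis s ≤ F.ms.comap φ ⊔ @nul _ P.ms P.μ)
    (hcl : ∀ i, siteM P.toSys (s i) (P.vis s) ≤ restM s i P.toSys (P.vis s) P.C) :
    Closed s F := by
  intro i
  have hf := isFac_of_facOf h
  refine MeasurableSpace.generateFrom_le ?_
  rintro _ ⟨A, hA, rfl⟩
  -- the copy upstairs
  have hup : MeasurableSet[restM s i P.toSys (P.vis s) P.C]
      (intl (fun k => P.S (s i k) ⁻¹' (φ ⁻¹' A))) :=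
    hcl i _ (MeasurableSpace.measurableSet_generateFrom ⟨φ ⁻¹' A, h1 _ ⟨A, hA, rfl⟩, rfl⟩)
  obtain ⟨_, ⟨D, hD, rfl⟩, hAD⟩ :=
    restM_aele_comap_fac hf s i h2 (le_of_eq h.C_eq) _ hup
  have hB := hf.site_preimage (s i) A
  have hpre : Lb.mp φ ⁻¹' intl (fun k => F.S (s i k) ⁻¹' A) =ᵐ[lb P.μ] Lb.mp φ ⁻¹' D :=
    hB.symm.trans hAD
  have hmp : MeasurePreserving (Lb.mp φ) (lb P.μ) (lb F.μ) := Glue.lbmp_mp h.mp
  have hrest : rest s i F ≤ LL F.ms := restM_le s i F.toSys le_rfl F.C_le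
  have hAm : MeasurableSet[LL F.ms] (intl (fun k => F.S (s i k) ⁻¹' A)) :=
    F.toSys.measurableSet_site (s i) hA
  have hDm : MeasurableSet[LL F.ms] D := hrest _ hD
  have hae : intl (fun k => F.S (s i k) ⁻¹' A) =ᵐ[lb F.μ] D := by
    have hE : MeasurableSet {x | (x ∈ intl (fun k => F.S (s i k) ⁻¹' A)) ↔ x ∈ D} := by
      have : {x | (x ∈ intl (fun k => F.S (s i k) ⁻¹' A)) ↔ x ∈ D} =
          (intl (fun k => F.S (s i k) ⁻¹' A) ∩ D) ∪
            ((intl (fun k => F.S (s i k) ⁻¹' A))ᶜ ∩ Dᶜ) := by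
        ext x; simp only [mem_ofPred_eq, mem_union, mem_inter_iff, mem_compl_iff]; tauto
      rw [this]
      exact (hAm.inter hDm).union (hAm.compl.inter hDm.compl)
    have h3 : ∀ᵐ x ∂((lb P.μ).map (Lb.mp φ)),
        (x ∈ intl (fun k => F.S (s i k) ⁻¹' A)) ↔ x ∈ D := by
      rw [ae_map_iff hmp.measurable.aemeasurable hE]
      filter_upwards [hpre] with x hx
      exact iff_of_eq hx
    rw [hmp.map_eq] at h3
    filter_upwards [h3] with x hx
    exact propext hx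
  exact measurableSet_of_ae_nul (mα := LL F.ms) hrest le_sup_right hAm hD hae

end Crest.Agent.R069.ClTr
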