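import Crest.Agent.R069.Transfer

/-! Row 69 (helper67): the transfer lemma and Claim B for multilinear weak limits. -/

set_option autoImplicit false
open MeasureTheory Filter ProbabilityTheory Topology

namespace Crest.Agent.R069

namespace Tr

variable {κ ι : Type*} {Ω : Type*} {mX : MeasurableSpace Ω} {mΩ : MeasurableSpace Ω}
  {μ : Measure Ω} [IsProbabilityMeasure μ] {S : ℤ → Ω → Ω}

theorem transfer_gen (hS : ∀ n, MeasurePreserving (S n) μ μ)
    (hadd : ∀ a b x, S (a + b) x = S a (S b x))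
    (hS0 : ∀ x, S 0 x = x) (hX : mX ≤ mΩ) (hSX : ∀ n, Measurable[mX, mX] (S n))
    {U : Filter κ} {q : ℕ} {s : κ → Fin q → ℤ}
    (hmix : MixAlong μ S mX U s) (W : Ultrafilter ι) (b : ι → Ω → ℝ)
    (hbm : ∀ m, Measurable (b m)) (hb1 : ∀ m x, |b m x| ≤ 1)
    (hAI : AsInd μ S mX (W : Filter ι) b)
    (h : Ω → ℝ) (hh : Measurable[mX] h) (hh1 : ∀ x, |h x| ≤ 1) (hh0 : ∫ x, h x ∂μ = 0)
    (G : Fin q → Ω → ℝ) (hG : ∀ i, Measurable (G i)) (hG1 : ∀ i x, |G i x| ≤ 1) :
    Tendsto (fun p : κ × ι => ∫ x, h x * b p.2 x * ∏ i, G i (S (s p.1 i) x) ∂μ)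
      (U.curry (W : Filter ι)) (𝓝 0) := by
  rcases Nat.eq_zero_or_pos q with hq | hq
  · subst hq
    have h1 := hAI Unit {()} (fun _ => 0) h hh hh1 hh0
    simp only [Finset.prod_singleton, hS0] at h1
    rw [Metric.tendsto_nhds] at h1 ⊢
    intro ε hε
    rw [Filter.eventually_curry_iff]
    refine Eventually.of_forall fun k => ?_
    filter_upwards [h1 ε hε] with m hm
    simpa using hm
  rw [Metric.tendsto_nhds]
  intro ε hε
  rw [Filter.eventually_curry_iff]
  by_contra hcon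
  rw [Filter.not_eventually] at hcon
  have h1 : ∃ᶠ k in U, (∀ᶠ m in (W : Filter ι), ε ≤ ∫ x, h x * b m x * ∏ i, G i (S (s k i) x) ∂μ) ∨
      (∀ᶠ m in (W : Filter ι), ε ≤ -∫ x, h x * b m x * ∏ i, G i (S (s k i) x) ∂μ) := by
    refine hcon.mono fun k hk => ?_
    rw [← Ultrafilter.eventually_not] at hk
    rw [← Ultrafilter.eventually_or]
    refine hk.mono fun m hm => ?_
    rw [Real.dist_eq, sub_zero, not_lt] at hm
    rcases le_abs.mp hm with h2 | h2
    · exact Or.inl h2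
    · exact Or.inr h2
  rw [Filter.frequently_or_distrib] at h1
  rcases h1 with h1 | h1
  · have : (U ⊓ 𝓟 {k | ∀ᶠ m in (W : Filter ι), ε ≤ ∫ x, h x * b m x * ∏ i, G i (S (s k i) x) ∂μ}).NeBot :=
      Filter.frequently_mem_iff_neBot.mp h1
    refine core (μ := μ) (U := U ⊓ 𝓟 {k | ∀ᶠ m in (W : Filter ι), ε ≤ ∫ x, h x * b m x * ∏ i, G i (S (s k i) x) ∂μ})
      hS hadd hS0 hX hSX hq (s := s)
      (fun f hf hf1 => (hmix f hf hf1).mono_left inf_le_left) (W : Filter ι) b hbm hb1 hAI h hh hh1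
      hh0 G hG hG1 ε hε ?_
    exact Filter.mem_inf_of_right (Filter.mem_principal_self _)
  · have : (U ⊓ 𝓟 {k | ∀ᶠ m in (W : Filter ι), ε ≤ -∫ x, h x * b m x * ∏ i, G i (S (s k i) x) ∂μ}).NeBot :=
      Filter.frequently_mem_iff_neBot.mp h1
    refine core (μ := μ) (U := U ⊓ 𝓟 {k | ∀ᶠ m in (W : Filter ι), ε ≤ -∫ x, h x * b m x * ∏ i, G i (S (s k i) x) ∂μ})
      hS hadd hS0 hX hSX hq (s := s)
      (fun f hf hf1 => (hmix f hf hf1).mono_left inf_le_left) (W : Filter ι) b hbm hb1 hAI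
      (fun x => - h x) hh.neg (fun x => by rw [abs_neg]; exact hh1 x) (by rw [integral_neg, hh0, neg_zero])
      G hG hG1 ε hε ?_
    have : ∀ᶠ k in U ⊓ 𝓟 {k | ∀ᶠ m in (W : Filter ι), ε ≤ -∫ x, h x * b m x * ∏ i, G i (S (s k i) x) ∂μ},
        ∀ᶠ m in (W : Filter ι), ε ≤ -∫ x, h x * b m x * ∏ i, G i (S (s k i) x) ∂μ :=
      Filter.mem_inf_of_right (Filter.mem_principal_self _)
    filter_upwards [this] with k hk
    filter_upwards [hk] with m hm
    refine hm.trans (le_of_eq ?_)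
    rw [← integral_neg]
    refine integral_congr_ae (Eventually.of_forall fun x => ?_)
    simp only; ring

end Tr

variable {κ : Type*} {Ω : Type*} {mX mL : MeasurableSpace Ω} {mΩ : MeasurableSpace Ω}
  {μ : Measure Ω} [IsProbabilityMeasure μ] {S : ℤ → Ω → Ω}

theorem integral_indep_mul (hX : mX ≤ mΩ) (hL : mL ≤ mΩ) (hind : Indep mX mL μ)
    (h f : Ω → ℝ) (hh : Measurable[mX] h) (hf : Measurable[mL] f) :
    ∫ x, h x * f x ∂μ = (∫ x, h x ∂μ) * ∫ x, f x ∂μ := by
  have hi : IndepFun h f μ := by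
    rw [IndepFun_iff_Indep]
    exact indep_of_indep_of_le_right (indep_of_indep_of_le_left hind hh.comap_le) hf.comap_le
  exact hi.integral_fun_mul_eq_mul_integral (hh.mono hX le_rfl).aestronglyMeasurable
    (hf.mono hL le_rfl).aestronglyMeasurable

/-- **Transfer lemma**, one level: `X` is `(q+1)`-mixing along `s`, `X ⊥ L`, arbitrary `G`. -/
theorem transfer (hS : ∀ n, MeasurePreserving (S n) μ μ)
    (hadd : ∀ a b x, S (a + b) x = S a (S b x))
    (hS0 : ∀ x, S 0 x = x) (hX : mX ≤ mΩ) (hL : mL ≤ mΩ) (hSX : ∀ n, Measurable[mX, mX] (S n))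
    (hSL : ∀ n, Measurable[mL, mL] (S n)) (hind : Indep mX mL μ)
    {U : Filter κ} {q : ℕ} {s : κ → Fin q → ℤ} (hmix : MixAlong μ S mX U s)
    (h : Ω → ℝ) (hh : Measurable[mX] h) (hh1 : ∀ x, |h x| ≤ 1) (hh0 : ∫ x, h x ∂μ = 0)
    (f : Ω → ℝ) (hf : Measurable[mL] f) (hf1 : ∀ x, |f x| ≤ 1)
    (G : Fin q → Ω → ℝ) (hG : ∀ i, Measurable (G i)) (hG1 : ∀ i x, |G i x| ≤ 1) :
    Tendsto (fun k => ∫ x, h x * f x * ∏ i, G i (S (s k i) x) ∂μ) U (𝓝 0) := by
  have h1 := Tr.transfer_gen (μ := μ) hS hadd hS0 hX hSX hmix (pure () : Ultrafilter Unit)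
    (fun _ => f) (fun _ => hf.mono hL le_rfl) (fun _ => hf1) (by
      intro τ A t h' hh' hh'1 hh'0
      have : ∫ x, h' x * ∏ σ ∈ A, f (S (t σ) x) ∂μ = 0 := by
        rw [integral_indep_mul hX hL hind h' (fun x => ∏ σ ∈ A, f (S (t σ) x)) hh'
          (@Finset.measurable_prod _ _ _ _ _ _ mL _ _ (fun σ _ => hf.comp (hSL _))), hh'0, zero_mul]
      simp only [this]
      exact tendsto_const_nhds) h hh hh1 hh0 G hG hG1
  rw [Metric.tendsto_nhds] at h1 ⊢
  intro ε hε
  have h2 := h1 ε hε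
  rw [Filter.eventually_curry_iff] at h2
  filter_upwards [h2] with k hk
  exact hk


/-- one level of far sites with bounded functions. -/
structure Lev {Ω : Type*} {mΩ : MeasurableSpace Ω} (μ : Measure Ω) (S : ℤ → Ω → Ω)
    (mX : MeasurableSpace Ω) {κ : Type*} (U : Filter κ) where
  q : ℕ
  s : κ → Fin q → ℤ
  mix : MixAlong μ S mX U s
  G : Fin q → Ω → ℝ
  meas : ∀ i, Measurable[mΩ] (G i)
  bd : ∀ i x, |G i x| ≤ 1

/-- the product of the level at the index `k`. -/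
def Lev.P {U : Filter κ} (L : Lev μ S mX U) (k : κ) (x : Ω) : ℝ := ∏ i, L.G i (S (L.s k i) x)

theorem Lev.P_meas (hS : ∀ n, MeasurePreserving (S n) μ μ) {U : Filter κ} (L : Lev μ S mX U) (k : κ) :
    Measurable (L.P k) :=
  Finset.measurable_prod _ (fun i _ => (L.meas i).comp (hS _).measurable)

theorem Lev.P_bd {U : Filter κ} (L : Lev μ S mX U) (k : κ) (x : Ω) : |L.P k x| ≤ 1 :=
  Tr.abs_prod_le_one _ _ (fun i _ => L.bd i _)

/-- iterated ultrafilter on `Fin n → κ`, first coordinate outermost. -/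
noncomputable def IU (U : Ultrafilter κ) : (n : ℕ) → Ultrafilter (Fin n → κ)
  | 0 => pure Fin.elim0
  | n + 1 => U.bind (fun a => (IU U n).map (fun k => (Fin.cons a k : Fin (n + 1) → κ)))

theorem IU_succ_iff (U : Ultrafilter κ) (n : ℕ) (P : (Fin (n + 1) → κ) → Prop) :
    (∀ᶠ k in (IU U (n + 1) : Filter (Fin (n + 1) → κ)), P k) ↔
      ∀ᶠ a in (U : Filter κ), ∀ᶠ k in (IU U n : Filter (Fin n → κ)), P (Fin.cons a k) := Iff.rfl

/-- shifted product of a level. -/
def Lev.shift (hS : ∀ n, MeasurePreserving (S n) μ μ) {U : Filter κ} (L : Lev μ S mX U)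
    {τ : Type} (A : Finset τ) (t : τ → ℤ) : Lev μ S mX U where
  q := L.q
  s := L.s
  mix := L.mix
  G := fun i x => ∏ σ ∈ A, L.G i (S (t σ) x)
  meas := fun i => Finset.measurable_prod _ (fun σ _ => (L.meas i).comp (hS _).measurable)
  bd := fun i x => Tr.abs_prod_le_one _ _ (fun σ _ => L.bd i _)

theorem Lev.shift_P (hS : ∀ n, MeasurePreserving (S n) μ μ)
    (hadd : ∀ a b x, S (a + b) x = S a (S b x)) {U : Filter κ} (L : Lev μ S mX U)
    {τ : Type} (A : Finset τ) (t : τ → ℤ) (k : κ) (x : Ω) :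
    (L.shift hS A t).P k x = ∏ σ ∈ A, L.P k (S (t σ) x) := by
  unfold Lev.P Lev.shift
  simp only
  rw [Finset.prod_comm]
  refine Finset.prod_congr rfl (fun σ _ => Finset.prod_congr rfl (fun i _ => ?_))
  rw [← hadd, ← hadd, add_comm]

/-- **Multi-level transfer**: `X` is independent of `L` and of arbitrary functions at the far sites of
finitely many nested levels. -/
theorem multi (hS : ∀ n, MeasurePreserving (S n) μ μ)
    (hadd : ∀ a b x, S (a + b) x = S a (S b x))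
    (hS0 : ∀ x, S 0 x = x) (hX : mX ≤ mΩ) (hL : mL ≤ mΩ) (hSX : ∀ n, Measurable[mX, mX] (S n))
    (hSL : ∀ n, Measurable[mL, mL] (S n)) (hind : Indep mX mL μ) (U : Ultrafilter κ) :
    ∀ (n : ℕ) (L : Fin n → Lev μ S mX (U : Filter κ))
    (h : Ω → ℝ), Measurable[mX] h → (∀ x, |h x| ≤ 1) → (∫ x, h x ∂μ = 0) →
    ∀ (f : Ω → ℝ), Measurable[mL] f → (∀ x, |f x| ≤ 1) →
    Tendsto (fun k : Fin n → κ => ∫ x, h x * f x * ∏ j, (L j).P (k j) x ∂μ)
      (IU U n : Filter (Fin n → κ)) (𝓝 0) := by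
  intro n
  induction n with
  | zero =>
    intro L h hh hh1 hh0 f hf hf1
    have : (fun k : Fin 0 → κ => ∫ x, h x * f x * ∏ j, (L j).P (k j) x ∂μ) = fun _ => 0 := by
      funext k
      simp only [Finset.univ_eq_empty, Finset.prod_empty, mul_one]
      rw [integral_indep_mul hX hL hind h f hh hf, hh0, zero_mul]
    rw [this]
    exact tendsto_const_nhds
  | succ n ih =>
    intro L h hh hh1 hh0 f hf hf1
    set b : (Fin n → κ) → Ω → ℝ := fun m x => f x * ∏ j : Fin n, (L j.succ).P (m j) x with hb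
    have hbm : ∀ m, Measurable (b m) := fun m =>
      (hf.mono hL le_rfl).mul (Finset.measurable_prod _ (fun j _ => Lev.P_meas hS _ _))
    have hb1 : ∀ m x, |b m x| ≤ 1 := by
      intro m x
      simp only [hb]
      rw [abs_mul]
      exact mul_le_one₀ (hf1 x) (abs_nonneg _) (Tr.abs_prod_le_one _ _ (fun j _ => Lev.P_bd _ _ _))
    have hAI : Tr.AsInd μ S mX (IU U n : Filter (Fin n → κ)) b := by
      intro τ A t h' hh' hh'1 hh'0
      have h2 := ih (fun j => (L j.succ).shift hS A t) h' hh' hh'1 hh'0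
        (fun x => ∏ σ ∈ A, f (S (t σ) x))
        (@Finset.measurable_prod _ _ _ _ _ _ mL _ _ (fun σ _ => hf.comp (hSL _)))
        (fun x => Tr.abs_prod_le_one _ _ (fun σ _ => hf1 _))
      refine h2.congr ?_
      intro m
      refine integral_congr_ae (Eventually.of_forall fun x => ?_)
      simp only [hb]
      rw [Finset.prod_mul_distrib, mul_assoc]
      congr 2
      rw [Finset.prod_comm]
      refine Finset.prod_congr rfl (fun j _ => ?_)
      exact Lev.shift_P hS hadd _ _ _ _ _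
    have h1 := Tr.transfer_gen (μ := μ) hS hadd hS0 hX hSX (L 0).mix (IU U n) b hbm hb1 hAI
      h hh hh1 hh0 (L 0).G (L 0).meas (L 0).bd
    rw [Metric.tendsto_nhds] at h1 ⊢
    intro ε hε
    have h2 := h1 ε hε
    rw [Filter.eventually_curry_iff] at h2
    rw [IU_succ_iff]
    filter_upwards [h2] with a ha
    filter_upwards [ha] with k hk
    refine lt_of_eq_of_lt ?_ hk
    congr 1
    refine integral_congr_ae (Eventually.of_forall fun x => ?_)
    simp only [hb]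
    rw [Fin.prod_univ_succ]
    simp only [Fin.cons_zero, Fin.cons_succ]
    show h x * f x * ((L 0).P a x * ∏ j : Fin n, (L j.succ).P (k j) x) = _
    unfold Lev.P
    ring

/-- `V` is the weak limit of the level `L`. -/
def IsWeakLim {U : Filter κ} (L : Lev μ S mX U) (V : Ω → ℝ) : Prop :=
  ∀ g : Ω → ℝ, Measurable g → (∀ x, |g x| ≤ 1) →
    Tendsto (fun k => ∫ x, g x * L.P k x ∂μ) U (𝓝 (∫ x, g x * V x ∂μ))

theorem multi_weak (hS : ∀ n, MeasurePreserving (S n) μ μ) (U : Ultrafilter κ) :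
    ∀ (n : ℕ) (L : Fin n → Lev μ S mX (U : Filter κ)) (V : Fin n → Ω → ℝ),
    (∀ j, Measurable (V j)) → (∀ j x, |V j x| ≤ 1) → (∀ j, IsWeakLim (L j) (V j)) →
    ∀ (g : Ω → ℝ), Measurable g → (∀ x, |g x| ≤ 1) →
    Tendsto (fun k : Fin n → κ => ∫ x, g x * ∏ j, (L j).P (k j) x ∂μ)
      (IU U n : Filter (Fin n → κ)) (𝓝 (∫ x, g x * ∏ j, V j x ∂μ)) := by
  intro n
  induction n with
  | zero =>
    intro L V hV hV1 hW g hg hg1
    have : (fun k : Fin 0 → κ => ∫ x, g x * ∏ j, (L j).P (k j) x ∂μ) =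
        fun _ => ∫ x, g x * ∏ j, V j x ∂μ := by
      funext k; simp
    rw [this]; exact tendsto_const_nhds
  | succ n ih =>
    intro L V hV hV1 hW g hg hg1
    have h0 := hW 0 (fun x => g x * ∏ j : Fin n, V j.succ x)
      (hg.mul (Finset.measurable_prod _ (fun j _ => hV _)))
      (fun x => by
        rw [abs_mul]
        exact mul_le_one₀ (hg1 x) (abs_nonneg _) (Tr.abs_prod_le_one _ _ (fun j _ => hV1 _ _)))
    have e0 : ∫ x, g x * (∏ j : Fin n, V j.succ x) * V 0 x ∂μ = ∫ x, g x * ∏ j, V j x ∂μ := by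
      refine integral_congr_ae (Eventually.of_forall fun x => ?_)
      simp only
      rw [Fin.prod_univ_succ]; ring
    rw [e0] at h0
    rw [Metric.tendsto_nhds] at h0 ⊢
    intro ε hε
    rw [IU_succ_iff]
    filter_upwards [h0 (ε / 2) (half_pos hε)] with a ha
    have h1 := ih (fun j => L j.succ) (fun j => V j.succ) (fun j => hV _) (fun j => hV1 _)
      (fun j => hW _) (fun x => g x * (L 0).P a x) (hg.mul (Lev.P_meas hS _ _))
      (fun x => by
        rw [abs_mul]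
        exact mul_le_one₀ (hg1 x) (abs_nonneg _) (Lev.P_bd _ _ _))
    rw [Metric.tendsto_nhds] at h1
    filter_upwards [h1 (ε / 2) (half_pos hε)] with k hk
    have e1 : ∫ x, g x * ∏ j, (L j).P ((Fin.cons a k : Fin (n + 1) → κ) j) x ∂μ =
        ∫ x, g x * (L 0).P a x * ∏ j : Fin n, (L j.succ).P (k j) x ∂μ := by
      refine integral_congr_ae (Eventually.of_forall fun x => ?_)
      simp only
      rw [Fin.prod_univ_succ]
      simp only [Fin.cons_zero, Fin.cons_succ]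
      ring
    have e2 : ∫ x, g x * (L 0).P a x * ∏ j : Fin n, V j.succ x ∂μ =
        ∫ x, g x * (∏ j : Fin n, V j.succ x) * (L 0).P a x ∂μ := by
      refine integral_congr_ae (Eventually.of_forall fun x => ?_)
      simp only; ring
    rw [e1]
    rw [e2] at hk
    calc _ ≤ _ := dist_triangle _ (∫ x, g x * (∏ j : Fin n, V j.succ x) * (L 0).P a x ∂μ) _
      _ < ε / 2 + ε / 2 := add_lt_add hk ha
      _ = ε := by ring

/-- **CLAIM B** (functional form). -/
theorem claimB (hS : ∀ n, MeasurePreserving (S n) μ μ)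
    (hadd : ∀ a b x, S (a + b) x = S a (S b x))
    (hS0 : ∀ x, S 0 x = x) (hX : mX ≤ mΩ) (hL : mL ≤ mΩ) (hSX : ∀ n, Measurable[mX, mX] (S n))
    (hSL : ∀ n, Measurable[mL, mL] (S n)) (hind : Indep mX mL μ) (U : Ultrafilter κ)
    (n : ℕ) (L : Fin n → Lev μ S mX (U : Filter κ)) (V : Fin n → Ω → ℝ)
    (hV : ∀ j, Measurable (V j)) (hV1 : ∀ j x, |V j x| ≤ 1) (hW : ∀ j, IsWeakLim (L j) (V j))
    (h : Ω → ℝ) (hh : Measurable[mX] h) (hh1 : ∀ x, |h x| ≤ 1) (hh0 : ∫ x, h x ∂μ = 0)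
    (f : Ω → ℝ) (hf : Measurable[mL] f) (hf1 : ∀ x, |f x| ≤ 1) :
    ∫ x, h x * f x * ∏ j, V j x ∂μ = 0 := by
  have h1 := multi (μ := μ) hS hadd hS0 hX hL hSX hSL hind U n L h hh hh1 hh0 f hf hf1
  have h2 := multi_weak (μ := μ) hS U n L V hV hV1 hW (fun x => h x * f x)
    ((hh.mono hX le_rfl).mul (hf.mono hL le_rfl))
    (fun x => by
      rw [abs_mul]; exact mul_le_one₀ (hh1 x) (abs_nonneg _) (hf1 x))
  exact tendsto_nhds_unique h2 h1

end Crest.Agent.R069
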