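import Crest.Agent.R069.SitePair

/-!
# Row 69, node CLOSED

If pushes are possible for every extension (`hpush`: PUSH) and the base sites are independent of the
other full sites and the environment (`hind`: SITE), then a visible set placed at a site `r0` is
measurable with respect to the visible sets at the other sites, the environment and null sets.
-/

set_option autoImplicit false
set_option linter.unusedVariables false

open MeasureTheory Filter Set ProbabilityTheory
open scoped ENNReal Topology

namespace Crest.Agent.R069.Cl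

section closed

variable {X : Sys} {ι : Type} (s : ι → ℕ → ℤ) (P : Pair X)
  [StandardBorelSpace P.Ω] [Nonempty P.Ω]

/-- visible site. -/
@[reducible] noncomputable def visS (j : ι) : MeasurableSpace (Lb P.Ω) :=
  (visE s P).comap (ptS P.toSys (s j))

theorem visS_le (j : ι) : visS s P j ≤ fullS P.toSys (s j) :=
  MeasurableSpace.comap_mono (visE_le s P)

/-- the environment of the Loeb space -/
@[reducible] noncomputable def envL (P : Pair X) : MeasurableSpace (Lb P.Ω) :=
  LL P.C ⊔ nulL P.toSys

omit [StandardBorelSpace P.Ω] [Nonempty P.Ω] in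
theorem envL_le : envL P ≤ LL P.ms := sup_le (LL_mono P.C_le) (nulL_le P.toSys)

/-- visible sites in `T`, full sites outside `T ∪ U`, environment. -/
@[reducible] noncomputable def mixD (T U : Finset ι) : MeasurableSpace (Lb P.Ω) :=
  (⨆ j ∈ T, visS s P j) ⊔ (⨆ j ∈ U, fullS P.toSys (s j)) ⊔ envL P

theorem mixD_le (T U : Finset ι) : mixD s P T U ≤ LL P.ms :=
  sup_le (sup_le (iSup₂_le fun j _ => (visS_le s P j).trans (fullS_le _ _))
    (iSup₂_le fun j _ => fullS_le _ _)) (envL_le P)

theorem nul_le_mixD (T U : Finset ι) : nulL P.toSys ≤ mixD s P T U :=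
  le_sup_right.trans le_sup_right

theorem LLC_le_mixD (T U : Finset ι) : LL P.C ≤ mixD s P T U :=
  le_sup_left.trans le_sup_right

theorem mixD_inv (T U : Finset ι) (n : ℤ) :
    Measurable[mixD s P T U, mixD s P T U] (lbmap (fun _ : ℕ => P.S n)) := by
  rw [measurable_iff_comap_le]
  have h0 := nul_le_mixD s P T U
  conv_lhs => unfold mixD
  simp only [MeasurableSpace.comap_sup, MeasurableSpace.comap_iSup]
  refine sup_le (sup_le ?_ ?_) (sup_le ?_ ?_)
  · refine iSup₂_le fun j hj => ?_
    refine (comap_site_le P.toSys (visE_le s P) (visE_S s P) (s j) n).trans (sup_le ?_ h0)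
    exact (le_iSup₂_of_le (f := fun j (_ : j ∈ T) => visS s P j) j hj le_rfl).trans
      (le_sup_left.trans le_sup_left)
  · refine iSup₂_le fun j hj => ?_
    refine (comap_site_le P.toSys le_rfl (fun n => (P.S_mp n).measurable) (s j) n).trans
      (sup_le ?_ h0)
    exact (le_iSup₂_of_le (f := fun j (_ : j ∈ U) => fullS P.toSys (s j)) j hj le_rfl).trans
      (le_sup_right.trans le_sup_left)
  · rw [comap_lbmap_LL]
    exact (LL_mono (measurable_iff_comap_le.1 (P.C_S n))).trans (LLC_le_mixD s P T U)
  · exact (comap_nul_le (measurePreserving_lbmap (fun _ => P.S_mp n))).trans h0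

variable [Fintype ι] [DecidableEq ι]

/-- a visible set at the site `r0` is measurable with respect to the other full sites and the
environment. -/
theorem closed_start (r0 : ι) {A : Set P.Ω} (hA : MeasurableSet[visE s P] A) :
    MeasurableSet[mixD s P ∅ (Finset.univ.erase r0)] (ptS P.toSys (s r0) ⁻¹' A) := by
  refine measurableSet_of_ae_eq (mixD_le s P _ _) (nul_le_mixD s P _ _)
    (measurable_ptS P.toSys (s r0) hA.1) ?_ (ptS_preimage_ae P.toSys (s r0) hA.1)
  have hle : rest s r0 P ≤ mixD s P ∅ (Finset.univ.erase r0) := by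
    unfold rest
    refine sup_le (sup_le ?_ (LLC_le_mixD s P _ _)) (nul_le_mixD s P _ _)
    refine iSup₂_le fun j hj => ?_
    refine (siteA_le_fullS P.toSys (s j)).trans (sup_le ?_ (nul_le_mixD s P _ _))
    exact (le_iSup₂_of_le (f := fun j (_ : j ∈ Finset.univ.erase r0) => fullS P.toSys (s j)) j
      (Finset.mem_erase.2 ⟨hj, Finset.mem_univ j⟩) le_rfl).trans (le_sup_right.trans le_sup_left)
  exact hle _ (hA.2 r0)

/-- **CLOSED**. -/
theorem closed
    (hpush : ∀ (Q : Pair X) (e : Ext P Q) (G : Set Q.Ω), MeasurableSet[P.ms.comap e.f ⊔ Q.C] G →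
      MeasurableSet[visE s Q] G → MeasurableSet[(visE s P).comap e.f ⊔ Q.C] G)
    (hind : ∀ r0 j, j ≠ r0 → Indep (X.ms.comap (piS P (s j)))
      (mixD s P ∅ ((Finset.univ.erase r0).erase j)) (lb P.μ))
    (r0 : ι) {A : Set P.Ω} (hA : MeasurableSet[visE s P] A) :
    MeasurableSet[(⨆ j, ⨆ _ : j ≠ r0, visS s P j) ⊔ LL P.C ⊔ nulL P.toSys]
      (ptS P.toSys (s r0) ⁻¹' A) := by
  -- induction on the set of treated sites
  have key : ∀ T : Finset ι, T ⊆ Finset.univ.erase r0 →
      MeasurableSet[mixD s P T ((Finset.univ.erase r0) \ T)] (ptS P.toSys (s r0) ⁻¹' A) := by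
    intro T
    induction T using Finset.induction_on with
    | empty =>
      intro _
      rw [Finset.sdiff_empty]
      exact closed_start s P r0 hA
    | insert a T ha ih =>
      intro hT
      have hT' : T ⊆ Finset.univ.erase r0 := (Finset.subset_insert a T).trans hT
      have ih' := ih hT'
      have har : a ≠ r0 := (Finset.mem_erase.1 (hT (Finset.mem_insert_self a T))).1
      set U : Finset ι := (Finset.univ.erase r0) \ insert a T with hU
      have hD := mixD_le s P T U
      have hnul := nul_le_mixD s P T U
      have hLL := LLC_le_mixD s P T U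
      have hinv := mixD_inv s P T U
      have hindep : Indep (X.ms.comap (piS P (s a))) (mixD s P T U) (lb P.μ) := by
        refine indep_of_indep_of_le_right (hind r0 a har) ?_
        refine sup_le (sup_le ?_ ?_) le_sup_right
        · refine iSup₂_le fun j hj => (visS_le s P j).trans ?_
          have hja : j ≠ a := fun h => ha (h ▸ hj)
          have hjr : j ≠ r0 := (Finset.mem_erase.1 (hT' hj)).1
          exact (le_iSup₂_of_le (f := fun j (_ : j ∈ (Finset.univ.erase r0).erase a) =>
            fullS P.toSys (s j)) j (Finset.mem_erase.2 ⟨hja, Finset.mem_erase.2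
              ⟨hjr, Finset.mem_univ j⟩⟩) le_rfl).trans (le_sup_right.trans le_sup_left)
        · refine iSup₂_le fun j hj => ?_
          rw [hU, Finset.mem_sdiff, Finset.mem_insert, not_or] at hj
          exact (le_iSup₂_of_le (f := fun j (_ : j ∈ (Finset.univ.erase r0).erase a) =>
            fullS P.toSys (s j)) j (Finset.mem_erase.2 ⟨hj.2.1, hj.1⟩) le_rfl).trans
              (le_sup_right.trans le_sup_left)
      let Q : Pair X := sitePair P (s a) (mixD s P T U) hD hnul hinv hindep
      let e : Ext P Q := sitePairExt P (s a) (mixD s P T U) hD hnul hinv hindep hLL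
      have h1 : MeasurableSet[P.ms.comap e.f ⊔ Q.C] (ptS P.toSys (s r0) ⁻¹' A) := by
        have hle : mixD s P T ((Finset.univ.erase r0) \ T) ≤
            fullS P.toSys (s a) ⊔ mixD s P T U := by
          refine sup_le (sup_le ?_ ?_) (le_sup_right.trans le_sup_right)
          · exact le_sup_left.trans (le_sup_left.trans le_sup_right)
          · refine iSup₂_le fun j hj => ?_
            by_cases hja : j = a
            · subst hja; exact le_sup_left
            · have hj' : j ∈ U := by
                rw [hU, Finset.mem_sdiff, Finset.mem_insert, not_or]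
                exact ⟨(Finset.mem_sdiff.1 hj).1, hja, (Finset.mem_sdiff.1 hj).2⟩
              exact (le_iSup₂_of_le (f := fun j (_ : j ∈ U) => fullS P.toSys (s j)) j hj'
                le_rfl).trans ((le_sup_right.trans le_sup_left).trans le_sup_right)
        exact hle _ ih'
      have h2 : MeasurableSet[visE s Q] (ptS P.toSys (s r0) ⁻¹' A) := by
        have hle : (visE s P).comap (ptS P.toSys (s r0)) ≤ visE s Q :=
          visE_comap_le (P := P) (Q := Q) (f := ptS P.toSys (s r0)) (mp_ptS P.toSys (s r0))
            (fun n => ptS_equivariant P.toSys (s r0) n) (comap_C_le P (s r0) hD hnul hLL)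
        exact hle _ ⟨A, hA, rfl⟩
      have h3 := hpush Q e _ h1 h2
      have hle : (visE s P).comap e.f ⊔ Q.C ≤ mixD s P (insert a T) U := by
        refine sup_le ?_ ?_
        · exact (le_iSup₂_of_le (f := fun j (_ : j ∈ insert a T) => visS s P j) a
            (Finset.mem_insert_self a T) le_rfl).trans (le_sup_left.trans le_sup_left)
        · refine sup_le (sup_le ?_ (le_sup_right.trans le_sup_left)) le_sup_right
          refine iSup₂_le fun j hj => ?_
          exact (le_iSup₂_of_le (f := fun j (_ : j ∈ insert a T) => visS s P j) j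
            (Finset.mem_insert_of_mem hj) le_rfl).trans (le_sup_left.trans le_sup_left)
      exact hle _ h3
  have h := key (Finset.univ.erase r0) (Finset.Subset.refl _)
  have hle : mixD s P (Finset.univ.erase r0) ((Finset.univ.erase r0) \ (Finset.univ.erase r0)) ≤
      (⨆ j, ⨆ _ : j ≠ r0, visS s P j) ⊔ LL P.C ⊔ nulL P.toSys := by
    rw [sup_assoc]
    refine sup_le (sup_le ?_ ?_) le_sup_right
    · refine iSup₂_le fun j hj => ?_
      exact (le_iSup₂_of_le (f := fun j (_ : j ≠ r0) => visS s P j) j
        (Finset.mem_erase.1 hj).1 le_rfl).trans le_sup_left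
    · refine iSup₂_le fun j hj => ?_
      rw [Finset.sdiff_self] at hj
      exact absurd hj (Finset.notMem_empty j)
  exact hle _ h

end closed

end Crest.Agent.R069.Cl
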