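import Crest.Agent.R069.Closed
import Crest.Agent.R069.Iface
import Crest.Agent.R069.LoebCE

/-!
# Row 69, node CLOSED: the independence input `hind` from `N_IND`
-/

set_option autoImplicit false

open MeasureTheory Filter Set ProbabilityTheory
open scoped ENNReal Topology

namespace Crest.Agent.R069.ClosedHind

section pi

variable {X : Sys} (P : Pair X)

theorem condExp_pi {h : X.Ω → ℝ} (hh : Bd X.ms h) (n : ℤ) :
    P.μ[fun x => h (P.π (P.S n x)) | P.C] =ᵐ[P.μ] fun _ => ∫ y, h y ∂X.μ := by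
  have e1 : (fun x => h (P.π (P.S n x))) =ᵐ[P.μ] fun x => h (X.S n (P.π x)) :=
    (P.π_S n).mono fun x hx => congrArg h hx
  have hm : Measurable fun y => h (X.S n y) := hh.1.comp (X.S_mp n).measurable
  have h1 : X.ms.comap P.π ≤ P.ms := P.π_mp.measurable.comap_le
  have hm2 : Measurable[X.ms.comap P.π] fun x => h (X.S n (P.π x)) :=
    hm.comp (comap_measurable P.π)
  have e2 : P.μ[fun x => h (X.S n (P.π x)) | P.C] =ᵐ[P.μ]
      fun _ => ∫ x, h (X.S n (P.π x)) ∂P.μ :=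
    condExp_indep_eq h1 P.C_le hm2.stronglyMeasurable P.indep
  have e3 : ∫ x, h (X.S n (P.π x)) ∂P.μ = ∫ y, h y ∂X.μ := by
    have a1 := integral_comp_mp (μ := X.μ) (μ' := P.μ) P.π_mp (F := fun y => h (X.S n y))
      hm.aestronglyMeasurable
    have a2 := integral_comp_mp (μ := X.μ) (μ' := X.μ) (X.S_mp n) (F := h)
      hh.1.aestronglyMeasurable
    exact a1.trans a2
  rw [e3] at e2
  exact (condExp_congr_ae e1).trans e2

theorem condExp_sitef_pi (t : ℕ → ℤ) {h : X.Ω → ℝ} (hh : Bd X.ms h) :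
    (lb P.μ)[sitef P.toSys t (h ∘ P.π) | LL P.C] =ᵐ[lb P.μ] fun _ => ∫ y, h y ∂X.μ := by
  obtain ⟨hm, K, hK⟩ := hh
  have h1 : BM P.ms (fun (k : ℕ) x => (h ∘ P.π) (P.S (t k) x)) K :=
    ⟨fun k => (hm.comp P.π_mp.measurable).comp (P.S_mp (t k)).measurable, fun k x => hK _⟩
  have h2 : BM P.C (fun (_ : ℕ) (_ : P.Ω) => ∫ y, h y ∂X.μ) |∫ y, h y ∂X.μ| :=
    ⟨fun k => measurable_const, fun k x => le_rfl⟩
  have h3 := condExp_st (μ := P.μ) P.C_le h1 h2
    (fun k => (condExp_pi P ⟨hm, K, hK⟩ (t k)).symm)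
  rw [st_const] at h3
  exact h3

end pi

section main

variable {X : Sys} (P : Pair X) [StandardBorelSpace P.Ω] [Nonempty P.Ω]
variable {ι : Type} (s : ι → ℕ → ℤ)

theorem Bd.sitef_bd {M : Sys} {f : M.Ω → ℝ} (hf : Bd M.ms f) (t : ℕ → ℤ) :
    Bd (LL M.ms) (sitef M t f) := by
  obtain ⟨hm, K, hK⟩ := hf
  have h1 : BM M.ms (fun (k : ℕ) x => f (M.S (t k) x)) K :=
    ⟨fun k => hm.comp (M.S_mp (t k)).measurable, fun k x => hK _⟩
  exact ⟨h1.meas_st, K, h1.st_le⟩

/-- products over sites against an environment set -/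
theorem setIntegral_prod {J : Finset ι} (hC : CInd s J P) {F : ι → P.Ω → ℝ}
    (hF : ∀ i, Bd P.ms (F i)) {C' : Set (Lb P.Ω)} (hC' : MeasurableSet[LL P.C] C') :
    ∫ x in C', ∏ i ∈ J, F i (Cl.ptS P.toSys (s i) x) ∂(lb P.μ) =
      ∫ x in C', ∏ i ∈ J, ((lb P.μ)[sitef P.toSys (s i) (F i) | LL P.C]) x ∂(lb P.μ) := by
  have hle : LL P.C ≤ LL P.ms := LL_mono P.C_le
  have e1 : ∀ᵐ x ∂(lb P.μ), ∀ i ∈ J, F i (Cl.ptS P.toSys (s i) x) =
      sitef P.toSys (s i) (F i) x := by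
    rw [Finset.eventually_all]
    intro i _
    exact comp_sv_ae_eq_st (fun k => P.S_mp (s i k)) (hF i).1
  have e2 : ∫ x in C', ∏ i ∈ J, F i (Cl.ptS P.toSys (s i) x) ∂(lb P.μ) =
      ∫ x in C', ∏ i ∈ J, sitef P.toSys (s i) (F i) x ∂(lb P.μ) := by
    refine integral_congr_ae (ae_restrict_of_ae ?_)
    filter_upwards [e1] with x hx
    exact Finset.prod_congr rfl hx
  have hbd : Bd (LL P.ms) (fun x => ∏ i ∈ J, sitef P.toSys (s i) (F i) x) := by
    choose hm K hK using fun i => Bd.sitef_bd (hF i) (s i)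
    refine ⟨Finset.measurable_prod _ fun i _ => hm i, ∏ i ∈ J, K i, fun x => ?_⟩
    rw [Finset.abs_prod]
    exact Finset.prod_le_prod (fun i _ => abs_nonneg _) (fun i _ => hK i x)
  obtain ⟨hbm, K, hK⟩ := hbd
  have hint : Integrable (fun x => ∏ i ∈ J, sitef P.toSys (s i) (F i) x) (lb P.μ) :=
    integrable_of_bdd hbm hK
  rw [e2, ← setIntegral_condExp hle hint hC']
  exact integral_congr_ae (ae_restrict_of_ae (hC F hF))

/-- the key identity -/
theorem key [DecidableEq ι] {U : Finset ι} {j : ι} (hj : j ∉ U) (hC : CInd s (insert j U) P)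
    {h : X.Ω → ℝ} (hh : Bd X.ms h)
    {F : ι → P.Ω → ℝ} (hF : ∀ i, Bd P.ms (F i)) {C' : Set (Lb P.Ω)}
    (hC' : MeasurableSet[LL P.C] C') :
    ∫ x in C', h (Cl.piS P (s j) x) * ∏ i ∈ U, F i (Cl.ptS P.toSys (s i) x) ∂(lb P.μ) =
      (∫ y, h y ∂X.μ) * ∫ x in C', ∏ i ∈ U, F i (Cl.ptS P.toSys (s i) x) ∂(lb P.μ) := by
  have main : ∀ h : X.Ω → ℝ, Bd X.ms h →
      ∫ x in C', h (Cl.piS P (s j) x) * ∏ i ∈ U, F i (Cl.ptS P.toSys (s i) x) ∂(lb P.μ) =
      (∫ y, h y ∂X.μ) * ∫ x in C',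
        ∏ i ∈ U, ((lb P.μ)[sitef P.toSys (s i) (F i) | LL P.C]) x ∂(lb P.μ) := by
    intro h hh
    set F' : ι → P.Ω → ℝ := fun i => if i = j then h ∘ P.π else F i with hF'
    have hF'j : F' j = h ∘ P.π := by simp [hF']
    have hF'i : ∀ i ∈ U, F' i = F i := by
      intro i hi
      have : i ≠ j := fun e => hj (e ▸ hi)
      simp [hF', this]
    have hbd : ∀ i, Bd P.ms (F' i) := by
      intro i
      by_cases e : i = j
      · subst e
        rw [hF'j]
        exact ⟨hh.1.comp P.π_mp.measurable, hh.2.choose, fun x => hh.2.choose_spec _⟩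
      · have : F' i = F i := by simp [hF', e]
        rw [this]
        exact hF i
    have h1 := setIntegral_prod P s hC hbd hC'
    have h2 : ∫ x in C', ∏ i ∈ insert j U, F' i (Cl.ptS P.toSys (s i) x) ∂(lb P.μ) =
        ∫ x in C', h (Cl.piS P (s j) x) * ∏ i ∈ U, F i (Cl.ptS P.toSys (s i) x) ∂(lb P.μ) := by
      refine integral_congr_ae (Eventually.of_forall fun x => ?_)
      show ∏ i ∈ insert j U, F' i (Cl.ptS P.toSys (s i) x) = _
      rw [Finset.prod_insert hj, hF'j]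
      congr 1
      exact Finset.prod_congr rfl fun i hi => by rw [hF'i i hi]
    have h3 : ∫ x in C', ∏ i ∈ insert j U,
          ((lb P.μ)[sitef P.toSys (s i) (F' i) | LL P.C]) x ∂(lb P.μ) =
        ∫ x in C', (∫ y, h y ∂X.μ) *
          ∏ i ∈ U, ((lb P.μ)[sitef P.toSys (s i) (F i) | LL P.C]) x ∂(lb P.μ) := by
      refine integral_congr_ae (ae_restrict_of_ae ?_)
      filter_upwards [condExp_sitef_pi P (s j) hh] with x hx
      rw [Finset.prod_insert hj, hF'j, hx]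
      congr 1
      exact Finset.prod_congr rfl fun i hi => by rw [hF'i i hi]
    rw [← h2, h1, h3, integral_const_mul]
  have hone := main (fun _ => 1) ⟨measurable_const, 1, fun _ => by simp⟩
  simp only [one_mul, integral_const, probReal_univ, smul_eq_mul, mul_one] at hone
  rw [main h hh, hone]

/-- the pi-system of the sites in `U` and the environment -/
def RR (U : Finset ι) : Set (Set (Lb P.Ω)) :=
  {B | ∃ (A : ι → Set P.Ω) (C' : Set (Lb P.Ω)), (∀ i, MeasurableSet (A i)) ∧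
    MeasurableSet[LL P.C] C' ∧ B = (⋂ i ∈ U, Cl.ptS P.toSys (s i) ⁻¹' A i) ∩ C'}

theorem isPiSystem_RR (U : Finset ι) : IsPiSystem (RR P s U) := by
  rintro _ ⟨A, C₁, hA, hC₁, rfl⟩ _ ⟨A', C₂, hA', hC₂, rfl⟩ _
  refine ⟨fun i => A i ∩ A' i, C₁ ∩ C₂, fun i => (hA i).inter (hA' i),
    MeasurableSet.inter hC₁ hC₂, ?_⟩
  ext x
  simp only [mem_inter_iff, mem_iInter, mem_preimage]
  constructor
  · rintro ⟨⟨h1, h2⟩, h3, h4⟩
    exact ⟨fun i hi => ⟨h1 i hi, h3 i hi⟩, h2, h4⟩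
  · rintro ⟨h1, h2, h4⟩
    exact ⟨⟨fun i hi => (h1 i hi).1, h2⟩, fun i hi => (h1 i hi).2, h4⟩

theorem generateFrom_RR (U : Finset ι) :
    (⨆ i ∈ U, Cl.fullS P.toSys (s i)) ⊔ LL P.C = MeasurableSpace.generateFrom (RR P s U) := by
  classical
  apply le_antisymm
  · refine sup_le (iSup₂_le fun i hi => ?_) ?_
    · rintro _ ⟨A, hA, rfl⟩
      refine MeasurableSpace.measurableSet_generateFrom
        ⟨fun k => if k = i then A else univ, univ, fun k => ?_, @MeasurableSet.univ _ (LL P.C), ?_⟩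
      · by_cases e : k = i
        · simp only [e, if_true]; exact hA
        · simp only [e, if_false]; exact MeasurableSet.univ
      · ext x
        simp only [inter_univ, mem_iInter, mem_preimage]
        constructor
        · intro hx k hk
          by_cases e : k = i
          · subst e; simpa using hx
          · simp [e]
        · intro hx
          simpa using hx i hi
    · intro C' hC'
      refine MeasurableSpace.measurableSet_generateFrom
        ⟨fun _ => univ, C', fun k => MeasurableSet.univ, hC', ?_⟩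
      simp
  · refine MeasurableSpace.generateFrom_le ?_
    rintro _ ⟨A, C', hA, hC', rfl⟩
    refine MeasurableSet.inter ?_ ((le_sup_right : LL P.C ≤ _) _ hC')
    refine Finset.measurableSet_biInter _ fun i hi => ?_
    have h1 : Cl.fullS P.toSys (s i) ≤ (⨆ i ∈ U, Cl.fullS P.toSys (s i)) ⊔ LL P.C :=
      (le_iSup₂_of_le (f := fun i (_ : i ∈ U) => Cl.fullS P.toSys (s i)) i hi le_rfl).trans
        le_sup_left
    exact h1 _ ⟨A i, hA i, rfl⟩

theorem indep_sites [DecidableEq ι] {U : Finset ι} {j : ι} (hj : j ∉ U)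
    (hC : CInd s (insert j U) P) :
    Indep (X.ms.comap (Cl.piS P (s j))) ((⨆ i ∈ U, Cl.fullS P.toSys (s i)) ⊔ LL P.C)
      (lb P.μ) := by
  have hle1 : X.ms.comap (Cl.piS P (s j)) ≤ LL P.ms := (Cl.mp_piS P (s j)).measurable.comap_le
  have hle2 : (⨆ i ∈ U, Cl.fullS P.toSys (s i)) ⊔ LL P.C ≤ LL P.ms :=
    sup_le (iSup₂_le fun i _ => Cl.fullS_le _ _) (LL_mono P.C_le)
  refine IndepSets.indep hle1 hle2 (@MeasurableSpace.isPiSystem_measurableSet _
    (X.ms.comap (Cl.piS P (s j)))) (isPiSystem_RR P s U)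
    (@MeasurableSpace.generateFrom_measurableSet _ (X.ms.comap (Cl.piS P (s j)))).symm
    (generateFrom_RR P s U) ?_
  rw [IndepSets_iff]
  rintro _ _ ⟨B, hB, rfl⟩ ⟨A, C', hA, hC', rfl⟩
  have hh : Bd X.ms (B.indicator (fun _ => (1 : ℝ))) :=
    ⟨measurable_const.indicator hB, 1, fun x => by by_cases hx : x ∈ B <;> simp [hx]⟩
  have hF : ∀ i, Bd P.ms ((A i).indicator (fun _ => (1 : ℝ))) := fun i =>
    ⟨measurable_const.indicator (hA i), 1, fun x => by by_cases hx : x ∈ A i <;> simp [hx]⟩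
  have hkey := key P s hj hC hh hF hC'
  have hC'm : MeasurableSet C' := LL_mono P.C_le _ hC'
  have hAm : MeasurableSet (⋂ i ∈ U, Cl.ptS P.toSys (s i) ⁻¹' A i) :=
    Finset.measurableSet_biInter _ fun i _ => Cl.measurable_ptS P.toSys (s i) (hA i)
  have hBm : MeasurableSet (Cl.piS P (s j) ⁻¹' B) := (Cl.mp_piS P (s j)).measurable hB
  have hprod : ∀ x, ∏ i ∈ U, (A i).indicator (fun _ => (1 : ℝ)) (Cl.ptS P.toSys (s i) x) =
      (⋂ i ∈ U, Cl.ptS P.toSys (s i) ⁻¹' A i).indicator (fun _ => (1 : ℝ)) x := by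
    intro x
    by_cases hx : x ∈ ⋂ i ∈ U, Cl.ptS P.toSys (s i) ⁻¹' A i
    · rw [indicator_of_mem hx]
      refine Finset.prod_eq_one fun i hi => ?_
      have : Cl.ptS P.toSys (s i) x ∈ A i := by
        simp only [mem_iInter, mem_preimage] at hx
        exact hx i hi
      rw [indicator_of_mem this]
    · rw [indicator_of_notMem hx]
      simp only [mem_iInter, mem_preimage, not_forall] at hx
      obtain ⟨i, hi, hx⟩ := hx
      exact Finset.prod_eq_zero hi (by rw [indicator_of_notMem hx])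
  have hB1 : ∀ x, B.indicator (fun _ => (1 : ℝ)) (Cl.piS P (s j) x) =
      (Cl.piS P (s j) ⁻¹' B).indicator (fun _ => (1 : ℝ)) x := fun x => by
    by_cases hx : Cl.piS P (s j) x ∈ B
    · rw [indicator_of_mem hx, indicator_of_mem (show x ∈ Cl.piS P (s j) ⁻¹' B from hx)]
    · rw [indicator_of_notMem hx, indicator_of_notMem (show x ∉ Cl.piS P (s j) ⁻¹' B from hx)]
  simp only [hprod, hB1] at hkey
  have e1 : ∀ x, (Cl.piS P (s j) ⁻¹' B).indicator (fun _ => (1 : ℝ)) x *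
      (⋂ i ∈ U, Cl.ptS P.toSys (s i) ⁻¹' A i).indicator (fun _ => (1 : ℝ)) x =
      ((Cl.piS P (s j) ⁻¹' B) ∩ (⋂ i ∈ U, Cl.ptS P.toSys (s i) ⁻¹' A i)).indicator
        (fun _ => (1 : ℝ)) x := fun x => by
    rw [← indicator_indicator]
    by_cases hx : x ∈ Cl.piS P (s j) ⁻¹' B <;> simp [hx]
  simp only [e1] at hkey
  rw [setIntegral_indicator (hBm.inter hAm), setIntegral_indicator hAm,
    setIntegral_const, setIntegral_const, integral_indicator hB, setIntegral_const] at hkey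
  simp only [smul_eq_mul, mul_one] at hkey
  have e2 : (lb P.μ).real (Cl.piS P (s j) ⁻¹' B) = X.μ.real B := by
    rw [Measure.real, Measure.real, (Cl.mp_piS P (s j)).measure_preimage hB.nullMeasurableSet]
  rw [← e2] at hkey
  have e3 : C' ∩ (Cl.piS P (s j) ⁻¹' B ∩ ⋂ i ∈ U, Cl.ptS P.toSys (s i) ⁻¹' A i) =
      Cl.piS P (s j) ⁻¹' B ∩ ((⋂ i ∈ U, Cl.ptS P.toSys (s i) ⁻¹' A i) ∩ C') := by
    ext x; simp only [mem_inter_iff]; tauto
  rw [e3, inter_comm C'] at hkey
  have h6 : ((lb P.μ) (Cl.piS P (s j) ⁻¹' B ∩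
      ((⋂ i ∈ U, Cl.ptS P.toSys (s i) ⁻¹' A i) ∩ C'))).toReal =
      ((lb P.μ) (Cl.piS P (s j) ⁻¹' B) *
        (lb P.μ) ((⋂ i ∈ U, Cl.ptS P.toSys (s i) ⁻¹' A i) ∩ C')).toReal := by
    rw [ENNReal.toReal_mul]; exact hkey
  exact (ENNReal.toReal_eq_toReal_iff' (measure_ne_top _ _)
    (ENNReal.mul_ne_top (measure_ne_top _ _) (measure_ne_top _ _))).1 h6

end main

end Crest.Agent.R069.ClosedHind

namespace Crest.Agent.R069

/-- the identity extension -/
def Ext.refl' {X : Sys} (P : Pair X) : Ext P P where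
  f := id
  f_mp := MeasurePreserving.id _
  f_S _ := EventuallyEq.rfl
  f_π := EventuallyEq.rfl
  f_C := by rw [MeasurableSpace.comap_id]

theorem hind_of_CInd {X : Sys} (P : Pair X) [StandardBorelSpace P.Ω] [Nonempty P.Ω]
    {ι : Type} [Fintype ι] [DecidableEq ι] (s : ι → ℕ → ℤ) (r0 j : ι) (hj : j ≠ r0)
    (hC : CInd s (Finset.univ.erase r0) P) :
    Indep (X.ms.comap (Cl.piS P (s j)))
      (Cl.mixD s P ∅ ((Finset.univ.erase r0).erase j)) (lb P.μ) := by
  have hins : insert j ((Finset.univ.erase r0).erase j) = Finset.univ.erase r0 :=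
    Finset.insert_erase (Finset.mem_erase.2 ⟨hj, Finset.mem_univ j⟩)
  have h1 := ClosedHind.indep_sites P s (U := (Finset.univ.erase r0).erase j) (j := j)
    (Finset.notMem_erase j _) (by rw [hins]; exact hC)
  have hle1 : X.ms.comap (Cl.piS P (s j)) ≤ LL P.ms := (Cl.mp_piS P (s j)).measurable.comap_le
  have hle2 : (⨆ i ∈ (Finset.univ.erase r0).erase j, Cl.fullS P.toSys (s i)) ⊔ LL P.C ≤
      LL P.ms := sup_le (iSup₂_le fun i _ => Cl.fullS_le _ _) (LL_mono P.C_le)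
  refine Indep.mono_ae hle1 hle1 hle2 (Cl.mixD_le s P _ _) (AELe.refl) ?_ h1
  refine AELe.sup (AELe.sup ?_ ?_) (AELe.sup ?_ ?_)
  · refine AELe.of_le ?_
    simp
  · exact AELe.of_le le_sup_left
  · exact AELe.of_le le_sup_right
  · rintro A ⟨hA, h | h⟩
    · exact ⟨∅, @MeasurableSet.empty _ ((⨆ i ∈ (Finset.univ.erase r0).erase j,
        Cl.fullS P.toSys (s i)) ⊔ LL P.C), ae_eq_empty.2 h⟩
    · exact ⟨univ, @MeasurableSet.univ _ ((⨆ i ∈ (Finset.univ.erase r0).erase j,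
        Cl.fullS P.toSys (s i)) ⊔ LL P.C), ae_eq_univ.2 h⟩

theorem hind_of_N_IND (hN : N_IND) {X : Sys} [StandardBorelSpace X.Ω] (P : Pair X)
    [StandardBorelSpace P.Ω] [Nonempty P.Ω] (hS1 : S1 P) {ι : Type} [Fintype ι] [DecidableEq ι]
    (s : ι → ℕ → ℤ) (hX : XIndP X s) (r0 j : ι) (hj : j ≠ r0) :
    Indep (X.ms.comap (Cl.piS P (s j)))
      (Cl.mixD s P ∅ ((Finset.univ.erase r0).erase j)) (lb P.μ) := by
  refine hind_of_CInd P s r0 j hj ?_
  intro F hF
  have hne : Finset.univ.erase r0 ≠ (Finset.univ : Finset ι) := by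
    intro e
    have := Finset.mem_univ r0
    rw [← e] at this
    exact absurd this (Finset.notMem_erase r0 _)
  exact hN X inferInstance P inferInstance hS1 ι s (Finset.univ.erase r0)
    (hX _ hne) P (Ext.refl' P) F hF

end Crest.Agent.R069
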