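import Crest.Agent.R069.Defs
import Crest.Agent.R069.Sites

/-!
# The Loeb system as an extension of a pair through a site map (row 69, N-CLOSED)

`P.ev t : Lb P.Ω → P.Ω` is the site map; `evD s m J P` is the sigma-algebra
`⨆ j ∈ J, (m j)_{s j} ⊔ LL P.C ⊔ nul` on the Loeb space.
-/

set_option autoImplicit false

open MeasureTheory Filter Set ProbabilityTheory
open scoped ENNReal Topology

namespace Crest.Agent.R069

/-! ### preliminaries on complete sigma-algebras -/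

namespace ClosedInd

section nul

variable {α β : Type*}

theorem nul_comap_le [mα : MeasurableSpace α] [mβ : MeasurableSpace β] {μ : Measure α}
    {ν : Measure β} {f : α → β} (hf : MeasurePreserving f μ ν) : (nul ν).comap f ≤ nul μ := by
  rintro _ ⟨B, hB, rfl⟩
  refine ⟨hf.measurable hB.1, ?_⟩
  rcases hB.2 with h | h
  · left
    rw [hf.measure_preimage hB.1.nullMeasurableSet, h]
  · right
    rw [← preimage_compl, hf.measure_preimage hB.1.compl.nullMeasurableSet, h]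

/-- an a.e. inclusion into a complete sigma-algebra is an inclusion -/
theorem le_of_ae_nul {m m' : MeasurableSpace α} [mα : MeasurableSpace α] {μ : Measure α}
    (hm : m ≤ mα) (hn : nul μ ≤ m) (hm' : m' ≤ mα)
    (h : ∀ A, MeasurableSet[m'] A → ∃ B, MeasurableSet[m] B ∧ A =ᵐ[μ] B) : m' ≤ m := by
  intro A hA
  obtain ⟨B, hB, hAB⟩ := h A hA
  exact measurableSet_of_ae_nul hm hn (hm' _ hA) hB hAB

end nul

theorem LL_inv {α : Type*} {C : MeasurableSpace α} {f : α → α} (hf : Measurable[C, C] f) :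
    (LL C).comap (Lb.mp f) ≤ LL C := by
  rw [LL, MeasurableSpace.comap_generateFrom]
  refine MeasurableSpace.generateFrom_le ?_
  rintro _ ⟨_, ⟨A, hA, rfl⟩, rfl⟩
  exact measurableSet_intl (fun k => hf (hA k))

end ClosedInd

open ClosedInd

/-! ### site maps -/

section ev

variable (M : Sys) [StandardBorelSpace M.Ω] [Nonempty M.Ω]

/-- the site map -/
noncomputable def Sys.ev (t : ℕ → ℤ) : Lb M.Ω → M.Ω := sv (fun k => M.S (t k))

theorem Sys.ev_mp (t : ℕ → ℤ) : MeasurePreserving (M.ev t) (lb M.μ) M.μ :=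
  measurePreserving_sv (fun k => M.S_mp (t k))

theorem Sys.measurable_ev (t : ℕ → ℤ) : Measurable (M.ev t) := (M.ev_mp t).measurable

theorem Sys.ev_preimage_ae (t : ℕ → ℤ) {A : Set M.Ω} (hA : MeasurableSet A) :
    M.ev t ⁻¹' A =ᵐ[lb M.μ] intl (fun k => M.S (t k) ⁻¹' A) :=
  sv_preimage_ae (fun k => M.S_mp (t k)) hA

theorem Sys.ev_S (t : ℕ → ℤ) (n : ℤ) :
    (fun x => M.ev t (Lb.mp (M.S n) x)) =ᵐ[lb M.μ] fun x => M.S n (M.ev t x) := by
  have h1 : ∀ x, M.ev t (Lb.mp (M.S n) x) = sv (fun k => M.S n ∘ M.S (t k)) x := by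
    intro x
    have e1 : M.ev t (Lb.mp (M.S n) x) = sv (fun k => M.S (t k) ∘ M.S n) x := rfl
    rw [e1]
    congr 1
    funext k y
    simp only [Function.comp_apply]
    rw [← M.S_add, ← M.S_add, add_comm]
  have h2 := sv_comp_ae (μ := M.μ) (fun k => M.S_mp (t k)) (M.S_mp n).measurable
  filter_upwards [h2] with x hx
  rw [h1]
  exact hx

theorem Sys.ev_sitef (t : ℕ → ℤ) {f : M.Ω → ℝ} (hf : Measurable f) :
    (fun x => f (M.ev t x)) =ᵐ[lb M.μ] sitef M t f :=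
  comp_sv_ae_eq_st (fun k => M.S_mp (t k)) hf

/-- the comap under the site map is the site sigma-algebra, mod null sets -/
theorem Sys.comap_ev_sup_nul (t : ℕ → ℤ) {m : MeasurableSpace M.Ω} (hm : m ≤ M.ms) :
    m.comap (M.ev t) ⊔ nulL M = siteM M t m ⊔ nulL M := by
  have hle : m.comap (M.ev t) ≤ LL M.ms := by
    rintro _ ⟨A, hA, rfl⟩
    exact M.measurable_ev t (hm _ hA)
  apply le_antisymm
  · refine sup_le ?_ le_sup_right
    refine le_of_ae_nul (mα := LL M.ms) (μ := M.loeb.μ) (sup_le (siteM_le M t hm) (nulL_le M))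
      le_sup_right hle ?_
    rintro _ ⟨A, hA, rfl⟩
    exact ⟨_, (le_sup_left : siteM M t m ≤ _) _
      (MeasurableSpace.measurableSet_generateFrom ⟨A, hA, rfl⟩), M.ev_preimage_ae t (hm _ hA)⟩
  · refine sup_le ?_ le_sup_right
    refine MeasurableSpace.generateFrom_le ?_
    rintro _ ⟨A, hA, rfl⟩
    exact measurableSet_of_ae_nul (mα := LL M.ms) (μ := M.loeb.μ) (sup_le hle (nulL_le M)) le_sup_right
      (M.measurableSet_site t (hm _ hA)) ((le_sup_left : m.comap (M.ev t) ≤ _) _ ⟨A, hA, rfl⟩)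
      (M.ev_preimage_ae t (hm _ hA)).symm

/-- an invariant sub-sigma-algebra at a site is contained in the environment -/
theorem Sys.comap_ev_le (t : ℕ → ℤ) {C : MeasurableSpace M.Ω} (hC : C ≤ M.ms)
    (hCS : ∀ n, Measurable[C, C] (M.S n)) :
    C.comap (M.ev t) ≤ LL C ⊔ nulL M := by
  have h1 : C.comap (M.ev t) ≤ siteM M t C ⊔ nulL M := by
    rw [← M.comap_ev_sup_nul t hC]
    exact le_sup_left
  refine h1.trans (sup_le_sup ?_ le_rfl)
  refine MeasurableSpace.generateFrom_le ?_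
  rintro _ ⟨A, hA, rfl⟩
  exact measurableSet_intl (fun k => hCS _ hA)

end ev

section lpi

variable {X : Sys} (P : Pair X) [StandardBorelSpace P.Ω] [Nonempty P.Ω]

theorem Pair.lpi_mp (t : ℕ → ℤ) : MeasurePreserving (P.π ∘ P.ev t) (lb P.μ) X.μ :=
  P.π_mp.comp (P.ev_mp t)

theorem Pair.lpi_S (t : ℕ → ℤ) (n : ℤ) :
    (fun x : Lb P.Ω => P.π (P.ev t (Lb.mp (P.S n) x))) =ᵐ[lb P.μ]
      fun x : Lb P.Ω => X.S n (P.π (P.ev t x)) := by
  have h1 := P.ev_S t n
  have h2 := (P.ev_mp t).quasiMeasurePreserving.ae_eq_comp (P.π_S n)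
  refine EventuallyEq.trans ?_ h2
  exact h1.mono fun x hx => congrArg P.π hx

end lpi

/-! ### sigma-algebras on the Loeb space -/

section evD

variable {X : Sys} {ι : Type} (P : Pair X) [StandardBorelSpace P.Ω] [Nonempty P.Ω]

/-- `⨆ j ∈ J, (m j)_{s j} ⊔ LL P.C ⊔ nul` -/
@[implicit_reducible]
noncomputable def Pair.evD (s : ι → ℕ → ℤ) (m : ι → MeasurableSpace P.Ω) (J : Set ι) :
    MeasurableSpace (Lb P.Ω) :=
  (⨆ j, ⨆ _ : j ∈ J, (m j).comap (P.ev (s j))) ⊔ LL P.C ⊔ nulL P.toSys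

variable {s : ι → ℕ → ℤ} {m : ι → MeasurableSpace P.Ω} {J : Set ι}

theorem Pair.comap_ev_le_ms (t : ℕ → ℤ) {m : MeasurableSpace P.Ω} (hm : m ≤ P.ms) :
    m.comap (P.ev t) ≤ LL P.ms := by
  rintro _ ⟨A, hA, rfl⟩
  exact P.measurable_ev t (hm _ hA)

theorem Pair.evD_le (hm : ∀ j, m j ≤ P.ms) : P.evD s m J ≤ LL P.ms :=
  sup_le (sup_le (iSup_le fun j => iSup_le fun _ => P.comap_ev_le_ms (s j) (hm j))
    (LL_mono P.C_le)) (nulL_le P.toSys)

theorem Pair.nul_le_evD : nulL P.toSys ≤ P.evD s m J := le_sup_right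

theorem Pair.LL_le_evD : LL P.C ≤ P.evD s m J := le_sup_right.trans le_sup_left

theorem Pair.comap_le_evD {j : ι} (hj : j ∈ J) : (m j).comap (P.ev (s j)) ≤ P.evD s m J :=
  (le_iSup₂ (f := fun j (_ : j ∈ J) => (m j).comap (P.ev (s j))) j hj).trans
    (le_sup_left.trans le_sup_left)

theorem Pair.evD_mono {m' : ι → MeasurableSpace P.Ω} {J' : Set ι} (hJ : J ⊆ J')
    (h : ∀ j ∈ J, m j ≤ m' j) : P.evD s m J ≤ P.evD s m' J' := by
  refine sup_le (sup_le (iSup_le fun j => iSup_le fun hj => ?_) P.LL_le_evD) P.nul_le_evD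
  exact (MeasurableSpace.comap_mono (h j hj)).trans (P.comap_le_evD (hJ hj))

/-- invariance of one site -/
theorem Pair.ev_inv (t : ℕ → ℤ) {m : MeasurableSpace P.Ω} (hm : m ≤ P.ms)
    (hS : ∀ n, Measurable[m, m] (P.S n)) {D : MeasurableSpace (Lb P.Ω)} (hD : D ≤ LL P.ms)
    (hn : nulL P.toSys ≤ D) (hmD : m.comap (P.ev t) ≤ D) (n : ℤ) :
    (m.comap (P.ev t)).comap (Lb.mp (P.S n)) ≤ D := by
  rintro _ ⟨_, ⟨A, hA, rfl⟩, rfl⟩
  have h1 : Lb.mp (P.S n) ⁻¹' (P.ev t ⁻¹' A) =ᵐ[P.loeb.μ] P.ev t ⁻¹' (P.S n ⁻¹' A) := by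
    filter_upwards [P.ev_S t n] with x hx
    apply propext
    show P.ev t (Lb.mp (P.S n) x) ∈ A ↔ P.S n (P.ev t x) ∈ A
    rw [hx]
  refine measurableSet_of_ae_nul (mα := LL P.ms) (μ := P.loeb.μ) hD hn ?_ (hmD _ ⟨P.S n ⁻¹' A, hS n hA, rfl⟩) h1
  exact (P.loeb.S_mp n).measurable (P.measurable_ev t (hm _ hA))

theorem Pair.evD_S (hm : ∀ j, m j ≤ P.ms) (hS : ∀ j n, Measurable[m j, m j] (P.S n)) (n : ℤ) :
    Measurable[P.evD s m J, P.evD s m J] (Lb.mp (P.S n)) := by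
  rw [measurable_iff_comap_le]
  simp only [Pair.evD, MeasurableSpace.comap_sup, MeasurableSpace.comap_iSup]
  refine sup_le (sup_le ?_ ?_) ?_
  · refine iSup_le fun j => iSup_le fun hj => ?_
    exact P.ev_inv (s j) (hm j) (hS j) (P.evD_le hm) P.nul_le_evD (P.comap_le_evD hj) n
  · exact (LL_inv (P.C_S n)).trans P.LL_le_evD
  · exact (nul_comap_le (P.loeb.S_mp n)).trans P.nul_le_evD

/-- **The Loeb system with the algebra `D` as a pair over `X` through the site `t`.** -/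
noncomputable def Pair.lpair (t : ℕ → ℤ) (D : MeasurableSpace (Lb P.Ω)) (hD : D ≤ LL P.ms)
    (hn : nulL P.toSys ≤ D) (hS : ∀ n, Measurable[D, D] (Lb.mp (P.S n)))
    (hind : @Indep _ (X.ms.comap (P.π ∘ P.ev t)) D (LL P.ms) P.loeb.μ) : Pair X where
  toSys := P.toSys.loeb
  π := P.π ∘ P.ev t
  π_mp := P.lpi_mp t
  π_S := P.lpi_S t
  C := D
  C_le := hD
  C_nul := hn
  C_S := hS
  indep := hind

/-- the site map as an extension -/
noncomputable def Pair.lext (t : ℕ → ℤ) (D : MeasurableSpace (Lb P.Ω)) (hD : D ≤ LL P.ms)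
    (hn : nulL P.toSys ≤ D) (hS : ∀ n, Measurable[D, D] (Lb.mp (P.S n)))
    (hind : @Indep _ (X.ms.comap (P.π ∘ P.ev t)) D (LL P.ms) P.loeb.μ) (hC : LL P.C ≤ D) :
    Ext P (P.lpair t D hD hn hS hind) where
  f := P.ev t
  f_mp := P.ev_mp t
  f_S n := P.ev_S t n
  f_π := Eventually.of_forall fun _ => rfl
  f_C := (P.comap_ev_le t P.C_le P.C_S).trans (sup_le hC hn)

end evD

end Crest.Agent.R069
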