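import Mathlib

/-!
# Row 69: closed pairs (804 (B)), abstract part

`OS P m1 m2 m`: one-sided conditional independence of `m1` and `m2` given `m` (`m ≤ m1`):
conditioning an `m2`-set on `m1` is the same as conditioning it on `m`.
-/

set_option autoImplicit false
set_option linter.unusedSectionVars false

open MeasureTheory Filter Set
open scoped ENNReal Topology

namespace Crest.Agent.R069.CP

section OS

variable {Ω : Type*} {m m' m1 m1' m2 m2' : MeasurableSpace Ω} [mΩ : MeasurableSpace Ω]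
  {P : Measure Ω} [IsProbabilityMeasure P]

/-- one-sided conditional independence -/
def OS {Ω : Type*} [MeasurableSpace Ω] (P : Measure Ω) (m1 m2 m : MeasurableSpace Ω) : Prop :=
  ∀ t, MeasurableSet[m2] t →
    P[t.indicator (fun _ => (1 : ℝ)) | m1] =ᵐ[P] P[t.indicator (fun _ => (1 : ℝ)) | m]

theorem isClosed_condExp_eq (h1 : m1 ≤ mΩ) (h2 : m ≤ mΩ) :
    IsClosed {f : lpMeas ℝ ℝ m' 1 P |
      P[((f : Lp ℝ 1 P) : Ω → ℝ) | m1] =ᵐ[P] P[((f : Lp ℝ 1 P) : Ω → ℝ) | m]} := by
  have hkey : {f : lpMeas ℝ ℝ m' 1 P |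
        P[((f : Lp ℝ 1 P) : Ω → ℝ) | m1] =ᵐ[P] P[((f : Lp ℝ 1 P) : Ω → ℝ) | m]}
      = {f : lpMeas ℝ ℝ m' 1 P | condExpL1CLM ℝ h1 P (f : Lp ℝ 1 P)
          = condExpL1CLM ℝ h2 P (f : Lp ℝ 1 P)} := by
    ext f
    have hint : Integrable ((f : Lp ℝ 1 P) : Ω → ℝ) P := L1.integrable_coeFn _
    have e1 := condExp_ae_eq_condExpL1CLM (μ := P) h1 hint
    have e2 := condExp_ae_eq_condExpL1CLM (μ := P) h2 hint
    rw [Integrable.toL1_coeFn] at e1 e2
    simp only [mem_ofPred_eq]
    constructor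
    · intro h
      exact Lp.ext (e1.symm.trans (h.trans e2))
    · intro h
      rw [h] at e1
      exact e1.trans e2.symm
  rw [hkey]
  exact isClosed_eq ((condExpL1CLM ℝ h1 P).continuous.comp continuous_subtype_val)
    ((condExpL1CLM ℝ h2 P).continuous.comp continuous_subtype_val)

theorem OS.condExp (h1 : m1 ≤ mΩ) (h2 : m2 ≤ mΩ) (hm : m ≤ mΩ)
    (h : OS P m1 m2 m) {f : Ω → ℝ} (hf : Integrable f P) (hfm : AEStronglyMeasurable[m2] f P) :
    P[f | m1] =ᵐ[P] P[f | m] := by
  refine MemLp.induction_stronglyMeasurable h2 ENNReal.one_ne_top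
    (fun f : Ω → ℝ => P[f | m1] =ᵐ[P] P[f | m]) ?_ ?_ ?_ ?_ (memLp_one_iff_integrable.2 hf) hfm
  · intro c s hs _
    have e : (s.indicator fun _ => c) = c • (s.indicator fun _ => (1 : ℝ)) := by
      funext x
      by_cases hx : x ∈ s <;> simp [hx]
    rw [e]
    refine (condExp_smul c _ m1).trans (EventuallyEq.trans ?_ (condExp_smul c _ m).symm)
    filter_upwards [h s hs] with x hx
    simp only [Pi.smul_apply]
    rw [hx]
  · intro f g _ hf hg _ _ h1' h2'
    refine (condExp_add (memLp_one_iff_integrable.1 hf) (memLp_one_iff_integrable.1 hg) m1).trans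
      (EventuallyEq.trans ?_
        (condExp_add (memLp_one_iff_integrable.1 hf) (memLp_one_iff_integrable.1 hg) m).symm)
    filter_upwards [h1', h2'] with x e1 e2
    simp only [Pi.add_apply, e1, e2]
  · exact isClosed_condExp_eq h1 hm
  · intro f g hfg _ hf'
    exact (condExp_congr_ae hfg.symm).trans (hf'.trans (condExp_congr_ae hfg))

theorem integrable_ind {s : Set Ω} (hs : MeasurableSet s) :
    Integrable (s.indicator (fun _ => (1 : ℝ))) P :=
  (integrable_const 1).indicator hs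

theorem ind_mul (s : Set Ω) (f : Ω → ℝ) :
    (s.indicator (fun _ => (1 : ℝ))) * f = s.indicator f := by
  funext x
  by_cases hx : x ∈ s <;> simp [hx]

theorem setIntegral_eq_mul {s : Set Ω} (hs : MeasurableSet s) (f : Ω → ℝ) :
    ∫ x in s, f x ∂P = ∫ x, s.indicator (fun _ => (1 : ℝ)) x * f x ∂P := by
  rw [← integral_indicator hs]
  congr 1
  funext x
  by_cases hx : x ∈ s <;> simp [hx]

theorem abs_ind_le (s : Set Ω) (x : Ω) : |s.indicator (fun _ => (1 : ℝ)) x| ≤ 1 := by
  by_cases hx : x ∈ s <;> simp [hx]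

theorem bdd_condExp {f : Ω → ℝ} {C : ℝ} (hC : ∀ x, |f x| ≤ C) :
    ∀ᵐ x ∂P, |(P[f | m]) x| ≤ C :=
  ae_bdd_abs_condExp_of_ae_bdd_abs (Eventually.of_forall hC)

theorem integrable_mul_bdd {f g : Ω → ℝ} {C : ℝ} (hf : Integrable f P)
    (hg : AEStronglyMeasurable g P) (hC : ∀ᵐ x ∂P, |g x| ≤ C) : Integrable (fun x => f x * g x) P := by
  have := hf.bdd_mul (c := C) hg (by simpa using hC)
  simpa [mul_comm] using this

/-- self-adjointness of conditional expectations, bounded second factor -/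
theorem integral_condExp_mul (hm : m ≤ mΩ) {f g : Ω → ℝ} {C : ℝ} (hf : Integrable f P)
    (hg : AEStronglyMeasurable[m] g P) (hC : ∀ᵐ x ∂P, |g x| ≤ C) :
    ∫ x, (P[f | m]) x * g x ∂P = ∫ x, f x * g x ∂P := by
  have hg' : AEStronglyMeasurable g P := hg.mono hm
  have h1 : P[fun x => f x * g x | m] =ᵐ[P] fun x => (P[f | m]) x * g x :=
    condExp_mul_of_aestronglyMeasurable_right hg (integrable_mul_bdd hf hg' hC) hf
  rw [← integral_condExp hm (f := fun x => f x * g x)]
  exact (integral_congr_ae h1).symm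

/-- symmetry -/
theorem OS.symm (h1 : m1 ≤ mΩ) (h2 : m2 ≤ mΩ) (hm1 : m ≤ m1) (hm2 : m ≤ m2)
    (h : OS P m1 m2 m) : OS P m2 m1 m := by
  intro s hs
  have hm : m ≤ mΩ := hm1.trans h1
  symm
  refine ae_eq_condExp_of_forall_setIntegral_eq h2 (integrable_ind (h1 _ hs)) ?_ ?_ ?_
  · intro t _ _
    exact integrable_condExp.integrableOn
  · intro t ht _
    rw [setIntegral_eq_mul (h2 _ ht), setIntegral_eq_mul (h2 _ ht)]
    set ft : Ω → ℝ := t.indicator (fun _ => (1 : ℝ)) with hft
    set fs : Ω → ℝ := s.indicator (fun _ => (1 : ℝ)) with hfs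
    have it : Integrable ft P := integrable_ind (h2 _ ht)
    have is : Integrable fs P := integrable_ind (h1 _ hs)
    -- ∫ ft * E[fs|m] = ∫ E[ft|m] * E[fs|m] = ∫ E[ft|m] fs = ∫ E[ft|m1] fs = ∫ ft fs
    have a1 : ∫ x, (P[ft | m]) x * (P[fs | m]) x ∂P = ∫ x, ft x * (P[fs | m]) x ∂P :=
      integral_condExp_mul hm it stronglyMeasurable_condExp.aestronglyMeasurable
        (bdd_condExp (abs_ind_le s))
    have a2 : ∫ x, (P[fs | m]) x * (P[ft | m]) x ∂P = ∫ x, fs x * (P[ft | m]) x ∂P :=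
      integral_condExp_mul hm is stronglyMeasurable_condExp.aestronglyMeasurable
        (bdd_condExp (abs_ind_le t))
    have a3 : ∫ x, fs x * (P[ft | m]) x ∂P = ∫ x, (P[ft | m1]) x * fs x ∂P := by
      refine integral_congr_ae ?_
      filter_upwards [h t ht] with x hx
      rw [hx, mul_comm]
    have a4 : ∫ x, (P[ft | m1]) x * fs x ∂P = ∫ x, ft x * fs x ∂P :=
      integral_condExp_mul h1 it
        ((stronglyMeasurable_const.indicator hs).aestronglyMeasurable)
        (Eventually.of_forall (abs_ind_le s))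
    rw [← a1, ← a4, ← a3, ← a2]
    exact integral_congr_ae (Eventually.of_forall (fun x => mul_comm _ _))
  · exact (stronglyMeasurable_condExp.mono hm2).aestronglyMeasurable

theorem OS.mid (h1 : m1 ≤ mΩ) (hmm : m ≤ m') (hm' : m' ≤ m1) (h : OS P m1 m2 m) :
    OS P m1 m2 m' := by
  intro t ht
  have e1 := h t ht
  -- E[.|m'] = E[E[.|m1]|m'] = E[E[.|m]|m'] = E[.|m]
  have e2 : P[P[t.indicator (fun _ => (1 : ℝ)) | m1] | m'] =ᵐ[P]
      P[t.indicator (fun _ => (1 : ℝ)) | m'] := condExp_condExp_of_le hm' h1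
  have e3 : P[P[t.indicator (fun _ => (1 : ℝ)) | m1] | m'] =ᵐ[P]
      P[P[t.indicator (fun _ => (1 : ℝ)) | m] | m'] := condExp_congr_ae e1
  have e4 : P[P[t.indicator (fun _ => (1 : ℝ)) | m] | m'] = P[t.indicator (fun _ => (1 : ℝ)) | m] :=
    condExp_of_stronglyMeasurable (hm'.trans h1) (stronglyMeasurable_condExp.mono hmm)
      integrable_condExp
  rw [e4] at e3
  exact e1.trans (e3.symm.trans e2)

theorem OS.mono2 (h : OS P m1 m2 m) (hm : m2' ≤ m2) : OS P m1 m2' m :=
  fun t ht => h t (hm _ ht)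

theorem OS.mono1 (h1 : m1 ≤ mΩ) (hm' : m1' ≤ m1) (hm : m ≤ m1') (h : OS P m1 m2 m) :
    OS P m1' m2 m := by
  intro t ht
  have e1 := h t ht
  have e2 : P[P[t.indicator (fun _ => (1 : ℝ)) | m1] | m1'] =ᵐ[P]
      P[t.indicator (fun _ => (1 : ℝ)) | m1'] := condExp_condExp_of_le hm' h1
  have e3 : P[P[t.indicator (fun _ => (1 : ℝ)) | m1] | m1'] =ᵐ[P]
      P[P[t.indicator (fun _ => (1 : ℝ)) | m] | m1'] := condExp_congr_ae e1
  have e4 : P[P[t.indicator (fun _ => (1 : ℝ)) | m] | m1']
      = P[t.indicator (fun _ => (1 : ℝ)) | m] :=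
    condExp_of_stronglyMeasurable (hm'.trans h1) (stronglyMeasurable_condExp.mono hm)
      integrable_condExp
  rw [e4] at e3
  exact e2.symm.trans e3

theorem sup_eq_generateFrom_inter :
    m ⊔ m' = MeasurableSpace.generateFrom
      {u | ∃ s t, MeasurableSet[m] s ∧ MeasurableSet[m'] t ∧ u = s ∩ t} := by
  apply le_antisymm
  · refine sup_le ?_ ?_
    · intro s hs
      exact MeasurableSpace.measurableSet_generateFrom ⟨s, univ, hs, MeasurableSet.univ, by simp⟩
    · intro t ht
      exact MeasurableSpace.measurableSet_generateFrom ⟨univ, t, MeasurableSet.univ, ht, by simp⟩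
  · refine MeasurableSpace.generateFrom_le ?_
    rintro u ⟨s, t, hs, ht, rfl⟩
    exact MeasurableSet.inter ((le_sup_left : m ≤ m ⊔ m') _ hs)
      ((le_sup_right : m' ≤ m ⊔ m') _ ht)

theorem isPiSystem_inter :
    IsPiSystem {u : Set Ω | ∃ s t, MeasurableSet[m] s ∧ MeasurableSet[m'] t ∧ u = s ∩ t} := by
  rintro _ ⟨s, t, hs, ht, rfl⟩ _ ⟨s', t', hs', ht', rfl⟩ _
  exact ⟨s ∩ s', t ∩ t', MeasurableSet.inter hs hs', MeasurableSet.inter ht ht', by
    ext x; simp only [mem_inter_iff]; tauto⟩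

/-- `m2` may be enlarged by `m`. -/
theorem OS.join (h1 : m1 ≤ mΩ) (h2 : m2 ≤ mΩ) (hm : m ≤ m1) (h : OS P m1 m2 m) :
    OS P m1 (m ⊔ m2) m := by
  have hmΩ : m ≤ mΩ := hm.trans h1
  have hsup : m ⊔ m2 ≤ mΩ := sup_le hmΩ h2
  intro u hu
  refine MeasurableSpace.induction_on_inter
    (C := fun u _ => P[u.indicator (fun _ => (1 : ℝ)) | m1] =ᵐ[P]
      P[u.indicator (fun _ => (1 : ℝ)) | m])
    (sup_eq_generateFrom_inter (m := m) (m' := m2)) isPiSystem_inter ?_ ?_ ?_ ?_ u hu
  · simp
  · intro u hu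
    obtain ⟨s, t, hs, ht, rfl⟩ := hu
    have e0 : ((s ∩ t).indicator (fun _ => (1 : ℝ)))
        = (s.indicator (fun _ => (1 : ℝ))) * (t.indicator (fun _ => (1 : ℝ))) := by
      rw [ind_mul, indicator_indicator]
    have hi : Integrable ((s.indicator (fun _ => (1 : ℝ))) * (t.indicator (fun _ => (1 : ℝ)))) P := by
      rw [← e0]
      exact integrable_ind ((hmΩ _ hs).inter (h2 _ ht))
    rw [e0]
    have e1 : P[(s.indicator (fun _ => (1 : ℝ))) * (t.indicator (fun _ => (1 : ℝ))) | m1]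
        =ᵐ[P] (s.indicator (fun _ => (1 : ℝ))) * P[t.indicator (fun _ => (1 : ℝ)) | m1] :=
      condExp_mul_of_stronglyMeasurable_left
        (stronglyMeasurable_const.indicator (hm _ hs)) hi (integrable_ind (h2 _ ht))
    have e2 : P[(s.indicator (fun _ => (1 : ℝ))) * (t.indicator (fun _ => (1 : ℝ))) | m]
        =ᵐ[P] (s.indicator (fun _ => (1 : ℝ))) * P[t.indicator (fun _ => (1 : ℝ)) | m] :=
      condExp_mul_of_stronglyMeasurable_left
        (stronglyMeasurable_const.indicator hs) hi (integrable_ind (h2 _ ht))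
    refine e1.trans (EventuallyEq.trans ?_ e2.symm)
    filter_upwards [h t ht] with x hx
    simp only [Pi.mul_apply, hx]
  · intro u hu ih
    have e0 : (uᶜ.indicator (fun _ => (1 : ℝ)))
        = (fun _ => (1 : ℝ)) - (u.indicator (fun _ => (1 : ℝ))) := by
      funext x
      by_cases hx : x ∈ u <;> simp [hx]
    rw [e0]
    have iu : Integrable (u.indicator (fun _ => (1 : ℝ))) P := integrable_ind (hsup _ hu)
    refine (condExp_sub (integrable_const _) iu m1).trans
      (EventuallyEq.trans ?_ (condExp_sub (integrable_const _) iu m).symm)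
    filter_upwards [ih] with x hx
    simp only [Pi.sub_apply, hx, condExp_const h1, condExp_const hmΩ]
  · intro f hd hf ih
    -- countable disjoint unions: set integrals
    have hU : MeasurableSet (⋃ i, f i) := MeasurableSet.iUnion (fun i => hsup _ (hf i))
    symm
    refine ae_eq_condExp_of_forall_setIntegral_eq h1 (integrable_ind hU) ?_ ?_ ?_
    · intro t _ _
      exact integrable_condExp.integrableOn
    · intro t ht _
      have key : ∀ (g : Ω → ℝ), AEStronglyMeasurable[m1] g P → (∀ᵐ x ∂P, |g x| ≤ 1) →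
          ∫ x, (⋃ i, f i).indicator (fun _ => (1 : ℝ)) x * g x ∂P
            = ∑' i, ∫ x, (f i).indicator (fun _ => (1 : ℝ)) x * g x ∂P := by
        intro g hg hgb
        have hgi : Integrable g P := Integrable.of_bound (hg.mono h1) 1 (by simpa using hgb)
        rw [← setIntegral_eq_mul hU, integral_iUnion (fun i => hsup _ (hf i)) hd hgi.integrableOn]
        congr 1
        funext i
        rw [setIntegral_eq_mul (hsup _ (hf i))]
      set ft : Ω → ℝ := t.indicator (fun _ => (1 : ℝ)) with hft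
      have it : Integrable ft P := integrable_ind (h1 _ ht)
      rw [setIntegral_eq_mul (h1 _ ht), setIntegral_eq_mul (h1 _ ht)]
      have hftm : AEStronglyMeasurable[m1] ft P :=
        (stronglyMeasurable_const.indicator ht).aestronglyMeasurable
      have hce : AEStronglyMeasurable[m1] (P[ft | m]) P :=
        (stronglyMeasurable_condExp.mono hm).aestronglyMeasurable
      have b1 : ∀ (u : Set Ω), MeasurableSet u →
          ∫ x, ft x * (P[u.indicator (fun _ => (1 : ℝ)) | m]) x ∂P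
            = ∫ x, u.indicator (fun _ => (1 : ℝ)) x * (P[ft | m]) x ∂P := by
        intro u hu
        have a1 := integral_condExp_mul (P := P) hmΩ it
          (stronglyMeasurable_condExp (f := u.indicator (fun _ => (1 : ℝ)))
            (m := m) (μ := P)).aestronglyMeasurable (bdd_condExp (abs_ind_le u))
        have a2 := integral_condExp_mul (P := P) hmΩ (integrable_ind hu)
          (stronglyMeasurable_condExp (f := ft)
            (m := m) (μ := P)).aestronglyMeasurable (bdd_condExp (abs_ind_le t))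
        rw [← a1, ← a2]
        exact integral_congr_ae (Eventually.of_forall (fun x => mul_comm _ _))
      rw [b1 _ hU, key _ hce (bdd_condExp (abs_ind_le t))]
      have b2 : ∫ x, ft x * (⋃ i, f i).indicator (fun _ => (1 : ℝ)) x ∂P
          = ∑' i, ∫ x, (f i).indicator (fun _ => (1 : ℝ)) x * ft x ∂P := by
        rw [← key ft hftm (Eventually.of_forall (abs_ind_le t))]
        exact integral_congr_ae (Eventually.of_forall (fun x => mul_comm _ _))
      rw [b2]
      congr 1
      funext i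
      have c1 : ∫ x, (P[(f i).indicator (fun _ => (1 : ℝ)) | m1]) x * ft x ∂P
          = ∫ x, (f i).indicator (fun _ => (1 : ℝ)) x * ft x ∂P :=
        integral_condExp_mul h1 (integrable_ind (hsup _ (hf i))) hftm
          (Eventually.of_forall (abs_ind_le t))
      rw [← b1 _ (hsup _ (hf i)), ← c1]
      refine integral_congr_ae ?_
      filter_upwards [ih i] with x hx
      rw [hx, mul_comm]
    · exact (stronglyMeasurable_condExp.mono hm).aestronglyMeasurable

theorem integral_eq_zero_of_pi (h1 : m1 ≤ mΩ) (h2 : m2 ≤ mΩ) {R : Ω → ℝ} (hR : Integrable R P)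
    (hRm : AEStronglyMeasurable[m1 ⊔ m2] R P)
    (h : ∀ s t, MeasurableSet[m1] s → MeasurableSet[m2] t → ∫ x in s ∩ t, R x ∂P = 0) :
    R =ᵐ[P] 0 := by
  have hsup : m1 ⊔ m2 ≤ mΩ := sup_le h1 h2
  have hall : ∀ u, MeasurableSet[m1 ⊔ m2] u → ∫ x in u, R x ∂P = 0 := by
    intro u hu
    refine MeasurableSpace.induction_on_inter
      (C := fun u _ => ∫ x in u, R x ∂P = 0)
      (sup_eq_generateFrom_inter (m := m1) (m' := m2)) isPiSystem_inter ?_ ?_ ?_ ?_ u hu
    · simp
    · intro u hu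
      obtain ⟨s, t, hs, ht, rfl⟩ := hu
      exact h s t hs ht
    · intro u hu ih
      have e := integral_add_compl (hsup _ hu) hR
      have e2 := h univ univ MeasurableSet.univ MeasurableSet.univ
      simp only [inter_univ, setIntegral_univ] at e2
      rw [ih, e2, zero_add] at e
      exact e
    · intro f hd hf ih
      rw [integral_iUnion (fun i => hsup _ (hf i)) hd hR.integrableOn]
      simp [ih]
  refine ae_eq_of_forall_setIntegral_eq_of_sigmaFinite' hsup ?_ ?_ ?_ hRm
    aestronglyMeasurable_zero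
  · intro s _ _
    exact hR.integrableOn
  · intro s _ _
    exact (integrable_zero _ _ _).integrableOn
  · intro s hs _
    rw [hall s hs]
    simp

theorem OS.aesm (h1 : m1 ≤ mΩ) (h2 : m2 ≤ mΩ) (hm : m ≤ mΩ)
    (h : OS P m1 m2 m) {f : Ω → ℝ} (hf : Integrable f P) (hfm : AEStronglyMeasurable[m2] f P) :
    AEStronglyMeasurable[m] (P[f | m1]) P :=
  ⟨P[f | m], stronglyMeasurable_condExp, h.condExp h1 h2 hm hf hfm⟩

end OS

/-! ### The sub-sigma-algebra of visible sets -/

section E1

variable {J : Type*} {mE mC mD : MeasurableSpace J} [mJ : MeasurableSpace J]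
variable {Ω : Type*} [mΩ : MeasurableSpace Ω]

/-- `A` is visible: `A ∈ mE` and, for every role `i`, the set `A` seen through `π i` is a.e.
`W i`-measurable. -/
@[implicit_reducible]
def E1 {ι : Type*} (P : Measure Ω) (π : ι → Ω → J) (W : ι → MeasurableSpace Ω)
    (mE : MeasurableSpace J) :
    MeasurableSpace J where
  MeasurableSet' A := MeasurableSet[mE] A ∧
    ∀ i, ∃ B, MeasurableSet[W i] B ∧ (π i ⁻¹' A : Set Ω) =ᵐ[P] B
  measurableSet_empty := ⟨@MeasurableSet.empty _ mE, fun i => ⟨∅, @MeasurableSet.empty _ (W i), by simp⟩⟩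
  measurableSet_compl A hA := ⟨hA.1.compl, fun i => by
    obtain ⟨B, hB, hAB⟩ := hA.2 i
    refine ⟨Bᶜ, hB.compl, ?_⟩
    rw [preimage_compl]
    exact hAB.compl⟩
  measurableSet_iUnion f hf := ⟨MeasurableSet.iUnion fun n => (hf n).1, fun i => by
    choose B hB hAB using fun n => (hf n).2 i
    refine ⟨⋃ n, B n, MeasurableSet.iUnion hB, ?_⟩
    rw [preimage_iUnion]
    exact Filter.EventuallyEq.countable_iUnion hAB⟩

variable {ι : Type*} {P : Measure Ω} {π : ι → Ω → J} {W : ι → MeasurableSpace Ω}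

theorem E1_le : E1 P π W mE ≤ mE := fun _ hA => hA.1

theorem measurableSet_E1 {A : Set J} : MeasurableSet[E1 P π W mE] A ↔ MeasurableSet[mE] A ∧
    ∀ i, ∃ B, MeasurableSet[W i] B ∧ (π i ⁻¹' A : Set Ω) =ᵐ[P] B := Iff.rfl

theorem measurable_E1 {f : J → ℝ} (hf : Measurable[mE] f)
    (h : ∀ i, AEStronglyMeasurable[W i] (f ∘ π i) P) : Measurable[E1 P π W mE] f := by
  intro B hB
  refine ⟨hf hB, fun i => ?_⟩
  obtain ⟨g, hg, hfg⟩ := h i
  refine ⟨g ⁻¹' B, hg.measurable hB, ?_⟩
  filter_upwards [hfg] with x hx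
  show (f (π i x) ∈ B) = (g x ∈ B)
  rw [← hx]
  rfl

end E1

/-! ### CP1 -/

section CP1

variable {J : Type*} {mE mC mD m1 : MeasurableSpace J} [mJ : MeasurableSpace J]
  {ν : Measure J} [IsProbabilityMeasure ν]
variable {Ω : Type*} {AA : MeasurableSpace Ω} [mΩ : MeasurableSpace Ω] {P : Measure Ω}
  [IsProbabilityMeasure P]
variable {ι : Type*} {π : ι → Ω → J} {W : ι → MeasurableSpace Ω}

/-- one-space part of CP1 -/
theorem cp1_core (hE : mE ≤ mJ) (hD : mD ≤ mJ) (hCE : mC ≤ mE) (hCD : mC ≤ mD)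
    (hS1 : OS ν mD mE mC) (hC1 : mC ≤ m1) (hm1E : m1 ≤ mE)
    (G : J → ℝ) (hG : Measurable[mE ⊔ mD] G) {C : ℝ} (hGC : ∀ x, |G x| ≤ C)
    (hvis : ∀ t, MeasurableSet[mD] t →
      Measurable[m1] (ν[fun x => G x * t.indicator (fun _ => (1 : ℝ)) x | mE])) :
    ν[G | m1 ⊔ mD] =ᵐ[ν] G := by
  have hm1J : m1 ≤ mJ := hm1E.trans hE
  have hsup1 : m1 ⊔ mD ≤ mJ := sup_le hm1J hD
  have hsupE : mE ⊔ mD ≤ mJ := sup_le hE hD
  have hGm : Measurable G := hG.mono hsupE le_rfl
  have hGi : Integrable G ν := Integrable.of_bound hGm.aestronglyMeasurable C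
    (Eventually.of_forall (fun x => by simpa using hGC x))
  -- OS (m1 ⊔ mD) mE m1
  have hos : OS ν (m1 ⊔ mD) mE m1 := by
    have a1 : OS ν mE mD mC := hS1.symm hD hE hCD hCE
    have a2 : OS ν mE mD m1 := a1.mid hE hC1 hm1E
    have a3 : OS ν mE (m1 ⊔ mD) m1 := a2.join hE hD hm1E
    exact a3.symm hE hsup1 hm1E le_sup_left
  have hR : (fun x => G x - (ν[G | m1 ⊔ mD]) x) =ᵐ[ν] 0 := by
    have hRi : Integrable (fun x => G x - (ν[G | m1 ⊔ mD]) x) ν := hGi.sub integrable_condExp
    refine integral_eq_zero_of_pi hE hD hRi ?_ ?_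
    · have h1 : StronglyMeasurable[mE ⊔ mD] G := hG.stronglyMeasurable
      have h2 : StronglyMeasurable[mE ⊔ mD] (ν[G | m1 ⊔ mD]) :=
        stronglyMeasurable_condExp.mono (sup_le_sup hm1E le_rfl)
      exact (h1.sub h2).aestronglyMeasurable
    · intro s t hs ht
      have hsJ := hE _ hs
      have htJ := hD _ ht
      set fs : J → ℝ := s.indicator (fun _ => (1 : ℝ)) with hfs
      set ft : J → ℝ := t.indicator (fun _ => (1 : ℝ)) with hft
      have is : Integrable fs ν := integrable_ind hsJ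
      have it : Integrable ft ν := integrable_ind htJ
      have hst : (s ∩ t).indicator (fun _ => (1 : ℝ)) = fun x => fs x * ft x := by
        rw [← indicator_indicator, ← ind_mul]
        rfl
      have hsti : Integrable (fun x => fs x * ft x) ν := by
        rw [← hst]
        exact integrable_ind (hsJ.inter htJ)
      rw [integral_sub hGi.integrableOn integrable_condExp.integrableOn,
        setIntegral_eq_mul (hsJ.inter htJ), setIntegral_eq_mul (hsJ.inter htJ)]
      -- second integral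
      have b1 : ∫ x, (s ∩ t).indicator (fun _ => (1 : ℝ)) x * (ν[G | m1 ⊔ mD]) x ∂ν
          = ∫ x, G x * (ν[(s ∩ t).indicator (fun _ => (1 : ℝ)) | m1 ⊔ mD]) x ∂ν := by
        have c1 := integral_condExp_mul (P := ν) hsup1 (integrable_ind (hsJ.inter htJ))
          (g := ν[G | m1 ⊔ mD]) stronglyMeasurable_condExp.aestronglyMeasurable
          (bdd_condExp hGC)
        have c2 := integral_condExp_mul (P := ν) hsup1 hGi
          (g := ν[(s ∩ t).indicator (fun _ => (1 : ℝ)) | m1 ⊔ mD])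
          stronglyMeasurable_condExp.aestronglyMeasurable (bdd_condExp (abs_ind_le (s ∩ t)))
        rw [← c1, ← c2]
        exact integral_congr_ae (Eventually.of_forall (fun x => mul_comm _ _))
      have b2 : ν[(s ∩ t).indicator (fun _ => (1 : ℝ)) | m1 ⊔ mD]
          =ᵐ[ν] fun x => (ν[fs | m1]) x * ft x := by
        rw [hst]
        have d1 : ν[fun x => fs x * ft x | m1 ⊔ mD] =ᵐ[ν] fun x => (ν[fs | m1 ⊔ mD]) x * ft x :=
          condExp_mul_of_stronglyMeasurable_right
            ((stronglyMeasurable_const.indicator ht).mono le_sup_right) hsti is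
        refine d1.trans ?_
        filter_upwards [hos s hs] with x hx
        rw [hx]
      have b3 : ∫ x, G x * (ν[(s ∩ t).indicator (fun _ => (1 : ℝ)) | m1 ⊔ mD]) x ∂ν
          = ∫ x, (G x * ft x) * (ν[fs | m1]) x ∂ν := by
        refine integral_congr_ae ?_
        filter_upwards [b2] with x hx
        rw [hx]; ring
      have hGt : Integrable (fun x => G x * ft x) ν :=
        integrable_mul_bdd hGi it.aestronglyMeasurable (Eventually.of_forall (abs_ind_le t))
      -- f := E[G ft | mE]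
      set f : J → ℝ := ν[fun x => G x * ft x | mE] with hf
      have hfm1 : Measurable[m1] f := hvis t ht
      have b4 : ∫ x, (G x * ft x) * (ν[fs | m1]) x ∂ν = ∫ x, f x * (ν[fs | m1]) x ∂ν :=
        (integral_condExp_mul (P := ν) hE hGt (g := ν[fs | m1])
          (stronglyMeasurable_condExp.mono hm1E).aestronglyMeasurable
          (bdd_condExp (abs_ind_le s))).symm
      have hfC : ∀ᵐ x ∂ν, |f x| ≤ C := by
        refine ae_bdd_abs_condExp_of_ae_bdd_abs (Eventually.of_forall (fun x => ?_))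
        rw [abs_mul]
        have h1 := hGC x
        have h2 := abs_ind_le t x
        have h3 := abs_nonneg (G x)
        nlinarith [abs_nonneg (ft x)]
      have b5 : ∫ x, f x * (ν[fs | m1]) x ∂ν = ∫ x, f x * fs x ∂ν := by
        have := integral_condExp_mul (P := ν) hm1J is (g := f)
          hfm1.stronglyMeasurable.aestronglyMeasurable hfC
        rw [show (∫ x, f x * (ν[fs | m1]) x ∂ν) = ∫ x, (ν[fs | m1]) x * f x ∂ν from
          integral_congr_ae (Eventually.of_forall (fun x => mul_comm _ _)), this]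
        exact integral_congr_ae (Eventually.of_forall (fun x => mul_comm _ _))
      have b6 : ∫ x, f x * fs x ∂ν = ∫ x, (G x * ft x) * fs x ∂ν :=
        integral_condExp_mul (P := ν) hE hGt (g := fs)
          (stronglyMeasurable_const.indicator hs).aestronglyMeasurable
          (Eventually.of_forall (abs_ind_le s))
      rw [b1, b3, b4, b5, b6, hst, sub_eq_zero]
      refine integral_congr_ae (Eventually.of_forall (fun x => ?_))
      show fs x * ft x * G x = G x * ft x * fs x
      ring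
  filter_upwards [hR] with x hx
  have : G x - (ν[G | m1 ⊔ mD]) x = 0 := hx
  linarith

/-- **CP1**: the two-space core of the closed pair theorem. -/
theorem cp1 (hW : ∀ i, W i ≤ mΩ)
    (hπ : ∀ i, MeasurePreserving (π i) P ν)
    (hE : mE ≤ mJ) (hD : mD ≤ mJ) (hCE : mC ≤ mE) (hCD : mC ≤ mD)
    (hS1 : OS ν mD mE mC)
    (hCE1 : mC ≤ E1 P π W mE)
    (hAA : AA ≤ mΩ) (hWA : ∀ i, W i ≤ AA)
    (hOS : ∀ i, OS P AA (mD.comap (π i)) (W i))
    (G : J → ℝ) (hG : Measurable[mE ⊔ mD] G) {C : ℝ} (hGC : ∀ x, |G x| ≤ C)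
    (hlift : ∀ i (F : J → ℝ), Measurable F → (∃ C, ∀ x, |F x| ≤ C) →
      P[F ∘ π i | AA] =ᵐ[P] (ν[F | mE]) ∘ π i)
    (hS2 : ∀ i, AEStronglyMeasurable[W i ⊔ mD.comap (π i)] (G ∘ π i) P) :
    ν[G | E1 P π W mE ⊔ mD] =ᵐ[ν] G := by
  refine cp1_core hE hD hCE hCD hS1 hCE1 E1_le G hG hGC ?_
  intro t ht
  have hsupE : mE ⊔ mD ≤ mJ := sup_le hE hD
  have hGm : Measurable G := hG.mono hsupE le_rfl
  have hmeasD : ∀ i, mD.comap (π i) ≤ mΩ := by
    intro i
    rintro _ ⟨s, hs, rfl⟩
    exact (hπ i).measurable (hD _ hs)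
  refine measurable_E1 stronglyMeasurable_condExp.measurable (fun i => ?_)
  have hF : Measurable (fun x => G x * t.indicator (fun _ => (1 : ℝ)) x) :=
    hGm.mul (measurable_const.indicator (hD _ ht))
  have hFC : ∀ x, |G x * t.indicator (fun _ => (1 : ℝ)) x| ≤ C := by
    intro x
    rw [abs_mul]
    have h1 := hGC x
    have h2 := abs_ind_le t x
    have h3 := abs_nonneg (G x)
    nlinarith [abs_nonneg (t.indicator (fun _ => (1 : ℝ)) x)]
  have e1 := hlift i _ hF ⟨C, hFC⟩
  have hFm : Measurable ((fun x => G x * t.indicator (fun _ => (1 : ℝ)) x) ∘ π i) :=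
    hF.comp (hπ i).measurable
  have hFi : Integrable ((fun x => G x * t.indicator (fun _ => (1 : ℝ)) x) ∘ π i) P :=
    Integrable.of_bound hFm.aestronglyMeasurable C
      (Eventually.of_forall (fun x => by simpa using hFC (π i x)))
  have hae : AEStronglyMeasurable[W i ⊔ mD.comap (π i)]
      ((fun x => G x * t.indicator (fun _ => (1 : ℝ)) x) ∘ π i) P := by
    have h2 : AEStronglyMeasurable[W i ⊔ mD.comap (π i)]
        ((t.indicator (fun _ => (1 : ℝ))) ∘ π i) P := by
      have h3 : StronglyMeasurable[mD.comap (π i)] ((t.indicator (fun _ => (1 : ℝ))) ∘ π i) := by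
        have h4 : (t.indicator (fun _ => (1 : ℝ))) ∘ π i
            = (π i ⁻¹' t).indicator (fun _ => (1 : ℝ)) := by
          funext x
          by_cases hx : π i x ∈ t <;> simp [hx]
        rw [h4]
        exact stronglyMeasurable_const.indicator ⟨t, ht, rfl⟩
      have h5 : StronglyMeasurable[W i ⊔ mD.comap (π i)] ((t.indicator (fun _ => (1 : ℝ))) ∘ π i) :=
        h3.mono le_sup_right
      exact h5.aestronglyMeasurable
    exact (hS2 i).mul h2
  have hj : OS P AA (W i ⊔ mD.comap (π i)) (W i) :=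
    (hOS i).join hAA (hmeasD i) (hWA i)
  have e2 := hj.aesm hAA (sup_le (hW i) (hmeasD i)) (hW i) hFi hae
  exact e2.congr e1

end CP1

/-! ### CP2 -/

section CP2

variable {J : Type*} {D : MeasurableSpace J} [mJ : MeasurableSpace J]
  {ν : Measure J} [IsProbabilityMeasure ν]

/-- one exchange step -/
theorem cp2_step {J : Type*} {A B D E E' : MeasurableSpace J} [mJ : MeasurableSpace J]
    {ν : Measure J} [IsProbabilityMeasure ν]
    (hB : B ≤ mJ) (hE : E ≤ mJ) (hDE' : D ≤ E') (hE'E : E' ≤ E) (hDB : D ≤ B)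
    (hAB : A ≤ B) (hOS : OS ν B E D)
    {G : J → ℝ} (hG : Integrable G ν) (h1 : AEStronglyMeasurable[A ⊔ E] G ν)
    (h2 : AEStronglyMeasurable[E' ⊔ B] G ν) :
    AEStronglyMeasurable[A ⊔ E'] G ν := by
  have hE'J : E' ≤ mJ := hE'E.trans hE
  have a1 : OS ν E B D := hOS.symm hB hE hDB (hDE'.trans hE'E)
  have a2 : OS ν E B E' := a1.mid hE hDE' hE'E
  have a3 : OS ν E (E' ⊔ B) E' := a2.join hE hB hE'E
  have a4 : OS ν (E' ⊔ B) E E' := a3.symm hE (sup_le hE'J hB) hE'E le_sup_left
  have hAE : A ⊔ E' ≤ E' ⊔ B := sup_le (hAB.trans le_sup_right) le_sup_left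
  have a5 : OS ν (E' ⊔ B) E (A ⊔ E') := a4.mid (sup_le hE'J hB) le_sup_right hAE
  have a6 : OS ν (E' ⊔ B) ((A ⊔ E') ⊔ E) (A ⊔ E') := a5.join (sup_le hE'J hB) hE hAE
  have a7 : OS ν (E' ⊔ B) (A ⊔ E) (A ⊔ E') :=
    a6.mono2 (sup_le (le_sup_left.trans le_sup_left) le_sup_right)
  have a8 := a7.aesm (sup_le hE'J hB) (sup_le (hAB.trans hB) hE) (sup_le (hAB.trans hB) hE'J) hG h1
  have a9 : ν[G | E' ⊔ B] =ᵐ[ν] G :=
    condExp_of_aestronglyMeasurable' (sup_le hE'J hB) h2 hG
  exact a8.congr a9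

/-- the induction step of `cp2` in terms of lattice inequalities -/
theorem cp2_ind {J : Type*} {A B D E E' R R' : MeasurableSpace J} [mJ : MeasurableSpace J]
    {ν : Measure J} [IsProbabilityMeasure ν]
    (hB : B ≤ mJ) (hD : D ≤ mJ) (hE : E ≤ mJ) (hE'E : E' ≤ E) (hDB : D ≤ B)
    (hAB : A ≤ B) (hOS : OS ν B E D)
    {G : J → ℝ} (hG : Integrable G ν) (h1 : AEStronglyMeasurable[R] G ν)
    (hR : R ≤ A ⊔ (D ⊔ E))
    (h2 : AEStronglyMeasurable[E' ⊔ B] G ν)
    (hR' : A ⊔ (D ⊔ E') ≤ R') :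
    AEStronglyMeasurable[R'] G ν := by
  have hos : OS ν B (D ⊔ E) D := hOS.join hB hE hDB
  have e1 : AEStronglyMeasurable[A ⊔ (D ⊔ E)] G ν := h1.mono hR
  have e2 : AEStronglyMeasurable[(D ⊔ E') ⊔ B] G ν :=
    h2.mono (sup_le (le_sup_of_le_left le_sup_right) le_sup_right)
  have e3 := cp2_step (A := A) (B := B) (D := D) (E := D ⊔ E) (E' := D ⊔ E') hB
    (sup_le hD hE) le_sup_left (sup_le_sup le_rfl hE'E) hDB hAB hos hG e1 e2
  exact e3.mono hR'

/-- **CP2**: `E j` (`j : κ`, finite) conditionally independent given `D`, `E' j ≤ E j`; if `G` is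
`E' j ⊔ (⨆_{j' ≠ j} E j') ⊔ D`-measurable for every `j`, it is `(⨆ j, E' j) ⊔ D`-measurable. -/
theorem cp2 {κ : Type*} [Finite κ] {E E' : κ → MeasurableSpace J}
    (hD : D ≤ mJ) (hE : ∀ j, E j ≤ mJ) (hE'E : ∀ j, E' j ≤ E j)
    (hOS : ∀ j, OS ν (D ⊔ ⨆ (j') (_ : j' ≠ j), E j') (E j) D)
    {G : J → ℝ} (hG : Integrable G ν)
    (h0 : AEStronglyMeasurable[D ⊔ ⨆ j, E j] G ν)
    (h : ∀ j, AEStronglyMeasurable[E' j ⊔ (D ⊔ ⨆ (j') (_ : j' ≠ j), E j')] G ν) :
    AEStronglyMeasurable[D ⊔ ⨆ j, E' j] G ν := by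
  classical
  have := Fintype.ofFinite κ
  have key : ∀ S : Finset κ,
      AEStronglyMeasurable[D ⊔ (⨆ j ∈ S, E' j) ⊔ (⨆ (j) (_ : j ∉ S), E j)] G ν := by
    intro S
    induction S using Finset.induction_on with
    | empty =>
      refine h0.mono (sup_le (le_sup_left.trans le_sup_left) (iSup_le (fun j => ?_)))
      exact (le_iSup₂ (f := fun (j' : κ) (_ : j' ∉ (∅ : Finset κ)) => E j') j
        (Finset.notMem_empty j)).trans le_sup_right
    | insert j S hj ih =>
      refine cp2_ind (A := D ⊔ (⨆ j ∈ S, E' j) ⊔ (⨆ (j') (_ : j' ∉ insert j S), E j'))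
        (B := D ⊔ ⨆ (j') (_ : j' ≠ j), E j') (D := D) (E := E j) (E' := E' j)
        (sup_le hD (iSup₂_le (fun j' _ => hE j'))) hD (hE j) (hE'E j) le_sup_left
        ?_ (hOS j) hG ih ?_ (h j) ?_
      · refine sup_le (sup_le le_sup_left ?_) ?_
        · refine iSup₂_le (fun j' hj' => ?_)
          have hne : j' ≠ j := fun e => hj (e ▸ hj')
          exact (hE'E j').trans ((le_iSup₂ (f := fun (j' : κ) (_ : j' ≠ j) => E j') j' hne).trans
            le_sup_right)
        · refine iSup₂_le (fun j' hj' => ?_)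
          have hne : j' ≠ j := fun e => hj' (e ▸ Finset.mem_insert_self _ _)
          exact (le_iSup₂ (f := fun (j' : κ) (_ : j' ≠ j) => E j') j' hne).trans le_sup_right
      · refine sup_le (sup_le ?_ ?_) ?_
        · exact le_sup_left.trans le_sup_right
        · exact le_sup_of_le_left (le_sup_of_le_left le_sup_right)
        · refine iSup₂_le (fun j' hj' => ?_)
          by_cases e : j' = j
          · subst e
            exact le_sup_right.trans le_sup_right
          · refine le_sup_of_le_left (le_sup_of_le_right ?_)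
            have hj'' : j' ∉ insert j S := by
              simp only [Finset.mem_insert, not_or]
              exact ⟨e, hj'⟩
            exact le_iSup₂ (f := fun (j' : κ) (_ : j' ∉ insert j S) => E j') j' hj''
      · refine sup_le (sup_le (sup_le ?_ ?_) ?_) (sup_le ?_ ?_)
        · exact le_sup_of_le_left le_sup_left
        · refine le_sup_of_le_left (le_sup_of_le_right ?_)
          exact iSup₂_le (fun j' hj' => le_iSup₂
            (f := fun (j' : κ) (_ : j' ∈ insert j S) => E' j') j'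
            (Finset.mem_insert_of_mem hj'))
        · exact le_sup_right
        · exact le_sup_of_le_left le_sup_left
        · refine le_sup_of_le_left (le_sup_of_le_right ?_)
          exact le_iSup₂ (f := fun (j' : κ) (_ : j' ∈ insert j S) => E' j') j
            (Finset.mem_insert_self _ _)
  have hle : D ⊔ (⨆ j ∈ (Finset.univ : Finset κ), E' j) ⊔
      (⨆ (j) (_ : j ∉ (Finset.univ : Finset κ)), E j) ≤ D ⊔ ⨆ j, E' j := by
    refine sup_le (sup_le le_sup_left ?_) ?_
    · exact iSup₂_le (fun j _ => (le_iSup E' j).trans le_sup_right)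
    · exact iSup₂_le (fun j hj => absurd (Finset.mem_univ j) hj)
  exact (key Finset.univ).mono hle

end CP2

end Crest.Agent.R069.CP
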