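import Crest.Agent.R069.EndDefs

/-! Row 69, END part 1: basic facts and (9a). -/

set_option linter.unusedSectionVars false
set_option linter.unusedVariables false

open MeasureTheory Filter Topology

namespace Crest.Agent.R069.End

variable {X Ω : Type*} [MeasurableSpace X] [MeasurableSpace Ω]

theorem BM.integrable {μ : Measure X} [IsFiniteMeasure μ] {h : X → ℂ} (hh : BM h) :
    Integrable h μ := by
  obtain ⟨C, hC⟩ := hh.2
  exact Integrable.of_bound hh.1.aestronglyMeasurable C (Eventually.of_forall hC)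

theorem BM.comp {Y : Type*} [MeasurableSpace Y] {h : X → ℂ} (hh : BM h) {g : Y → X}
    (hg : Measurable g) : BM (fun y => h (g y)) :=
  ⟨hh.1.comp hg, hh.2.imp fun _ hC y => hC _⟩

theorem BM.mul {f g : X → ℂ} (hf : BM f) (hg : BM g) : BM (fun x => f x * g x) := by
  obtain ⟨A, hA⟩ := hf.2
  obtain ⟨B, hB⟩ := hg.2
  refine ⟨hf.1.mul hg.1, A * B, fun x => ?_⟩
  rw [norm_mul]
  exact mul_le_mul (hA x) (hB x) (norm_nonneg _) ((norm_nonneg _).trans (hA x))

theorem BM.conj {f : X → ℂ} (hf : BM f) : BM (fun x => (starRingEnd ℂ) (f x)) := by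
  obtain ⟨A, hA⟩ := hf.2
  refine ⟨?_, A, fun x => ?_⟩
  · exact Complex.continuous_conj.measurable.comp hf.1
  · rw [RCLike.norm_conj]; exact hA x

theorem BM.const (c : ℂ) : BM (fun _ : X => c) := ⟨measurable_const, ‖c‖, fun _ => le_rfl⟩

theorem BM.sub {f g : X → ℂ} (hf : BM f) (hg : BM g) : BM (fun x => f x - g x) := by
  obtain ⟨A, hA⟩ := hf.2
  obtain ⟨B, hB⟩ := hg.2
  refine ⟨hf.1.sub hg.1, A + B, fun x => ?_⟩
  exact (norm_sub_le _ _).trans (add_le_add (hA x) (hB x))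

/-- Cauchy-Schwarz on a probability space -/
theorem norm_int_sq_le {P : Measure Ω} [IsProbabilityMeasure P] {F : Ω → ℂ}
    (hF : AEStronglyMeasurable F P) {C : ℝ} (hC : ∀ᵐ w ∂P, ‖F w‖ ≤ C) :
    ‖∫ w, F w ∂P‖ ^ 2 ≤ ∫ w, ‖F w‖ ^ 2 ∂P := by
  have hi : Integrable F P := Integrable.of_bound hF C hC
  have hn : Integrable (fun w => ‖F w‖) P := hi.norm
  have hsq : Integrable (fun w => ‖F w‖ ^ 2) P := by
    refine Integrable.of_bound (hF.norm.pow 2) (C ^ 2) ?_
    filter_upwards [hC] with w hw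
    rw [Real.norm_eq_abs, abs_of_nonneg (by positivity)]
    exact pow_le_pow_left₀ (norm_nonneg _) hw 2
  have h1 : ‖∫ w, F w ∂P‖ ≤ ∫ w, ‖F w‖ ∂P := norm_integral_le_integral_norm _
  set a := ∫ w, ‖F w‖ ∂P with ha
  have ha0 : 0 ≤ a := integral_nonneg fun _ => norm_nonneg _
  have h2 : 0 ≤ ∫ w, (‖F w‖ - a) ^ 2 ∂P := integral_nonneg fun _ => sq_nonneg _
  have h3 : ∫ w, (‖F w‖ - a) ^ 2 ∂P = ∫ w, ‖F w‖ ^ 2 ∂P - a ^ 2 := by
    have e : (fun w => (‖F w‖ - a) ^ 2) = fun w => ‖F w‖ ^ 2 - 2 * a * ‖F w‖ + a ^ 2 := by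
      funext w; ring
    have hi1 : Integrable (fun w => 2 * a * ‖F w‖) P := hn.const_mul _
    have hi2 : Integrable (fun w => ‖F w‖ ^ 2 - 2 * a * ‖F w‖) P := hsq.sub hi1
    rw [e, integral_add hi2 (integrable_const _), integral_sub hsq hi1, integral_const_mul,
      integral_const]
    simp only [probReal_univ, smul_eq_mul, one_mul]
    rw [← ha]; ring
  have h4 : a ^ 2 ≤ ∫ w, ‖F w‖ ^ 2 ∂P := by linarith
  exact (pow_le_pow_left₀ (norm_nonneg _) h1 2).trans h4

variable {μ : Measure X} {S : ℤ → X → X} {P : Measure Ω} {N : Type*} [CommGroup N]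

namespace Data

variable (D : Data μ S P N)

include D in
theorem isProb [IsProbabilityMeasure μ] : IsProbabilityMeasure P := by
  constructor
  have := D.mp.measure_preimage (s := Set.univ) MeasurableSet.univ.nullMeasurableSet
  simpa using this

theorem ev_one : ∀ᵐ w ∂P, D.ev 1 w = 1 := by
  filter_upwards [D.ev_mul 1 1, D.ev_norm 1] with w h1 h2
  rw [mul_one] at h1
  have hne : D.ev 1 w ≠ 0 := by
    intro h0; rw [h0] at h2; simp at h2
  exact mul_left_cancel₀ hne (by rw [mul_one]; exact h1.symm)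

theorem ev_inv (χ : N) : ∀ᵐ w ∂P, D.ev χ⁻¹ w = (starRingEnd ℂ) (D.ev χ w) := by
  filter_upwards [D.ev_mul χ χ⁻¹, D.ev_norm χ, D.ev_one] with w h1 h2 h3
  rw [mul_inv_cancel, h3] at h1
  have h4 : D.ev χ w * (starRingEnd ℂ) (D.ev χ w) = 1 := by
    rw [Complex.mul_conj, Complex.normSq_eq_norm_sq, h2]; simp
  have hne : D.ev χ w ≠ 0 := by
    intro h0; rw [h0] at h2; simp at h2
  exact mul_left_cancel₀ hne (by rw [h4]; exact h1.symm)

theorem ev_mul_inv (χ ψ : N) :
    ∀ᵐ w ∂P, D.ev (χ * ψ⁻¹) w = D.ev χ w * (starRingEnd ℂ) (D.ev ψ w) := by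
  filter_upwards [D.ev_mul χ ψ⁻¹, D.ev_inv ψ] with w h1 h2
  rw [h1, h2]

/-- the constant characters -/
def scal [IsProbabilityMeasure μ] : Subgroup N where
  carrier := {χ | ∃ z : ℂ, ∀ᵐ w ∂P, D.ev χ w = z}
  one_mem' := ⟨1, D.ev_one⟩
  mul_mem' := by
    rintro χ ψ ⟨z, hz⟩ ⟨y, hy⟩
    refine ⟨z * y, ?_⟩
    filter_upwards [D.ev_mul χ ψ, hz, hy] with w h1 h2 h3
    rw [h1, h2, h3]
  inv_mem' := by
    rintro χ ⟨z, hz⟩
    refine ⟨(starRingEnd ℂ) z, ?_⟩
    filter_upwards [D.ev_inv χ, hz] with w h1 h2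
    rw [h1, h2]

theorem mem_scal [IsProbabilityMeasure μ] {χ : N} :
    χ ∈ D.scal ↔ ∃ z : ℂ, ∀ᵐ w ∂P, D.ev χ w = z := Iff.rfl

theorem al_mem_scal [IsProbabilityMeasure μ] {χ : N} : D.al χ ∈ D.scal ↔ χ ∈ D.scal :=
  ⟨fun ⟨z, hz⟩ => ⟨z, (D.al_const χ z).2 hz⟩, fun ⟨z, hz⟩ => ⟨z, (D.al_const χ z).1 hz⟩⟩

theorem int_al [IsProbabilityMeasure μ] (χ : N) :
    ∫ w, D.ev (D.al χ) w ∂P = ∫ w, D.ev χ w ∂P := by
  have := D.isProb
  by_cases h : ∫ w, D.ev χ w ∂P = 0
  · by_contra hne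
    rw [h] at hne
    obtain ⟨z, hz⟩ := D.ev_mean _ hne
    have h1 := (D.al_const χ z).2 hz
    have e1 : ∫ w, D.ev χ w ∂P = z := by
      rw [integral_congr_ae (g := fun _ => z) h1]; simp
    have e2 : ∫ w, D.ev (D.al χ) w ∂P = z := by
      rw [integral_congr_ae (g := fun _ => z) hz]; simp
    rw [e2, ← e1, h] at hne
    exact hne rfl
  · obtain ⟨z, hz⟩ := D.ev_mean _ h
    have h1 := (D.al_const χ z).1 hz
    rw [integral_congr_ae (g := fun _ => z) h1, integral_congr_ae (g := fun _ => z) hz]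

theorem int_al_nat [IsProbabilityMeasure μ] (n : ℕ) (χ : N) :
    ∫ w, D.ev ((D.al ^ n) χ) w ∂P = ∫ w, D.ev χ w ∂P := by
  induction n with
  | zero => simp
  | succ n ih =>
    rw [pow_succ', MulAut.mul_apply, D.int_al, ih]

theorem int_al_zpow [IsProbabilityMeasure μ] (n : ℤ) (χ : N) :
    ∫ w, D.ev ((D.al ^ n) χ) w ∂P = ∫ w, D.ev χ w ∂P := by
  obtain ⟨m, rfl | rfl⟩ := n.eq_nat_or_neg
  · rw [zpow_natCast]; exact D.int_al_nat m χ
  · have h := D.int_al_nat m ((D.al ^ (-(m : ℤ))) χ)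
    rw [← h]
    congr 1
    funext w
    rw [← MulAut.mul_apply, ← zpow_natCast, ← zpow_add]
    simp

variable [IsProbabilityMeasure μ] (hS : Act μ S)
include hS

theorem pair_nat (n : ℕ) {h : X → ℂ} (hh : BM h) (χ : N) :
    ∫ w, h (S n (D.pr w)) * (starRingEnd ℂ) (D.ev ((D.al ^ n) χ) w) ∂P =
      ∫ w, h (D.pr w) * (starRingEnd ℂ) (D.ev χ w) ∂P := by
  induction n with
  | zero => simp [hS.zero]
  | succ n ih =>
    rw [← ih]
    have h1 := D.al_pair (fun x => h (S n x)) (hh.comp (hS.mp n).measurable) ((D.al ^ n) χ)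
    rw [pow_succ', MulAut.mul_apply, ← h1]
    congr 1
    funext w
    rw [Nat.cast_succ, hS.add]

theorem pair_zpow (n : ℤ) {h : X → ℂ} (hh : BM h) (χ : N) :
    ∫ w, h (S n (D.pr w)) * (starRingEnd ℂ) (D.ev ((D.al ^ n) χ) w) ∂P =
      ∫ w, h (D.pr w) * (starRingEnd ℂ) (D.ev χ w) ∂P := by
  obtain ⟨m, rfl | rfl⟩ := n.eq_nat_or_neg
  · rw [zpow_natCast]; exact D.pair_nat hS m hh χ
  · have h1 := D.pair_nat hS m (h := fun x => h (S (-(m : ℤ)) x))
      (hh.comp (hS.mp _).measurable) ((D.al ^ (-(m : ℤ))) χ)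
    rw [← h1]
    congr 1
    funext w
    rw [← MulAut.mul_apply, ← zpow_natCast, ← zpow_add, ← hS.add]
    simp [hS.zero]

omit hS

/-- `δ r χ = al^r χ / χ` -/
noncomputable def dl (r : ℕ) : N →* N :=
  ((D.al ^ r : MulAut N) : N ≃* N).toMonoidHom / MonoidHom.id N

theorem dl_apply (r : ℕ) (χ : N) : D.dl r χ = (D.al ^ r) χ / χ := rfl

theorem al_dl (r n : ℕ) (χ : N) : (D.al ^ n) (D.dl r χ) = D.dl r ((D.al ^ n) χ) := by
  rw [dl_apply, dl_apply, map_div, ← MulAut.mul_apply, ← MulAut.mul_apply, ← pow_add, ← pow_add,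
    add_comm]

theorem dl_comm (r s : ℕ) (χ : N) : D.dl r (D.dl s χ) = D.dl s (D.dl r χ) := by
  rw [D.dl_apply r, D.al_dl s r, D.dl_apply r χ, map_div]

/-- level of a list of exponents -/
noncomputable def lev : List ℕ → Subgroup N
  | [] => D.scal
  | r :: l => (lev l).comap (D.dl r)

theorem mem_lev_cons {r : ℕ} {l : List ℕ} {χ : N} :
    χ ∈ D.lev (r :: l) ↔ D.dl r χ ∈ D.lev l := Iff.rfl

theorem al_mem_lev (n : ℕ) (l : List ℕ) {χ : N} (h : χ ∈ D.lev l) : (D.al ^ n) χ ∈ D.lev l := by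
  induction l generalizing χ with
  | nil =>
    induction n with
    | zero => simpa using h
    | succ n ih => rw [pow_succ', MulAut.mul_apply]; exact D.al_mem_scal.2 ih
  | cons r l ih =>
    rw [mem_lev_cons] at h ⊢
    rw [← D.al_dl]
    exact ih h

theorem exists_psi (r : ℕ) (l : List ℕ) {χ : N} (h : χ ∈ D.lev (r :: l)) (n : ℕ) :
    ∃ ψ ∈ D.lev l, (D.al ^ (n * r)) χ = χ * ψ := by
  induction n with
  | zero => exact ⟨1, one_mem _, by simp⟩
  | succ n ih =>
    obtain ⟨ψ, hψ, e⟩ := ih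
    refine ⟨ψ * (D.al ^ (n * r)) (D.dl r χ), mul_mem hψ (D.al_mem_lev _ _ h), ?_⟩
    have e1 : (D.al ^ r) χ = D.dl r χ * χ := by rw [dl_apply]; simp
    rw [Nat.succ_mul, pow_add, MulAut.mul_apply, e1, map_mul, e]
    rw [mul_comm, mul_assoc]

/-- pairing of the vectors `v_n` -/
theorem nine_a (hS : Act μ S) (hmix : Mix μ S) (l : List ℕ) (hl : ∀ r ∈ l, 0 < r) :
    ∀ χ ∈ D.lev l, ∀ h : X → ℂ, BM h → ∫ x, h x ∂μ = 0 →
      ∫ w, h (D.pr w) * (starRingEnd ℂ) (D.ev χ w) ∂P = 0 := by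
  have hP := D.isProb
  induction l with
  | nil =>
    rintro χ ⟨z, hz⟩ h hh h0
    have e : ∫ w, h (D.pr w) * (starRingEnd ℂ) (D.ev χ w) ∂P =
        ∫ w, h (D.pr w) * (starRingEnd ℂ) z ∂P := by
      refine integral_congr_ae ?_
      filter_upwards [hz] with w hw
      rw [hw]
    rw [e, integral_mul_const]
    have e2 : ∫ w, h (D.pr w) ∂P = ∫ x, h x ∂μ := by
      have h5 := integral_map (μ := P) D.mp.aemeasurable (f := h) hh.1.aestronglyMeasurable
      rw [D.mp.map_eq] at h5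
      exact h5.symm
    rw [e2, h0, zero_mul]
  | cons r l ih =>
    intro χ hχ h hh h0
    have hr : 0 < r := hl r (by simp)
    have ihl := ih (fun s hs => hl s (by simp [hs]))
    obtain ⟨C, hC⟩ := hh.2
    have hC0 : 0 ≤ C := by
      obtain ⟨x⟩ := nonempty_of_isProbabilityMeasure μ
      exact (norm_nonneg _).trans (hC x)
    choose ψ hψ1 hψ2 using fun n => D.exists_psi r l hχ n
    set δ := ∫ w, h (D.pr w) * (starRingEnd ℂ) (D.ev χ w) ∂P with hδ
    -- the vectors
    set v : ℕ → Ω → ℂ := fun n w => h (S ((n * r : ℕ) : ℤ) (D.pr w)) *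
      (starRingEnd ℂ) (D.ev (ψ n) w) with hv
    have hvm : ∀ n, AEStronglyMeasurable (v n) P := fun n =>
      ((hh.1.comp ((hS.mp _).measurable.comp D.mp.measurable)).aestronglyMeasurable).mul
        (Complex.continuous_conj.comp_aestronglyMeasurable (D.ev_meas _))
    have hvb : ∀ n, ∀ᵐ w ∂P, ‖v n w‖ ≤ C := by
      intro n
      filter_upwards [D.ev_norm (ψ n)] with w hw
      rw [hv]
      simp only [norm_mul, RCLike.norm_conj, hw, mul_one]
      exact hC _
    have hpair : ∀ n, ∫ w, v n w * (starRingEnd ℂ) (D.ev χ w) ∂P = δ := by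
      intro n
      rw [hδ, ← D.pair_nat hS (n * r) hh χ, hψ2 n]
      refine integral_congr_ae ?_
      filter_upwards [D.ev_mul χ (ψ n)] with w hw
      rw [hv, hw, map_mul]
      ring
    -- inner products
    have hin : ∀ n m : ℕ, m ≤ n → ‖∫ w, v n w * (starRingEnd ℂ) (v m w) ∂P‖ ≤
        ‖∫ x, (starRingEnd ℂ) (h x) * h (S (((n - m) * r : ℕ) : ℤ) x) ∂μ‖ := by
      intro n m hmn
      set g : X → ℂ := fun x => h (S ((n * r : ℕ) : ℤ) x) *
        (starRingEnd ℂ) (h (S ((m * r : ℕ) : ℤ) x)) with hg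
      have hgB : BM g := (hh.comp (hS.mp _).measurable).mul (hh.comp (hS.mp _).measurable).conj
      have hη : ψ n * (ψ m)⁻¹ ∈ D.lev l := mul_mem (hψ1 n) (inv_mem (hψ1 m))
      have e0 : ∫ w, v n w * (starRingEnd ℂ) (v m w) ∂P =
          ∫ w, g (D.pr w) * (starRingEnd ℂ) (D.ev (ψ n * (ψ m)⁻¹) w) ∂P := by
        refine integral_congr_ae ?_
        filter_upwards [D.ev_mul_inv (ψ n) (ψ m)] with w hw
        rw [hv, hg, hw]
        simp only [map_mul, Complex.conj_conj]
        ring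
      have e1 := ihl _ hη (fun x => g x - ∫ x, g x ∂μ) (hgB.sub (BM.const _)) (by
        rw [integral_sub hgB.integrable (integrable_const _)]; simp)
      have i1 : Integrable (fun w => g (D.pr w) *
          (starRingEnd ℂ) (D.ev (ψ n * (ψ m)⁻¹) w)) P := by
        obtain ⟨G, hG⟩ := hgB.2
        refine Integrable.of_bound ((hgB.1.comp D.mp.measurable).aestronglyMeasurable.mul
          (Complex.continuous_conj.comp_aestronglyMeasurable (D.ev_meas _))) G ?_
        filter_upwards [D.ev_norm (ψ n * (ψ m)⁻¹)] with w hw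
        rw [norm_mul, RCLike.norm_conj, hw, mul_one]
        exact hG _
      have i2 : Integrable (fun w => (∫ x, g x ∂μ) *
          (starRingEnd ℂ) (D.ev (ψ n * (ψ m)⁻¹) w)) P := by
        refine Integrable.of_bound (aestronglyMeasurable_const.mul
          (Complex.continuous_conj.comp_aestronglyMeasurable (D.ev_meas _))) ‖∫ x, g x ∂μ‖ ?_
        filter_upwards [D.ev_norm (ψ n * (ψ m)⁻¹)] with w hw
        rw [norm_mul, RCLike.norm_conj, hw, mul_one]
      have e2 : ∫ w, g (D.pr w) * (starRingEnd ℂ) (D.ev (ψ n * (ψ m)⁻¹) w) ∂P =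
          (∫ x, g x ∂μ) * ∫ w, (starRingEnd ℂ) (D.ev (ψ n * (ψ m)⁻¹) w) ∂P := by
        rw [← integral_const_mul, ← sub_eq_zero, ← integral_sub i1 i2, ← e1]
        refine integral_congr_ae (Eventually.of_forall fun w => ?_)
        simp only
        ring
      have e3 : ‖∫ w, (starRingEnd ℂ) (D.ev (ψ n * (ψ m)⁻¹) w) ∂P‖ ≤ 1 := by
        have := norm_integral_le_of_norm_le_const (μ := P) (C := 1)
          (f := fun w => (starRingEnd ℂ) (D.ev (ψ n * (ψ m)⁻¹) w)) (by
            filter_upwards [D.ev_norm (ψ n * (ψ m)⁻¹)] with w hw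
            rw [RCLike.norm_conj, hw])
        simpa using this
      have e4 : ∫ x, g x ∂μ =
          ∫ x, (starRingEnd ℂ) (h x) * h (S (((n - m) * r : ℕ) : ℤ) x) ∂μ := by
        have hB : BM (fun x => (starRingEnd ℂ) (h x) * h (S (((n - m) * r : ℕ) : ℤ) x)) :=
          hh.conj.mul (hh.comp (hS.mp _).measurable)
        have h5 := integral_map (hS.mp ((m * r : ℕ) : ℤ)).aemeasurable
          (f := fun x => (starRingEnd ℂ) (h x) * h (S (((n - m) * r : ℕ) : ℤ) x))
          hB.1.aestronglyMeasurable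
        rw [(hS.mp _).map_eq] at h5
        rw [h5]
        refine integral_congr_ae (Eventually.of_forall fun x => ?_)
        simp only [hg]
        rw [← hS.add, ← Nat.cast_add, ← Nat.add_mul, Nat.sub_add_cancel hmn, mul_comm]
      rw [e0, e2, norm_mul, ← e4]
      calc _ ≤ ‖∫ x, g x ∂μ‖ * 1 := mul_le_mul_of_nonneg_left e3 (norm_nonneg _)
        _ = _ := mul_one _
    -- mixing
    have hlim : Tendsto (fun n : ℕ => ‖∫ x, (starRingEnd ℂ) (h x) * h (S (n : ℤ) x) ∂μ‖)
        atTop (𝓝 0) := by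
      have := (hmix _ _ hh.conj hh).norm
      rw [h0, mul_zero, norm_zero] at this
      exact this
    by_contra hne
    have hδpos : 0 < ‖δ‖ ^ 2 := by positivity
    obtain ⟨R, hR⟩ := (hlim.eventually (gt_mem_nhds (half_pos hδpos))).exists_forall_of_atTop
    obtain ⟨M, hM⟩ := exists_nat_gt (C ^ 2 / (‖δ‖ ^ 2 / 2))
    have hM0 : 0 < (M : ℝ) := lt_of_le_of_lt (by positivity) hM
    set t : ℕ → ℕ := fun i => i * (R + 1) with ht
    set F : Ω → ℂ := fun w => ∑ i ∈ Finset.range M, v (t i) w with hF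
    have hFm : AEStronglyMeasurable F P := by
      simp only [hF]
      exact Finset.aestronglyMeasurable_fun_sum _ fun i _ => hvm _
    have hvball : ∀ᵐ w ∂P, ∀ n, ‖v n w‖ ≤ C := ae_all_iff.2 hvb
    have hFb : ∀ᵐ w ∂P, ‖F w‖ ≤ M * C := by
      filter_upwards [hvball] with w hw
      refine (norm_sum_le _ _).trans ?_
      refine (Finset.sum_le_sum fun i _ => hw (t i)).trans ?_
      simp
    have ivc : ∀ n, Integrable (fun w => v n w * (starRingEnd ℂ) (D.ev χ w)) P := by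
      intro n
      refine Integrable.of_bound ((hvm n).mul
        (Complex.continuous_conj.comp_aestronglyMeasurable (D.ev_meas _))) C ?_
      filter_upwards [hvb n, D.ev_norm χ] with w h1 h2
      rw [norm_mul, RCLike.norm_conj, h2, mul_one]
      exact h1
    have hsum1 : ∫ w, F w * (starRingEnd ℂ) (D.ev χ w) ∂P = M * δ := by
      have : (fun w => F w * (starRingEnd ℂ) (D.ev χ w)) =
          fun w => ∑ i ∈ Finset.range M, v (t i) w * (starRingEnd ℂ) (D.ev χ w) := by
        funext w; simp only [hF, Finset.sum_mul]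
      rw [this, integral_finsetSum _ fun i _ => ivc _]
      simp [hpair]
    have ivv : ∀ n m, Integrable (fun w => v n w * (starRingEnd ℂ) (v m w)) P := by
      intro n m
      refine Integrable.of_bound ((hvm n).mul
        (Complex.continuous_conj.comp_aestronglyMeasurable (hvm m))) (C * C) ?_
      filter_upwards [hvb n, hvb m] with w h1 h2
      rw [norm_mul, RCLike.norm_conj]
      exact mul_le_mul h1 h2 (norm_nonneg _) hC0
    have hsum2 : ((∫ w, ‖F w‖ ^ 2 ∂P : ℝ) : ℂ) =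
        ∑ i ∈ Finset.range M, ∑ j ∈ Finset.range M,
          ∫ w, v (t i) w * (starRingEnd ℂ) (v (t j) w) ∂P := by
      have h9 : ((∫ w, ‖F w‖ ^ 2 ∂P : ℝ) : ℂ) = ∫ w, ((‖F w‖ ^ 2 : ℝ) : ℂ) ∂P :=
        integral_ofReal.symm
      rw [h9]
      have : (fun w => ((‖F w‖ ^ 2 : ℝ) : ℂ)) = fun w => ∑ i ∈ Finset.range M,
          ∑ j ∈ Finset.range M, v (t i) w * (starRingEnd ℂ) (v (t j) w) := by
        funext w
        rw [← Complex.normSq_eq_norm_sq, ← Complex.mul_conj]
        simp only [hF, map_sum, Finset.sum_mul, Finset.mul_sum]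
        exact Finset.sum_comm
      rw [this, integral_finsetSum _ fun i _ => integrable_finsetSum _ fun j _ => ivv _ _]
      refine Finset.sum_congr rfl fun i _ => ?_
      rw [integral_finsetSum _ fun j _ => ivv _ _]
    have hdiag : ∀ n, ‖∫ w, v n w * (starRingEnd ℂ) (v n w) ∂P‖ ≤ C ^ 2 := by
      intro n
      have := norm_integral_le_of_norm_le_const (μ := P) (C := C ^ 2)
        (f := fun w => v n w * (starRingEnd ℂ) (v n w)) (by
          filter_upwards [hvb n] with w hw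
          rw [norm_mul, RCLike.norm_conj, sq]
          exact mul_le_mul hw hw (norm_nonneg _) hC0)
      simpa using this
    have hoff : ∀ i j, i ≠ j → ‖∫ w, v (t i) w * (starRingEnd ℂ) (v (t j) w) ∂P‖ ≤
        ‖δ‖ ^ 2 / 2 := by
      have key : ∀ i j, j < i → ‖∫ w, v (t i) w * (starRingEnd ℂ) (v (t j) w) ∂P‖ ≤
          ‖δ‖ ^ 2 / 2 := by
        intro i j hij
        have hle : t j ≤ t i := Nat.mul_le_mul_right _ hij.le
        refine (hin _ _ hle).trans (le_of_lt (hR _ ?_))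
        have h1 : 1 ≤ i - j := by omega
        have h2 : R + 1 ≤ t i - t j := by
          rw [ht]
          simp only
          rw [← Nat.sub_mul]
          exact Nat.le_mul_of_pos_left _ h1
        calc R ≤ (t i - t j) * 1 := by omega
          _ ≤ (t i - t j) * r := Nat.mul_le_mul_left _ hr
      intro i j hij
      rcases lt_or_gt_of_ne hij with h1 | h1
      · have h2 := key j i h1
        have h3 : ∫ w, v (t i) w * (starRingEnd ℂ) (v (t j) w) ∂P =
            (starRingEnd ℂ) (∫ w, v (t j) w * (starRingEnd ℂ) (v (t i) w) ∂P) := by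
          rw [← integral_conj]
          refine integral_congr_ae (Eventually.of_forall fun w => ?_)
          simp only [map_mul, Complex.conj_conj]
          ring
        rw [h3, RCLike.norm_conj]
        exact h2
      · exact key i j h1
    have hub : ∫ w, ‖F w‖ ^ 2 ∂P ≤ M * C ^ 2 + M ^ 2 * (‖δ‖ ^ 2 / 2) := by
      have h1 : ∫ w, ‖F w‖ ^ 2 ∂P = ‖((∫ w, ‖F w‖ ^ 2 ∂P : ℝ) : ℂ)‖ := by
        rw [Complex.norm_real, Real.norm_of_nonneg (integral_nonneg fun _ => by positivity)]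
      rw [h1, hsum2]
      refine (norm_sum_le _ _).trans ?_
      have h2 : ∀ i ∈ Finset.range M, ‖∑ j ∈ Finset.range M,
          ∫ w, v (t i) w * (starRingEnd ℂ) (v (t j) w) ∂P‖ ≤ C ^ 2 + M * (‖δ‖ ^ 2 / 2) := by
        intro i hi
        refine (norm_sum_le _ _).trans ?_
        calc ∑ j ∈ Finset.range M, ‖∫ w, v (t i) w * (starRingEnd ℂ) (v (t j) w) ∂P‖
            ≤ ∑ j ∈ Finset.range M, ((if i = j then C ^ 2 else 0) + ‖δ‖ ^ 2 / 2) := by
              refine Finset.sum_le_sum fun j _ => ?_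
              split_ifs with hij
              · subst hij
                have := hdiag (t i)
                have : 0 ≤ ‖δ‖ ^ 2 / 2 := by positivity
                linarith [hdiag (t i)]
              · rw [zero_add]; exact hoff i j hij
          _ = C ^ 2 + M * (‖δ‖ ^ 2 / 2) := by
              rw [Finset.sum_add_distrib, Finset.sum_ite_eq, if_pos hi]
              simp
      refine (Finset.sum_le_sum h2).trans ?_
      simp only [Finset.sum_const, Finset.card_range, nsmul_eq_mul]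
      nlinarith
    have hlb : ‖(M : ℂ) * δ‖ ^ 2 ≤ ∫ w, ‖F w‖ ^ 2 ∂P := by
      rw [← hsum1]
      refine (norm_int_sq_le (F := fun w => F w * (starRingEnd ℂ) (D.ev χ w)) (hFm.mul
        (Complex.continuous_conj.comp_aestronglyMeasurable (D.ev_meas χ))) (C := M * C) ?_).trans ?_
      · filter_upwards [hFb, D.ev_norm χ] with w h1 h2
        rw [norm_mul, RCLike.norm_conj, h2, mul_one]
        exact h1
      · refine le_of_eq (integral_congr_ae ?_)
        filter_upwards [D.ev_norm χ] with w h2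
        simp only [norm_mul, RCLike.norm_conj, h2, mul_one]
    rw [norm_mul, Complex.norm_natCast, mul_pow] at hlb
    have hfin : (M : ℝ) ^ 2 * ‖δ‖ ^ 2 ≤ M * C ^ 2 + M ^ 2 * (‖δ‖ ^ 2 / 2) := hlb.trans hub
    rw [div_lt_iff₀ (half_pos hδpos)] at hM
    nlinarith

end Data

end Crest.Agent.R069.End
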