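import Crest.Agent.R069.End1

/-! Row 69, END part 2: trigonometric approximation. -/

set_option linter.unusedSectionVars false
set_option linter.unusedVariables false

open MeasureTheory Filter Topology

namespace Crest.Agent.R069.End

variable {X Ω : Type*} [MeasurableSpace X] [MeasurableSpace Ω]

/-- bounded a.e. measurable functions -/
def AB (P : Measure Ω) (F : Ω → ℂ) : Prop :=
  AEStronglyMeasurable F P ∧ ∃ C : ℝ, ∀ᵐ w ∂P, ‖F w‖ ≤ C

section AB
variable {P : Measure Ω}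

theorem AB.int [IsFiniteMeasure P] {F : Ω → ℂ} (h : AB P F) : Integrable F P := by
  obtain ⟨C, hC⟩ := h.2
  exact Integrable.of_bound h.1 C hC

theorem AB.mul {F G : Ω → ℂ} (hF : AB P F) (hG : AB P G) : AB P (fun w => F w * G w) := by
  obtain ⟨A, hA⟩ := hF.2
  obtain ⟨B, hB⟩ := hG.2
  refine ⟨hF.1.mul hG.1, A * B, ?_⟩
  filter_upwards [hA, hB] with w h1 h2
  rw [norm_mul]
  exact mul_le_mul h1 h2 (norm_nonneg _) ((norm_nonneg _).trans h1)

theorem AB.conj {F : Ω → ℂ} (hF : AB P F) : AB P (fun w => (starRingEnd ℂ) (F w)) := by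
  obtain ⟨A, hA⟩ := hF.2
  refine ⟨Complex.continuous_conj.comp_aestronglyMeasurable hF.1, A, ?_⟩
  filter_upwards [hA] with w h1
  rw [RCLike.norm_conj]; exact h1

theorem AB.sub {F G : Ω → ℂ} (hF : AB P F) (hG : AB P G) : AB P (fun w => F w - G w) := by
  obtain ⟨A, hA⟩ := hF.2
  obtain ⟨B, hB⟩ := hG.2
  refine ⟨hF.1.sub hG.1, A + B, ?_⟩
  filter_upwards [hA, hB] with w h1 h2
  exact (norm_sub_le _ _).trans (add_le_add h1 h2)

theorem AB.const (c : ℂ) : AB P (fun _ => c) :=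
  ⟨aestronglyMeasurable_const, ‖c‖, Eventually.of_forall fun _ => le_rfl⟩

theorem AB.sum {ι : Type*} (s : Finset ι) {F : ι → Ω → ℂ} (hF : ∀ i ∈ s, AB P (F i)) :
    AB P (fun w => ∑ i ∈ s, F i w) := by
  classical
  induction s using Finset.induction_on with
  | empty => simpa using AB.const (P := P) 0
  | insert a s ha ih =>
    have h1 := hF a (by simp)
    have h2 := ih fun i hi => hF i (by simp [hi])
    obtain ⟨A, hA⟩ := h1.2
    obtain ⟨B, hB⟩ := h2.2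
    refine ⟨?_, A + B, ?_⟩
    · simp only [Finset.sum_insert ha]; exact h1.1.add h2.1
    · filter_upwards [hA, hB] with w h3 h4
      rw [Finset.sum_insert ha]
      exact (norm_add_le _ _).trans (add_le_add h3 h4)

theorem AB.prod {ι : Type*} (s : Finset ι) {F : ι → Ω → ℂ} (hF : ∀ i ∈ s, AB P (F i)) :
    AB P (fun w => ∏ i ∈ s, F i w) := by
  classical
  induction s using Finset.induction_on with
  | empty => simpa using AB.const (P := P) 1
  | insert a s ha ih =>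
    have h := (hF a (by simp)).mul (ih fun i hi => hF i (by simp [hi]))
    simpa only [Finset.prod_insert ha] using h

/-- `∫ |A - B|²` expanded -/
theorem l2_sub [IsFiniteMeasure P] {A B : Ω → ℂ} (hA : AB P A) (hB : AB P B) :
    ((∫ w, ‖A w - B w‖ ^ 2 ∂P : ℝ) : ℂ) =
      ∫ w, A w * (starRingEnd ℂ) (A w) ∂P - ∫ w, A w * (starRingEnd ℂ) (B w) ∂P
        - (starRingEnd ℂ) (∫ w, A w * (starRingEnd ℂ) (B w) ∂P)
        + ∫ w, B w * (starRingEnd ℂ) (B w) ∂P := by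
  have h9 : ((∫ w, ‖A w - B w‖ ^ 2 ∂P : ℝ) : ℂ) = ∫ w, ((‖A w - B w‖ ^ 2 : ℝ) : ℂ) ∂P :=
    integral_ofReal.symm
  rw [h9, ← integral_conj]
  have i1 : Integrable (fun w => A w * (starRingEnd ℂ) (A w)) P := (hA.mul hA.conj).int
  have i2 : Integrable (fun w => A w * (starRingEnd ℂ) (B w)) P := (hA.mul hB.conj).int
  have i3 : Integrable (fun w => (starRingEnd ℂ) (A w * (starRingEnd ℂ) (B w))) P :=
    (hA.mul hB.conj).conj.int
  have i4 : Integrable (fun w => B w * (starRingEnd ℂ) (B w)) P := (hB.mul hB.conj).int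
  have i12 : Integrable (fun w => A w * (starRingEnd ℂ) (A w) -
      A w * (starRingEnd ℂ) (B w)) P := i1.sub i2
  have i123 : Integrable (fun w => A w * (starRingEnd ℂ) (A w) -
      A w * (starRingEnd ℂ) (B w) - (starRingEnd ℂ) (A w * (starRingEnd ℂ) (B w))) P := i12.sub i3
  rw [← integral_sub i1 i2, ← integral_sub i12 i3, ← integral_add i123 i4]
  refine integral_congr_ae (Eventually.of_forall fun w => ?_)
  simp only
  rw [← Complex.normSq_eq_norm_sq, ← Complex.mul_conj]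
  simp only [map_sub, map_mul, Complex.conj_conj]
  ring

end AB

variable {μ : Measure X} {S : ℤ → X → X} {P : Measure Ω} {N : Type*} [CommGroup N]

namespace Data

variable (D : Data μ S P N)

theorem ev_AB (χ : N) : AB P (D.ev χ) :=
  ⟨D.ev_meas χ, 1, (D.ev_norm χ).mono fun _ h => h.le⟩

theorem pr_AB {h : X → ℂ} (hh : BM h) : AB P (fun w => h (D.pr w)) :=
  ⟨(hh.1.comp D.mp.measurable).aestronglyMeasurable,
    hh.2.imp fun _ hC => Eventually.of_forall fun _ => hC _⟩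

theorem sum_AB (F : Finset N) (c : N → ℂ) (g : N → N) :
    AB P (fun w => ∑ χ ∈ F, c χ * D.ev (g χ) w) :=
  AB.sum F fun χ _ => (AB.const (c χ)).mul (D.ev_AB _)

theorem int_pr {h : X → ℂ} (hh : BM h) : ∫ w, h (D.pr w) ∂P = ∫ x, h x ∂μ := by
  have h5 := integral_map (μ := P) D.mp.aemeasurable (f := h)
    (by rw [D.mp.map_eq]; exact hh.1.aestronglyMeasurable)
  rw [D.mp.map_eq] at h5
  exact h5.symm

variable [IsProbabilityMeasure μ]

theorem int_ev_conj (χ ψ : N) : ∫ w, D.ev χ w * (starRingEnd ℂ) (D.ev ψ w) ∂P =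
    ∫ w, D.ev (χ * ψ⁻¹) w ∂P :=
  (integral_congr_ae (D.ev_mul_inv χ ψ)).symm

theorem span' {h : X → ℂ} (hh : BM h) {ε : ℝ} (hε : 0 < ε) :
    ∃ (F : Finset N) (c : N → ℂ),
      (∀ χ ∈ F, ∫ w, h (D.pr w) * (starRingEnd ℂ) (D.ev χ w) ∂P ≠ 0) ∧
      ∫ w, ‖h (D.pr w) - ∑ χ ∈ F, c χ * D.ev χ w‖ ^ 2 ∂P < ε := by
  classical
  have hP := D.isProb
  obtain ⟨F, c, hF⟩ := D.span h hh ε hε
  set co : N → ℂ := fun χ => ∫ w, h (D.pr w) * (starRingEnd ℂ) (D.ev χ w) ∂P with hco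
  set F1 := F.filter fun χ => co χ ≠ 0 with hF1
  set F2 := F.filter fun χ => ¬ co χ ≠ 0 with hF2
  refine ⟨F1, c, fun χ hχ => (Finset.mem_filter.1 hχ).2, ?_⟩
  set A : Ω → ℂ := fun w => h (D.pr w) - ∑ χ ∈ F1, c χ * D.ev χ w with hA
  set B : Ω → ℂ := fun w => ∑ χ ∈ F2, c χ * D.ev χ w with hB
  have hAB1 : AB P A := (D.pr_AB hh).sub (D.sum_AB F1 c id)
  have hAB2 : AB P B := D.sum_AB F2 c id
  have hsplit : ∀ w, h (D.pr w) - ∑ χ ∈ F, c χ * D.ev χ w = A w - B w := by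
    intro w
    have := Finset.sum_filter_add_sum_filter_not F (fun χ => co χ ≠ 0)
      (fun χ => c χ * D.ev χ w)
    rw [hA, hB]
    simp only
    rw [sub_sub, this]
  -- orthogonality
  have horth : ∀ ψ ∈ F2, ∫ w, A w * (starRingEnd ℂ) (D.ev ψ w) ∂P = 0 := by
    intro ψ hψ
    have hψ0 : co ψ = 0 := by simpa using (Finset.mem_filter.1 hψ).2
    have e1 : ∀ w, A w * (starRingEnd ℂ) (D.ev ψ w) =
        h (D.pr w) * (starRingEnd ℂ) (D.ev ψ w) -
          ∑ χ ∈ F1, c χ * (D.ev χ w * (starRingEnd ℂ) (D.ev ψ w)) := by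
      intro w
      simp only [hA]
      rw [sub_mul, Finset.sum_mul]
      congr 1
      exact Finset.sum_congr rfl fun _ _ => by ring
    simp_rw [e1]
    have i1 : Integrable (fun w => h (D.pr w) * (starRingEnd ℂ) (D.ev ψ w)) P :=
      ((D.pr_AB hh).mul (D.ev_AB ψ).conj).int
    have i2 : ∀ χ ∈ F1, Integrable (fun w => c χ * (D.ev χ w * (starRingEnd ℂ) (D.ev ψ w))) P :=
      fun χ _ => ((AB.const (c χ)).mul ((D.ev_AB χ).mul (D.ev_AB ψ).conj)).int
    rw [integral_sub i1 (integrable_finsetSum _ i2), integral_finsetSum _ i2]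
    have e2 : ∫ w, h (D.pr w) * (starRingEnd ℂ) (D.ev ψ w) ∂P = 0 := hψ0
    rw [e2, zero_sub, neg_eq_zero]
    refine Finset.sum_eq_zero fun χ hχ => ?_
    rw [integral_const_mul]
    have hχ0 : co χ ≠ 0 := (Finset.mem_filter.1 hχ).2
    have e3 : ∫ w, D.ev χ w * (starRingEnd ℂ) (D.ev ψ w) ∂P = 0 := by
      by_contra hne
      rw [D.int_ev_conj] at hne
      obtain ⟨z, hz⟩ := D.ev_mean _ hne
      apply hχ0
      have e4 : co χ = (starRingEnd ℂ) z * co ψ := by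
        simp only [hco]
        rw [← integral_const_mul]
        refine integral_congr_ae ?_
        filter_upwards [hz, D.ev_mul_inv χ ψ, D.ev_norm ψ] with w h1 h2 h3
        have h4 : D.ev χ w = z * D.ev ψ w := by
          rw [← h1, h2, mul_assoc, mul_comm ((starRingEnd ℂ) (D.ev ψ w)), Complex.mul_conj,
            Complex.normSq_eq_norm_sq, h3]
          simp
        rw [h4, map_mul]; ring
      rw [e4, hψ0, mul_zero]
    rw [e3, mul_zero]
  have hAB0 : ∫ w, A w * (starRingEnd ℂ) (B w) ∂P = 0 := by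
    have e1 : ∀ w, A w * (starRingEnd ℂ) (B w) =
        ∑ ψ ∈ F2, (starRingEnd ℂ) (c ψ) * (A w * (starRingEnd ℂ) (D.ev ψ w)) := by
      intro w
      simp only [hB, map_sum, map_mul, Finset.mul_sum]
      exact Finset.sum_congr rfl fun _ _ => by ring
    simp_rw [e1]
    rw [integral_finsetSum _ fun ψ _ =>
      ((AB.const ((starRingEnd ℂ) (c ψ))).mul (hAB1.mul (D.ev_AB ψ).conj)).int]
    refine Finset.sum_eq_zero fun ψ hψ => ?_
    rw [integral_const_mul, horth ψ hψ, mul_zero]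
  have key := l2_sub hAB1 hAB2
  rw [hAB0] at key
  have keyA := l2_sub hAB1 (AB.const (P := P) 0)
  simp only [map_zero, mul_zero, integral_zero, sub_zero, add_zero] at keyA key
  have keyB := l2_sub hAB2 (AB.const (P := P) 0)
  simp only [map_zero, mul_zero, integral_zero, sub_zero, add_zero] at keyB
  rw [← keyA, ← keyB, ← Complex.ofReal_add, Complex.ofReal_inj] at key
  have hB0 : 0 ≤ ∫ w, ‖B w‖ ^ 2 ∂P := integral_nonneg fun _ => by positivity
  have : ∫ w, ‖h (D.pr w) - ∑ χ ∈ F, c χ * D.ev χ w‖ ^ 2 ∂P = ∫ w, ‖A w - B w‖ ^ 2 ∂P := by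
    simp_rw [hsplit]
  rw [this, key] at hF
  linarith

/-- the L² error is invariant under the dynamics -/
theorem norm_shift (hS : Act μ S) {h : X → ℂ} (hh : BM h) (F : Finset N) (c : N → ℂ) (n : ℤ) :
    ∫ w, ‖h (S n (D.pr w)) - ∑ χ ∈ F, c χ * D.ev ((D.al ^ n) χ) w‖ ^ 2 ∂P =
      ∫ w, ‖h (D.pr w) - ∑ χ ∈ F, c χ * D.ev χ w‖ ^ 2 ∂P := by
  have hP := D.isProb
  have hhn : BM (fun x => h (S n x)) := hh.comp (hS.mp n).measurable
  have a1 : AB P (fun w => h (S n (D.pr w))) := D.pr_AB hhn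
  have a2 := D.sum_AB F c (fun χ => (D.al ^ n) χ)
  have b1 := D.pr_AB hh
  have b2 : AB P (fun w => ∑ χ ∈ F, c χ * D.ev χ w) := D.sum_AB F c id
  have k1 := l2_sub a1 a2
  have k2 := l2_sub b1 b2
  rw [← Complex.ofReal_inj, k1, k2]
  have e1 : ∫ w, h (S n (D.pr w)) * (starRingEnd ℂ) (h (S n (D.pr w))) ∂P =
      ∫ w, h (D.pr w) * (starRingEnd ℂ) (h (D.pr w)) ∂P := by
    have hq : BM (fun x => h x * (starRingEnd ℂ) (h x)) := hh.mul hh.conj
    have q1 := D.int_pr (h := fun x => h (S n x) * (starRingEnd ℂ) (h (S n x)))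
      (hhn.mul hhn.conj)
    have q2 := D.int_pr hq
    rw [q1, q2]
    have h5 := integral_map (μ := μ) (hS.mp n).aemeasurable
      (f := fun x => h x * (starRingEnd ℂ) (h x))
      (by rw [(hS.mp n).map_eq]; exact hq.1.aestronglyMeasurable)
    rw [(hS.mp n).map_eq] at h5
    exact h5.symm
  have e2 : ∫ w, h (S n (D.pr w)) *
      (starRingEnd ℂ) (∑ χ ∈ F, c χ * D.ev ((D.al ^ n) χ) w) ∂P =
      ∫ w, h (D.pr w) * (starRingEnd ℂ) (∑ χ ∈ F, c χ * D.ev χ w) ∂P := by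
    have f1 : ∀ w, h (S n (D.pr w)) *
      (starRingEnd ℂ) (∑ χ ∈ F, c χ * D.ev ((D.al ^ n) χ) w) = ∑ χ ∈ F,
        (starRingEnd ℂ) (c χ) * (h (S n (D.pr w)) * (starRingEnd ℂ) (D.ev ((D.al ^ n) χ) w)) := by
      intro w
      simp only [map_sum, map_mul, Finset.mul_sum]
      exact Finset.sum_congr rfl fun _ _ => by ring
    have f2 : ∀ w, h (D.pr w) *
      (starRingEnd ℂ) (∑ χ ∈ F, c χ * D.ev χ w) = ∑ χ ∈ F,
        (starRingEnd ℂ) (c χ) * (h (D.pr w) * (starRingEnd ℂ) (D.ev χ w)) := by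
      intro w
      simp only [map_sum, map_mul, Finset.mul_sum]
      exact Finset.sum_congr rfl fun _ _ => by ring
    simp_rw [f1, f2]
    rw [integral_finsetSum _ fun χ _ =>
      ((AB.const ((starRingEnd ℂ) (c χ))).mul (a1.mul (D.ev_AB _).conj)).int,
      integral_finsetSum _ fun χ _ =>
      ((AB.const ((starRingEnd ℂ) (c χ))).mul (b1.mul (D.ev_AB _).conj)).int]
    refine Finset.sum_congr rfl fun χ _ => ?_
    rw [integral_const_mul, integral_const_mul, D.pair_zpow hS n hh χ]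
  have e3 : ∫ w, (∑ χ ∈ F, c χ * D.ev ((D.al ^ n) χ) w) *
      (starRingEnd ℂ) (∑ χ ∈ F, c χ * D.ev ((D.al ^ n) χ) w) ∂P =
      ∫ w, (∑ χ ∈ F, c χ * D.ev χ w) *
        (starRingEnd ℂ) (∑ χ ∈ F, c χ * D.ev χ w) ∂P := by
    have f1 : ∀ g : N → N, ∀ w, (∑ χ ∈ F, c χ * D.ev (g χ) w) *
      (starRingEnd ℂ) (∑ χ ∈ F, c χ * D.ev (g χ) w) = ∑ χ ∈ F, ∑ ψ ∈ F,
        (c χ * (starRingEnd ℂ) (c ψ)) * (D.ev (g χ) w * (starRingEnd ℂ) (D.ev (g ψ) w)) := by
      intro g w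
      simp only [map_sum, map_mul, Finset.mul_sum, Finset.sum_mul]
      rw [Finset.sum_comm]
      exact Finset.sum_congr rfl fun _ _ => Finset.sum_congr rfl fun _ _ => by ring
    have f3 : ∀ g : N → N, ∫ w, (∑ χ ∈ F, c χ * D.ev (g χ) w) *
      (starRingEnd ℂ) (∑ χ ∈ F, c χ * D.ev (g χ) w) ∂P = ∑ χ ∈ F, ∑ ψ ∈ F,
        (c χ * (starRingEnd ℂ) (c ψ)) * ∫ w, D.ev (g χ * (g ψ)⁻¹) w ∂P := by
      intro g
      simp_rw [f1 g]
      rw [integral_finsetSum _ fun χ _ => (AB.sum F fun ψ _ =>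
        (AB.const (c χ * (starRingEnd ℂ) (c ψ))).mul ((D.ev_AB _).mul (D.ev_AB _).conj)).int]
      refine Finset.sum_congr rfl fun χ _ => ?_
      rw [integral_finsetSum _ fun ψ _ =>
        ((AB.const (c χ * (starRingEnd ℂ) (c ψ))).mul ((D.ev_AB _).mul (D.ev_AB _).conj)).int]
      refine Finset.sum_congr rfl fun ψ _ => ?_
      rw [integral_const_mul, D.int_ev_conj]
    have g1 := f3 (fun χ => (D.al ^ n) χ)
    have g2 : ∫ w, (∑ χ ∈ F, c χ * D.ev χ w) *
        (starRingEnd ℂ) (∑ χ ∈ F, c χ * D.ev χ w) ∂P = ∑ χ ∈ F, ∑ ψ ∈ F,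
        (c χ * (starRingEnd ℂ) (c ψ)) * ∫ w, D.ev (χ * ψ⁻¹) w ∂P := f3 id
    rw [g1, g2]
    refine Finset.sum_congr rfl fun χ _ => Finset.sum_congr rfl fun ψ _ => ?_
    rw [← map_inv, ← map_mul, D.int_al_zpow]
  rw [e1, e2, e3]

end Data

end Crest.Agent.R069.End
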