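import Mathlib

/-!
Row 69, node ENV, part A: relative powers `M ×_C M^(1) ×_C ... ×_C M^(ι)` over a sub-σ-algebra,
realised as `μ ⊗ₘ (independent power of condExpKernel μ mC)`.
-/

set_option autoImplicit false
open MeasureTheory ProbabilityTheory Filter Topology

namespace Crest.Agent.R069.Env

/-- the independent power of a Markov kernel -/
noncomputable def piKer {α β : Type*} [MeasurableSpace α] [MeasurableSpace β] (κ : Kernel α β)
    [IsMarkovKernel κ] (ι : Type*) [Fintype ι] : Kernel α (ι → β) where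
  toFun a := Measure.pi (fun _ => κ a)
  measurable' := by
    refine Measurable.measure_of_isPiSystem_of_isProbabilityMeasure generateFrom_pi.symm
      isPiSystem_pi ?_
    rintro s ⟨t, ht, rfl⟩
    have : (fun b => (Measure.pi (fun _ : ι => κ b)) (Set.univ.pi t)) =
        fun b => ∏ i, κ b (t i) := by
      funext b
      rw [Measure.pi_pi]
    rw [this]
    exact Finset.measurable_prod _ (fun i _ => κ.measurable_coe (ht i (Set.mem_univ i)))

lemma piKer_apply {α β : Type*} [MeasurableSpace α] [MeasurableSpace β] (κ : Kernel α β)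
    [IsMarkovKernel κ] (ι : Type*) [Fintype ι] (a : α) :
    piKer κ ι a = Measure.pi (fun _ => κ a) := rfl

instance {α β : Type*} [MeasurableSpace α] [MeasurableSpace β] (κ : Kernel α β)
    [IsMarkovKernel κ] (ι : Type*) [Fintype ι] : IsMarkovKernel (piKer κ ι) :=
  ⟨fun a => by rw [piKer_apply]; infer_instance⟩

/-- the relative power measure on `Ω × (ι → Ω)` -/
noncomputable def relPow {Ω : Type*} [MeasurableSpace Ω] (μ : Measure Ω) (κ : Kernel Ω Ω)
    [IsMarkovKernel κ] (ι : Type*) [Fintype ι] : Measure (Ω × (ι → Ω)) :=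
  μ ⊗ₘ piKer κ ι

instance {Ω : Type*} [MeasurableSpace Ω] (μ : Measure Ω) [IsProbabilityMeasure μ] (κ : Kernel Ω Ω)
    [IsMarkovKernel κ] (ι : Type*) [Fintype ι] : IsProbabilityMeasure (relPow μ κ ι) := by
  unfold relPow; infer_instance

section Basic

variable {Ω : Type*} [mΩ : MeasurableSpace Ω] (μ : Measure Ω) [IsProbabilityMeasure μ]
  (κ : Kernel Ω Ω) [IsMarkovKernel κ] {ι : Type*} [Fintype ι]

/-- bounded measurable functions are integrable -/
lemma int_bdd {α : Type*} [MeasurableSpace α] {ν : Measure α} [IsFiniteMeasure ν] {f : α → ℝ}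
    (hf : Measurable f) {C : ℝ} (hb : ∀ x, |f x| ≤ C) : Integrable f ν :=
  Integrable.of_bound hf.aestronglyMeasurable C (Eventually.of_forall (fun x => by
    simpa [Real.norm_eq_abs] using hb x))

lemma integral_relPow {F : Ω × (ι → Ω) → ℝ} (hF : Measurable F) {C : ℝ} (hb : ∀ x, |F x| ≤ C) :
    ∫ p, F p ∂(relPow μ κ ι) = ∫ ω, ∫ y, F (ω, y) ∂(Measure.pi (fun _ : ι => κ ω)) ∂μ := by
  unfold relPow
  rw [Measure.integral_compProd (int_bdd hF hb)]
  rfl

/-- main computation: product functions `f(ω) ∏ W_i(ω, y_i)` -/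
lemma integral_relPow_prod {f : Ω → ℝ} (hf : Measurable f) {Cf : ℝ} (hfb : ∀ x, |f x| ≤ Cf)
    {W : ι → Ω × Ω → ℝ} (hW : ∀ i, Measurable (W i)) {CW : ℝ} (hWb : ∀ i x, |W i x| ≤ CW) :
    ∫ p, f p.1 * ∏ i, W i (p.1, p.2 i) ∂(relPow μ κ ι)
      = ∫ ω, f ω * ∏ i, ∫ y, W i (ω, y) ∂(κ ω) ∂μ := by
  have hm : Measurable (fun p : Ω × (ι → Ω) => f p.1 * ∏ i, W i (p.1, p.2 i)) := by
    refine (hf.comp measurable_fst).mul (Finset.measurable_prod _ (fun i _ => ?_))
    exact (hW i).comp (measurable_fst.prodMk ((measurable_pi_apply i).comp measurable_snd))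
  have hb : ∀ p : Ω × (ι → Ω), |f p.1 * ∏ i, W i (p.1, p.2 i)| ≤ Cf * ∏ _i : ι, CW := by
    intro p
    rw [abs_mul, Finset.abs_prod]
    have h0 : 0 ≤ Cf := le_trans (abs_nonneg _) (hfb p.1)
    exact mul_le_mul (hfb _) (Finset.prod_le_prod (fun i _ => abs_nonneg _) (fun i _ => hWb i _))
      (Finset.prod_nonneg (fun i _ => abs_nonneg _)) h0
  rw [integral_relPow μ κ hm hb]
  congr 1
  funext ω
  show (∫ y : ι → Ω, f ω * ∏ i, W i (ω, y i) ∂(Measure.pi (fun _ : ι => κ ω))) = _
  rw [integral_const_mul]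
  congr 1
  exact integral_fintype_prod_eq_prod (μ := fun _ : ι => κ ω) (fun i y => W i (ω, y))

/-- the map `(ω, y) ↦ (ω, y_i)` sends `relPow` to `μ ⊗ₘ κ` -/
lemma mp_pair (i : ι) :
    MeasurePreserving (fun p : Ω × (ι → Ω) => (p.1, p.2 i)) (relPow μ κ ι) (μ ⊗ₘ κ) := by
  classical
  have hm : Measurable (fun p : Ω × (ι → Ω) => (p.1, p.2 i)) :=
    measurable_fst.prodMk ((measurable_pi_apply i).comp measurable_snd)
  refine ⟨hm, ?_⟩
  ext s hs
  rw [Measure.map_apply hm hs, relPow, Measure.compProd_apply (hm hs), Measure.compProd_apply hs]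
  congr 1
  funext ω
  have : (Prod.mk ω ⁻¹' ((fun p : Ω × (ι → Ω) => (p.1, p.2 i)) ⁻¹' s)) =
      (Function.eval i) ⁻¹' (Prod.mk ω ⁻¹' s) := rfl
  rw [this, piKer_apply]
  have h2 := (measurePreserving_eval (fun _ : ι => κ ω) i)
  rw [← h2.map_eq, Measure.map_apply (measurable_pi_apply i) (measurable_prodMk_left hs)]
  rw [h2.map_eq]

end Basic


section Cond

variable {Ω : Type*} (mC : MeasurableSpace Ω) [mΩ : MeasurableSpace Ω] [StandardBorelSpace Ω]
  (μ : Measure Ω) [IsProbabilityMeasure μ] (hC : mC ≤ mΩ)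

/-- the conditional expectation kernel as a kernel from the full σ-algebra -/
noncomputable def ck : Kernel Ω Ω :=
  (condExpKernel μ mC).comap id (measurable_id'' hC)

instance : IsMarkovKernel (ck mC μ hC) := by unfold ck; infer_instance

lemma ck_apply (ω : Ω) : ck mC μ hC ω = condExpKernel μ mC ω := rfl

lemma condExp_ck {f : Ω → ℝ} (hf : Integrable f μ) :
    μ[f|mC] =ᵐ[μ] fun ω => ∫ y, f y ∂(ck mC μ hC ω) :=
  condExp_ae_eq_integral_condExpKernel hC hf

lemma measurable_ck {f : Ω → ℝ} (hf : Measurable f) :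
    Measurable[mC] (fun ω => ∫ y, f y ∂(ck mC μ hC ω)) := by
  have := (hf.stronglyMeasurable).integral_condExpKernel (μ := μ) (m := mC)
  exact this.measurable

lemma ck_bdd {f : Ω → ℝ} {C : ℝ} (hb : ∀ x, |f x| ≤ C) (ω : Ω) :
    |∫ y, f y ∂(ck mC μ hC ω)| ≤ C := by
  have := norm_integral_le_of_norm_le_const (μ := ck mC μ hC ω) (f := f) (C := C)
    (Eventually.of_forall (fun x => by simpa [Real.norm_eq_abs] using hb x))
  simpa [Real.norm_eq_abs] using this

/-- equivariance of the conditional kernel -/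
lemma ck_equiv (T : Ω → Ω) (hT : MeasurePreserving T μ μ) (hTC : Measurable[mC, mC] T)
    (Ti : Ω → Ω) (hTiC : Measurable[mC, mC] Ti)
    (h1 : ∀ x, Ti (T x) = x) :
    ∀ᵐ ω ∂μ, ck mC μ hC (T ω) = (ck mC μ hC ω).map T := by
  set κ := ck mC μ hC with hκ
  have hcomp : (κ.comap T hT.measurable) =ᵐ[μ] (κ.map T) := by
    refine Kernel.ae_eq_of_compProd_eq ?_
    refine Measure.ext_prod ?_
    intro s t hs ht
    rw [Measure.compProd_apply_prod hs ht, Measure.compProd_apply_prod hs ht]
    -- reduce to real integrals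
    have e1 : ∀ ω, (κ.comap T hT.measurable) ω t = ENNReal.ofReal (∫ y, t.indicator 1 y ∂(κ (T ω))) := by
      intro ω
      rw [integral_indicator_one ht, Measure.real, ENNReal.ofReal_toReal (measure_ne_top _ _)]
      rfl
    have e2 : ∀ ω, (κ.map T) ω t = ENNReal.ofReal (∫ y, (T ⁻¹' t).indicator 1 y ∂(κ ω)) := by
      intro ω
      rw [integral_indicator_one (hT.measurable ht), Measure.real,
        ENNReal.ofReal_toReal (measure_ne_top _ _), Kernel.map_apply' κ hT.measurable ω ht]
    simp only [e1, e2]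
    -- key: μ[1_t|C] ∘ T = μ[1_t ∘ T | C]
    have hint : Integrable (t.indicator (1 : Ω → ℝ)) μ := (integrable_const 1).indicator ht
    have hint2 : Integrable ((T ⁻¹' t).indicator (1 : Ω → ℝ)) μ :=
      (integrable_const 1).indicator (hT.measurable ht)
    have key : (fun ω => ∫ y, t.indicator (1 : Ω → ℝ) y ∂(κ (T ω))) =ᵐ[μ]
        (fun ω => ∫ y, (T ⁻¹' t).indicator (1 : Ω → ℝ) y ∂(κ ω)) := by
      refine EventuallyEq.trans ?_ (condExp_ck mC μ hC hint2)
      have hg1 : Measurable[mC] (fun ω => ∫ y, t.indicator (1 : Ω → ℝ) y ∂(κ ω)) :=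
        measurable_ck mC μ hC ((measurable_const.indicator ht))
      have hg2 : Measurable[mC] (fun ω => ∫ y, t.indicator (1 : Ω → ℝ) y ∂(κ (T ω))) :=
        hg1.comp hTC
      have hb1 : ∀ ω, |∫ y, t.indicator (1 : Ω → ℝ) y ∂(κ ω)| ≤ 1 := fun ω =>
        ck_bdd mC μ hC (f := t.indicator (1 : Ω → ℝ)) (fun x => by
          by_cases hx : x ∈ t <;> simp [hx]) ω
      refine ae_eq_condExp_of_forall_setIntegral_eq hC hint2 ?_ ?_ ?_
      · intro A _ _
        exact (int_bdd (hg2.mono hC le_rfl) (C := 1) (fun ω => hb1 (T ω))).integrableOn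
      · intro A hA _
        -- A ∈ mC; use T preserves μ and A = T⁻¹ (Ti⁻¹ A)
        have hA' : MeasurableSet[mC] (Ti ⁻¹' A) := hTiC hA
        have hAeq : T ⁻¹' (Ti ⁻¹' A) = A := by
          ext x; simp [h1]
        have l1 : ∫ ω in A, ∫ y, t.indicator (1 : Ω → ℝ) y ∂(κ (T ω)) ∂μ
            = ∫ ω in Ti ⁻¹' A, ∫ y, t.indicator (1 : Ω → ℝ) y ∂(κ ω) ∂μ := by
          rw [← integral_indicator (hC _ hA), ← integral_indicator (hC _ hA')]
          have hmm : Measurable ((Ti ⁻¹' A).indicator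
              (fun ω => ∫ y, t.indicator (1 : Ω → ℝ) y ∂(κ ω))) :=
            ((hg1.mono hC le_rfl)).indicator (hC _ hA')
          rw [← hT.map_eq, integral_map hT.measurable.aemeasurable hmm.aestronglyMeasurable,
            hT.map_eq]
          congr 1
          funext ω
          have : (ω ∈ A) ↔ (T ω ∈ Ti ⁻¹' A) := by
            rw [← Set.mem_preimage, hAeq]
          by_cases hω : ω ∈ A
          · rw [Set.indicator_of_mem hω, Set.indicator_of_mem (this.1 hω)]
          · rw [Set.indicator_of_notMem hω, Set.indicator_of_notMem (fun h => hω (this.2 h))]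
        have l2 : ∫ ω in Ti ⁻¹' A, ∫ y, t.indicator (1 : Ω → ℝ) y ∂(κ ω) ∂μ
            = ∫ ω in Ti ⁻¹' A, t.indicator (1 : Ω → ℝ) ω ∂μ := by
          rw [← setIntegral_condExp hC hint hA']
          exact setIntegral_congr_ae (hC _ hA') (((condExp_ck mC μ hC hint)).mono
            (fun ω h _ => h.symm))
        have l3 : ∫ ω in Ti ⁻¹' A, t.indicator (1 : Ω → ℝ) ω ∂μ
            = ∫ ω in A, (T ⁻¹' t).indicator (1 : Ω → ℝ) ω ∂μ := by
          rw [← integral_indicator (hC _ hA), ← integral_indicator (hC _ hA')]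
          have hmm : Measurable ((Ti ⁻¹' A).indicator (t.indicator (1 : Ω → ℝ))) :=
            (measurable_const.indicator ht).indicator (hC _ hA')
          rw [← hT.map_eq, integral_map hT.measurable.aemeasurable hmm.aestronglyMeasurable,
            hT.map_eq]
          congr 1
          funext ω
          have : (ω ∈ A) ↔ (T ω ∈ Ti ⁻¹' A) := by
            rw [← Set.mem_preimage, hAeq]
          by_cases hω : ω ∈ A
          · rw [Set.indicator_of_mem hω, Set.indicator_of_mem (this.1 hω)]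
            rfl
          · rw [Set.indicator_of_notMem hω, Set.indicator_of_notMem (fun h => hω (this.2 h))]
        rw [l1, l2, l3]
      · exact hg2.aestronglyMeasurable
    refine setLIntegral_congr_fun_ae hs ?_
    filter_upwards [key] with ω hω _
    rw [hω]
  filter_upwards [hcomp] with ω hω
  have := hω
  rw [Kernel.comap_apply, Kernel.map_apply _ hT.measurable] at this
  exact this

end Cond

end Crest.Agent.R069.Env
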