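import Crest.Agent.R069.StdFac
import Crest.Agent.R069.Iface

/-!
# Row 69, node FAC: an invariant sub-sigma-algebra of a standard system is, modulo null sets, the
pull-back of the sigma-algebra of a standard factor system (also for pairs)
-/

set_option autoImplicit false

open MeasureTheory Filter Set ProbabilityTheory
open scoped ENNReal Topology

namespace Crest.Agent.R069.Fac

section gen

variable {Ω : Type*} {m : MeasurableSpace Ω} [mΩ : MeasurableSpace Ω]

/-- A set which is `L¹`-approximated by sets of `m` is a.e. equal to a set of `m`. -/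
theorem exists_ae_eq_of_approx {μ : Measure Ω} [IsFiniteMeasure μ]
    (hm : m ≤ mΩ) {B : Set Ω} (hB : MeasurableSet[mΩ] B)
    (h : ∀ ε : ℝ≥0∞, 0 < ε → ∃ A, MeasurableSet[m] A ∧
      eLpNorm (fun x => A.indicator (fun _ => (1 : ℝ)) x - B.indicator (fun _ => (1 : ℝ)) x) 1 μ
        ≤ ε) :
    ∃ B', MeasurableSet[m] B' ∧ B =ᵐ[μ] B' := by
  set f : Ω → ℝ := B.indicator (fun _ => (1 : ℝ)) with hf
  have hfi : Integrable f μ := (integrable_const (1 : ℝ)).indicator hB
  set g : Ω → ℝ := μ[f | m] with hg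
  have hgm : StronglyMeasurable[m] g := stronglyMeasurable_condExp
  have hgi : Integrable g μ := integrable_condExp
  have key : eLpNorm (fun x => g x - f x) 1 μ = 0 := by
    refine le_antisymm (le_of_forall_pos_le_add ?_) bot_le
    intro ε hε
    obtain ⟨A, hA, hAε⟩ := h (ε / 2) (by
      exact ENNReal.div_pos hε.ne' (by norm_num))
    set a : Ω → ℝ := A.indicator (fun _ => (1 : ℝ)) with ha
    have hai : Integrable a μ := (integrable_const (1 : ℝ)).indicator (hm _ hA)
    have ham : StronglyMeasurable[m] a := (stronglyMeasurable_const).indicator hA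
    have h1 : μ[a | m] = a := condExp_of_stronglyMeasurable hm ham hai
    have h2 : (fun x => g x - f x) =ᵐ[μ]
        (μ[fun x => f x - a x | m]) + fun x => a x - f x := by
      have h3 := condExp_sub hfi hai m
      filter_upwards [h3] with x hx
      have h4 : (μ[fun x => f x - a x | m]) x = (μ[f - a | m]) x := rfl
      rw [Pi.add_apply, h4, hx, Pi.sub_apply, h1]
      ring
    rw [eLpNorm_congr_ae h2, zero_add]
    refine (eLpNorm_add_le (integrable_condExp.aestronglyMeasurable)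
      (hai.sub hfi).aestronglyMeasurable le_rfl).trans ?_
    have h5 : eLpNorm (μ[fun x => f x - a x | m]) 1 μ ≤ ε / 2 := by
      refine (eLpNorm_condExp_le_eLpNorm _ le_rfl).trans ?_
      have h6 : eLpNorm (fun x => f x - a x) 1 μ = eLpNorm (fun x => a x - f x) 1 μ :=
        eLpNorm_sub_comm f a 1 μ
      rw [h6]
      exact hAε
    calc _ ≤ ε / 2 + ε / 2 := add_le_add h5 hAε
      _ = ε := ENNReal.add_halves ε
  have hae : (fun x => g x - f x) =ᵐ[μ] 0 :=
    (eLpNorm_eq_zero_iff (hgi.sub hfi).aestronglyMeasurable one_ne_zero).1 key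
  refine ⟨{x | (1 : ℝ) / 2 < g x}, ?_, ?_⟩
  · exact measurableSet_lt (@measurable_const _ _ _ m _) hgm.measurable
  · filter_upwards [hae] with x hx
    have hx' : g x = f x := by
      have := hx
      simp only [Pi.zero_apply] at this
      linarith
    apply propext
    show x ∈ B ↔ (1 : ℝ) / 2 < g x
    rw [hx', hf]
    by_cases hxB : x ∈ B
    · simp [hxB]; norm_num
    · simp [hxB]

/-- **Sub-sigma-algebras of a countably generated measure space are countably generated
mod 0.** -/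
theorem exists_gen (μ : Measure Ω) [IsFiniteMeasure μ] [MeasurableSpace.CountablyGenerated Ω]
    (hm : m ≤ mΩ) :
    ∃ A : ℕ → Set Ω, (∀ j, MeasurableSet[m] (A j)) ∧
      AELe μ m (MeasurableSpace.generateFrom (range A)) := by
  classical
  let S1 : Set (Lp ℝ 1 μ) := {u | ∃ (A : Set Ω) (hA : MeasurableSet[m] A),
    u = indicatorConstLp 1 (hm _ hA) (measure_ne_top μ A) (1 : ℝ)}
  have hne : Nonempty S1 := ⟨⟨_, ∅, @MeasurableSet.empty _ m, rfl⟩⟩
  have hf1 : Fact ((1 : ℝ≥0∞) ≠ ∞) := ⟨by norm_num⟩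
  have hsc : SecondCountableTopology (Lp ℝ 1 μ) := inferInstance
  obtain ⟨u, hu⟩ := TopologicalSpace.exists_dense_seq S1
  choose A hA hAu using fun j => (u j).2
  refine ⟨A, hA, ?_⟩
  have hgen : MeasurableSpace.generateFrom (range A) ≤ m :=
    MeasurableSpace.generateFrom_le (by rintro _ ⟨j, rfl⟩; exact hA j)
  intro B hB
  have hBS : indicatorConstLp 1 (hm _ hB) (measure_ne_top μ B) (1 : ℝ) ∈ S1 := ⟨B, hB, rfl⟩
  refine exists_ae_eq_of_approx (hgen.trans hm) (hm _ hB) ?_
  intro ε hε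
  obtain ⟨δ, hδ, hδε⟩ : ∃ δ : ℝ, 0 < δ ∧ ENNReal.ofReal δ ≤ ε := by
    rcases eq_or_ne ε ∞ with rfl | hε'
    · exact ⟨1, one_pos, le_top⟩
    · exact ⟨ε.toReal, ENNReal.toReal_pos hε.ne' hε', (ENNReal.ofReal_toReal hε').le⟩
  obtain ⟨j, hj⟩ := hu.exists_dist_lt ⟨_, hBS⟩ hδ
  refine ⟨A j, MeasurableSpace.measurableSet_generateFrom ⟨j, rfl⟩, ?_⟩
  have h1 : dist (indicatorConstLp 1 (hm _ hB) (measure_ne_top μ B) (1 : ℝ))
      (indicatorConstLp 1 (hm _ (hA j)) (measure_ne_top μ (A j)) (1 : ℝ)) < δ := by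
    have h2 : ((u j : S1) : Lp ℝ 1 μ)
        = indicatorConstLp 1 (hm _ (hA j)) (measure_ne_top μ (A j)) (1 : ℝ) := hAu j
    rw [← h2]
    exact hj
  rw [dist_comm, dist_eq_norm] at h1
  have h3 : eLpNorm (fun x => (A j).indicator (fun _ => (1 : ℝ)) x
      - B.indicator (fun _ => (1 : ℝ)) x) 1 μ
      = eLpNorm (indicatorConstLp 1 (hm _ (hA j)) (measure_ne_top μ (A j)) (1 : ℝ)
        - indicatorConstLp 1 (hm _ hB) (measure_ne_top μ B) (1 : ℝ) : Lp ℝ 1 μ) 1 μ := by
    apply eLpNorm_congr_ae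
    have h4 := Lp.coeFn_sub (indicatorConstLp 1 (hm _ (hA j)) (measure_ne_top μ (A j)) (1 : ℝ))
      (indicatorConstLp 1 (hm _ hB) (measure_ne_top μ B) (1 : ℝ))
    filter_upwards [h4, indicatorConstLp_coeFn (p := 1) (hs := hm _ (hA j))
      (hμs := measure_ne_top μ (A j)) (c := (1 : ℝ)), indicatorConstLp_coeFn (p := 1)
      (hs := hm _ hB) (hμs := measure_ne_top μ B) (c := (1 : ℝ))] with x hx h5 h6
    rw [hx, Pi.sub_apply, h5, h6]
  rw [h3]
  rw [Lp.norm_def] at h1
  refine le_trans ?_ hδε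
  rw [← ENNReal.ofReal_toReal (Lp.eLpNorm_ne_top (indicatorConstLp 1 (hm _ (hA j))
    (measure_ne_top μ (A j)) (1 : ℝ) - indicatorConstLp 1 (hm _ hB) (measure_ne_top μ B) (1 : ℝ) :
      Lp ℝ 1 μ))]
  exact ENNReal.ofReal_le_ofReal h1.le

end gen

section sys

open Crest.Agent.R069.Std

variable {X : Sys}

/-- the symbolic factor of a system defined by countably many sets -/
noncomputable def codeSys (X : Sys) {A : ℕ → Set X.Ω} (hA : ∀ j, MeasurableSet (A j)) : Sys where
  Ω := Sym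
  μ := X.μ.map (code X A)
  pr := Measure.isProbabilityMeasure_map (measurable_code' hA (measurable_S X)).aemeasurable
  S := shS
  S_zero := shS_zero
  S_add := shS_add
  S_mp n := by
    refine ⟨measurable_shS n, ?_⟩
    have hc : Measurable (code X A) := measurable_code' hA (measurable_S X)
    rw [Measure.map_map (measurable_shS n) hc]
    have h1 : shS n ∘ code X A = code X A ∘ X.S n := by
      funext x
      exact (code_S A n x).symm
    rw [h1, ← Measure.map_map hc (measurable_S X n), (X.S_mp n).map_eq]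

/-- **FAC for systems**: an invariant sub-sigma-algebra of a standard system is mod 0 the
pull-back of a standard factor system; the factor map is equivariant everywhere. -/
theorem exists_fac_sys (X : Sys) [MeasurableSpace.CountablyGenerated X.Ω]
    {m1 : MeasurableSpace X.Ω} (h1 : m1 ≤ X.ms) (h1S : ∀ n, Measurable[m1, m1] (X.S n)) :
    ∃ (Y : Sys) (_ : StandardBorelSpace Y.Ω) (φ : X.Ω → Y.Ω),
      @MeasurePreserving _ _ X.ms Y.ms φ X.μ Y.μ ∧ (∀ n x, φ (X.S n x) = Y.S n (φ x)) ∧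
      Y.ms.comap φ ≤ m1 ∧ AELe X.μ m1 (Y.ms.comap φ) := by
  obtain ⟨A, hA, hA'⟩ := @exists_gen _ m1 X.ms X.μ _ _ h1
  have hAm : ∀ j, MeasurableSet[X.ms] (A j) := fun j => h1 _ (hA j)
  have hcm : @MeasurePreserving _ _ X.ms (codeSys X hAm).ms (code X A) X.μ (codeSys X hAm).μ :=
    @MeasurePreserving.mk _ _ X.ms (codeSys X hAm).ms _ _ _
      (@measurable_code' X X.ms A hAm (measurable_S X)) rfl
  refine ⟨codeSys X hAm, ?_, code X A, hcm, fun n x => code_S A n x, ?_, ?_⟩
  · show StandardBorelSpace Sym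
    infer_instance
  · have h2 : @Measurable _ _ m1 _ (code X A) := measurable_code' hA h1S
    exact measurable_iff_comap_le.1 h2
  · refine hA'.trans (AELe.of_le ?_)
    refine MeasurableSpace.generateFrom_le ?_
    rintro _ ⟨j, rfl⟩
    refine ⟨{p | p 0 j = true}, ?_, ?_⟩
    · have h1 : Measurable (fun a : Sym => a 0 j) :=
        (measurable_pi_apply j).comp (measurable_pi_apply (0 : ℤ))
      exact h1 (measurableSet_singleton true)
    · ext x
      show code X A x 0 j = true ↔ x ∈ A j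
      rw [code_apply, X.S_zero]

/-- the trivial pair over a system -/
noncomputable def triv (X : Sys) : Pair X where
  toSys := X
  π := id
  π_mp := MeasurePreserving.id X.μ
  π_S _ := Eventually.of_forall (fun _ => rfl)
  C := nul X.μ
  C_le := nul_le
  C_nul := le_rfl
  C_S n := by
    rw [measurable_iff_comap_le]
    exact comap_nul_le (X.S_mp n)
  indep := by
    rw [Indep_iff]
    rintro _ B ⟨A, hA, rfl⟩ ⟨hB, hB'⟩
    rcases hB' with h | h
    · rw [h, mul_zero]
      exact measure_mono_null inter_subset_right h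
    · have h1 : X.μ B = 1 := by
        have := prob_add_prob_compl (μ := X.μ) hB
        rwa [h, add_zero] at this
      rw [h1, mul_one]
      refine measure_congr ?_
      have h2 : B =ᵐ[X.μ] univ := by
        rw [ae_eq_univ]; exact h
      have h3 := (ae_eq_refl (μ := X.μ) (id ⁻¹' A)).inter h2
      rwa [inter_univ] at h3

/-- every pair over `X` extends the trivial pair -/
noncomputable def trivExt (Q : Pair X) : Ext (triv X) Q where
  f := Q.π
  f_mp := Q.π_mp
  f_S := Q.π_S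
  f_π := EventuallyEq.rfl
  f_C := (comap_nul_le Q.π_mp).trans Q.C_nul

/-- **FAC for pairs**: an invariant sub-sigma-algebra `m1` of a pair `Q` containing the
environment and the base is mod 0 the pull-back of a standard factor pair `R`. -/
theorem exists_fac_pair [hX : StandardBorelSpace X.Ω] (Q : Pair X)
    [MeasurableSpace.CountablyGenerated Q.Ω] {m1 : MeasurableSpace Q.Ω} (h1 : m1 ≤ Q.ms)
    (h1S : ∀ n, Measurable[m1, m1] (Q.S n)) (hC : Q.C ≤ m1) (hπ : X.ms.comap Q.π ≤ m1) :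
    ∃ (R : Pair X) (_ : StandardBorelSpace R.Ω) (e : Ext R Q),
      (∀ x, R.π (e.f x) = Q.π x) ∧
      (∀ n p, R.π (R.S n p) = X.S n (R.π p)) ∧
      R.ms.comap e.f ≤ m1 ∧
      AELe Q.μ m1 (R.ms.comap e.f) ∧
      AELe Q.μ Q.C (R.C.comap e.f) := by
  obtain ⟨A, hA, hA'⟩ := @exists_gen _ m1 Q.ms Q.μ _ _ h1
  obtain ⟨B, hB, hB'⟩ := @exists_gen _ Q.C Q.ms Q.μ _ _ Q.C_le
  have hAm : ∀ j, MeasurableSet[Q.ms] (A j) := fun j => h1 _ (hA j)
  refine ⟨facPair (trivExt Q) hAm hB, ?_, facExt1 (trivExt Q) hAm hB, fun _ => rfl,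
    fun _ _ => rfl, ?_, ?_, ?_⟩
  · show StandardBorelSpace (X.Ω × Sym × Sym)
    infer_instance
  · -- the factor map is `m1`-measurable
    have h3 : @Measurable _ _ m1 _ Q.π := by rw [measurable_iff_comap_le]; exact hπ
    have h4 : @Measurable _ _ m1 _ (code Q.toSys A) := measurable_code' hA h1S
    have h5 : @Measurable _ _ m1 _ (code Q.toSys B) := measurable_code' (fun j => hC _ (hB j)) h1S
    have h2 : @Measurable _ _ m1 _ (fun x => (Q.π x, (code Q.toSys A x, code Q.toSys B x))) :=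
      h3.prodMk (h4.prodMk h5)
    exact measurable_iff_comap_le.1 h2
  · refine hA'.trans (AELe.of_le ?_)
    refine MeasurableSpace.generateFrom_le ?_
    rintro _ ⟨j, rfl⟩
    refine ⟨{p | p.2.1 0 j = true}, ?_, ?_⟩
    · have h1 : Measurable (fun p : X.Ω × Sym × Sym => p.2.1 0 j) :=
        (measurable_pi_apply j).comp ((measurable_pi_apply (0 : ℤ)).comp
          (measurable_fst.comp measurable_snd))
      exact h1 (measurableSet_singleton true)
    · ext x
      show code Q.toSys A x 0 j = true ↔ x ∈ A j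
      rw [code_apply, Q.S_zero]
  · refine hB'.trans (AELe.of_le ?_)
    refine MeasurableSpace.generateFrom_le ?_
    rintro _ ⟨j, rfl⟩
    refine ⟨{p | p.2.2 0 j = true}, ?_, ?_⟩
    · have h1 : Measurable (fun a : Sym => a 0 j) :=
        (measurable_pi_apply j).comp (measurable_pi_apply (0 : ℤ))
      have h2 : MeasurableSet {a : Sym | a 0 j = true} := h1 (measurableSet_singleton true)
      have h3 : MeasurableSet[MeasurableSpace.comap (fun p : X.Ω × Sym × Sym => p.2.2)
        inferInstance] {p | p.2.2 0 j = true} := ⟨_, h2, rfl⟩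
      exact (le_sup_right.trans le_sup_left : _ ≤ (facPair (trivExt Q) hAm hB).C) _ h3
    · ext x
      show code Q.toSys B x 0 j = true ↔ x ∈ B j
      rw [code_apply, Q.S_zero]

/-! ### changing the base -/

variable {Y : Sys} {φ : X.Ω → Y.Ω}

/-- a pair over `X` is a pair over every factor `Y` of `X` -/
noncomputable def down (hφ : MeasurePreserving φ X.μ Y.μ)
    (hS : ∀ n, (fun x => φ (X.S n x)) =ᵐ[X.μ] fun x => Y.S n (φ x)) (P : Pair X) : Pair Y where
  toSys := P.toSys
  π := φ ∘ P.π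
  π_mp := hφ.comp P.π_mp
  π_S n := by
    filter_upwards [P.π_S n, P.π_mp.quasiMeasurePreserving.ae (hS n)] with x h1 h2
    show φ (P.π (P.S n x)) = Y.S n (φ (P.π x))
    rw [h1, h2]
  C := P.C
  C_le := P.C_le
  C_nul := P.C_nul
  C_S := P.C_S
  indep := by
    refine indep_of_indep_of_le_left P.indep ?_
    rw [← MeasurableSpace.comap_comp]
    exact MeasurableSpace.comap_mono hφ.measurable.comap_le

/-- an extension of pairs over `X` is an extension of pairs over `Y` -/
noncomputable def downExt (hφ : MeasurePreserving φ X.μ Y.μ)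
    (hS : ∀ n, (fun x => φ (X.S n x)) =ᵐ[X.μ] fun x => Y.S n (φ x)) {P Q : Pair X}
    (e : Ext P Q) : Ext (down hφ hS P) (down hφ hS Q) where
  f := e.f
  f_mp := e.f_mp
  f_S := e.f_S
  f_π := by
    filter_upwards [e.f_π] with x hx
    show φ (Q.π x) = φ (P.π (e.f x))
    rw [hx]
    rfl
  f_C := e.f_C

end sys

section iface

open Crest.Agent.R069.Std

theorem le_sup_nul {Ω : Type*} {m m' : MeasurableSpace Ω} [mΩ : MeasurableSpace Ω] {μ : Measure Ω}
    (hm : m ≤ mΩ) (hm' : m' ≤ mΩ) (h : AELe μ m m') : m ≤ m' ⊔ nul μ := by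
  intro A hA
  obtain ⟨B, hB, hAB⟩ := h A hA
  exact measurableSet_of_ae_nul (sup_le hm' (nul_le_ms μ)) le_sup_right (hm _ hA)
    ((le_sup_left : m' ≤ m' ⊔ nul μ) _ hB) hAB

theorem aele_of_le_sup_nul {Ω : Type*} {m m' : MeasurableSpace Ω} [mΩ : MeasurableSpace Ω]
    {μ : Measure Ω} (h : m ≤ m' ⊔ nul μ) : AELe μ m m' := by
  refine (AELe.of_le h).trans (AELe.sup AELe.refl ?_)
  rintro A ⟨hA, hA'⟩
  rcases hA' with h | h
  · exact ⟨∅, @MeasurableSet.empty _ m', ae_eq_empty.2 h⟩
  · exact ⟨univ, @MeasurableSet.univ _ m', ae_eq_univ.2 h⟩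

/-- **Node N_FAC.** -/
theorem fac : N_FAC := by
  intro M hM m hm hS
  obtain ⟨F, hF, φ, hφ, hφS, h1, h2⟩ := exists_fac_sys M hm hS
  exact ⟨F, φ, hF, hφ, hφS, h1, @le_sup_nul _ m (F.ms.comap φ) M.ms M.μ hm (h1.trans hm) h2⟩

theorem n_fac : N_FAC := fac

/-- a measurable function to a standard Borel space which is measurable mod 0 with respect to the
pull-back of `φ` is a.e. a function of `φ` -/
theorem exists_ae_eq_comp {Ω Γ Z : Type*} [MeasurableSpace Ω] {μ : Measure Ω} [IsFiniteMeasure μ]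
    [mΓ : MeasurableSpace Γ] {φ : Ω → Γ} (hφ : Measurable φ)
    [MeasurableSpace Z] [StandardBorelSpace Z] [Nonempty Z] {π : Ω → Z} (hπ : Measurable π)
    (h : AELe μ (MeasurableSpace.comap π inferInstance) (mΓ.comap φ)) :
    ∃ πF : Γ → Z, Measurable πF ∧ π =ᵐ[μ] πF ∘ φ := by
  have he : MeasurableEmbedding (embeddingReal Z) := measurableEmbedding_embeddingReal Z
  obtain ⟨r, hr, hre⟩ := he.exists_measurable_extend (g := (id : Z → Z)) measurable_id
    (fun _ => inferInstance)
  -- bounded version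
  have hb : BdM (MeasurableSpace.comap π inferInstance)
      (fun x => Real.arctan (embeddingReal Z (π x))) := by
    refine ⟨Real.measurable_arctan.comp (he.measurable.comp (comap_measurable π)), Real.pi / 2,
      fun x => ?_⟩
    rw [abs_le]
    exact ⟨(Real.neg_pi_div_two_lt_arctan _).le, (Real.arctan_lt_pi_div_two _).le⟩
  obtain ⟨F, hF, hFe⟩ := h.exists_bm (μ := μ) hπ.comap_le hφ.comap_le hb
  obtain ⟨F', hF', rfl⟩ := hF.factors
  refine ⟨fun y => r (Real.tan (F' y)), hr.comp ?_, ?_⟩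
  · have : Measurable Real.tan := by
      have h1 : Real.tan = fun x => Real.sin x / Real.cos x := by
        funext x; exact Real.tan_eq_sin_div_cos x
      rw [h1]
      exact Real.measurable_sin.div Real.measurable_cos
    exact this.comp hF'.meas
  · filter_upwards [hFe] with x hx
    show π x = r (Real.tan (F' (φ x)))
    have h1 : F' (φ x) = Real.arctan (embeddingReal Z (π x)) := hx.symm
    rw [h1, Real.tan_arctan]
    have := congrFun hre (π x)
    exact this.symm

variable {X : Sys}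

/-- the environment of the factor -/
@[implicit_reducible]
def facC (P : Pair X) (F : Sys) (φ : P.Ω → F.Ω) : MeasurableSpace F.Ω where
  MeasurableSet' B := MeasurableSet[F.ms] B ∧ MeasurableSet[P.C] (φ ⁻¹' B)
  measurableSet_empty := ⟨@MeasurableSet.empty _ F.ms, @MeasurableSet.empty _ P.C⟩
  measurableSet_compl B hB := ⟨hB.1.compl, hB.2.compl⟩
  measurableSet_iUnion B hB := ⟨MeasurableSet.iUnion fun n => (hB n).1, by
    rw [preimage_iUnion]
    exact MeasurableSet.iUnion fun n => (hB n).2⟩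

/-- making a factor system (with the base and the environment inside) into a factor pair -/
theorem exists_facOf_of (hX : StandardBorelSpace X.Ω) (P : Pair X)
    {F : Sys} (hF : StandardBorelSpace F.Ω) {φ : P.Ω → F.Ω} (hφ : MeasurePreserving φ P.μ F.μ)
    (hφS : ∀ n x, φ (P.S n x) = F.S n (φ x))
    (hael : AELe P.μ (X.ms.comap P.π) (F.ms.comap φ)) (haelC : AELe P.μ P.C (F.ms.comap φ)) :
    ∃ (FP : Pair X) (φ' : P.Ω → FP.Ω), StandardBorelSpace FP.Ω ∧ FacOf P FP φ' ∧
      FP.ms.comap φ' = F.ms.comap φ := by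
  have hneX : Nonempty X.Ω := by
    by_contra hne
    rw [not_nonempty_iff] at hne
    have h3 := measure_univ (μ := X.μ)
    rw [univ_eq_empty_iff.2 hne, measure_empty] at h3
    exact zero_ne_one h3
  obtain ⟨πF, hπF, hπe⟩ := @exists_ae_eq_comp P.Ω F.Ω X.Ω P.ms P.μ _ F.ms φ hφ.measurable X.ms
    hX hneX P.π P.π_mp.measurable hael
  have hφm : Measurable φ := hφ.measurable
  -- preimages under `φ`
  have hμ : ∀ B : Set F.Ω, MeasurableSet[F.ms] B → F.μ B = P.μ (φ ⁻¹' B) := fun B hB =>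
    (hφ.measure_preimage hB.nullMeasurableSet).symm
  have hCle : facC P F φ ≤ F.ms := fun _ h => h.1
  have hnul : @nul _ F.ms F.μ ≤ facC P F φ := by
    rintro B ⟨hB, hB'⟩
    refine ⟨hB, P.C_nul _ ⟨hφm hB, ?_⟩⟩
    rcases hB' with h | h
    · left; rw [← hμ B hB]; exact h
    · right; rw [← preimage_compl, ← hμ _ hB.compl]; exact h
  have hCS : ∀ n, @Measurable _ _ (facC P F φ) (facC P F φ) (F.S n) := by
    intro n B hB
    refine ⟨(F.S_mp n).measurable hB.1, ?_⟩
    have h3 : φ ⁻¹' (F.S n ⁻¹' B) = P.S n ⁻¹' (φ ⁻¹' B) := by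
      ext x
      show F.S n (φ x) ∈ B ↔ φ (P.S n x) ∈ B
      rw [hφS n x]
    rw [h3]
    exact P.C_S n hB.2
  have hπmp : @MeasurePreserving _ _ F.ms X.ms πF F.μ X.μ := by
    refine ⟨hπF, ?_⟩
    have h3 : Measure.map πF F.μ = Measure.map (πF ∘ φ) P.μ := by
      rw [← hφ.map_eq, Measure.map_map hπF hφm]
    rw [h3, ← Measure.map_congr hπe, P.π_mp.map_eq]
  have hind : @Indep _ (X.ms.comap πF) (facC P F φ) F.ms F.μ := by
    rw [Indep_iff]
    rintro _ B ⟨U, hU, rfl⟩ ⟨hB, hB'⟩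
    have hU' : MeasurableSet[F.ms] (πF ⁻¹' U) := hπF hU
    have h4 : (φ ⁻¹' (πF ⁻¹' U)) =ᵐ[P.μ] (P.π ⁻¹' U) := by
      filter_upwards [hπe] with x hx
      apply propext
      show πF (φ x) ∈ U ↔ P.π x ∈ U
      rw [hx]
      rfl
    rw [hμ _ (hU'.inter hB), hμ _ hU', hμ _ hB, preimage_inter]
    rw [measure_congr (h4.inter (ae_eq_refl (φ ⁻¹' B))), measure_congr h4]
    exact (Indep_iff _ _ _).1 P.indep (P.π ⁻¹' U) _ ⟨U, hU, rfl⟩ hB'
  have hπS : ∀ n, (fun p => πF (F.S n p)) =ᵐ[F.μ] fun p => X.S n (πF p) := by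
    intro n
    have hset : MeasurableSet[F.ms] {p | πF (F.S n p) = X.S n (πF p)} :=
      measurableSet_eq_fun (hπF.comp (F.S_mp n).measurable) ((X.S_mp n).measurable.comp hπF)
    have h5 : ∀ᵐ x ∂P.μ, πF (F.S n (φ x)) = X.S n (πF (φ x)) := by
      have h6 : ∀ᵐ x ∂P.μ, P.π (P.S n x) = πF (φ (P.S n x)) :=
        (P.S_mp n).quasiMeasurePreserving.ae hπe
      filter_upwards [h6, hπe, P.π_S n] with x h7 h8 h9
      rw [← hφS n x, ← h7, h9, h8]
      rfl
    have h10 : F.μ {p | πF (F.S n p) = X.S n (πF p)}ᶜ = 0 := by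
      rw [hμ _ hset.compl]
      exact h5
    exact h10
  let FP : Pair X :=
    { toSys := F
      π := πF
      π_mp := hπmp
      π_S := hπS
      C := facC P F φ
      C_le := hCle
      C_nul := hnul
      C_S := hCS
      indep := hind }
  refine ⟨FP, φ, hF, ⟨hφ, hφS, hπe, ?_⟩, rfl⟩
  apply le_antisymm
  · intro A hA
    obtain ⟨B, hB, hAB⟩ := haelC A hA
    obtain ⟨B, hB', rfl⟩ := hB
    have hAm : MeasurableSet[P.ms] A := P.C_le _ hA
    have hBC : MeasurableSet[P.C] (φ ⁻¹' B) :=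
      @measurableSet_of_ae_nul _ P.C P.ms P.μ P.C_le P.C_nul _ _ (hφm hB') hA hAB.symm
    have hBC' : MeasurableSet[(facC P F φ).comap φ] (φ ⁻¹' B) := ⟨B, ⟨hB', hBC⟩, rfl⟩
    refine @measurableSet_of_ae_nul _ ((facC P F φ).comap φ ⊔ nul P.μ) P.ms P.μ
      (sup_le ?_ (nul_le_ms P.μ)) le_sup_right _ _ hAm
      ((le_sup_left : (facC P F φ).comap φ ≤ (facC P F φ).comap φ ⊔ nul P.μ) _ hBC') hAB
    rintro _ ⟨B', hB'', rfl⟩
    exact hφm hB''.1
  · refine sup_le ?_ P.C_nul
    rintro _ ⟨B, hB, rfl⟩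
    exact hB.2

/-- **FAC for pairs in the form of `FacOf`** (the factor map is equivariant everywhere). -/
theorem exists_facOf (hX : StandardBorelSpace X.Ω) (P : Pair X) (hP : StandardBorelSpace P.Ω)
    {m : MeasurableSpace P.Ω} (hm : m ≤ P.ms) (hS : ∀ n, Measurable[m, m] (P.S n))
    (hC : P.C ≤ m) (hπ : X.ms.comap P.π ≤ m) :
    ∃ (F : Pair X) (φ : P.Ω → F.Ω), StandardBorelSpace F.Ω ∧ FacOf P F φ ∧
      F.ms.comap φ ≤ m ∧ m ≤ F.ms.comap φ ⊔ @nul _ P.ms P.μ := by
  obtain ⟨F, φ, hF, hφ, hφS, h1, h2⟩ := fac P.toSys hP m hm hS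
  have h3 : AELe P.μ m (F.ms.comap φ) := @aele_of_le_sup_nul _ m (F.ms.comap φ) P.ms P.μ h2
  obtain ⟨FP, φ', hFP, hfac, hcomap⟩ := exists_facOf_of hX P hF hφ hφS
    ((AELe.of_le hπ).trans h3) ((AELe.of_le hC).trans h3)
  exact ⟨FP, φ', hFP, hfac, hcomap ▸ h1, hcomap ▸ h2⟩

end iface

end Crest.Agent.R069.Fac
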