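import Crest.Agent.R069.Glue

/-!
# Glue, part 2: the Loeb system as a pair / extension, sites of factors, conditional expectations
at sites (row 69)
-/

set_option autoImplicit false

open MeasureTheory Filter Set ProbabilityTheory
open scoped ENNReal Topology

namespace Crest.Agent.R069.Glue

/-! ### the site of a factor -/

section site

variable {N E : Sys} [StandardBorelSpace E.Ω] {f : N.Ω → E.Ω}

/-- `x ↦ site s of f`, a factor map `N.loeb → E` for every factor map `f : N → E`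
(`E` standard Borel, `N` arbitrary). -/
theorem IsFac.site (hf : IsFac N E f) (s : ℕ → ℤ) : IsFac N.loeb E (pS E s ∘ Lb.mp f) := by
  refine ⟨(pS_mp E s).comp (lbmp_mp hf.mp), fun n => ?_⟩
  set G : Lb N.Ω → E.Ω := pS E s ∘ Lb.mp f with hG
  set F : Lb N.Ω → E.Ω := sV E (fun k => f ∘ N.S (s k)) with hF
  have hA : F =ᵐ[lbm N] G := hf.sV_eq s
  have hB : F ∘ Lb.mp (N.S n) =ᵐ[lbm N] G ∘ Lb.mp (N.S n) :=
    (lbmp_mp (N.S_mp n)).quasiMeasurePreserving.ae_eq_comp hA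
  have hC : F ∘ Lb.mp (N.S n) = sV E (fun k => (f ∘ N.S n) ∘ N.S (s k)) := by
    have h2 : (fun k => (f ∘ N.S (s k)) ∘ N.S n) = fun k => (f ∘ N.S n) ∘ N.S (s k) := by
      funext k x
      show f (N.S (s k) (N.S n x)) = f (N.S n (N.S (s k) x))
      rw [← N.S_add, ← N.S_add, add_comm]
    rw [← h2]
    rfl
  have hD : sV E (fun k => (f ∘ N.S n) ∘ N.S (s k)) =ᵐ[lbm N]
      sV E (fun k => E.S n ∘ (f ∘ N.S (s k))) :=
    sV_congr (E := E) (μ := N.μ) (g := fun k => (f ∘ N.S n) ∘ N.S (s k))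
      (g' := fun k => E.S n ∘ (f ∘ N.S (s k)))
      (fun k => (N.S_mp (s k)).quasiMeasurePreserving.ae (hf.equi n))
  have hE : sV E (fun k => E.S n ∘ (f ∘ N.S (s k))) =ᵐ[lbm N] fun x => E.S n (F x) :=
    sV_comp (E := E) (F := E) (g := fun k => f ∘ N.S (s k))
      (fun k => hf.mp.comp (N.S_mp (s k))) (S_meas E n)
  have hall : G ∘ Lb.mp (N.S n) =ᵐ[lbm N] fun x => E.S n (G x) := by
    filter_upwards [hA, hB, hD, hE] with x a b d e
    rw [← b, congrFun hC x, d, e, a]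
  exact hall

/-- functions at the site of a factor -/
theorem IsFac.comp_site (hf : IsFac N E f) {s : ℕ → ℤ} {g : E.Ω → ℝ} (hg : Measurable g) :
    g ∘ (pS E s ∘ Lb.mp f) =ᵐ[lbm N] sitef N s (g ∘ f) := by
  have h1 : (g ∘ pS E s) ∘ Lb.mp f =ᵐ[lbm N] sitef E s g ∘ Lb.mp f :=
    (lbmp_mp hf.mp).quasiMeasurePreserving.ae_eq_comp (comp_pS hg)
  exact h1.trans (hf.sitef_comp s g).symm

/-- the algebra of the site of a factor -/
theorem IsFac.comap_site_aele (hf : IsFac N E f) {s : ℕ → ℤ} {m : MeasurableSpace E.Ω}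
    (hm : m ≤ E.ms) :
    AELe (lbm N) (m.comap (pS E s ∘ Lb.mp f)) (siteM N s (m.comap f)) := by
  rw [← MeasurableSpace.comap_comp]
  exact (AELe.comap (lbmp_mp hf.mp) (comap_pS_aele hm)).trans (hf.comap_siteM s m).1

theorem IsFac.site_aele_comap (hf : IsFac N E f) {s : ℕ → ℤ} {m : MeasurableSpace E.Ω}
    (hm : m ≤ E.ms) :
    AELe (lbm N) (siteM N s (m.comap f)) (m.comap (pS E s ∘ Lb.mp f)) := by
  rw [← MeasurableSpace.comap_comp]
  exact (hf.comap_siteM s m).2.trans (AELe.comap (lbmp_mp hf.mp) (siteM_aele_pS hm))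

/-- the algebra of the site of a factor is contained in the environment of every complete algebra
containing the pulled back (invariant) algebra -/
theorem IsFac.comap_site_le_LL (hf : IsFac N E f) {s : ℕ → ℤ} {m : MeasurableSpace E.Ω}
    {D : MeasurableSpace N.Ω} (hm : m ≤ E.ms) (hmD : m.comap f ≤ D)
    (hDS : ∀ n, Measurable[D, D] (N.S n)) :
    AELe (lbm N) (m.comap (pS E s ∘ Lb.mp f)) (LL D) :=
  (hf.comap_site_aele hm).trans
    (AELe.of_le ((siteM_mono N s hmD).trans (siteM_le_LL N s hDS)))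

end site

/-! ### the Loeb system as a pair -/

section pair

variable {X : Sys}

/-- **The Loeb system of `P` as a pair over `X`** through the site `t`, with environment `D`. -/
noncomputable def loebPair (P : Pair X) [StandardBorelSpace P.Ω] (t : ℕ → ℤ)
    (D : MeasurableSpace (Lb P.Ω)) (hD : D ≤ LL P.ms) (hn : nulL P.toSys ≤ D)
    (hS : ∀ n, Measurable[D, D] (Lb.mp (P.S n)))
    (hind : @Indep _ (X.ms.comap (P.π ∘ pS P.toSys t)) D (LL P.ms) (lbm P.toSys)) : Pair X where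
  toSys := P.toSys.loeb
  π := P.π ∘ pS P.toSys t
  π_mp := P.π_mp.comp (pS_mp P.toSys t)
  π_S := ((IsFac.of_pair P).comp (pS_isFac P.toSys t)).equi
  C := D
  C_le := hD
  C_nul := hn
  C_S := hS
  indep := hind

/-- **The Loeb system of `P` is an extension of `P`** through the site `t`. -/
noncomputable def loebExt (P : Pair X) [StandardBorelSpace P.Ω] (t : ℕ → ℤ)
    (D : MeasurableSpace (Lb P.Ω)) (hD : D ≤ LL P.ms) (hn : nulL P.toSys ≤ D)
    (hS : ∀ n, Measurable[D, D] (Lb.mp (P.S n)))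
    (hind : @Indep _ (X.ms.comap (P.π ∘ pS P.toSys t)) D (LL P.ms) (lbm P.toSys))
    (hC : P.C.comap (pS P.toSys t) ≤ D) : Ext P (loebPair P t D hD hn hS hind) where
  f := pS P.toSys t
  f_mp := pS_mp P.toSys t
  f_S := (pS_isFac P.toSys t).equi
  f_π := EventuallyEq.rfl
  f_C := hC

/-- general form: the Loeb system of an extension `Q` of `P`, at the site `t` of `P` -/
noncomputable def loebPairE {P Q : Pair X} (e : Ext P Q) [StandardBorelSpace P.Ω] (t : ℕ → ℤ)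
    (D : MeasurableSpace (Lb Q.Ω)) (hD : D ≤ LL Q.ms) (hn : nulL Q.toSys ≤ D)
    (hS : ∀ n, Measurable[D, D] (Lb.mp (Q.S n)))
    (hind : @Indep _ (X.ms.comap (P.π ∘ pS P.toSys t ∘ Lb.mp e.f)) D (LL Q.ms) (lbm Q.toSys)) :
    Pair X where
  toSys := Q.toSys.loeb
  π := P.π ∘ pS P.toSys t ∘ Lb.mp e.f
  π_mp := P.π_mp.comp ((IsFac.of_ext e).site t).mp
  π_S := ((IsFac.of_pair P).comp ((IsFac.of_ext e).site t)).equi
  C := D
  C_le := hD
  C_nul := hn
  C_S := hS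
  indep := hind

noncomputable def loebExtE {P Q : Pair X} (e : Ext P Q) [StandardBorelSpace P.Ω] (t : ℕ → ℤ)
    (D : MeasurableSpace (Lb Q.Ω)) (hD : D ≤ LL Q.ms) (hn : nulL Q.toSys ≤ D)
    (hS : ∀ n, Measurable[D, D] (Lb.mp (Q.S n)))
    (hind : @Indep _ (X.ms.comap (P.π ∘ pS P.toSys t ∘ Lb.mp e.f)) D (LL Q.ms) (lbm Q.toSys))
    (hC : P.C.comap (pS P.toSys t ∘ Lb.mp e.f) ≤ D) :
    Ext P (loebPairE e t D hD hn hS hind) where
  f := pS P.toSys t ∘ Lb.mp e.f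
  f_mp := ((IsFac.of_ext e).site t).mp
  f_S := ((IsFac.of_ext e).site t).equi
  f_π := EventuallyEq.rfl
  f_C := hC

end pair

/-! ### conditional expectations at a site -/

section ce

theorem ae_comp_S (M : Sys) (n : ℤ) {δ : Type*} {g g' : M.Ω → δ} (h : g =ᵐ[M.μ] g') :
    g ∘ M.S n =ᵐ[M.μ] g' ∘ M.S n :=
  (M.S_mp n).quasiMeasurePreserving.ae_eq_comp h

theorem comap_S_eq (M : Sys) {C : MeasurableSpace M.Ω} (hCS : ∀ n, Measurable[C, C] (M.S n))
    (n : ℤ) : C.comap (M.S n) = C := by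
  apply le_antisymm (hCS n).comap_le
  intro A hA
  refine ⟨M.S (-n) ⁻¹' A, hCS (-n) hA, ?_⟩
  ext x
  show M.S (-n) (M.S n x) ∈ A ↔ x ∈ A
  rw [← M.S_add, neg_add_cancel, M.S_zero]

/-- `E[f ∘ T^n | C] = E[f | C] ∘ T^n` -/
theorem condExp_S (M : Sys) {C : MeasurableSpace M.Ω} (hC : C ≤ M.ms)
    (hCS : ∀ n, Measurable[C, C] (M.S n)) (n : ℤ) {f : M.Ω → ℝ}
    (hf : Integrable f M.μ) :
    (M.μ)[f ∘ M.S n | C] =ᵐ[M.μ] (M.μ)[f | C] ∘ M.S n := by
  have h := condExp_comp_mp (M.S_mp n) hC hf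
  rwa [comap_S_eq M hCS n] at h

theorem Bd.BM_site (M : Sys) (s : ℕ → ℤ) {m : MeasurableSpace M.Ω}
    (hm : ∀ n, Measurable[m, m] (M.S n)) {f : M.Ω → ℝ} (hf : Bd m f) :
    ∃ C, 0 ≤ C ∧ BM m (fun k x => f (M.S (s k) x)) C := by
  obtain ⟨hf1, K, hK⟩ := hf
  refine ⟨|K|, abs_nonneg _, ⟨fun k => hf1.comp (hm (s k)), fun k x => (hK _).trans (le_abs_self K)⟩⟩

/-- `E[f_s | CC] = (E[f | C])_s` for every bounded version `g` of `E[f|C]`. -/
theorem condExp_sitef_LL (M : Sys) {C : MeasurableSpace M.Ω} (hC : C ≤ M.ms)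
    (hCS : ∀ n, Measurable[C, C] (M.S n)) (s : ℕ → ℤ) {f g : M.Ω → ℝ} (hf : Bd M.ms f)
    (hg : Bd C g) (hfg : g =ᵐ[M.μ] (M.μ)[f | C]) :
    (lbm M)[sitef M s f | LL C] =ᵐ[lbm M] sitef M s g := by
  obtain ⟨K, hK0, hK⟩ := Bd.BM_site M s (m := M.ms) (fun n => S_meas M n) hf
  obtain ⟨K', hK'0, hK'⟩ := Bd.BM_site M s hCS hg
  have hfi : Integrable f M.μ := by
    obtain ⟨hf1, L, hL⟩ := hf
    exact @integrable_of_bdd _ M.ms M.μ _ f hf1 L hL
  refine condExp_st hC hK hK' (fun k => ?_)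
  have h1 := condExp_S M hC hCS (s k) hfi
  have h2 : g ∘ M.S (s k) =ᵐ[M.μ] (M.μ)[f | C] ∘ M.S (s k) :=
    ae_comp_S M (s k) hfg
  exact h2.trans h1.symm

/-- bounded versions of conditional expectations -/
theorem exists_bd_condExp {α : Type*} {C mα : MeasurableSpace α} {μ : Measure α}
    [IsProbabilityMeasure μ] (hC : C ≤ mα) {f : α → ℝ} (hf : Bd mα f) :
    ∃ g, Bd C g ∧ g =ᵐ[μ] μ[f | C] := by
  obtain ⟨g, hg, h⟩ := (bdM_iff_Bd.2 hf).condExp_bm (μ := μ) hC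
  exact ⟨g, bdM_iff_Bd.1 hg, h.symm⟩

end ce

end Crest.Agent.R069.Glue
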