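import Crest.Agent.R069.Iface
import Crest.Agent.R069.Arr3Asm
import Crest.Agent.R069.CILoeb

/-!
# Row 69 (S0092), node N_DATA (helper93)

`n_data : N_TWO → N_IND → N_TOT → N_DATA`: from a closed `S1`-sated pair to the end-game data.
-/

set_option autoImplicit false
set_option linter.unusedSectionVars false

open MeasureTheory Filter Set ProbabilityTheory
open scoped ENNReal Topology

namespace Crest.Agent.R069.HData

/-- the identity extension -/
def reflExt {X : Sys} (P : Pair X) : Ext P P where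
  f := id
  f_mp := MeasurePreserving.id _
  f_S _ := EventuallyEq.rfl
  f_π := EventuallyEq.rfl
  f_C := by rw [MeasurableSpace.comap_id]

/-- the automorphism `S n` -/
def eqv (M : Sys) (n : ℤ) : M.Ω ≃ᵐ M.Ω where
  toFun := M.S n
  invFun := M.S (-n)
  left_inv x := by rw [← M.S_add, neg_add_cancel, M.S_zero]
  right_inv x := by rw [← M.S_add, add_neg_cancel, M.S_zero]
  measurable_toFun := (M.S_mp n).measurable
  measurable_invFun := (M.S_mp (-n)).measurable

theorem S_comm (M : Sys) (a b : ℤ) (x : M.Ω) : M.S a (M.S b x) = M.S b (M.S a x) := by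
  rw [← M.S_add, add_comm, M.S_add]

/-- the action on the Loeb space -/
def LS (M : Sys) (n : ℤ) : Lb M.Ω → Lb M.Ω := lbmap fun _ => M.S n

/-! ### functions at a site -/

section site

variable {ι : Type}

theorem measurable_sitev (M : Sys) [StandardBorelSpace M.Ω] [Nonempty M.Ω] (s : ι → ℕ → ℤ) :
    Measurable (sitev M s) :=
  measurable_pi_lambda _ fun i => measurable_sv fun k => (M.S_mp (s i k)).measurable

theorem mp_sitev (M : Sys) [StandardBorelSpace M.Ω] [Nonempty M.Ω] (s : ι → ℕ → ℤ) (i : ι) :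
    MeasurePreserving (fun x => sitev M s x i) (lb M.μ) M.μ :=
  measurePreserving_sv fun k => M.S_mp (s i k)

theorem sitev_ae (M : Sys) [StandardBorelSpace M.Ω] [Nonempty M.Ω] (s : ι → ℕ → ℤ) (i : ι)
    {f : M.Ω → ℝ} (hf : Measurable f) :
    (fun x => f (sitev M s x i)) =ᵐ[lb M.μ] sitef M (s i) f :=
  comp_sv_ae_eq_st (fun k => M.S_mp (s i k)) hf

/-- the shift rule -/
theorem sitev_S (M : Sys) [StandardBorelSpace M.Ω] [Nonempty M.Ω] [Fintype ι] (s : ι → ℕ → ℤ)
    (n : ℤ) : ∀ᵐ x ∂(lb M.μ), sitev M s (LS M n x) = fun i => M.S n (sitev M s x i) := by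
  have h : ∀ᵐ x ∂(lb M.μ), ∀ i, sv (fun k => M.S n ∘ M.S (s i k)) x
      = M.S n (sv (fun k => M.S (s i k)) x) := by
    rw [ae_all_iff]
    exact fun i => sv_comp_ae (fun k => M.S_mp (s i k)) (M.S_mp n).measurable
  filter_upwards [h] with x hx
  funext i
  show sv (fun k => M.S (s i k)) (lbmap (fun _ => M.S n) x) = _
  rw [sv_lbmap]
  have e : (fun k => M.S (s i k) ∘ M.S n) = fun k => M.S n ∘ M.S (s i k) := by
    funext k y
    exact S_comm M _ _ y
  rw [e]
  exact hx i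

/-- the sites of a factor of an extension -/
theorem sitev_ext {X : Sys} {P Q : Pair X} (e : Ext P Q) [StandardBorelSpace P.Ω] [Nonempty P.Ω]
    [StandardBorelSpace Q.Ω] [Nonempty Q.Ω] (s : ι → ℕ → ℤ) (i : ι) :
    ∀ᵐ x ∂(lb Q.μ), sitev P.toSys s (Lb.mp e.f x) i = e.f (sitev Q.toSys s x i) := by
  have h1 : sv (fun k => P.S (s i k) ∘ e.f) =ᵐ[lb Q.μ] sv (fun k => e.f ∘ Q.S (s i k)) := by
    refine sv_congr_ae fun k => ?_
    exact (e.f_S (s i k)).symm
  have h2 : ∀ᵐ x ∂(lb Q.μ), sv (fun k => e.f ∘ Q.S (s i k)) x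
      = e.f (sv (fun k => Q.S (s i k)) x) :=
    sv_comp_ae (fun k => Q.S_mp (s i k)) e.f_mp.measurable
  filter_upwards [h1, h2] with x hx1 hx2
  show sv (fun k => P.S (s i k)) (lbmap (fun _ => e.f) x) = _
  rw [sv_lbmap, hx1, hx2]
  rfl

end site

/-! ### conditional independence -/

theorem iCI_of_site {X : Sys} {ι : Type} {s : ι → ℕ → ℤ} {J : Finset ι} (P : Pair X)
    (h : IndAt s J P P (reflExt P)) {Z : Type*} [mZ : MeasurableSpace Z] (ξ : ι → Lb P.Ω → Z)
    (φ : P.Ω → Z) (hφ : Measurable φ)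
    (hξ : ∀ i, ∀ G : Z → ℝ, BdM mZ G →
      (fun x => G (ξ i x)) =ᵐ[lb P.μ] sitef P.toSys (s i) (fun y => G (φ y))) :
    iCI (lb P.μ) (fun i => mZ.comap (ξ i)) J (LL P.C) := by
  classical
  intro F hF
  have hch : ∀ i, ∃ G : Z → ℝ, BdM mZ G ∧ (i ∈ J → F i = G ∘ ξ i) := by
    intro i
    by_cases hi : i ∈ J
    · obtain ⟨G, hG, he⟩ := (hF i hi).factors
      exact ⟨G, hG, fun _ => he⟩
    · exact ⟨fun _ => 0, BdM.const 0, fun h => absurd h hi⟩
  choose G hG hFG using hch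
  have h1 := h (fun i y => G i (φ y)) fun i => ⟨(hG i).meas.comp hφ, by
    obtain ⟨K, hK⟩ := (hG i).bdd
    exact ⟨K, fun x => hK _⟩⟩
  have e1 : (fun x => ∏ i ∈ J, F i x) =ᵐ[lb P.μ]
      fun x => ∏ i ∈ J, sitef P.toSys (s i) ((fun y => G i (φ y)) ∘ (reflExt P).f) x := by
    have h2 : ∀ᵐ x ∂(lb P.μ), ∀ i ∈ J, F i x = sitef P.toSys (s i) (fun y => G i (φ y)) x := by
      rw [Finset.eventually_all]
      intro i hi
      rw [hFG i hi]
      exact hξ i (G i) (hG i)
    filter_upwards [h2] with x hx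
    exact Finset.prod_congr rfl fun i hi => hx i hi
  have e2 : (fun x => ∏ i ∈ J, ((lb P.μ)[sitef P.toSys (s i) (fun y => G i (φ y)) | LL P.C])
      (Lb.mp (reflExt P).f x)) =ᵐ[lb P.μ] fun x => ∏ i ∈ J, ((lb P.μ)[F i | LL P.C]) x := by
    have h2 : ∀ᵐ x ∂(lb P.μ), ∀ i ∈ J,
        ((lb P.μ)[F i | LL P.C]) x
          = ((lb P.μ)[sitef P.toSys (s i) (fun y => G i (φ y)) | LL P.C]) x := by
      rw [Finset.eventually_all]
      intro i hi
      refine condExp_congr_ae ?_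
      rw [hFG i hi]
      exact hξ i (G i) (hG i)
    filter_upwards [h2] with x hx
    refine Finset.prod_congr rfl fun i hi => ?_
    rw [hx i hi]
    rfl
  exact (condExp_congr_ae e1).trans (h1.trans e2)

/-! ### the first level -/

theorem indX {Y : Sys} (F : Pair Y) [StandardBorelSpace F.Ω]
    [Nonempty F.Ω] {ι : Type} (s : ι → ℕ → ℤ) (j0 : ι) :
    Indep (Y.ms.comap (fun x => F.π (sitev F.toSys s x j0))) (LL F.C) (lb F.μ) := by
  have h0 : Indep (LL (Y.ms.comap F.π)) (LL F.C) (lb F.μ) :=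
    indep_LL F.π_mp.measurable.comap_le F.C_le F.indep
  have hm : Measurable fun x => F.π (sitev F.toSys s x j0) :=
    F.π_mp.measurable.comp (mp_sitev F.toSys s j0).measurable
  have hae : AELe (lb F.μ) (Y.ms.comap (fun x => F.π (sitev F.toSys s x j0)))
      (LL (Y.ms.comap F.π)) := by
    rintro _ ⟨A, hA, rfl⟩
    refine ⟨intl (fun k => F.π ⁻¹' (Y.S (s j0 k) ⁻¹' A)),
      measurableSet_intl fun k => ⟨_, (Y.S_mp (s j0 k)).measurable hA, rfl⟩, ?_⟩
    have h1 : sv (fun k => F.S (s j0 k)) ⁻¹' (F.π ⁻¹' A) =ᵐ[lb F.μ]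
        intl (fun k => F.S (s j0 k) ⁻¹' (F.π ⁻¹' A)) :=
      sv_preimage_ae (fun k => F.S_mp (s j0 k)) (F.π_mp.measurable hA)
    have h2 : intl (fun k => F.S (s j0 k) ⁻¹' (F.π ⁻¹' A)) =ᵐ[lb F.μ]
        intl (fun k => F.π ⁻¹' (Y.S (s j0 k) ⁻¹' A)) := by
      refine intl_ae_eq fun k => ?_
      filter_upwards [F.π_S (s j0 k)] with x hx
      exact propext (by
        show F.π (F.S (s j0 k) x) ∈ A ↔ Y.S (s j0 k) (F.π x) ∈ A
        rw [hx])
    exact h1.trans h2
  exact Indep.mono_ae (LL_mono F.π_mp.measurable.comap_le) hm.comap_le (LL_mono F.C_le)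
    (LL_mono F.C_le) hae AELe.refl h0

theorem πT {Y : Sys} (F : Pair Y) [StandardBorelSpace F.Ω]
    [Nonempty F.Ω] {ι : Type} (s : ι → ℕ → ℤ) (j0 : ι) :
    ∀ᵐ x ∂(lb F.μ), F.π (eqv F.toSys 1 (sitev F.toSys s x j0))
      = Y.S 1 (F.π (sitev F.toSys s x j0)) :=
  (mp_sitev F.toSys s j0).quasiMeasurePreserving.ae (F.π_S 1)

theorem oneCopy {Y : Sys} [StandardBorelSpace Y.Ω] (F : Pair Y) [StandardBorelSpace F.Ω]
    [Nonempty F.Ω] {ι : Type} [Fintype ι] [DecidableEq ι] (s : ι → ℕ → ℤ) (j0 : ι)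
    (hI : ∀ i0, IndAt s (Finset.univ.erase i0) F F (reflExt F)) :
    Arr3.OneCopy (LL F.C) (lb F.μ) (LS F.toSys) (sitev F.toSys s) (eqv F.toSys 1) F.π Y.μ
      (Y.S 1) j0 where
  hC := LL_mono F.C_le
  me := measurable_sitev F.toSys s
  mp n := measurePreserving_lbmap fun _ => F.S_mp n
  add a b x := funext fun k => F.S_add a b (x k)
  zero x := funext fun k => F.S_zero (x k)
  SC n := measurable_lbmap' fun _ => F.C_S n
  eT := sitev_S F.toSys s 1
  mπ := F.π_mp.measurable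
  mTX := (Y.S_mp 1).measurable
  lawX := (F.π_mp.comp (mp_sitev F.toSys s j0)).map_eq
  indX := indX F s j0
  πT := πT F s j0
  ind i0 := iCI_of_site F (hI i0) (fun i x => sitev F.toSys s x i) id measurable_id
    fun i _ hG => sitev_ae F.toSys s i hG.meas

/-! ### the second level -/

theorem twoCopies {Y : Sys} [StandardBorelSpace Y.Ω] (F Q : Pair Y) (e e' : Ext F Q)
    [StandardBorelSpace F.Ω] [Nonempty F.Ω] [StandardBorelSpace Q.Ω] [Nonempty Q.Ω]
    {ι : Type} [Fintype ι] [DecidableEq ι] (s : ι → ℕ → ℤ) (j0 : ι) (hSF : S1 F)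
    (hi : Indep (F.C.comap e.f) (F.C.comap e'.f) Q.μ)
    (hI : ∀ i0, IndAt s (Finset.univ.erase i0) Q Q (reflExt Q)) :
    Arr3.TwoCopies (LL F.C) (LL Q.C) (lb F.μ) (lb Q.μ) (Lb.mp e.f) (Lb.mp e'.f)
      (sitev F.toSys s) F.π j0 where
  hC2 := LL_mono Q.C_le
  mq := measurePreserving_lbmap fun _ => e.f_mp
  mq' := measurePreserving_lbmap fun _ => e'.f_mp
  le := by
    have := comap_lbmap_LL (mβ := F.C) e.f
    exact this.le.trans (LL_mono e.f_C)
  le' := by
    have := comap_lbmap_LL (mβ := F.C) e'.f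
    exact this.le.trans (LL_mono e'.f_C)
  indCC := by
    have h1 := comap_lbmap_LL (mβ := F.C) e.f
    have h2 := comap_lbmap_LL (mβ := F.C) e'.f
    show Indep ((LL F.C).comap (lbmap fun _ => e.f)) ((LL F.C).comap (lbmap fun _ => e'.f))
      (lb Q.μ)
    rw [h1, h2]
    exact indep_LL (e.f_C.trans Q.C_le) (e'.f_C.trans Q.C_le) hi
  S1 G hG hb := condExp_loeb_comp Q.C_le F.C_le e.f_mp
    (fun f hf => hSF Q e f ⟨hf.meas, hf.bdd⟩) ⟨hG, hb⟩
  S1' G hG hb := condExp_loeb_comp Q.C_le F.C_le e'.f_mp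
    (fun f hf => hSF Q e' f ⟨hf.meas, hf.bdd⟩) ⟨hG, hb⟩
  XX := by
    filter_upwards [sitev_ext e s j0, sitev_ext e' s j0,
      (mp_sitev Q.toSys s j0).quasiMeasurePreserving.ae e.f_π,
      (mp_sitev Q.toSys s j0).quasiMeasurePreserving.ae e'.f_π] with x h1 h2 h3 h4
    rw [h1, h2]
    have h3' : Q.π (sitev Q.toSys s x j0) = F.π (e.f (sitev Q.toSys s x j0)) := h3
    have h4' : Q.π (sitev Q.toSys s x j0) = F.π (e'.f (sitev Q.toSys s x j0)) := h4
    rw [← h3', ← h4']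
  ind2 i0 := by
    refine iCI_of_site Q (hI i0)
      (fun i x => (sitev F.toSys s (Lb.mp e.f x) i, sitev F.toSys s (Lb.mp e'.f x) i))
      (fun y => (e.f y, e'.f y)) (e.f_mp.measurable.prodMk e'.f_mp.measurable) fun i G hG => ?_
    have hm : Measurable fun y => G (e.f y, e'.f y) :=
      hG.meas.comp (e.f_mp.measurable.prodMk e'.f_mp.measurable)
    filter_upwards [sitev_ext e s i, sitev_ext e' s i, sitev_ae Q.toSys s i hm] with x h1 h2 h3
    rw [h1, h2]
    exact h3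

/-! ### passing to another environment variable -/

theorem totAt_change {L : Type} {ι E : Type} [Fintype ι] [DecidableEq ι]
    [mE : MeasurableSpace E] [StandardBorelSpace E] [Nonempty E] {mC : MeasurableSpace L}
    [mL : MeasurableSpace L]
    {P : Measure L} [IsProbabilityMeasure P] {z : L → ι → E} {w w' : L → Arr.W}
    {κ κ' : Kernel Arr.W (ι → E)} (hC : mC ≤ mL) (hz : Measurable z)
    (h : Arr.IsEnv mC P z w κ) (h' : Arr.IsEnv mC P z w' κ') (p : Measure (ι → E) → Prop)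
    (hp : ∀ᵐ v ∂(P.map w), p (κ v)) : ∀ᵐ v ∂(P.map w'), p (κ' v) := by
  have hm1 := h.markov
  have hm2 := h'.markov
  have a1 := Arr3.IsEnv.of_arr hC hz h
  have a2 := Arr3.IsEnv.of_arr hC hz h'
  have mw : Measurable[mC] fun x => (w x, w' x) := h.meas.prodMk h'.meas
  have mwL : Measurable fun x => (w x, w' x) := mw.mono hC le_rfl
  have b1 := a1.comap (fun x => (w x, w' x)) mw Prod.fst measurable_fst fun _ => rfl
  have b2 := a2.comap (fun x => (w x, w' x)) mw Prod.snd measurable_snd fun _ => rfl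
  have hu := b1.unique b2
  have h1 : ∀ᵐ v ∂(P.map fun x => (w x, w' x)), p (κ v.1) := by
    have e : P.map w = (P.map fun x => (w x, w' x)).map Prod.fst := by
      rw [Measure.map_map measurable_fst mwL]; rfl
    rw [e] at hp
    exact ae_of_ae_map measurable_fst.aemeasurable hp
  have h2 : ∀ᵐ v ∂(P.map fun x => (w x, w' x)), p (κ' v.2) := by
    filter_upwards [h1, hu] with v hv1 hv2
    have hv3 : κ v.1 = κ' v.2 := hv2
    rw [← hv3]
    exact hv1
  have : IsProbabilityMeasure (P.map fun x => (w x, w' x)) :=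
    Measure.isProbabilityMeasure_map mwL.aemeasurable
  have h3 := Arr.ae_map_of_ae (P.map fun x => (w x, w' x)) (q := Prod.snd) measurable_snd
    (Q := fun v => p (κ' v)) h2
  have e : P.map w' = (P.map fun x => (w x, w' x)).map Prod.snd := by
    rw [Measure.map_map measurable_snd mwL]; rfl
  rw [e]
  exact h3

theorem n_data (hTWO : N_TWO) (hIND : N_IND) (hTOT : N_TOT) : N_DATA := by
  intro Y hY F hF ι _ s h3 hX hS hcl
  classical
  obtain ⟨Q, e, e', hQ, hSQ, hi⟩ := hTWO Y hY F hF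
  have hneF : Nonempty F.Ω := nonempty_of_isProbabilityMeasure F.μ
  have hneQ : Nonempty Q.Ω := nonempty_of_isProbabilityMeasure Q.μ
  have hJ : ∀ i0 : ι, (Finset.univ.erase i0 : Finset ι) ≠ Finset.univ := fun i0 h => by
    have := Finset.mem_univ i0
    rw [← h] at this
    exact Finset.notMem_erase i0 _ this
  have hIF : ∀ i0, IndAt s (Finset.univ.erase i0) F F (reflExt F) := fun i0 =>
    hIND Y hY F hF hS ι s _ (hX _ (hJ i0)) F (reflExt F)
  have hIQ : ∀ i0, IndAt s (Finset.univ.erase i0) Q Q (reflExt Q) := fun i0 =>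
    hIND Y hY Q hQ hSQ ι s _ (hX _ (hJ i0)) Q (reflExt Q)
  obtain ⟨j0⟩ : Nonempty ι := Fintype.card_pos_iff.1 (by omega)
  have H := oneCopy F s j0 hIF
  have H2 := twoCopies F Q e e' s j0 hS hi hIQ
  obtain ⟨w, κ, hE, hT⟩ := hTOT Y hY F ι s h3 hX hS hcl
  have hE' := Arr.isEnv_env (P := lb F.μ) H.hC H.me H.zero H.SC
    (b := fun _ _ => 0) fun _ => measurable_const
  have hT' := totAt_change H.hC H.me hE hE' (fun ρ => TotAt ρ j0) (hT j0)
  have hyp := Arr3.hyp h3 H H2 (SX := Y.S) rfl (by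
    filter_upwards [hT'] with v hv h hm hb ε hε
    obtain ⟨G, a, hG, hlt⟩ := hv h hm hb ε hε
    refine ⟨G, a, fun f hf => hG f hf, ?_⟩
    have hj : Measurable fun y : ι → F.Ω => y j0 := measurable_pi_apply j0
    rw [Arr3.marg_apply, integral_map hj.aemeasurable]
    · exact hlt
    · refine Measurable.aestronglyMeasurable ?_
      have : Measurable fun x => ∑ f ∈ G, a f * f x :=
        Finset.measurable_sum G fun f hf => (hG f hf).1.const_mul _
      exact ((hm.sub this).norm).pow_const 2)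
  have hact : End.Act Y.μ Y.S := ⟨Y.S_mp, Y.S_add, Y.S_zero⟩
  have hpr1 : IsProbabilityMeasure (Arr3.nu1 (LL F.C) (lb F.μ) (sitev F.toSys s)
    (LS F.toSys)) := Measure.isProbabilityMeasure_map
      (Arr3.isEnv1 H).mw'.aemeasurable
  have hpr2 : IsProbabilityMeasure (Arr3.nu2 (LL F.C) (LL Q.C) (lb F.μ) (lb Q.μ)
    (sitev F.toSys s) (LS F.toSys) (Lb.mp e.f) (Lb.mp e'.f)) := by
    refine Measure.isProbabilityMeasure_map ?_
    exact (Arr3.env2 (Arr3.isEnv2 H H2) (Arr3.isEnv1 H) H2.le H2.le').mw'.aemeasurable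
  have hW : StandardBorelSpace Arr.W := inferInstance
  have hWW : StandardBorelSpace (Arr.W × Arr.W) := StandardBorelSpace.prod
  have hW3 : StandardBorelSpace (Arr.W × Arr.W × Arr.W) := StandardBorelSpace.prod
  obtain ⟨v, N, hN⟩ := Desc.exists_data hact hyp
  exact ⟨F.Ω, F.ms, _, N, inferInstance, inferInstance, hN⟩

end Crest.Agent.R069.HData
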