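import Crest.Agent.R069.Loeb

/-!
# Pairs `(E, C)` over a base system and extensions (row 69)
-/

set_option autoImplicit false

open MeasureTheory Filter Set ProbabilityTheory
open scoped ENNReal Topology

namespace Crest.Agent.R069

/-- A measure preserving `ℤ`-system on an arbitrary probability space. -/
structure Sys : Type 1 where
  Ω : Type
  [ms : MeasurableSpace Ω]
  μ : Measure Ω
  [pr : IsProbabilityMeasure μ]
  S : ℤ → Ω → Ω
  S_zero : ∀ x, S 0 x = x
  S_add : ∀ a b x, S (a + b) x = S a (S b x)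
  S_mp : ∀ n, MeasurePreserving (S n) μ μ

attribute [instance] Sys.ms Sys.pr

/-- The sigma-algebra of measurable sets of measure `0` or `1`. -/
@[implicit_reducible]
def nul {α : Type*} [MeasurableSpace α] (μ : Measure α) : MeasurableSpace α where
  MeasurableSet' A := MeasurableSet A ∧ (μ A = 0 ∨ μ Aᶜ = 0)
  measurableSet_empty := ⟨MeasurableSet.empty, Or.inl (by simp)⟩
  measurableSet_compl A hA := ⟨hA.1.compl, by rw [compl_compl]; exact hA.2.symm⟩
  measurableSet_iUnion f hf := by
    refine ⟨MeasurableSet.iUnion fun i => (hf i).1, ?_⟩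
    by_cases h : ∀ i, μ (f i) = 0
    · left; exact measure_iUnion_null h
    · right
      push Not at h
      obtain ⟨i, hi⟩ := h
      have h2 : μ (f i)ᶜ = 0 := ((hf i).2).resolve_left hi
      exact measure_mono_null (compl_subset_compl.2 (subset_iUnion f i)) h2

/-- A pair `(E, C)` over the base system `X`: a system `E` with a factor map `π` to `X` and an
invariant (complete) sub-sigma-algebra `C` independent of `X`. -/
structure Pair (X : Sys) : Type 1 extends Sys where
  π : Ω → X.Ω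
  π_mp : MeasurePreserving π μ X.μ
  π_S : ∀ n, (fun x => π (S n x)) =ᵐ[μ] fun x => X.S n (π x)
  C : MeasurableSpace Ω
  C_le : C ≤ ms
  C_nul : @nul Ω ms μ ≤ C
  C_S : ∀ n, Measurable[C, C] (S n)
  indep : @Indep Ω (X.ms.comap π) C ms μ

/-- `Q` is an extension of `P`. -/
structure Ext {X : Sys} (P Q : Pair X) where
  f : Q.Ω → P.Ω
  f_mp : MeasurePreserving f Q.μ P.μ
  f_S : ∀ n, (fun x => f (Q.S n x)) =ᵐ[Q.μ] fun x => P.S n (f x)
  f_π : Q.π =ᵐ[Q.μ] P.π ∘ f
  f_C : P.C.comap f ≤ Q.C

/-- the sigma-algebra of the standard functions at the site `s` on the Loeb space. -/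
@[implicit_reducible]
def siteA (M : Sys) (s : ℕ → ℤ) : MeasurableSpace (Lb M.Ω) :=
  MeasurableSpace.generateFrom
    {B | ∃ A : Set M.Ω, MeasurableSet A ∧ B = intl (fun k => M.S (s k) ⁻¹' A)}

/-- everything except the site `i`:  `⋁_{j ≠ i} M_{s_j} ⊔ CC` (complete). -/
@[implicit_reducible]
noncomputable def rest {X : Sys} {ι : Type} (s : ι → ℕ → ℤ) (i : ι) (P : Pair X) :
    MeasurableSpace (Lb P.Ω) :=
  (⨆ j, ⨆ _ : j ≠ i, siteA P.toSys (s j)) ⊔ LL P.C ⊔ nul (lb P.μ)

/-- the map of Loeb spaces induced by a map. -/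
def Lb.mp {α β : Type*} (f : α → β) : Lb α → Lb β := fun x k => f (x k)

/-- energy of a set at the level of the pair. -/
noncomputable def en0 {X : Sys} (P : Pair X) (A : Set P.Ω) : ℝ :=
  ∫ x, (P.μ[A.indicator (fun _ => (1 : ℝ)) | P.C] x) ^ 2 ∂P.μ

/-- energy of a set placed at the site `i`, with respect to the other sites and the
environment. -/
noncomputable def en1 {X : Sys} {ι : Type} (s : ι → ℕ → ℤ) (i : ι) (P : Pair X) (A : Set P.Ω) :
    ℝ :=
  ∫ x, ((lb P.μ)[(intl (fun k => P.S (s i k) ⁻¹' A)).indicator (fun _ => (1 : ℝ)) |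
    rest s i P] x) ^ 2 ∂(lb P.μ)

/-- **Sated pairs** (with respect to all extensions in a class `K` of pairs). -/
structure Sated {X : Sys} {ι : Type} (s : ι → ℕ → ℤ) (K : Pair X → Prop) (P : Pair X) :
    Prop where
  sated0 : ∀ (Q : Pair X), K Q → ∀ (e : Ext P Q) (A : Set P.Ω), MeasurableSet A →
    en0 Q (e.f ⁻¹' A) = en0 P A
  sated1 : ∀ (Q : Pair X), K Q → ∀ (e : Ext P Q) (A : Set P.Ω), MeasurableSet A →
    ∀ i, en1 s i Q (e.f ⁻¹' A) = en1 s i P A

end Crest.Agent.R069
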