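import Crest.Agent.R069.CI
import Crest.Agent.R069.LoebInt
import Crest.Agent.R069.LoebMap
import Crest.Agent.R069.SatDefs
import Crest.Agent.R069.Defs

/-!
# PUSH: the visible sub-sigma-algebra and extensions (row 69)

* `atS M s g` : the function `g` placed at the site `s` (on the Loeb space of the system `M`);
* `E1 s P`    : the sigma-algebra of the sets visible in every role;
* `push`      : a function of `e.f` and `Q.C` that is visible in every role for the extension `Q`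
                is a function of `e.f⁻¹ (E1 s P)` and `Q.C`.
-/

set_option autoImplicit false

open MeasureTheory Filter Set ProbabilityTheory
open scoped ENNReal Topology

namespace Crest.Agent.R069.Push

/-! ### Complete sub-sigma-algebras -/

section nul

variable {Ω : Type*} {m : MeasurableSpace Ω} {mΩ : MeasurableSpace Ω} {μ : Measure Ω}

theorem nul_le (μ : Measure Ω) : nul μ ≤ mΩ := fun _ hA => hA.1

theorem measurableSet_of_ae_eq (hm : m ≤ mΩ) (hn : nul μ ≤ m) {A B : Set Ω}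
    (hA : MeasurableSet A) (hB : MeasurableSet[m] B) (h : A =ᵐ[μ] B) : MeasurableSet[m] A := by
  have h1 : MeasurableSet[m] (A \ B) :=
    hn _ ⟨hA.diff (hm _ hB), Or.inl (by
      have := ae_le_set.1 h.le
      exact this)⟩
  have h2 : MeasurableSet[m] (B \ A) :=
    hn _ ⟨(hm _ hB).diff hA, Or.inl (by
      have := ae_le_set.1 h.symm.le
      exact this)⟩
  have h3 : A = (B \ (B \ A)) ∪ (A \ B) := by
    ext x; simp only [mem_union, Set.mem_sdiff]; tauto
  rw [h3]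
  exact MeasurableSet.union (MeasurableSet.diff hB h2) h1

theorem measurable_of_aesm (hm : m ≤ mΩ) (hn : nul μ ≤ m) {f : Ω → ℝ}
    (hf : Measurable f) (h : AEStronglyMeasurable[m] f μ) : Measurable[m] f := by
  obtain ⟨g, hg, hfg⟩ := h
  intro B hB
  refine measurableSet_of_ae_eq hm hn (hf hB) (hg.measurable hB) ?_
  filter_upwards [hfg] with x hx
  show (f x ∈ B) = (g x ∈ B)
  rw [hx]

end nul

/-! ### Functions and sets at a site -/

/-- the function `g` placed at the site `s`. -/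
noncomputable def atS (M : Sys) (s : ℕ → ℤ) (g : M.Ω → ℝ) : Lb M.Ω → ℝ :=
  st (fun k y => g (M.S (s k) y))

section sites

variable {M : Sys} {s : ℕ → ℤ}

theorem measurable_site {A : Set M.Ω} (hA : MeasurableSet A) :
    MeasurableSet (intl (fun k => M.S (s k) ⁻¹' A)) :=
  measurableSet_intl (fun k => (M.S_mp (s k)).measurable hA)

theorem lb_site {A : Set M.Ω} (hA : MeasurableSet A) :
    lb M.μ (intl (fun k => M.S (s k) ⁻¹' A)) = M.μ A := by
  rw [lb_intl M.μ (fun k => (M.S_mp (s k)).measurable hA)]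
  apply ulim_eq
  have : ∀ k, M.μ (M.S (s k) ⁻¹' A) = M.μ A := fun k =>
    (M.S_mp (s k)).measure_preimage hA.nullMeasurableSet
  simp_rw [this]
  exact tendsto_const_nhds

theorem intl_mono {α : Type*} {A B : ℕ → Set α} (h : ∀ k, A k ⊆ B k) : intl A ⊆ intl B := by
  intro x hx
  have hx' : ∀ᶠ k in (UU : Filter ℕ), x k ∈ A k := hx
  show ∀ᶠ k in (UU : Filter ℕ), x k ∈ B k
  filter_upwards [hx'] with k hk using h k hk

theorem intl_accumulate {α : Type*} {A : ℕ → ℕ → Set α} (N : ℕ) :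
    intl (fun k => ⋃ n ≤ N, A n k) ⊆ ⋃ n, intl (A n) := by
  induction N with
  | zero =>
    intro x hx
    refine mem_iUnion.2 ⟨0, ?_⟩
    have hx' : ∀ᶠ k in (UU : Filter ℕ), x k ∈ ⋃ n ≤ 0, A n k := hx
    show ∀ᶠ k in (UU : Filter ℕ), x k ∈ A 0 k
    filter_upwards [hx'] with k hk
    simp only [mem_iUnion] at hk
    obtain ⟨n, hn, hk⟩ := hk
    obtain rfl : n = 0 := by omega
    exact hk
  | succ N ih =>
    intro x hx
    have hx' : x ∈ intl (fun k => (⋃ n ≤ N, A n k) ∪ A (N + 1) k) := by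
      have hx1 : ∀ᶠ k in (UU : Filter ℕ), x k ∈ ⋃ n ≤ N + 1, A n k := hx
      show ∀ᶠ k in (UU : Filter ℕ), x k ∈ (⋃ n ≤ N, A n k) ∪ A (N + 1) k
      filter_upwards [hx1] with k hk
      simp only [mem_iUnion] at hk
      obtain ⟨n, hn, hk⟩ := hk
      rcases Nat.lt_or_ge N n with h | h
      · right
        obtain rfl : n = N + 1 := by omega
        exact hk
      · left
        simp only [mem_iUnion]
        exact ⟨n, h, hk⟩
    rw [intl_union] at hx'
    rcases hx' with h | h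
    · exact ih h
    · exact mem_iUnion.2 ⟨N + 1, h⟩

theorem site_iUnion_ae {A : ℕ → Set M.Ω} (hA : ∀ n, MeasurableSet (A n)) :
    intl (fun k => M.S (s k) ⁻¹' (⋃ n, A n)) =ᵐ[lb M.μ]
      ⋃ n, intl (fun k => M.S (s k) ⁻¹' (A n)) := by
  have hsub : (⋃ n, intl (fun k => M.S (s k) ⁻¹' (A n))) ⊆
      intl (fun k => M.S (s k) ⁻¹' (⋃ n, A n)) :=
    iUnion_subset fun n => intl_mono fun k => preimage_mono (subset_iUnion A n)
  refine (ae_eq_of_subset_of_measure_ge hsub ?_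
    (MeasurableSet.iUnion fun n => measurable_site (hA n)).nullMeasurableSet
    (measure_ne_top _ _)).symm
  rw [lb_site (MeasurableSet.iUnion hA), measure_iUnion_eq_iSup_accumulate]
  refine iSup_le fun N => ?_
  have h1 : MeasurableSet (Set.accumulate A N) := by
    rw [Set.accumulate_def]
    exact MeasurableSet.iUnion fun n => MeasurableSet.iUnion fun _ => hA n
  rw [← lb_site (M := M) (s := s) h1]
  refine measure_mono ?_
  refine Subset.trans ?_ (intl_accumulate (A := fun n k => M.S (s k) ⁻¹' (A n)) N)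
  refine intl_mono fun k => ?_
  intro y hy
  rw [mem_preimage, Set.mem_accumulate] at hy
  simp only [mem_iUnion]
  obtain ⟨n, hn, hy⟩ := hy
  exact ⟨n, hn, hy⟩

theorem stOK_at {g : M.Ω → ℝ} (hg : ∃ C, ∀ x, |g x| ≤ C) :
    StOK (fun k y => g (M.S (s k) y)) := by
  obtain ⟨C, hC⟩ := hg
  exact stOK_of_bdd (C := C) (fun k x => by simpa using hC _)

/-- the level sets of the standard part -/
theorem atS_gt {g : M.Ω → ℝ} (hg : ∃ C, ∀ x, |g x| ≤ C) (q : ℝ) :
    {x | q < atS M s g x} = ⋃ (p : ℚ), ⋃ (_ : q < p),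
      intl (fun k => M.S (s k) ⁻¹' {y | (p : ℝ) < g y}) := by
  have hok := stOK_at (M := M) (s := s) hg
  ext x
  simp only [mem_iUnion, mem_ofPred_eq]
  constructor
  · intro hx
    obtain ⟨p, hp1, hp2⟩ := exists_rat_btwn hx
    refine ⟨p, hp1, ?_⟩
    have := (hok x).eventually (lt_mem_nhds hp2)
    exact this
  · rintro ⟨p, hp, hx⟩
    have hx' : ∀ᶠ k in (UU : Filter ℕ), (p : ℝ) < g (M.S (s k) (x k)) := hx
    have h1 : (p : ℝ) ≤ atS M s g x := ge_of_tendsto (hok x) (hx'.mono fun k hk => hk.le)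
    exact lt_of_lt_of_le hp h1

theorem bdM_atS {m : MeasurableSpace M.Ω} {g : M.Ω → ℝ} (hg : BdM m g)
    (hS : ∀ n, Measurable[m, m] (M.S n)) : BdM (LL m) (atS M s g) := by
  obtain ⟨C, hC⟩ := hg.bdd
  refine ⟨measurable_st (stOK_at hg.bdd) (fun k => ?_), C, fun x => ?_⟩
  · exact hg.meas.comp (hS (s k))
  · have := norm_st_le (f := fun k y => g (M.S (s k) y)) (C := C)
      (fun k x => by simpa using hC _) x
    rw [Real.norm_eq_abs] at this
    exact this

theorem bdM_atS' {g : M.Ω → ℝ} (hg : BdM M.ms g) : BdM (LL M.ms) (atS M s g) :=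
  bdM_atS hg (fun n => (M.S_mp n).measurable)

theorem atS_mul {f g : M.Ω → ℝ} (hf : ∃ C, ∀ x, |f x| ≤ C) (hg : ∃ C, ∀ x, |g x| ≤ C) :
    atS M s (fun x => f x * g x) = fun x => atS M s f x * atS M s g x :=
  st_mul (stOK_at hf) (stOK_at hg)

theorem integral_atS {g : M.Ω → ℝ} (hg : BdM M.ms g) :
    ∫ x, atS M s g x ∂(lb M.μ) = ∫ x, g x ∂M.μ := by
  obtain ⟨C, hC⟩ := hg.bdd
  have h1 := tendsto_integral_st (μ := M.μ) (f := fun k y => g (M.S (s k) y)) (C := C)
    ⟨fun k => hg.meas.comp (M.S_mp (s k)).measurable, fun k x => hC _⟩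
  have h2 : ∀ k, ∫ x, g (M.S (s k) x) ∂M.μ = ∫ x, g x ∂M.μ := fun k =>
    integral_comp_mp (M.S_mp (s k)) (hg.aemeas le_rfl)
  simp_rw [h2] at h1
  exact tendsto_nhds_unique h1 tendsto_const_nhds

theorem atS_indicator {A : Set M.Ω} :
    atS M s (A.indicator (fun _ => (1 : ℝ))) =
      (intl (fun k => M.S (s k) ⁻¹' A)).indicator (fun _ => (1 : ℝ)) := by
  have h1 : (fun (k : ℕ) (y : M.Ω) => A.indicator (fun _ => (1 : ℝ)) (M.S (s k) y)) =
      fun k => (M.S (s k) ⁻¹' A).indicator (fun _ => (1 : ℝ)) := by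
    funext k y
    by_cases hy : M.S (s k) y ∈ A
    · rw [indicator_of_mem hy, indicator_of_mem (show y ∈ M.S (s k) ⁻¹' A from hy)]
    · rw [indicator_of_notMem hy, indicator_of_notMem (show y ∉ M.S (s k) ⁻¹' A from hy)]
  unfold atS
  rw [h1, st_indicator _ (f := fun _ _ => (1 : ℝ)) (stOK_of_bdd (C := 1) (by simp)), st_const]

theorem atS_congr_ae {f g : M.Ω → ℝ} (h : f =ᵐ[M.μ] g) : atS M s f =ᵐ[lb M.μ] atS M s g := by
  have h1 : ∀ k, ∀ᵐ x ∂M.μ, f (M.S (s k) x) = g (M.S (s k) x) := fun k =>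
    (M.S_mp (s k)).quasiMeasurePreserving.ae_eq_comp h
  filter_upwards [ae_lb_of_forall_ae (μ := M.μ)
    (p := fun k x => f (M.S (s k) x) = g (M.S (s k) x)) h1] with x hx
  show ulim _ = ulim _
  unfold ulim
  congr 1
  have : Filter.map (fun k => f (M.S (s k) (x k))) (UU : Filter ℕ) =
      Filter.map (fun k => g (M.S (s k) (x k))) (UU : Filter ℕ) := Filter.map_congr hx
  exact this

end sites

/-! ### The sigma-algebras `rest` -/

section restSec

variable {X : Sys} {ι : Type} {s : ι → ℕ → ℤ}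

theorem siteA_le (M : Sys) (s : ℕ → ℤ) : siteA M s ≤ LL M.ms := by
  refine MeasurableSpace.generateFrom_le ?_
  rintro _ ⟨A, hA, rfl⟩
  exact measurable_site hA

theorem rest_le (i : ι) (P : Pair X) : rest s i P ≤ LL P.ms := by
  refine sup_le (sup_le ?_ (LL_mono P.C_le)) (nul_le _)
  exact iSup_le fun j => iSup_le fun _ => siteA_le _ _

theorem LL_le_rest (i : ι) (P : Pair X) : LL P.C ≤ rest s i P :=
  le_sup_of_le_left le_sup_right

theorem nul_le_rest (i : ι) (P : Pair X) : nul (lb P.μ) ≤ rest s i P := le_sup_right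

end restSec

/-- **The sets visible in every role.** -/
@[implicit_reducible]
noncomputable def E1 {X : Sys} {ι : Type} (s : ι → ℕ → ℤ) (P : Pair X) : MeasurableSpace P.Ω where
  MeasurableSet' A := MeasurableSet A ∧
    ∀ i, MeasurableSet[rest s i P] (intl (fun k => P.S (s i k) ⁻¹' A))
  measurableSet_empty := by
    refine ⟨MeasurableSet.empty, fun i => ?_⟩
    simp only [preimage_empty, intl_empty]
    exact @MeasurableSet.empty _ (rest s i P)
  measurableSet_compl A hA := by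
    refine ⟨hA.1.compl, fun i => ?_⟩
    simp only [preimage_compl]
    rw [intl_compl]
    exact (hA.2 i).compl
  measurableSet_iUnion A hA := by
    refine ⟨MeasurableSet.iUnion fun n => (hA n).1, fun i => ?_⟩
    exact measurableSet_of_ae_eq (rest_le i P) (nul_le_rest i P)
      (measurable_site (MeasurableSet.iUnion fun n => (hA n).1))
      (MeasurableSet.iUnion fun n => (hA n).2 i) (site_iUnion_ae fun n => (hA n).1)

section E1

variable {X : Sys} {ι : Type} {s : ι → ℕ → ℤ} {P : Pair X}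

theorem E1_le : E1 s P ≤ P.ms := fun _ hA => hA.1

theorem le_E1 : P.C ≤ E1 s P := fun A hA =>
  ⟨P.C_le _ hA, fun i => LL_le_rest i P _ (measurableSet_intl fun k => P.C_S (s i k) hA)⟩

/-- A bounded function is `E1`-measurable iff it is visible in every role. -/
theorem aesm_atS_iff {g : P.Ω → ℝ} (hg : BdM P.ms g) :
    (∀ i, AEStronglyMeasurable[rest s i P] (atS P.toSys (s i) g) (lb P.μ)) ↔
      Measurable[E1 s P] g := by
  constructor
  · intro h
    have h1 : ∀ i, Measurable[rest s i P] (atS P.toSys (s i) g) := fun i =>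
      measurable_of_aesm (rest_le i P) (nul_le_rest i P) (bdM_atS' hg).meas (h i)
    refine @measurable_of_Ioi _ _ _ _ _ (E1 s P) _ _ _ _ fun q => ?_
    refine ⟨hg.meas measurableSet_Ioi, fun i => ?_⟩
    obtain ⟨r, hr⟩ := exists_surjective_nat ℚ
    have h2 : g ⁻¹' Ioi q = ⋃ n : ℕ, {y | q < (r n : ℝ) ∧ (r n : ℝ) < g y} := by
      ext y
      simp only [mem_preimage, mem_Ioi, mem_iUnion, mem_ofPred_eq]
      constructor
      · intro hy
        obtain ⟨p, hp1, hp2⟩ := exists_rat_btwn hy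
        obtain ⟨n, rfl⟩ := hr p
        exact ⟨n, hp1, hp2⟩
      · rintro ⟨n, hp1, hp2⟩
        exact hp1.trans hp2
    have hm : ∀ n : ℕ, MeasurableSet {y | q < (r n : ℝ) ∧ (r n : ℝ) < g y} := by
      intro n
      by_cases hq : q < (r n : ℝ)
      · simp only [hq, true_and]
        exact hg.meas measurableSet_Ioi
      · simp only [hq, false_and]
        exact MeasurableSet.empty
    have h3 : {x | q < atS P.toSys (s i) g x} =
        ⋃ n, intl (fun k => P.S (s i k) ⁻¹' {y | q < (r n : ℝ) ∧ (r n : ℝ) < g y}) := by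
      rw [atS_gt hg.bdd]
      ext x
      simp only [mem_iUnion]
      constructor
      · rintro ⟨p, hp, hx⟩
        obtain ⟨n, rfl⟩ := hr p
        refine ⟨n, ?_⟩
        have hx' : ∀ᶠ k in (UU : Filter ℕ), (r n : ℝ) < g (P.S (s i k) (x k)) := hx
        exact hx'.mono fun k hk => ⟨hp, hk⟩
      · rintro ⟨n, hx⟩
        have hx' : ∀ᶠ k in (UU : Filter ℕ), q < (r n : ℝ) ∧ (r n : ℝ) < g (P.S (s i k) (x k)) := hx
        obtain ⟨k, hk⟩ := hx'.exists
        exact ⟨r n, hk.1, hx'.mono fun k hk => hk.2⟩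
    have h4 : MeasurableSet[rest s i P] {x | q < atS P.toSys (s i) g x} := h1 i measurableSet_Ioi
    rw [h3] at h4
    rw [h2]
    exact measurableSet_of_ae_eq (rest_le i P) (nul_le_rest i P)
      (measurable_site (MeasurableSet.iUnion hm)) h4 (site_iUnion_ae hm)
  · intro h i
    have h1 : Measurable[rest s i P] (atS P.toSys (s i) g) := by
      refine @measurable_of_Ioi _ _ _ _ _ (rest s i P) _ _ _ _ fun q => ?_
      have h2 : atS P.toSys (s i) g ⁻¹' Ioi q = {x | q < atS P.toSys (s i) g x} := rfl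
      rw [h2, atS_gt hg.bdd]
      refine MeasurableSet.iUnion fun p => MeasurableSet.iUnion fun _ => ?_
      have h3 : MeasurableSet[E1 s P] {y | (p : ℝ) < g y} := h measurableSet_Ioi
      exact h3.2 i
    exact h1.stronglyMeasurable.aestronglyMeasurable

end E1

/-! ### Conditional expectations on the Loeb space -/

section core

theorem push_condExp_st {α : Type*} {m : MeasurableSpace α} [mα : MeasurableSpace α]
    {μ : Measure α} [IsProbabilityMeasure μ] (hm : m ≤ mα) {K k : ℕ → α → ℝ} {C C' : ℝ}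
    (hK : ∀ n, Measurable (K n)) (hKC : ∀ n x, |K n x| ≤ C)
    (hk : ∀ n, Measurable[m] (k n)) (hkC : ∀ n x, |k n x| ≤ C')
    (h : ∀ n, μ[K n | m] =ᵐ[μ] k n) : (lb μ)[st K | LL m] =ᵐ[lb μ] st k := by
  have okK : StOK K := stOK_of_bdd (C := C) (fun n x => by simpa using hKC n x)
  have okk : StOK k := stOK_of_bdd (C := C') (fun n x => by simpa using hkC n x)
  have hKm : BdM (LL mα) (st K) := ⟨measurable_st okK hK, C, fun x => by
    have := norm_st_le (f := K) (C := C) (fun n x => by simpa using hKC n x) x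
    rwa [Real.norm_eq_abs] at this⟩
  have hkm : BdM (LL m) (st k) := ⟨measurable_st okk hk, C', fun x => by
    have := norm_st_le (f := k) (C := C') (fun n x => by simpa using hkC n x) x
    rwa [Real.norm_eq_abs] at this⟩
  have hk' : ∀ n, Measurable (k n) := fun n => (hk n).mono hm le_rfl
  have key : ∀ A : ℕ → Set α, (∀ n, MeasurableSet[m] (A n)) →
      ∫ x in intl A, st k x ∂(lb μ) = ∫ x in intl A, st K x ∂(lb μ) := by
    intro A hA
    have hA' : ∀ n, MeasurableSet (A n) := fun n => hm _ (hA n)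
    have h1 := tendsto_setIntegral_st (μ := μ) (f := K) (C := C) ⟨hK, hKC⟩ hA'
    have h2 := tendsto_setIntegral_st (μ := μ) (f := k) (C := C') ⟨hk', hkC⟩ hA'
    have h3 : ∀ n, ∫ x in A n, k n x ∂μ = ∫ x in A n, K n x ∂μ := by
      intro n
      have hKi : Integrable (K n) μ := (BdM.mk (hK n) ⟨C, hKC n⟩).integrable le_rfl
      rw [← setIntegral_condExp hm hKi (hA n)]
      exact setIntegral_congr_ae (hA' n) ((h n).mono fun x hx _ => hx.symm)
    simp_rw [h3] at h2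
    exact tendsto_nhds_unique h2 h1
  refine condExp_eq_of_piSystem (LL_mono hm) rfl (isPiSystem_intlSets m)
    (hKm.integrable le_rfl) (hkm.integrable (LL_mono hm)) hkm.aesm ?_ ?_
  · have := key (fun _ => univ) (fun _ => @MeasurableSet.univ _ m)
    rw [intl_univ, setIntegral_univ, setIntegral_univ] at this
    exact this
  · rintro _ ⟨A, hA, rfl⟩
    exact key A hA

variable {X : Sys} {P Q : Pair X}

theorem lb_mp (e : Ext P Q) : MeasurePreserving (Lb.mp e.f) (lb Q.μ) (lb P.μ) :=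
  measurePreserving_lbmap (f := fun _ => e.f) (fun _ => e.f_mp)

theorem S_neg (M : Sys) (n : ℤ) (x : M.Ω) : M.S (-n) (M.S n x) = x := by
  rw [← M.S_add, neg_add_cancel, M.S_zero]

theorem S_neg' (M : Sys) (n : ℤ) (x : M.Ω) : M.S n (M.S (-n) x) = x := by
  rw [← M.S_add, add_neg_cancel, M.S_zero]

/-- placing a lifted function at a site -/
theorem atS_comp (e : Ext P Q) (s : ℕ → ℤ) (g : P.Ω → ℝ) :
    atS Q.toSys s (g ∘ e.f) =ᵐ[lb Q.μ] atS P.toSys s g ∘ Lb.mp e.f := by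
  have h1 : ∀ k, ∀ᵐ x ∂Q.μ, g (e.f (Q.S (s k) x)) = g (P.S (s k) (e.f x)) := fun k =>
    (e.f_S (s k)).mono fun x hx => congrArg g hx
  filter_upwards [ae_lb_of_forall_ae (μ := Q.μ)
    (p := fun k x => g (e.f (Q.S (s k) x)) = g (P.S (s k) (e.f x))) h1] with x hx
  show ulim _ = ulim _
  unfold ulim
  congr 1
  have : Filter.map (fun k => g (e.f (Q.S (s k) (x k)))) (UU : Filter ℕ) =
      Filter.map (fun k => g (P.S (s k) (e.f (x k)))) (UU : Filter ℕ) := Filter.map_congr hx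
  exact this

/-- shifting a conditional expectation onto a factor -/
theorem condExp_shift (e : Ext P Q) {K : Q.Ω → ℝ} {k₀ : P.Ω → ℝ} (hK : BdM Q.ms K)
    (hk : BdM P.ms k₀) (h : Q.μ[K | P.ms.comap e.f] =ᵐ[Q.μ] k₀ ∘ e.f) (n : ℤ) :
    Q.μ[fun x => K (Q.S n x) | P.ms.comap e.f] =ᵐ[Q.μ] fun x => k₀ (P.S n (e.f x)) := by
  have hle : P.ms.comap e.f ≤ Q.ms := e.f_mp.measurable.comap_le
  have hk1 : BdM (P.ms.comap e.f) (fun x => k₀ (P.S n (e.f x))) :=
    BdM.comp (φ := e.f) (f := fun y => k₀ (P.S n y))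
      ⟨hk.meas.comp (P.S_mp n).measurable, hk.bdd.imp fun C hC x => hC _⟩
  have hK1 : BdM Q.ms (fun x => K (Q.S n x)) :=
    ⟨hK.meas.comp (Q.S_mp n).measurable, hK.bdd.imp fun C hC x => hC _⟩
  refine condExp_eq_of_integral_mul hle (hK1.integrable le_rfl) (hk1.integrable hle) hk1.aesm ?_
  intro h' hh'
  obtain ⟨φ, hφ, rfl⟩ := hh'.factors
  have hψ : BdM P.ms (fun y => φ (P.S (-n) y)) :=
    ⟨hφ.meas.comp (P.S_mp (-n)).measurable, hφ.bdd.imp fun C hC x => hC _⟩
  have hkψ : BdM P.ms (fun y => k₀ y * φ (P.S (-n) y)) := hk.mul hψ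
  have e1 : ∫ x, k₀ (P.S n (e.f x)) * (φ ∘ e.f) x ∂Q.μ = ∫ y, k₀ y * φ (P.S (-n) y) ∂P.μ := by
    have h1 := integral_comp_mp (μ := P.μ) (μ' := Q.μ) e.f_mp
      (F := fun y => k₀ (P.S n y) * φ y)
      (((hk.meas.comp (P.S_mp n).measurable).mul hφ.meas).aestronglyMeasurable)
    have h2 := integral_comp_mp (μ := P.μ) (μ' := P.μ) (P.S_mp n)
      (F := fun y => k₀ y * φ (P.S (-n) y)) (hkψ.aemeas le_rfl)
    simp only [S_neg P.toSys] at h2
    exact h1.trans h2
  have e2 : ∫ x, K (Q.S n x) * (φ ∘ e.f) x ∂Q.μ = ∫ x, K x * φ (P.S (-n) (e.f x)) ∂Q.μ := by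
    have h2 := integral_comp_mp (μ := Q.μ) (μ' := Q.μ) (Q.S_mp n)
      (F := fun x => K x * φ (P.S (-n) (e.f x)))
      ((hK.mul ((hψ.comp (φ := e.f)).mono hle)).aemeas le_rfl)
    rw [← h2]
    refine integral_congr_ae ((e.f_S n).mono fun x hx => ?_)
    have hx' : e.f (Q.S n x) = P.S n (e.f x) := hx
    simp only [Function.comp]
    rw [hx', S_neg P.toSys]
  have e3 : ∫ x, K x * φ (P.S (-n) (e.f x)) ∂Q.μ = ∫ y, k₀ y * φ (P.S (-n) y) ∂P.μ := by
    have h1 := integral_condExp_mul (μ := Q.μ) hle (hK.integrable le_rfl) (hψ.comp (φ := e.f))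
    have h2 := integral_comp_mp (μ := P.μ) (μ' := Q.μ) e.f_mp
      (F := fun y => k₀ y * φ (P.S (-n) y)) (hkψ.aemeas le_rfl)
    rw [← h2]
    refine Eq.trans h1.symm ?_
    exact integral_congr_ae (h.mono fun x hx => by simp only [hx, Function.comp])
  rw [e1, e2, e3]

/-- projecting a site function onto the Loeb space of a factor -/
theorem condExp_atS (e : Ext P Q) {K : Q.Ω → ℝ} {k₀ : P.Ω → ℝ} (hK : BdM Q.ms K)
    (hk : BdM P.ms k₀) (h : Q.μ[K | P.ms.comap e.f] =ᵐ[Q.μ] k₀ ∘ e.f) (s : ℕ → ℤ) :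
    (lb Q.μ)[atS Q.toSys s K | LL (P.ms.comap e.f)] =ᵐ[lb Q.μ]
      atS P.toSys s k₀ ∘ Lb.mp e.f := by
  have hle : P.ms.comap e.f ≤ Q.ms := e.f_mp.measurable.comap_le
  obtain ⟨C, hC⟩ := hK.bdd
  obtain ⟨C', hC'⟩ := hk.bdd
  exact push_condExp_st (μ := Q.μ) hle (K := fun n x => K (Q.S (s n) x))
    (k := fun n x => k₀ (P.S (s n) (e.f x)))
    (C := C) (C' := C')
    (fun n => hK.meas.comp (Q.S_mp (s n)).measurable) (fun n x => hC _)
    (fun n => (hk.meas.comp (P.S_mp (s n)).measurable).comp (comap_measurable e.f))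
    (fun n x => hC' _) (fun n => condExp_shift e hK hk h (s n))

/-- test against a function of `Lb.mp e.f` -/
theorem integral_atS_mul_comp (e : Ext P Q) {K : Q.Ω → ℝ} {k₀ : P.Ω → ℝ} (hK : BdM Q.ms K)
    (hk : BdM P.ms k₀) (h : Q.μ[K | P.ms.comap e.f] =ᵐ[Q.μ] k₀ ∘ e.f) (s : ℕ → ℤ)
    {H : Lb P.Ω → ℝ} (hH : BdM (LL P.ms) H) :
    ∫ x, atS Q.toSys s K x * H (Lb.mp e.f x) ∂(lb Q.μ) =
      ∫ y, atS P.toSys s k₀ y * H y ∂(lb P.μ) := by
  have hle : P.ms.comap e.f ≤ Q.ms := e.f_mp.measurable.comap_le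
  have hH1 : BdM (LL (P.ms.comap e.f)) (H ∘ Lb.mp e.f) := by
    rw [← comap_lbmap_LL]
    exact hH.comp (φ := lbmap (fun _ => e.f))
  have h1 := integral_condExp_mul (μ := lb Q.μ) (LL_mono hle)
    ((bdM_atS' (s := s) hK).integrable le_rfl) hH1
  have h2 := integral_comp_mp (μ := lb P.μ) (μ' := lb Q.μ) (lb_mp e)
    (F := fun y => atS P.toSys s k₀ y * H y) (((bdM_atS' hk).mul hH).aemeas le_rfl)
  rw [← h2]
  refine Eq.trans h1.symm ?_
  exact integral_congr_ae ((condExp_atS e hK hk h s).mono fun x hx => by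
    simp only [hx, Function.comp])

end core

/-! ### Visible stays visible -/

section mor

variable {X X' : Sys} {ι : Type} {s : ι → ℕ → ℤ} {P : Pair X} {Q : Pair X'} {f : Q.Ω → P.Ω}

/-- placing a lifted function at a site, for any equivariant map -/
theorem atS_comp' (hf_S : ∀ n, (fun x => f (Q.S n x)) =ᵐ[Q.μ] fun x => P.S n (f x))
    (s : ℕ → ℤ) (g : P.Ω → ℝ) :
    atS Q.toSys s (g ∘ f) =ᵐ[lb Q.μ] atS P.toSys s g ∘ Lb.mp f := by
  have h1 : ∀ k, ∀ᵐ x ∂Q.μ, g (f (Q.S (s k) x)) = g (P.S (s k) (f x)) := fun k =>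
    (hf_S (s k)).mono fun x hx => congrArg g hx
  filter_upwards [ae_lb_of_forall_ae (μ := Q.μ)
    (p := fun k x => g (f (Q.S (s k) x)) = g (P.S (s k) (f x))) h1] with x hx
  show ulim _ = ulim _
  unfold ulim
  congr 1
  have : Filter.map (fun k => g (f (Q.S (s k) (x k)))) (UU : Filter ℕ) =
      Filter.map (fun k => g (P.S (s k) (f (x k)))) (UU : Filter ℕ) := Filter.map_congr hx
  exact this

theorem site_preimage_ae (hf_S : ∀ n, (fun x => f (Q.S n x)) =ᵐ[Q.μ] fun x => P.S n (f x))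
    (s : ℕ → ℤ) (A : Set P.Ω) :
    Lb.mp f ⁻¹' (intl (fun k => P.S (s k) ⁻¹' A)) =ᵐ[lb Q.μ]
      intl (fun k => Q.S (s k) ⁻¹' (f ⁻¹' A)) := by
  have h1 : Lb.mp f ⁻¹' (intl (fun k => P.S (s k) ⁻¹' A)) =
      intl (fun k => f ⁻¹' (P.S (s k) ⁻¹' A)) := rfl
  rw [h1]
  refine intl_ae_eq fun k => ?_
  filter_upwards [hf_S (s k)] with x hx
  show (P.S (s k) (f x) ∈ A) = (f (Q.S (s k) x) ∈ A)
  have hx' : f (Q.S (s k) x) = P.S (s k) (f x) := hx
  rw [hx']

theorem comap_rest_le (hf_mp : MeasurePreserving f Q.μ P.μ)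
    (hf_S : ∀ n, (fun x => f (Q.S n x)) =ᵐ[Q.μ] fun x => P.S n (f x))
    (hf_C : P.C.comap f ≤ Q.C) (i : ι) :
    (rest s i P).comap (Lb.mp f) ≤ rest s i Q := by
  have hmp : MeasurePreserving (Lb.mp f) (lb Q.μ) (lb P.μ) :=
    measurePreserving_lbmap (f := fun _ => f) (fun _ => hf_mp)
  unfold rest
  rw [MeasurableSpace.comap_sup, MeasurableSpace.comap_sup, MeasurableSpace.comap_iSup]
  refine sup_le (sup_le (iSup_le fun j => ?_) ?_) ?_
  · rw [MeasurableSpace.comap_iSup]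
    refine iSup_le fun hj => ?_
    unfold siteA
    rw [MeasurableSpace.comap_generateFrom]
    refine MeasurableSpace.generateFrom_le ?_
    rintro _ ⟨_, ⟨A, hA, rfl⟩, rfl⟩
    have h1 : MeasurableSet[rest s i Q] (intl (fun k => Q.S (s j k) ⁻¹' (f ⁻¹' A))) := by
      have h2 : siteA Q.toSys (s j) ≤ rest s i Q :=
        le_sup_of_le_left (le_sup_of_le_left (le_iSup₂_of_le j hj le_rfl))
      exact h2 _ (MeasurableSpace.measurableSet_generateFrom ⟨f ⁻¹' A, hf_mp.measurable hA, rfl⟩)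
    exact measurableSet_of_ae_eq (rest_le i Q) (nul_le_rest i Q)
      (hmp.measurable (measurable_site hA)) h1 (site_preimage_ae hf_S (s j) A)
  · refine le_trans ?_ (LL_le_rest i Q)
    have : (LL P.C).comap (Lb.mp f) = LL (P.C.comap f) := comap_lbmap_LL f
    rw [this]
    exact LL_mono hf_C
  · refine le_trans ?_ (nul_le_rest i Q)
    rintro _ ⟨A, hA, rfl⟩
    refine ⟨hmp.measurable hA.1, ?_⟩
    rcases hA.2 with h | h
    · left; rw [hmp.measure_preimage hA.1.nullMeasurableSet]; exact h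
    · right
      rw [← preimage_compl, hmp.measure_preimage hA.1.compl.nullMeasurableSet]; exact h

/-- **Visible stays visible.** -/
theorem comap_E1_le (hf_mp : MeasurePreserving f Q.μ P.μ)
    (hf_S : ∀ n, (fun x => f (Q.S n x)) =ᵐ[Q.μ] fun x => P.S n (f x))
    (hf_C : P.C.comap f ≤ Q.C) : (E1 s P).comap f ≤ E1 s Q := by
  rintro _ ⟨A, hA, rfl⟩
  refine ⟨hf_mp.measurable hA.1, fun i => ?_⟩
  exact measurableSet_of_ae_eq (rest_le i Q) (nul_le_rest i Q)
    (measurable_site (hf_mp.measurable hA.1))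
    (comap_rest_le hf_mp hf_S hf_C i _ ⟨_, hA.2 i, rfl⟩) (site_preimage_ae hf_S (s i) A).symm

end mor

theorem ext_comap_rest_le {X : Sys} {ι : Type} {s : ι → ℕ → ℤ} {P Q : Pair X} (e : Ext P Q)
    (i : ι) : (rest s i P).comap (Lb.mp e.f) ≤ rest s i Q :=
  comap_rest_le e.f_mp e.f_S e.f_C i

theorem ext_comap_E1_le {X : Sys} {ι : Type} {s : ι → ℕ → ℤ} {P Q : Pair X} (e : Ext P Q) :
    (E1 s P).comap e.f ≤ E1 s Q :=
  comap_E1_le e.f_mp e.f_S e.f_C

theorem S_comm (M : Sys) (a b : ℤ) (x : M.Ω) : M.S a (M.S b x) = M.S b (M.S a x) := by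
  rw [← M.S_add, ← M.S_add, add_comm]

/-- `E1` is invariant. -/
theorem E1_S {X : Sys} {ι : Type} {s : ι → ℕ → ℤ} {P : Pair X} (n : ℤ) :
    Measurable[E1 s P, E1 s P] (P.S n) := by
  have h := comap_E1_le (s := s) (P := P) (Q := P) (f := P.S n) (P.S_mp n)
    (fun m => Eventually.of_forall fun x => S_comm P.toSys n m x)
    (measurable_iff_comap_le.1 (P.C_S n))
  exact measurable_iff_comap_le.2 h

section push

variable {X : Sys} {ι : Type} {s : ι → ℕ → ℤ} {P Q : Pair X}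

/-- The functions `g_b = E[G b | e.f]` are visible. -/
theorem push_visible (e : Ext P Q)
    (hS2 : ∀ (i : ι) (g : P.Ω → ℝ), BdM P.ms g →
      (lb Q.μ)[atS P.toSys (s i) g ∘ Lb.mp e.f | rest s i Q] =ᵐ[lb Q.μ]
        (lb P.μ)[atS P.toSys (s i) g | rest s i P] ∘ Lb.mp e.f)
    {G : Q.Ω → ℝ} (hG : BdM Q.ms G)
    (hvis : ∀ i, AEStronglyMeasurable[rest s i Q] (atS Q.toSys (s i) G) (lb Q.μ))
    {b : Q.Ω → ℝ} (hb : BdM Q.C b) {g : P.Ω → ℝ} (hg : BdM P.ms g)
    (h : Q.μ[fun x => G x * b x | P.ms.comap e.f] =ᵐ[Q.μ] g ∘ e.f) :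
    Measurable[E1 s P] g := by
  refine (aesm_atS_iff hg).1 fun i => ?_
  have hle : P.ms.comap e.f ≤ Q.ms := e.f_mp.measurable.comap_le
  have hbQ : BdM Q.ms b := hb.mono Q.C_le
  have hK : BdM Q.ms (fun x => G x * b x) := hG.mul hbQ
  -- the function `G_i b_i`
  have hKi : atS Q.toSys (s i) (fun x => G x * b x) =
      fun x => atS Q.toSys (s i) G x * atS Q.toSys (s i) b x := atS_mul hG.bdd hbQ.bdd
  have hGi : Measurable[rest s i Q] (atS Q.toSys (s i) G) :=
    measurable_of_aesm (rest_le i Q) (nul_le_rest i Q) (bdM_atS' hG).meas (hvis i)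
  have hbi : BdM (LL Q.C) (atS Q.toSys (s i) b) := bdM_atS hb Q.C_S
  have hKr : BdM (rest s i Q) (atS Q.toSys (s i) (fun x => G x * b x)) := by
    rw [hKi]
    exact BdM.mul ⟨hGi, (bdM_atS' hG).bdd⟩ (hbi.mono (LL_le_rest i Q))
  have hgi : BdM (LL P.ms) (atS P.toSys (s i) g) := bdM_atS' hg
  obtain ⟨R, hR, hRe⟩ := hgi.condExp_bm (μ := lb P.μ) (rest_le (s := s) i P)
  -- the chain of equalities
  have c1 : ∫ x, g x ^ 2 ∂P.μ = ∫ x, atS P.toSys (s i) g x ^ 2 ∂(lb P.μ) := by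
    have h1 := integral_atS (M := P.toSys) (s := s i) (hg.mul hg)
    rw [atS_mul hg.bdd hg.bdd] at h1
    simp only [pow_two]
    exact h1.symm
  have c2 : ∫ x, (fun x => G x * b x) x * g (e.f x) ∂Q.μ = ∫ x, g x ^ 2 ∂P.μ := by
    have h1 := integral_condExp_mul (μ := Q.μ) hle (hK.integrable le_rfl) (hg.comp (φ := e.f))
    have h2 := integral_comp_mp (μ := P.μ) (μ' := Q.μ) e.f_mp
      (F := fun y => g y ^ 2) ((hg.pow 2).aemeas le_rfl)
    rw [← h2]
    refine Eq.trans h1.symm ?_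
    exact integral_congr_ae (h.mono fun x hx => by simp only [hx, Function.comp, pow_two])
  have hgf : BdM Q.ms (g ∘ e.f) := (hg.comp (φ := e.f)).mono hle
  have c3 : ∫ x, (fun x => G x * b x) x * g (e.f x) ∂Q.μ =
      ∫ x, atS Q.toSys (s i) (fun x => G x * b x) x * atS P.toSys (s i) g (Lb.mp e.f x)
        ∂(lb Q.μ) := by
    have h1 := integral_atS (M := Q.toSys) (s := s i) (hK.mul hgf)
    rw [atS_mul hK.bdd hgf.bdd] at h1
    refine Eq.trans h1.symm ?_
    exact integral_congr_ae ((atS_comp e (s i) g).mono fun x hx => by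
      simp only [hx, Function.comp])
  have c4 : ∫ x, atS Q.toSys (s i) (fun x => G x * b x) x * atS P.toSys (s i) g (Lb.mp e.f x)
        ∂(lb Q.μ) =
      ∫ x, atS Q.toSys (s i) (fun x => G x * b x) x * R (Lb.mp e.f x) ∂(lb Q.μ) := by
    have hgif : Integrable (atS P.toSys (s i) g ∘ Lb.mp e.f) (lb Q.μ) :=
      (lb_mp e).integrable_comp_of_integrable (hgi.integrable le_rfl)
    have h1 := integral_mul_condExp (μ := lb Q.μ) (rest_le (s := s) i Q) hgif hKr
    refine Eq.trans h1.symm ?_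
    refine integral_congr_ae ?_
    filter_upwards [hS2 i g hg, (lb_mp e).quasiMeasurePreserving.ae_eq_comp hRe] with x hx hx2
    rw [hx]
    simp only [Function.comp] at hx2 ⊢
    rw [hx2]
  have c5 : ∫ x, atS Q.toSys (s i) (fun x => G x * b x) x * R (Lb.mp e.f x) ∂(lb Q.μ) =
      ∫ y, atS P.toSys (s i) g y * R y ∂(lb P.μ) :=
    integral_atS_mul_comp e hK hg h (s i) (hR.mono (rest_le i P))
  have c6 : ∫ y, atS P.toSys (s i) g y * R y ∂(lb P.μ) =
      ∫ y, ((lb P.μ)[atS P.toSys (s i) g | rest s i P]) y ^ 2 ∂(lb P.μ) := by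
    have h1 := integral_condExp_mul (μ := lb P.μ) (rest_le (s := s) i P)
      (hgi.integrable le_rfl) hR
    refine Eq.trans h1.symm ?_
    exact integral_congr_ae (hRe.mono fun x hx => by simp only [hx, pow_two])
  have c7 : (lb P.μ)[atS P.toSys (s i) g | rest s i P] =ᵐ[lb P.μ] atS P.toSys (s i) g := by
    refine condExp_eq_self_of_sq (rest_le i P) hgi ?_
    rw [← c1, ← c2, c3, c4, c5, c6]
  exact ⟨_, stronglyMeasurable_condExp, c7.symm⟩

/-- **PUSH.** -/
theorem push (e : Ext P Q)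
    (hS1 : ∀ g : P.Ω → ℝ, BdM P.ms g → Q.μ[g ∘ e.f | Q.C] =ᵐ[Q.μ] P.μ[g | P.C] ∘ e.f)
    (hS2 : ∀ (i : ι) (g : P.Ω → ℝ), BdM P.ms g →
      (lb Q.μ)[atS P.toSys (s i) g ∘ Lb.mp e.f | rest s i Q] =ᵐ[lb Q.μ]
        (lb P.μ)[atS P.toSys (s i) g | rest s i P] ∘ Lb.mp e.f)
    {G : Q.Ω → ℝ} (hG : BdM (P.ms.comap e.f ⊔ Q.C) G)
    (hvis : ∀ i, AEStronglyMeasurable[rest s i Q] (atS Q.toSys (s i) G) (lb Q.μ)) :
    ∃ G' : Q.Ω → ℝ, BdM ((E1 s P).comap e.f ⊔ Q.C) G' ∧ G =ᵐ[Q.μ] G' := by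
  have hle : P.ms.comap e.f ≤ Q.ms := e.f_mp.measurable.comap_le
  have hsup : P.ms.comap e.f ⊔ Q.C ≤ Q.ms := sup_le hle Q.C_le
  have hGQ : BdM Q.ms G := hG.mono hsup
  have hE : (E1 s P).comap e.f ≤ P.ms.comap e.f := MeasurableSpace.comap_mono E1_le
  have hEQ : (E1 s P).comap e.f ≤ Q.ms := hE.trans hle
  have h𝒢 : (E1 s P).comap e.f ⊔ Q.C ≤ Q.ms := sup_le hEQ Q.C_le
  have hCE : P.C.comap e.f ≤ (E1 s P).comap e.f := MeasurableSpace.comap_mono le_E1
  have hCQ : P.C.comap e.f ≤ Q.ms := hCE.trans hEQ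
  -- S1 as conditional independence
  have ci1 : CI Q.μ (P.ms.comap e.f) Q.C (P.C.comap e.f) := by
    intro F hF
    obtain ⟨f, hf, rfl⟩ := hF.factors
    rw [sup_eq_left.2 e.f_C]
    exact (hS1 f hf).trans (condExp_comp_mp e.f_mp P.C_le (hf.integrable le_rfl)).symm
  have ci2 : CI Q.μ Q.C (P.ms.comap e.f) ((E1 s P).comap e.f) :=
    (ci1.symm hle Q.C_le hCQ).up hle hCQ hCE (hE.trans le_sup_left)
  have ci3 : CI Q.μ (P.ms.comap e.f) Q.C ((E1 s P).comap e.f) := ci2.symm Q.C_le hle hEQ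
  obtain ⟨G', hG', hG'e⟩ := hGQ.condExp_bm (μ := Q.μ) h𝒢
  refine ⟨G', hG', ?_⟩
  -- first half: only `E[u | E1]` matters for `G`
  have a1 : ∀ (u U : P.Ω → ℝ) (b : Q.Ω → ℝ), BdM P.ms u → BdM (E1 s P) U →
      P.μ[u | E1 s P] =ᵐ[P.μ] U → BdM Q.C b →
      ∫ x, G x * b x * u (e.f x) ∂Q.μ = ∫ x, G x * b x * U (e.f x) ∂Q.μ := by
    intro u U b hu hU huU hb
    have hK : BdM Q.ms (fun x => G x * b x) := hGQ.mul (hb.mono Q.C_le)
    obtain ⟨F, hF, hFe⟩ := hK.condExp_bm (μ := Q.μ) hle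
    obtain ⟨g, hg, rfl⟩ := hF.factors
    have hgE : BdM (E1 s P) g := ⟨push_visible e hS2 hGQ hvis hb hg hFe, hg.bdd⟩
    have t : ∀ v : P.Ω → ℝ, BdM P.ms v →
        ∫ x, G x * b x * v (e.f x) ∂Q.μ = ∫ y, g y * v y ∂P.μ := by
      intro v hv
      have h1 := integral_condExp_mul (μ := Q.μ) hle (hK.integrable le_rfl) (hv.comp (φ := e.f))
      have h2 := integral_comp_mp (μ := P.μ) (μ' := Q.μ) e.f_mp
        (F := fun y => g y * v y) ((hg.mul hv).aemeas le_rfl)
      rw [← h2]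
      refine Eq.trans h1.symm ?_
      exact integral_congr_ae (hFe.mono fun x hx => by simp only [hx, Function.comp])
    rw [t u hu, t U (hU.mono E1_le)]
    have h3 := integral_mul_condExp (μ := P.μ) (E1_le (s := s) (P := P)) (hu.integrable le_rfl) hgE
    rw [← h3]
    exact integral_congr_ae (huU.mono fun x hx => by simp only [hx])
  -- second half: the same for `G'`
  have a2 : ∀ (u U : P.Ω → ℝ) (b : Q.Ω → ℝ), BdM P.ms u → BdM (E1 s P) U →
      P.μ[u | E1 s P] =ᵐ[P.μ] U → BdM Q.C b →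
      ∫ x, G' x * b x * u (e.f x) ∂Q.μ = ∫ x, G x * b x * U (e.f x) ∂Q.μ := by
    intro u U b hu hU huU hb
    have hG'b : BdM ((E1 s P).comap e.f ⊔ Q.C) (fun x => G' x * b x) :=
      hG'.mul (hb.mono le_sup_right)
    have huf : BdM (P.ms.comap e.f) (u ∘ e.f) := hu.comp
    have hUf : BdM ((E1 s P).comap e.f) (U ∘ e.f) := hU.comp
    have h0 : Q.μ[u ∘ e.f | (E1 s P).comap e.f ⊔ Q.C] =ᵐ[Q.μ] U ∘ e.f := by
      have h1 := ci3 _ huf
      rw [sup_comm] at h1
      have h2 := condExp_comp_mp (μ := P.μ) (μ' := Q.μ) e.f_mp (E1_le (s := s) (P := P))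
        (hu.integrable le_rfl)
      exact h1.trans (h2.trans (e.f_mp.quasiMeasurePreserving.ae_eq_comp huU))
    have h1 := integral_mul_condExp (μ := Q.μ) h𝒢 (huf.integrable hle) hG'b
    have h2 : ∫ x, G' x * b x * u (e.f x) ∂Q.μ = ∫ x, G' x * b x * U (e.f x) ∂Q.μ := by
      refine Eq.trans h1.symm ?_
      exact integral_congr_ae (h0.mono fun x hx => by simp only [hx, Function.comp])
    rw [h2]
    have hbU : BdM ((E1 s P).comap e.f ⊔ Q.C) (fun x => b x * U (e.f x)) :=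
      (hb.mono le_sup_right).mul (hUf.mono le_sup_left)
    have h3 := integral_condExp_mul (μ := Q.μ) h𝒢 (hGQ.integrable le_rfl) hbU
    simp only [mul_assoc]
    rw [← h3]
    exact integral_congr_ae (hG'e.mono fun x hx => by simp only [hx])
  have fin : Q.μ[G | P.ms.comap e.f ⊔ Q.C] =ᵐ[Q.μ] G' := by
    refine condExp_sup_eq hle Q.C_le (hGQ.integrable le_rfl) (hG'.integrable h𝒢)
      (hG'.mono (sup_le_sup_right hE _)).aesm ?_
    rintro A B ⟨A₀, hA₀, rfl⟩ hB
    have hu : BdM P.ms (A₀.indicator (fun _ => (1 : ℝ))) := BdM.indicator hA₀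
    have hb : BdM Q.C (B.indicator (fun _ => (1 : ℝ))) := BdM.indicator hB
    obtain ⟨U, hU, hUe⟩ := hu.condExp_bm (μ := P.μ) (E1_le (s := s) (P := P))
    have hAB : MeasurableSet (e.f ⁻¹' A₀ ∩ B) :=
      (e.f_mp.measurable hA₀).inter (Q.C_le _ hB)
    have e0 : (e.f ⁻¹' A₀ ∩ B).indicator (fun _ => (1 : ℝ)) = fun x =>
        B.indicator (fun _ => (1 : ℝ)) x * A₀.indicator (fun _ => (1 : ℝ)) (e.f x) := by
      funext x
      by_cases hx : x ∈ e.f ⁻¹' A₀ <;> by_cases hy : x ∈ B <;>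
        simp_all [Set.indicator, mem_preimage]
    rw [setIntegral_eq_indicator hAB, setIntegral_eq_indicator hAB, e0]
    have h1 := a1 _ U _ hu hU hUe hb
    have h2 := a2 _ U _ hu hU hUe hb
    simp only [mul_assoc] at h1 h2 ⊢
    rw [h1, h2]
  rw [condExp_of_bm hsup hG] at fin
  exact fin

/-! ### The same in the notation of the interface -/

theorem atS_eq (M : Sys) (t : ℕ → ℤ) (g : M.Ω → ℝ) : atS M t g = sitef M t g := rfl

theorem E1_eq (s : ι → ℕ → ℤ) (P : Pair X) : E1 s P = P.vis s := rfl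

theorem S2_iff (e : Ext P Q) : S2At s P Q e ↔ ∀ (i : ι) (g : P.Ω → ℝ), BdM P.ms g →
      (lb Q.μ)[atS P.toSys (s i) g ∘ Lb.mp e.f | rest s i Q] =ᵐ[lb Q.μ]
        (lb P.μ)[atS P.toSys (s i) g | rest s i P] ∘ Lb.mp e.f := by
  constructor
  · intro h i g hg
    exact (condExp_congr_ae (atS_comp e (s i) g).symm).trans (h i g ⟨hg.meas, hg.bdd⟩)
  · intro h i g hg
    exact (condExp_congr_ae (atS_comp e (s i) g)).trans (h i g ⟨hg.1, hg.2⟩)

/-- **PUSH**, interface form. -/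
theorem push' (e : Ext P Q) (h1 : S1At P Q e) (h2 : S2At s P Q e)
    {G : Q.Ω → ℝ} (hG : Bd (P.ms.comap e.f ⊔ Q.C) G)
    (hvis : ∀ i, AEStronglyMeasurable[rest s i Q] (sitef Q.toSys (s i) G) (lb Q.μ)) :
    ∃ G' : Q.Ω → ℝ, Bd ((P.vis s).comap e.f ⊔ Q.C) G' ∧ G =ᵐ[Q.μ] G' := by
  obtain ⟨G', hG', h⟩ := push e (fun g hg => h1 g ⟨hg.meas, hg.bdd⟩) ((S2_iff e).1 h2)
    (⟨hG.1, hG.2⟩ : BdM _ G) hvis
  exact ⟨G', ⟨hG'.meas, hG'.bdd⟩, h⟩

end push

end Crest.Agent.R069.Push
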