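import Crest.Agent.R069.Closed
import Crest.Agent.R069.Push
import Crest.Agent.R069.Iface

/-!
# Row 69: independence of a base site from the other full sites and the environment (from N_IND)
-/

set_option autoImplicit false
set_option linter.unusedVariables false

open MeasureTheory Filter Set ProbabilityTheory
open scoped ENNReal Topology

namespace Crest.Agent.R069.Cl

section

variable {X : Sys}

/-- the identity extension. -/
def extRefl (P : Pair X) : Ext P P where
  f := id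
  f_mp := MeasurePreserving.id _
  f_S _ := EventuallyEq.rfl
  f_π := EventuallyEq.rfl
  f_C := by rw [MeasurableSpace.comap_id]

/-- a base site is independent of the environment. -/
theorem condExp_base (P : Pair X) {F : X.Ω → ℝ} (hF : Bd X.ms F) (t : ℕ → ℤ) :
    (lb P.μ)[sitef P.toSys t (F ∘ P.π) | LL P.C] =ᵐ[lb P.μ] fun _ => ∫ x, F x ∂X.μ := by
  obtain ⟨hm, K, hK⟩ := hF
  have hk : st (fun (_ : ℕ) (_ : P.Ω) => ∫ x, F x ∂X.μ) = fun _ => ∫ x, F x ∂X.μ := st_const _
  rw [← hk]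
  refine Push.push_condExp_st P.C_le (K := fun k x => (F ∘ P.π) (P.S (t k) x))
    (k := fun _ _ => ∫ x, F x ∂X.μ) (C := K) (C' := |∫ x, F x ∂X.μ|)
    (fun n => (hm.comp P.π_mp.measurable).comp (P.S_mp (t n)).measurable) (fun n x => hK _)
    (fun n => measurable_const) (fun n x => le_rfl) (fun n => ?_)
  have e1 : (fun x => (F ∘ P.π) (P.S (t n) x)) =ᵐ[P.μ] fun x => F (X.S (t n) (P.π x)) :=
    (P.π_S (t n)).mono fun x hx => congrArg F hx
  refine (condExp_congr_ae e1).trans ?_
  have hG : Measurable (fun y => F (X.S (t n) y)) := hm.comp (X.S_mp (t n)).measurable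
  have h1 : StronglyMeasurable[X.ms.comap P.π] (fun x => F (X.S (t n) (P.π x))) :=
    (hG.comp (comap_measurable P.π)).stronglyMeasurable
  have h2 := condExp_indep_eq (P.π_mp.measurable.comap_le) P.C_le h1 P.indep
  refine h2.trans (Eventually.of_forall fun _ => ?_)
  show ∫ x, F (X.S (t n) (P.π x)) ∂P.μ = ∫ x, F x ∂X.μ
  rw [integral_comp_mp (F := fun y => F (X.S (t n) y)) P.π_mp hG.aestronglyMeasurable,
    integral_comp_mp (F := F) (X.S_mp (t n)) hm.aestronglyMeasurable]

variable {ι : Type}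

/-- the site set. -/
@[reducible] noncomputable def ss (M : Sys) (t : ℕ → ℤ) (A : Set M.Ω) : Set (Lb M.Ω) :=
  intl (fun k => M.S (t k) ⁻¹' A)

/-- rectangles over the sites in `K` and the environment. -/
def rectK (P : Pair X) (s : ι → ℕ → ℤ) (K : Finset ι) : Set (Set (Lb P.Ω)) :=
  {R | ∃ (A : ι → Set P.Ω) (B : Set (Lb P.Ω)), (∀ i, MeasurableSet (A i)) ∧
    MeasurableSet[LL P.C] B ∧ R = (⋂ i ∈ K, ss P.toSys (s i) (A i)) ∩ B}

theorem isPiSystem_rectK (P : Pair X) (s : ι → ℕ → ℤ) (K : Finset ι) :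
    IsPiSystem (rectK P s K) := by
  rintro _ ⟨A, B, hA, hB, rfl⟩ _ ⟨A', B', hA', hB', rfl⟩ -
  refine ⟨fun i => A i ∩ A' i, B ∩ B', fun i => (hA i).inter (hA' i), hB.inter hB', ?_⟩
  ext x
  simp only [mem_inter_iff, mem_iInter]
  have hx : ∀ i, x ∈ ss P.toSys (s i) (A i ∩ A' i) ↔
      x ∈ ss P.toSys (s i) (A i) ∧ x ∈ ss P.toSys (s i) (A' i) := by
    intro i
    have : ss P.toSys (s i) (A i ∩ A' i) = ss P.toSys (s i) (A i) ∩ ss P.toSys (s i) (A' i) := by
      unfold ss
      rw [← intl_inter]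
      rfl
    rw [this]
    exact Iff.rfl
  simp only [hx]
  constructor
  · rintro ⟨⟨h1, h2⟩, h3, h4⟩
    exact ⟨fun i hi => ⟨h1 i hi, h3 i hi⟩, h2, h4⟩
  · rintro ⟨h1, h2, h3⟩
    exact ⟨⟨fun i hi => (h1 i hi).1, h2⟩, fun i hi => (h1 i hi).2, h3⟩

theorem rectK_meas (P : Pair X) (s : ι → ℕ → ℤ) (K : Finset ι) :
    ∀ R ∈ rectK P s K, MeasurableSet R := by
  rintro _ ⟨A, B, hA, hB, rfl⟩
  exact (Finset.measurableSet_biInter K fun i _ => measurableSet_site P.toSys (s i) (hA i)).inter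
    (LL_mono P.C_le _ hB)

/-- `mixD` is generated modulo null sets by the rectangles. -/
theorem mixD_aele [DecidableEq ι] (P : Pair X) [StandardBorelSpace P.Ω] [Nonempty P.Ω] (s : ι → ℕ → ℤ)
    (K : Finset ι) :
    AELe (lb P.μ) (mixD s P ∅ K) (MeasurableSpace.generateFrom (rectK P s K)) := by
  have hsite : ∀ j ∈ K, siteA P.toSys (s j) ≤ MeasurableSpace.generateFrom (rectK P s K) := by
    intro j hj
    refine MeasurableSpace.generateFrom_le ?_
    rintro _ ⟨A, hA, rfl⟩
    refine MeasurableSpace.measurableSet_generateFrom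
      ⟨fun i => if i = j then A else univ, univ, fun i => ?_, @MeasurableSet.univ _ (LL P.C), ?_⟩
    · by_cases hij : i = j
      · simp only [hij, if_true]; exact hA
      · simp only [hij, if_false]; exact MeasurableSet.univ
    · ext x
      simp only [mem_inter_iff, mem_iInter, mem_univ, and_true]
      constructor
      · intro hx i hi
        by_cases hij : i = j
        · subst hij; simpa using hx
        · simp only [hij, if_false, ss, preimage_univ, intl_univ, mem_univ]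
      · intro hx
        simpa using hx j hj
  have hC : LL P.C ≤ MeasurableSpace.generateFrom (rectK P s K) := by
    intro B hB
    refine MeasurableSpace.measurableSet_generateFrom
      ⟨fun _ => univ, B, fun _ => MeasurableSet.univ, hB, ?_⟩
    simp only [ss, preimage_univ, intl_univ, iInter_univ, univ_inter]
  have hnul : AELe (lb P.μ) (Cl.nulL P.toSys) (MeasurableSpace.generateFrom (rectK P s K)) := by
    rintro A ⟨hA, h | h⟩
    · exact ⟨∅, @MeasurableSet.empty _ (_), by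
        rw [ae_eq_empty]; exact h⟩
    · exact ⟨univ, @MeasurableSet.univ _ (_), by
        rw [ae_eq_univ]; exact h⟩
  refine AELe.sup (AELe.sup ?_ ?_) (AELe.sup (AELe.of_le hC) hnul)
  · exact AELe.iSup fun j => AELe.iSup fun hj => absurd hj (Finset.notMem_empty j)
  · refine AELe.iSup fun j => AELe.iSup fun hj => ?_
    refine AELe.trans ?_ (AELe.of_le (hsite j hj))
    rintro _ ⟨A, hA, rfl⟩
    exact ⟨_, measurableSet_siteA P.toSys (s j) hA, ptS_preimage_ae P.toSys (s j) hA⟩

/-- independence of a base site from the other full sites and the environment. -/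
theorem hind_of [Fintype ι] [DecidableEq ι] (hN : N_IND) (hX : StandardBorelSpace X.Ω)
    (P : Pair X) [hP : StandardBorelSpace P.Ω] [Nonempty P.Ω] (hS1 : S1 P) (s : ι → ℕ → ℤ)
    (hXI : XIndP X s) (r0 j : ι) (hj : j ≠ r0) :
    Indep (X.ms.comap (piS P (s j))) (mixD s P ∅ ((Finset.univ.erase r0).erase j)) (lb P.μ) := by
  set J : Finset ι := Finset.univ.erase r0 with hJdef
  set K : Finset ι := J.erase j with hKdef
  have hJne : J ≠ Finset.univ := fun h =>
    (Finset.notMem_erase r0 Finset.univ) (hJdef ▸ h ▸ Finset.mem_univ r0)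
  have hKne : K ≠ Finset.univ := fun h =>
    (Finset.notMem_erase j J) (hKdef ▸ h ▸ Finset.mem_univ j)
  have hjJ : j ∈ J := Finset.mem_erase.2 ⟨hj, Finset.mem_univ j⟩
  have hIJ := hN X hX P hP hS1 ι s J (hXI J hJne) P (extRefl P)
  have hIK := hN X hX P hP hS1 ι s K (hXI K hKne) P (extRefl P)
  -- base rectangles
  set π1 : Set (Set (Lb P.Ω)) :=
    {R | ∃ A : Set X.Ω, MeasurableSet A ∧ R = ss P.toSys (s j) (P.π ⁻¹' A)} with hπ1
  have hpi1 : IsPiSystem π1 := by
    rintro _ ⟨A, hA, rfl⟩ _ ⟨B, hB, rfl⟩ -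
    refine ⟨A ∩ B, hA.inter hB, ?_⟩
    unfold ss
    rw [← intl_inter]
    rfl
  have hπ1m : ∀ R ∈ π1, MeasurableSet R := by
    rintro _ ⟨A, hA, rfl⟩
    exact measurableSet_site P.toSys (s j) (P.π_mp.measurable hA)
  have h1 : AELe (lb P.μ) (X.ms.comap (piS P (s j))) (MeasurableSpace.generateFrom π1) := by
    rintro _ ⟨A, hA, rfl⟩
    have hmem : ss P.toSys (s j) (P.π ⁻¹' A) ∈ π1 := ⟨A, hA, rfl⟩
    have hpi : piS P (s j) ⁻¹' A = ptS P.toSys (s j) ⁻¹' (P.π ⁻¹' A) := rfl
    have hae : piS P (s j) ⁻¹' A =ᵐ[lb P.μ] ss P.toSys (s j) (P.π ⁻¹' A) := by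
      rw [hpi]
      exact ptS_preimage_ae P.toSys (s j) (P.π_mp.measurable hA)
    exact ⟨ss P.toSys (s j) (P.π ⁻¹' A), MeasurableSpace.measurableSet_generateFrom hmem, hae⟩
  have h2 := mixD_aele P s K
  refine Indep.mono_ae (MeasurableSpace.generateFrom_le hπ1m)
    ((mp_piS P (s j)).measurable.comap_le) (MeasurableSpace.generateFrom_le (rectK_meas P s K))
    (mixD_le s P _ _) h1 h2 ?_
  refine IndepSets.indep (MeasurableSpace.generateFrom_le hπ1m)
    (MeasurableSpace.generateFrom_le (rectK_meas P s K)) hpi1 (isPiSystem_rectK P s K) rfl rfl ?_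
  rw [IndepSets_iff]
  rintro _ _ ⟨A, hA, rfl⟩ ⟨A', B, hA', hB, rfl⟩
  -- the functions
  let F : ι → P.Ω → ℝ := fun i => if i = j then (P.π ⁻¹' A).indicator (fun _ => (1 : ℝ)) else
    (A' i).indicator (fun _ => (1 : ℝ))
  have hFj : F j = (A.indicator (fun _ => (1 : ℝ))) ∘ P.π := by
    funext x
    simp only [F, if_true, Function.comp]
    rfl
  have hFK : ∀ i ∈ K, F i = (A' i).indicator (fun _ => (1 : ℝ)) := by
    intro i hi
    have : i ≠ j := (Finset.mem_erase.1 hi).1
    simp only [F, this, if_false]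
  have hF : ∀ i, Bd P.ms (F i) := by
    intro i
    by_cases hij : i = j
    · simp only [F, hij, if_true]
      have := BdM.indicator (P.π_mp.measurable hA)
      exact ⟨this.meas, this.bdd⟩
    · simp only [F, hij, if_false]
      have := BdM.indicator (hA' i)
      exact ⟨this.meas, this.bdd⟩
  have hbase : (lb P.μ)[sitef P.toSys (s j) (F j) | LL P.C] =ᵐ[lb P.μ]
      fun _ => ∫ x, A.indicator (fun _ => (1 : ℝ)) x ∂X.μ := by
    rw [hFj]
    have := BdM.indicator hA
    exact condExp_base P ⟨this.meas, this.bdd⟩ (s j)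
  have eJ : (lb P.μ)[fun x => ∏ i ∈ J, sitef P.toSys (s i) (F i) x | LL P.C] =ᵐ[lb P.μ]
      fun x => ∏ i ∈ J, ((lb P.μ)[sitef P.toSys (s i) (F i) | LL P.C]) x := hIJ F hF
  have eK : (lb P.μ)[fun x => ∏ i ∈ K, sitef P.toSys (s i) (F i) x | LL P.C] =ᵐ[lb P.μ]
      fun x => ∏ i ∈ K, ((lb P.μ)[sitef P.toSys (s i) (F i) | LL P.C]) x := hIK F hF
  -- products of indicators
  have hb : ∀ i, BdM (LL P.ms) (sitef P.toSys (s i) (F i)) := fun i =>
    Push.bdM_atS' ⟨(hF i).1, (hF i).2⟩
  have hss : ∀ i, F i = (if i = j then P.π ⁻¹' A else A' i).indicator (fun _ => (1 : ℝ)) := by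
    intro i
    by_cases hij : i = j <;> simp only [F, hij, if_true, if_false]
  have hsite : ∀ i, sitef P.toSys (s i) (F i) =
      (ss P.toSys (s i) (if i = j then P.π ⁻¹' A else A' i)).indicator (fun _ => (1 : ℝ)) := by
    intro i
    rw [hss i, ← Push.atS_eq, Push.atS_indicator]
  have hsitej : sitef P.toSys (s j) (F j) =
      (ss P.toSys (s j) (P.π ⁻¹' A)).indicator (fun _ => (1 : ℝ)) := by
    rw [hsite j]; simp only [if_true]
  have hprodK : (fun x => ∏ i ∈ K, sitef P.toSys (s i) (F i) x) =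
      (⋂ i ∈ K, ss P.toSys (s i) (A' i)).indicator (fun _ => (1 : ℝ)) := by
    funext x
    by_cases hx : x ∈ ⋂ i ∈ K, ss P.toSys (s i) (A' i)
    · rw [indicator_of_mem hx]
      refine Finset.prod_eq_one fun i hi => ?_
      have hij : i ≠ j := (Finset.mem_erase.1 hi).1
      rw [hsite i]
      simp only [hij, if_false]
      exact indicator_of_mem (mem_iInter₂.1 hx i hi) _
    · rw [indicator_of_notMem hx]
      simp only [mem_iInter, not_forall] at hx
      obtain ⟨i, hi, hxi⟩ := hx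
      refine Finset.prod_eq_zero hi ?_
      have hij : i ≠ j := (Finset.mem_erase.1 hi).1
      rw [hsite i]
      simp only [hij, if_false]
      exact indicator_of_notMem hxi _
  have hprodJ : (fun x => ∏ i ∈ J, sitef P.toSys (s i) (F i) x) =
      (ss P.toSys (s j) (P.π ⁻¹' A) ∩ ⋂ i ∈ K, ss P.toSys (s i) (A' i)).indicator
        (fun _ => (1 : ℝ)) := by
    funext x
    rw [← Finset.mul_prod_erase J _ hjJ, hsitej]
    have h0 : ∏ i ∈ J.erase j, sitef P.toSys (s i) (F i) x =
      (⋂ i ∈ K, ss P.toSys (s i) (A' i)).indicator (fun _ => (1 : ℝ)) x := congrFun hprodK x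
    rw [h0]
    by_cases h1 : x ∈ ss P.toSys (s j) (P.π ⁻¹' A) <;>
      by_cases h2 : x ∈ ⋂ i ∈ K, ss P.toSys (s i) (A' i) <;>
      simp only [indicator_of_mem, indicator_of_notMem, h1, h2, mem_inter_iff, and_self,
        and_false, false_and, not_false_iff, mul_one, mul_zero]
  -- the identity of conditional expectations
  set c : ℝ := ∫ x, A.indicator (fun _ => (1 : ℝ)) x ∂X.μ with hc
  have eJK : (lb P.μ)[fun x => ∏ i ∈ J, sitef P.toSys (s i) (F i) x | LL P.C] =ᵐ[lb P.μ]
      fun x => c * ((lb P.μ)[fun x => ∏ i ∈ K, sitef P.toSys (s i) (F i) x | LL P.C]) x := by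
    filter_upwards [eJ, eK, hbase] with x h1 h2 h3
    rw [h1, h2, ← Finset.mul_prod_erase J _ hjJ, h3]
  have hLLC : LL P.C ≤ LL P.ms := LL_mono P.C_le
  have hmj : MeasurableSet (ss P.toSys (s j) (P.π ⁻¹' A)) :=
    measurableSet_site P.toSys (s j) (P.π_mp.measurable hA)
  have hmK : MeasurableSet (⋂ i ∈ K, ss P.toSys (s i) (A' i)) :=
    Finset.measurableSet_biInter K fun i _ => measurableSet_site P.toSys (s i) (hA' i)
  have hiJ : Integrable (fun x => ∏ i ∈ J, sitef P.toSys (s i) (F i) x) (lb P.μ) :=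
    (BdM.prod fun i _ => hb i).integrable le_rfl
  have hiK : Integrable (fun x => ∏ i ∈ K, sitef P.toSys (s i) (F i) x) (lb P.μ) :=
    (BdM.prod fun i _ => hb i).integrable le_rfl
  have i1 : ∫ x in B, ∏ i ∈ J, sitef P.toSys (s i) (F i) x ∂(lb P.μ) =
      c * ∫ x in B, ∏ i ∈ K, sitef P.toSys (s i) (F i) x ∂(lb P.μ) := by
    rw [← setIntegral_condExp hLLC hiJ hB, ← setIntegral_condExp hLLC hiK hB,
      ← integral_const_mul]
    exact setIntegral_congr_ae (hLLC _ hB) (eJK.mono fun x hx _ => hx)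
  have hB' : MeasurableSet B := hLLC _ hB
  rw [hprodK, hprodJ, setIntegral_indicator (hmj.inter hmK), setIntegral_indicator hmK,
    setIntegral_const, setIntegral_const, smul_eq_mul, smul_eq_mul, mul_one, mul_one] at i1
  have hcv : c = (lb P.μ).real (ss P.toSys (s j) (P.π ⁻¹' A)) := by
    rw [hc, integral_indicator hA, setIntegral_const, smul_eq_mul, mul_one, Measure.real,
      Measure.real, Push.lb_site (P.π_mp.measurable hA), P.π_mp.measure_preimage
        hA.nullMeasurableSet]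
  rw [hcv] at i1
  have hset1 : ss P.toSys (s j) (P.π ⁻¹' A) ∩ ((⋂ i ∈ K, ss P.toSys (s i) (A' i)) ∩ B) =
      B ∩ (ss P.toSys (s j) (P.π ⁻¹' A) ∩ ⋂ i ∈ K, ss P.toSys (s i) (A' i)) := by
    ext x; simp only [mem_inter_iff]; tauto
  have hset2 : (⋂ i ∈ K, ss P.toSys (s i) (A' i)) ∩ B =
      B ∩ ⋂ i ∈ K, ss P.toSys (s i) (A' i) := inter_comm _ _
  rw [hset1, hset2]
  have h6 : (lb P.μ (B ∩ (ss P.toSys (s j) (P.π ⁻¹' A) ∩ ⋂ i ∈ K, ss P.toSys (s i) (A' i)))).toReal
      = (lb P.μ (ss P.toSys (s j) (P.π ⁻¹' A)) *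
        lb P.μ (B ∩ ⋂ i ∈ K, ss P.toSys (s i) (A' i))).toReal := by
    rw [ENNReal.toReal_mul]; exact i1
  exact (ENNReal.toReal_eq_toReal_iff' (measure_ne_top _ _)
    (ENNReal.mul_ne_top (measure_ne_top _ _) (measure_ne_top _ _))).1 h6

end

end Crest.Agent.R069.Cl
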