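import Crest.Agent.R069.LoebMap
import Crest.Agent.R069.LoebCE

/-!
# Transfer of (S1) along an internal factor map (row 69, node N-H)

`S1_transfer`: if `ν[F ∘ ρ | mD] = μ[F | mC] ∘ ρ` for all bounded measurable `F` on the base, then
the same holds on the Loeb spaces, for `LL mD`, `LL mC` and the internal map of `ρ`.
-/

set_option autoImplicit false

open MeasureTheory Filter Set ProbabilityTheory
open scoped ENNReal Topology

namespace Crest.Agent.R069

section S1

variable {α β : Type*} {mC : MeasurableSpace α} {mD : MeasurableSpace β}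
  {mα : MeasurableSpace α} {mβ : MeasurableSpace β} {μ : Measure α} {ν : Measure β}
  [IsProbabilityMeasure μ] [IsProbabilityMeasure ν] {ρ : β → α}

/-- the standard part of a pulled back internal function. -/
theorem st_comp_lbmap {E : Type*} [TopologicalSpace E] [Nonempty E] (f : ℕ → α → E)
    (r : ℕ → β → α) : st f ∘ lbmap r = st (fun k x => f k (r k x)) := rfl

theorem BM.comp {m : MeasurableSpace α} {m' : MeasurableSpace β} {f : ℕ → α → ℝ} {C : ℝ}
    (h : BM m f C) {r : ℕ → β → α} (hr : ∀ k, Measurable[m', m] (r k)) :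
    BM m' (fun k x => f k (r k x)) C :=
  ⟨fun k => (h.meas k).comp (hr k), fun k _ => h.bdd k _⟩

omit [IsProbabilityMeasure μ] [IsProbabilityMeasure ν] in
theorem ae_eq_comp_mp {F : Type*} (hρ : MeasurePreserving ρ ν μ) {f g : α → F}
    (h : f =ᵐ[μ] g) : (fun y => f (ρ y)) =ᵐ[ν] fun y => g (ρ y) :=
  hρ.quasiMeasurePreserving.ae_eq_comp h

omit [IsProbabilityMeasure μ] [IsProbabilityMeasure ν] in
theorem integral_comp_mp (hρ : MeasurePreserving ρ ν μ) {f : α → ℝ}
    (hf : AEStronglyMeasurable f μ) : ∫ y, f (ρ y) ∂ν = ∫ x, f x ∂μ := by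
  have h1 : ∫ x, f x ∂(ν.map ρ) = ∫ y, f (ρ y) ∂ν := by
    refine integral_map hρ.aemeasurable ?_
    rw [hρ.map_eq]; exact hf
  rw [← h1, hρ.map_eq]

/-- **Transfer of (S1) to the Loeb spaces.** -/
theorem S1_transfer (hρ : MeasurePreserving ρ ν μ) (hC : mC ≤ mα) (hD : mD ≤ mβ)
    (hCD : mC.comap ρ ≤ mD)
    (h : ∀ F : α → ℝ, Measurable F → (∃ K, ∀ x, |F x| ≤ K) →
      ν[fun y => F (ρ y) | mD] =ᵐ[ν] fun y => (μ[F | mC]) (ρ y))
    {F : Lb α → ℝ} (hF : Measurable F) {K : ℝ} (hb : ∀ x, |F x| ≤ K) :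
    (lb ν)[fun y => F (lbmap (fun _ => ρ) y) | LL mD] =ᵐ[lb ν]
      fun y => ((lb μ)[F | LL mC]) (lbmap (fun _ => ρ) y) := by
  have hne : Nonempty (Lb α) := by
    have : (lb μ) univ ≠ 0 := by simp
    exact (nonempty_of_measure_ne_zero this).to_type
  have hK : 0 ≤ K := (abs_nonneg _).trans (hb (Classical.arbitrary _))
  have hR : MeasurePreserving (lbmap (fun _ : ℕ => ρ)) (lb ν) (lb μ) :=
    measurePreserving_lbmap (fun _ => hρ)
  obtain ⟨f, hf, hFf⟩ := funLift_of_measurable (μ := μ) (le_refl mα) hF hb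
  have hρC : Measurable[mD, mC] ρ := fun s hs => hCD _ ⟨s, hs, rfl⟩
  -- the right hand side
  have e1 : (lb μ)[F | LL mC] =ᵐ[lb μ] st (ce mC μ K f) :=
    (condExp_congr_ae hFf).trans (condExp_st_ce hC hK hf)
  have e2 : (fun y => ((lb μ)[F | LL mC]) (lbmap (fun _ => ρ) y)) =ᵐ[lb ν]
      fun y => st (ce mC μ K f) (lbmap (fun _ => ρ) y) :=
    ae_eq_comp_mp hR e1
  -- the left hand side
  have e3 : (fun y => F (lbmap (fun _ => ρ) y)) =ᵐ[lb ν]
      fun y => st f (lbmap (fun _ => ρ) y) := ae_eq_comp_mp hR hFf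
  have hf2 : BM mβ (fun k y => f k (ρ y)) K := hf.comp (fun _ => hρ.measurable)
  have hg2 : BM mD (fun k y => ce mC μ K f k (ρ y)) K := (ce_BM hK).comp (fun _ => hρC)
  have e4 : (lb ν)[st (fun k y => f k (ρ y)) | LL mD] =ᵐ[lb ν]
      st (fun k y => ce mC μ K f k (ρ y)) := by
    refine condExp_st hD hf2 hg2 (fun k => ?_)
    have h1 := h (f k) (hf.meas k) ⟨K, hf.bdd k⟩
    have h2 : (fun y => ce mC μ K f k (ρ y)) =ᵐ[ν] fun y => (μ[f k | mC]) (ρ y) :=
      hρ.quasiMeasurePreserving.ae_eq_comp (ce_ae_eq hK hf k)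
    exact h2.trans h1.symm
  have e5 : (fun y => st f (lbmap (fun _ => ρ) y)) = st (fun k y => f k (ρ y)) := by
    funext y; rfl
  have e6 : (fun y => st (ce mC μ K f) (lbmap (fun _ => ρ) y)) =
      st (fun k y => ce mC μ K f k (ρ y)) := by
    funext y; rfl
  rw [e5] at e3
  rw [e6] at e2
  exact ((condExp_congr_ae e3).trans e4).trans e2.symm

/-- (S1) for indicators (in the form of energies or sets) implies (S1) for bounded functions:
it is enough to know `ν[1_A ∘ ρ | mD] = μ[1_A | mC] ∘ ρ` for measurable sets `A`. -/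
theorem S1_of_sets (hρ : MeasurePreserving ρ ν μ) (hC : mC ≤ mα) (hD : mD ≤ mβ)
    (hCD : mC.comap ρ ≤ mD)
    (h : ∀ A : Set α, MeasurableSet A →
      ν[(ρ ⁻¹' A).indicator (fun _ => (1 : ℝ)) | mD] =ᵐ[ν]
        fun y => (μ[A.indicator (fun _ => (1 : ℝ)) | mC]) (ρ y))
    {F : α → ℝ} (hF : Integrable F μ) :
    ν[fun y => F (ρ y) | mD] =ᵐ[ν] fun y => (μ[F | mC]) (ρ y) := by
  have hρC : Measurable[mD, mC] ρ := fun s hs => hCD _ ⟨s, hs, rfl⟩
  have hq := hρ.quasiMeasurePreserving
  have key : ∀ {f : α → ℝ}, Integrable f μ → Integrable (fun y => f (ρ y)) ν := by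
    intro f hf
    exact hρ.integrable_comp_of_integrable hf
  refine Integrable.induction (P := fun F => ν[fun y => F (ρ y) | mD] =ᵐ[ν]
    fun y => (μ[F | mC]) (ρ y)) ?_ ?_ ?_ ?_ hF
  · intro c s hs _
    have e1 : (fun y => (s.indicator (fun _ => c)) (ρ y)) =
        c • ((ρ ⁻¹' s).indicator (fun _ => (1 : ℝ))) := by
      funext y
      by_cases hy : ρ y ∈ s
      · simp [Set.indicator, hy]
      · simp [Set.indicator, hy]
    have e2 : (s.indicator (fun _ => c)) = c • (s.indicator (fun _ => (1 : ℝ))) := by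
      funext y
      by_cases hy : y ∈ s
      · simp [Set.indicator, hy]
      · simp [Set.indicator, hy]
    rw [e1, e2]
    have h1 := condExp_smul (μ := ν) c ((ρ ⁻¹' s).indicator (fun _ => (1 : ℝ))) mD
    have h2 := condExp_smul (μ := μ) c (s.indicator (fun _ => (1 : ℝ))) mC
    have h3 := hq.ae_eq_comp h2
    refine h1.trans ?_
    refine EventuallyEq.trans ?_ h3.symm
    filter_upwards [h s hs] with y hy
    simp only [Pi.smul_apply, Function.comp_apply, smul_eq_mul]
    rw [hy]
  · intro f g _ hf hg h1 h2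
    have e1 : (fun y => (f + g) (ρ y)) = (fun y => f (ρ y)) + (fun y => g (ρ y)) := rfl
    show ν[fun y => (f + g) (ρ y) | mD] =ᵐ[ν] fun y => (μ[f + g | mC]) (ρ y)
    rw [e1]
    have h3 := condExp_add (m := mD) (key hf) (key hg)
    have h4 := hq.ae_eq_comp (condExp_add (m := mC) hf hg)
    refine h3.trans (EventuallyEq.trans ?_ h4.symm)
    filter_upwards [h1, h2] with y hy1 hy2
    simp only [Pi.add_apply, Function.comp_apply]
    rw [hy1, hy2]
  · -- closedness in `L¹`
    have hcl : IsClosed {f : α →₁[μ] ℝ | ν[fun y => f (ρ y) | mD] =ᵐ[ν]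
        fun y => (μ[(f : α → ℝ) | mC]) (ρ y)} := by
      let LA : (α →₁[μ] ℝ) → (β →₁[ν] ℝ) := fun f =>
        (integrable_condExp (μ := ν) (m := mD) (f := fun y => f (ρ y))).toL1 _
      let LB : (α →₁[μ] ℝ) → (β →₁[ν] ℝ) := fun f =>
        (key (integrable_condExp (μ := μ) (m := mC) (f := (f : α → ℝ)))).toL1 _
      have hset : {f : α →₁[μ] ℝ | ν[fun y => f (ρ y) | mD] =ᵐ[ν]
          fun y => (μ[(f : α → ℝ) | mC]) (ρ y)} = {f | LA f = LB f} := by
        ext f
        simp only [Set.mem_ofPred_eq, LA, LB]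
        rw [Integrable.toL1_eq_toL1_iff]
      rw [hset]
      have hcont : ∀ (L : (α →₁[μ] ℝ) → (β →₁[ν] ℝ)),
          (∀ f g : α →₁[μ] ℝ, dist (L f) (L g) ≤ dist f g) → Continuous L := by
        intro L hL
        exact (LipschitzWith.of_dist_le_mul (K := 1) (by simpa using hL)).continuous
      refine isClosed_eq (hcont _ ?_) (hcont _ ?_)
      · intro f g
        rw [dist_eq_norm, dist_eq_norm]
        simp only [LA]
        rw [← Integrable.toL1_sub, L1.norm_eq_integral_norm, L1.norm_eq_integral_norm]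
        have h5 : (fun y => (ν[fun y => f (ρ y) | mD]) y - (ν[fun y => g (ρ y) | mD]) y) =ᵐ[ν]
            ν[fun y => (f - g : α →₁[μ] ℝ) (ρ y) | mD] := by
          have h6 : (fun y => (f - g : α →₁[μ] ℝ) (ρ y)) =ᵐ[ν]
              (fun y => f (ρ y)) - (fun y => g (ρ y)) := by
            have := hq.ae_eq_comp (Lp.coeFn_sub f g)
            exact this
          have h7 := condExp_sub (m := mD) (key (L1.integrable_coeFn f))
            (key (L1.integrable_coeFn g))
          exact ((condExp_congr_ae h6).trans h7).symm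
        calc _ = ∫ y, ‖(ν[fun y => (f - g : α →₁[μ] ℝ) (ρ y) | mD]) y‖ ∂ν := by
              refine integral_congr_ae ?_
              filter_upwards [h5, Integrable.coeFn_toL1
                ((integrable_condExp (μ := ν) (m := mD) (f := fun y => f (ρ y))).sub
                (integrable_condExp (μ := ν) (m := mD) (f := fun y => g (ρ y))))] with y hy hy2
              rw [hy2]
              simp only [Pi.sub_apply]
              rw [hy]
          _ ≤ ∫ y, ‖(f - g : α →₁[μ] ℝ) (ρ y)‖ ∂ν := by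
              simpa only [Real.norm_eq_abs] using
                integral_abs_condExp_le (m := mD) (μ := ν) (fun y => (f - g : α →₁[μ] ℝ) (ρ y))
          _ = ∫ x, ‖(f - g : α →₁[μ] ℝ) x‖ ∂μ :=
              (integral_comp_mp hρ (L1.integrable_coeFn (f - g)).norm.aestronglyMeasurable)
      · intro f g
        rw [dist_eq_norm, dist_eq_norm]
        simp only [LB]
        rw [← Integrable.toL1_sub, L1.norm_eq_integral_norm, L1.norm_eq_integral_norm]
        have h5 : (fun x => (μ[(f : α → ℝ) | mC]) x - (μ[(g : α → ℝ) | mC]) x) =ᵐ[μ]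
            μ[((f - g : α →₁[μ] ℝ) : α → ℝ) | mC] := by
          have h6 : ((f - g : α →₁[μ] ℝ) : α → ℝ) =ᵐ[μ] (f : α → ℝ) - (g : α → ℝ) :=
            Lp.coeFn_sub f g
          have h7 := condExp_sub (m := mC) (L1.integrable_coeFn f) (L1.integrable_coeFn g)
          exact ((condExp_congr_ae h6).trans h7).symm
        calc _ = ∫ y, ‖(μ[((f - g : α →₁[μ] ℝ) : α → ℝ) | mC]) (ρ y)‖ ∂ν := by
              refine integral_congr_ae ?_
              filter_upwards [ae_eq_comp_mp hρ h5, Integrable.coeFn_toL1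
                ((key (integrable_condExp (μ := μ) (m := mC) (f := (f : α → ℝ)))).sub
                (key (integrable_condExp (μ := μ) (m := mC) (f := (g : α → ℝ)))))] with y hy hy2
              rw [hy2]
              simp only [Pi.sub_apply]
              rw [hy]
          _ = ∫ x, ‖(μ[((f - g : α →₁[μ] ℝ) : α → ℝ) | mC]) x‖ ∂μ :=
              integral_comp_mp hρ integrable_condExp.norm.aestronglyMeasurable
          _ ≤ ∫ x, ‖(f - g : α →₁[μ] ℝ) x‖ ∂μ := by
              simpa only [Real.norm_eq_abs] using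
                integral_abs_condExp_le (m := mC) (μ := μ) ((f - g : α →₁[μ] ℝ) : α → ℝ)
    exact hcl
  · intro f g hfg hf h1
    have e1 : (fun y => f (ρ y)) =ᵐ[ν] fun y => g (ρ y) := hq.ae_eq_comp hfg
    have e2 : (fun y => (μ[f | mC]) (ρ y)) =ᵐ[ν] fun y => (μ[g | mC]) (ρ y) :=
      hq.ae_eq_comp (condExp_congr_ae hfg)
    exact ((condExp_congr_ae e1).symm.trans h1).trans e2

end S1

end Crest.Agent.R069
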