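import Mathlib

/-!
Row 69, node HS, abstract part:
* an operator on a Hilbert space with bounded Hilbert-Schmidt sums is compact;
* a commuting family of compact symmetric operators with trivial joint kernel has enough joint
  eigenvectors.
-/

set_option autoImplicit false

namespace Crest.Agent.R069.HS

open scoped InnerProductSpace
open Module.End

variable {H : Type*} [NormedAddCommGroup H] [InnerProductSpace ℂ H] [CompleteSpace H]

/-- Hilbert-Schmidt operators are compact. -/
theorem isCompactOperator_of_hs (A : H →L[ℂ] H) (C : ℝ)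
    (hC : ∀ (n : ℕ) (b : Fin n → H), Orthonormal ℂ b → ∑ i, ‖A (b i)‖ ^ 2 ≤ C) :
    IsCompactOperator A := by
  classical
  -- the set of all sums
  let S : Set ℝ := {s | ∃ (n : ℕ) (b : Fin n → H), Orthonormal ℂ b ∧ s = ∑ i, ‖A (b i)‖ ^ 2}
  have hSne : S.Nonempty := ⟨0, 0, Fin.elim0, ⟨fun i => i.elim0, fun i => i.elim0⟩, by simp⟩
  have hSb : BddAbove S := ⟨C, by rintro s ⟨n, b, hb, rfl⟩; exact hC n b hb⟩
  have key : ∀ ε : ℝ, 0 < ε → ∃ F : H →L[ℂ] H, IsCompactOperator F ∧ ‖A - F‖ ≤ ε := by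
    intro ε hε
    obtain ⟨s, ⟨n, b, hb, rfl⟩, hs⟩ := exists_lt_of_lt_csSup hSne
      (show sSup S - ε ^ 2 < sSup S by have := pow_pos hε 2; linarith)
    let G : Submodule ℂ H := Submodule.span ℂ (Set.range b)
    have : FiniteDimensional ℂ G := FiniteDimensional.span_of_finite ℂ (Set.finite_range b)
    have hG : ∀ x ∈ Gᗮ, ‖A x‖ ≤ ε * ‖x‖ := by
      intro x hx
      rcases eq_or_ne x 0 with rfl | hx0
      · simp
      have hxn : ‖x‖ ≠ 0 := norm_ne_zero_iff.2 hx0
      -- the extended family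
      let x' : H := ((‖x‖⁻¹ : ℝ) : ℂ) • x
      have hx'n : ‖x'‖ = 1 := by
        simp only [x', norm_smul, Complex.norm_real, norm_inv, norm_norm]
        exact inv_mul_cancel₀ hxn
      have hx'o : ∀ i, ⟪b i, x'⟫_ℂ = 0 := by
        intro i
        have h1 : ⟪b i, x⟫_ℂ = 0 :=
          (Submodule.mem_orthogonal G x).1 hx (b i) (Submodule.subset_span ⟨i, rfl⟩)
        simp only [x', inner_smul_right, h1, mul_zero]
      have hx'o' : ∀ i, ⟪x', b i⟫_ℂ = 0 := by
        intro i
        rw [← inner_conj_symm, hx'o i, map_zero]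
      have hb' : Orthonormal ℂ (Fin.cons x' b : Fin (n + 1) → H) := by
        constructor
        · intro i
          refine Fin.cases ?_ (fun j => ?_) i
          · simpa using hx'n
          · simpa using hb.1 j
        · intro i j
          refine Fin.cases ?_ (fun i' => ?_) i <;> refine Fin.cases ?_ (fun j' => ?_) j
          · intro h; exact absurd rfl h
          · intro _; simpa using hx'o' j'
          · intro _; simpa using hx'o i'
          · intro h
            have : i' ≠ j' := fun e => h (by rw [e])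
            simpa using hb.2 this
      have h2 : ∑ i, ‖A ((Fin.cons x' b : Fin (n + 1) → H) i)‖ ^ 2 ≤ sSup S :=
        le_csSup hSb ⟨n + 1, _, hb', rfl⟩
      rw [Fin.sum_univ_succ] at h2
      simp only [Fin.cons_zero, Fin.cons_succ] at h2
      have h3 : ‖A x'‖ ^ 2 ≤ ε ^ 2 := by linarith
      have h4 : ‖A x'‖ ≤ ε := by
        exact (sq_le_sq₀ (norm_nonneg _) hε.le).1 h3
      have h5 : ‖A x'‖ = ‖x‖⁻¹ * ‖A x‖ := by
        simp only [x', map_smul, norm_smul, Complex.norm_real, norm_inv, norm_norm]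
      rw [h5] at h4
      have h6 : 0 < ‖x‖ := norm_pos_iff.2 hx0
      calc ‖A x‖ = ‖x‖ * (‖x‖⁻¹ * ‖A x‖) := by field_simp
        _ ≤ ‖x‖ * ε := mul_le_mul_of_nonneg_left h4 h6.le
        _ = ε * ‖x‖ := mul_comm _ _
    let P : H →L[ℂ] H := G.starProjection
    refine ⟨A.comp P, ?_, ?_⟩
    · -- finite rank
      have h3 : IsCompactOperator (_root_.id : G → G) :=
        (isCompactOperator_id_iff_finiteDimensional (𝕜 := ℂ) (E := G)).2 inferInstance
      have h2 : IsCompactOperator (_root_.id ∘ G.orthogonalProjectionOnto : H → G) :=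
        h3.comp_clm G.orthogonalProjectionOnto
      have h4 : IsCompactOperator ((A.comp G.subtypeL) ∘ (_root_.id ∘ G.orthogonalProjectionOnto) : H → H) :=
        h2.clm_comp (A.comp G.subtypeL)
      exact h4
    · refine ContinuousLinearMap.opNorm_le_bound _ hε.le fun x => ?_
      have h1 : (A - A.comp P) x = A (x - P x) := by simp
      rw [h1]
      have h2 : x - P x ∈ Gᗮ := by
        have := G.sub_starProjection_mem_orthogonal x
        exact this
      refine (hG _ h2).trans ?_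
      refine mul_le_mul_of_nonneg_left ?_ hε.le
      have h3 := Submodule.norm_sq_eq_add_norm_sq_starProjection x G
      have h4 : x - P x = Gᗮ.starProjection x := by
        rw [Submodule.starProjection_orthogonal']
        rfl
      rw [h4]
      have h5 : ‖Gᗮ.starProjection x‖ ^ 2 ≤ ‖x‖ ^ 2 := by
        rw [h3]; have := sq_nonneg ‖G.starProjection x‖; linarith
      exact (sq_le_sq₀ (norm_nonneg _) (norm_nonneg _)).1 h5
  -- limit
  have h : A ∈ closure {F : H →L[ℂ] H | IsCompactOperator F} := by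
    rw [Metric.mem_closure_iff]
    intro ε hε
    obtain ⟨F, hF, hF'⟩ := key (ε / 2) (by positivity)
    exact ⟨F, hF, by rw [dist_eq_norm]; linarith⟩
  have hcl : IsClosed {F : H →L[ℂ] H | IsCompactOperator F} :=
    isClosed_setOfPred_isCompactOperator
  rw [hcl.closure_eq] at h
  exact h

/-- `f` is a joint eigenvector of the family `𝒮`. -/
def IsJoint (𝒮 : Set (H →L[ℂ] H)) (f : H) : Prop := ∀ S ∈ 𝒮, ∃ c : ℂ, S f = c • f

omit [CompleteSpace H] in
/-- Finite dimensional step: a nonzero finite dimensional subspace invariant under a commuting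
family of symmetric operators contains a nonzero joint eigenvector. -/
theorem exists_joint_of_finiteDimensional (𝒮 : Set (H →L[ℂ] H))
    (hcomm : ∀ S ∈ 𝒮, ∀ S' ∈ 𝒮, ∀ x, S (S' x) = S' (S x)) :
    ∀ (n : ℕ) (W : Submodule ℂ H), FiniteDimensional ℂ W → Module.finrank ℂ W ≤ n → W ≠ ⊥ →
      (∀ S ∈ 𝒮, ∀ x ∈ W, S x ∈ W) → ∃ f ∈ W, f ≠ 0 ∧ IsJoint 𝒮 f := by
  intro n
  induction n with
  | zero =>
    intro W hfd hn hW _
    exact absurd (Submodule.finrank_eq_zero.1 (Nat.le_zero.1 hn)) hW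
  | succ n ih =>
    intro W hfd hn hW hinv
    by_cases hall : ∀ S ∈ 𝒮, ∃ c : ℂ, ∀ x ∈ W, S x = c • x
    · obtain ⟨f, hf, hf0⟩ := Submodule.exists_mem_ne_zero_of_ne_bot hW
      refine ⟨f, hf, hf0, fun S hS => ?_⟩
      obtain ⟨c, hc⟩ := hall S hS
      exact ⟨c, hc f hf⟩
    · push Not at hall
      obtain ⟨S, hS, hSc⟩ := hall
      -- restriction of `S` to `W` has an eigenvalue
      let T : W →ₗ[ℂ] W := (S : H →ₗ[ℂ] H).restrict (hinv S hS)
      have : Nontrivial W := Submodule.nontrivial_iff_ne_bot.2 hW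
      obtain ⟨c, hc⟩ := Module.End.exists_eigenvalue T
      obtain ⟨v, hv⟩ := hc.exists_hasEigenvector
      -- the eigenspace inside `H`
      let W' : Submodule ℂ H := W ⊓ Module.End.eigenspace (S : H →ₗ[ℂ] H) c
      have hW'le : W' ≤ W := inf_le_left
      have hvm : (v : H) ∈ W' := by
        refine Submodule.mem_inf.2 ⟨v.2, Module.End.mem_eigenspace_iff.2 ?_⟩
        exact congrArg Subtype.val hv.apply_eq_smul
      have hv0 : (v : H) ≠ 0 := fun h => hv.2 (Subtype.ext h)
      have hW'ne : W' ≠ ⊥ := fun h => hv0 ((Submodule.mem_bot ℂ).1 (h ▸ hvm))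
      have hlt : W' < W := by
        refine lt_of_le_of_ne hW'le fun h => ?_
        obtain ⟨x, hx, hx'⟩ := hSc c
        have : x ∈ W' := h ▸ hx
        exact hx' (Module.End.mem_eigenspace_iff.1 this.2)
      have hfin : Module.finrank ℂ W' < Module.finrank ℂ W := Submodule.finrank_lt_finrank_of_lt hlt
      have hfd' : FiniteDimensional ℂ W' := Submodule.finiteDimensional_of_le hW'le
      obtain ⟨f, hf, hf0, hfJ⟩ := ih W' hfd' (by omega) hW'ne (by
        intro S' hS' x hx
        refine Submodule.mem_inf.2 ⟨hinv S' hS' x hx.1, Module.End.mem_eigenspace_iff.2 ?_⟩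
        have h1 := Module.End.mem_eigenspace_iff.1 hx.2
        have h2 := hcomm S hS S' hS' x
        change S (S' x) = c • S' x
        rw [h2]
        have h3 : S x = c • x := h1
        rw [h3, map_smul])
      exact ⟨f, hW'le hf, hf0, hfJ⟩

/-- A commuting family of compact symmetric operators with trivial joint kernel: the joint
eigenvectors span a dense subspace. -/
theorem eq_zero_of_orthogonal_joint (𝒮 : Set (H →L[ℂ] H))
    (hc : ∀ S ∈ 𝒮, IsCompactOperator S) (hs : ∀ S ∈ 𝒮, (S : H →ₗ[ℂ] H).IsSymmetric)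
    (hcomm : ∀ S ∈ 𝒮, ∀ S' ∈ 𝒮, ∀ x, S (S' x) = S' (S x))
    (hker : ∀ x, (∀ S ∈ 𝒮, S x = 0) → x = 0)
    (x : H) (hx : ∀ f, IsJoint 𝒮 f → ⟪f, x⟫_ℂ = 0) : x = 0 := by
  classical
  by_contra hx0
  let M : Submodule ℂ H := Submodule.span ℂ {f | IsJoint 𝒮 f}
  let K : Submodule ℂ H := Mᗮ
  have hxK : x ∈ K := by
    rw [Submodule.mem_orthogonal]
    intro u hu
    refine Submodule.span_induction (p := fun u _ => ⟪u, x⟫_ℂ = 0) ?_ ?_ ?_ ?_ hu
    · intro f hf; exact hx f hf
    · simp
    · intro a b _ _ ha hb; rw [inner_add_left, ha, hb, add_zero]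
    · intro c a _ ha; rw [inner_smul_left, ha, mul_zero]
  have hKinv : ∀ S ∈ 𝒮, ∀ y ∈ K, S y ∈ K := by
    intro S hS y hy
    rw [Submodule.mem_orthogonal]
    intro u hu
    refine Submodule.span_induction (p := fun u _ => ⟪u, S y⟫_ℂ = 0) ?_ ?_ ?_ ?_ hu
    · intro f hf
      obtain ⟨c, hfc⟩ := hf S hS
      have h1 : ⟪f, S y⟫_ℂ = ⟪S f, y⟫_ℂ := (hs S hS f y).symm
      rw [h1, hfc, inner_smul_left]
      have h2 : ⟪f, y⟫_ℂ = 0 := (Submodule.mem_orthogonal M y).1 hy f (Submodule.subset_span hf)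
      rw [h2, mul_zero]
    · simp
    · intro a b _ _ ha hb; rw [inner_add_left, ha, hb, add_zero]
    · intro c a _ ha; rw [inner_smul_left, ha, mul_zero]
  -- pick `S` with `S x ≠ 0`
  obtain ⟨S, hS, hSx⟩ : ∃ S ∈ 𝒮, S x ≠ 0 := by
    by_contra h
    push Not at h
    exact hx0 (hker x h)
  have hcompl : CompleteSpace K := (Submodule.isClosed_orthogonal M).completeSpace_coe
  let T : K →L[ℂ] K := S.restrict (hKinv S hS)
  have hTc : IsCompactOperator T := (hc S hS).restrict' (hKinv S hS)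
  have hTs : (T : K →ₗ[ℂ] K).IsSymmetric := by
    intro a b
    exact hs S hS a b
  have hT0 : T ≠ 0 := by
    intro h
    apply hSx
    have := congrArg (fun R : K →L[ℂ] K => ((R ⟨x, hxK⟩ : K) : H)) h
    simpa [T] using this
  obtain ⟨μ, hμ, hμ0⟩ : ∃ μ : ℂ, Module.End.HasEigenvalue (T : Module.End ℂ K) μ ∧ μ ≠ 0 := by
    by_contra h
    push Not at h
    exact hT0 ((ContinuousLinearMap.eq_zero_of_forall_hasEigenvalue_eq_zero hTc hTs).1 h)
  obtain ⟨v, hv⟩ := hμ.exists_hasEigenvector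
  let W : Submodule ℂ H := K ⊓ Module.End.eigenspace (S : H →ₗ[ℂ] H) μ
  have hvm : (v : H) ∈ W := by
    refine Submodule.mem_inf.2 ⟨v.2, Module.End.mem_eigenspace_iff.2 ?_⟩
    have := congrArg Subtype.val hv.apply_eq_smul
    simpa [T] using this
  have hv0 : (v : H) ≠ 0 := fun h => hv.2 (Subtype.ext h)
  have hWne : W ≠ ⊥ := fun h => hv0 ((Submodule.mem_bot ℂ).1 (h ▸ hvm))
  have hfdE : FiniteDimensional ℂ (Module.End.eigenspace (S : H →ₗ[ℂ] H) μ) :=
    ContinuousLinearMap.finite_dimensional_eigenspace (hc S hS) μ hμ0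
  have hfd : FiniteDimensional ℂ W := Submodule.finiteDimensional_of_le inf_le_right
  obtain ⟨f, hf, hf0, hfJ⟩ := exists_joint_of_finiteDimensional 𝒮 hcomm (Module.finrank ℂ W) W hfd
    le_rfl hWne (by
      intro S' hS' y hy
      refine Submodule.mem_inf.2 ⟨hKinv S' hS' y hy.1, Module.End.mem_eigenspace_iff.2 ?_⟩
      have h1 : S y = μ • y := Module.End.mem_eigenspace_iff.1 hy.2
      change S (S' y) = μ • S' y
      rw [hcomm S hS S' hS' y, h1, map_smul])
  have h1 : ⟪f, f⟫_ℂ = 0 :=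
    (Submodule.mem_orthogonal M f).1 hf.1 f (Submodule.subset_span hfJ)
  exact hf0 (inner_self_eq_zero.1 h1)

end Crest.Agent.R069.HS
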