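import Mathlib
import Crest.Agent.R069.HSCpt

/-!
Row 69, node HS: the averaging operators `A f (y) = ∫ k(v) f(g v y) dν(v)` are compact on `L²(μ)`
as soon as `(v,y) ↦ (g v y, y)` maps `ν × μ` to `μ × μ` (fibrewise Bessel inequality).
-/

set_option autoImplicit false

namespace Crest.Agent.R069.HS

open MeasureTheory Filter
open scoped InnerProductSpace ComplexConjugate ENNReal

variable {Y V : Type*} [MeasurableSpace Y] [MeasurableSpace V] {μ : Measure Y}
  {ν : Measure V} {g : V → Y → Y}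

/-- the move preserves the measure -/
theorem mp_fst [IsProbabilityMeasure μ]
    (h1 : MeasurePreserving (fun p : V × Y => (g p.1 p.2, p.2)) (ν.prod μ) (μ.prod μ)) :
    MeasurePreserving (fun p : V × Y => g p.1 p.2) (ν.prod μ) μ :=
  measurePreserving_fst.comp h1

/-- For a.e. `y` the law of `v ↦ g v y` integrates `F` to `∫ F dμ`. -/
theorem ae_integral_eq [IsProbabilityMeasure μ] [IsProbabilityMeasure ν]
    (h1 : MeasurePreserving (fun p : V × Y => (g p.1 p.2, p.2)) (ν.prod μ) (μ.prod μ))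
    (F : Y → ℂ) (hF : Integrable F μ) : ∀ᵐ y ∂μ, ∫ v, F (g v y) ∂ν = ∫ y, F y ∂μ := by
  have hFc : Integrable (fun p : V × Y => F (g p.1 p.2)) (ν.prod μ) :=
    (mp_fst h1).integrable_comp_of_integrable hF
  have hI : Integrable (fun y => ∫ v, F (g v y) ∂ν) μ := hFc.integral_prod_right
  refine Integrable.ae_eq_of_forall_setIntegral_eq _ _ hI (integrable_const _) ?_
  intro s hs _
  have e1 : ∫ y in s, ∫ v, F (g v y) ∂ν ∂μ
      = ∫ p in (Set.univ ×ˢ s : Set (V × Y)), F (g p.1 p.2) ∂(ν.prod μ) := by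
    rw [← Measure.prod_restrict, Measure.restrict_univ, integral_prod_symm]
    rw [← Measure.restrict_univ (μ := ν), Measure.prod_restrict]
    exact hFc.restrict
  have e2 : ∫ p in (Set.univ ×ˢ s : Set (V × Y)), F (g p.1 p.2) ∂(ν.prod μ)
      = ∫ q in (Set.univ ×ˢ s : Set (Y × Y)), F q.1 ∂(μ.prod μ) := by
    rw [← h1.map_eq, setIntegral_map (MeasurableSet.univ.prod hs) _ h1.measurable.aemeasurable]
    · congr 1
    · rw [h1.map_eq]
      exact hF.aestronglyMeasurable.comp_fst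
  have e3 : ∫ q in (Set.univ ×ˢ s : Set (Y × Y)), F q.1 ∂(μ.prod μ)
      = ∫ y in s, (∫ z, F z ∂μ) ∂μ := by
    rw [← Measure.prod_restrict, Measure.restrict_univ, integral_prod_symm]
    rw [← Measure.restrict_univ (μ := μ), Measure.prod_restrict, Measure.restrict_univ]
    exact (hF.comp_fst _).restrict
  rw [e1, e2, e3]


theorem ae_memLp [IsProbabilityMeasure μ] [IsProbabilityMeasure ν]
    (hg : Measurable (Function.uncurry g))
    (h1 : MeasurePreserving (fun p : V × Y => (g p.1 p.2, p.2)) (ν.prod μ) (μ.prod μ))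
    (f : Y → ℂ) (hf : StronglyMeasurable f) (hf2 : MemLp f 2 μ) :
    ∀ᵐ y ∂μ, MemLp (fun v => f (g v y)) 2 ν := by
  have h0 : Integrable (fun y => ‖f y‖ ^ 2) μ :=
    (memLp_two_iff_integrable_sq_norm hf.aestronglyMeasurable).1 hf2
  have h2 : Integrable (fun p : V × Y => ‖f (g p.1 p.2)‖ ^ 2) (ν.prod μ) :=
    (mp_fst h1).integrable_comp_of_integrable h0
  filter_upwards [h2.prod_left_ae] with y hy
  refine (memLp_two_iff_integrable_sq_norm ?_).2 hy
  exact (hf.comp_measurable (hg.comp (measurable_id.prodMk measurable_const))).aestronglyMeasurable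

theorem norm_sq_Lp (f : Lp ℂ 2 μ) : ‖f‖ ^ 2 = ∫ y, ‖f y‖ ^ 2 ∂μ := by
  have h := inner_self_eq_norm_sq (𝕜 := ℂ) f
  rw [← h, L2.inner_def]
  have : ∀ y, ⟪f y, f y⟫_ℂ = ((‖f y‖ ^ 2 : ℝ) : ℂ) := by
    intro y
    rw [inner_self_eq_norm_sq_to_K]
    norm_cast
  simp_rw [this]
  have h2 : (∫ a, ((‖f a‖ ^ 2 : ℝ) : ℂ) ∂μ) = ((∫ a, ‖f a‖ ^ 2 ∂μ : ℝ) : ℂ) := integral_ofReal
  rw [h2]
  simp

/-- Cauchy-Schwarz in the probability space `ν`. -/
theorem norm_integral_sq_le [IsProbabilityMeasure ν] (k : V → ℂ) (C : ℝ)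
    (hC : ∀ v, ‖k v‖ ≤ C) (u : V → ℂ) (hu : MemLp u 2 ν) :
    ‖∫ v, k v * u v ∂ν‖ ^ 2 ≤ C ^ 2 * ∫ v, ‖u v‖ ^ 2 ∂ν := by
  obtain ⟨v0⟩ : Nonempty V := by
    by_contra h
    rw [not_nonempty_iff] at h
    have := measure_univ (μ := ν)
    rw [Measure.eq_zero_of_isEmpty ν] at this
    simp at this
  have hC0 : 0 ≤ C := (norm_nonneg _).trans (hC v0)
  have hui : Integrable (fun v => ‖u v‖) ν := (hu.integrable (by norm_num)).norm
  have hu2 : Integrable (fun v => ‖u v‖ ^ 2) ν :=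
    (memLp_two_iff_integrable_sq_norm hu.aestronglyMeasurable).1 hu
  have h1 : ‖∫ v, k v * u v ∂ν‖ ≤ C * ∫ v, ‖u v‖ ∂ν := by
    refine (norm_integral_le_integral_norm _).trans ?_
    rw [← integral_const_mul]
    refine integral_mono_of_nonneg (Eventually.of_forall fun v => norm_nonneg _)
      (hui.const_mul C) (Eventually.of_forall fun v => ?_)
    simp only [norm_mul]
    exact mul_le_mul_of_nonneg_right (hC v) (norm_nonneg _)
  have h2 : (∫ v, ‖u v‖ ∂ν) ^ 2 ≤ ∫ v, ‖u v‖ ^ 2 ∂ν := by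
    set m := ∫ v, ‖u v‖ ∂ν with hm
    have h3 : 0 ≤ ∫ v, (‖u v‖ - m) ^ 2 ∂ν := integral_nonneg fun v => sq_nonneg _
    have h4 : ∫ v, (‖u v‖ - m) ^ 2 ∂ν = ∫ v, ‖u v‖ ^ 2 ∂ν - m ^ 2 := by
      have : ∀ v, (‖u v‖ - m) ^ 2 = ‖u v‖ ^ 2 - 2 * m * ‖u v‖ + m ^ 2 := fun v => by ring
      simp_rw [this]
      have e1 : ∫ v, (‖u v‖ ^ 2 - 2 * m * ‖u v‖ + m ^ 2) ∂ν
          = ∫ v, (‖u v‖ ^ 2 - 2 * m * ‖u v‖) ∂ν + ∫ v, m ^ 2 ∂ν :=
        integral_add (hu2.sub (hui.const_mul _)) (integrable_const _)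
      have e2 : ∫ v, (‖u v‖ ^ 2 - 2 * m * ‖u v‖) ∂ν
          = ∫ v, ‖u v‖ ^ 2 ∂ν - ∫ v, 2 * m * ‖u v‖ ∂ν :=
        integral_sub hu2 (hui.const_mul _)
      rw [e1, e2, integral_const_mul, ← hm]
      simp
      ring
    linarith
  have h0 : 0 ≤ ∫ v, ‖u v‖ ∂ν := integral_nonneg fun v => norm_nonneg _
  calc ‖∫ v, k v * u v ∂ν‖ ^ 2 ≤ (C * ∫ v, ‖u v‖ ∂ν) ^ 2 := by gcongr
    _ = C ^ 2 * (∫ v, ‖u v‖ ∂ν) ^ 2 := by ring
    _ ≤ _ := by gcongr

theorem memLp_avg [IsProbabilityMeasure μ] [IsProbabilityMeasure ν]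
    (hg : Measurable (Function.uncurry g))
    (h1 : MeasurePreserving (fun p : V × Y => (g p.1 p.2, p.2)) (ν.prod μ) (μ.prod μ))
    (k : V → ℂ) (hk : Measurable k) (C : ℝ) (hC : ∀ v, ‖k v‖ ≤ C)
    (f : Y → ℂ) (hf : StronglyMeasurable f) (hf2 : MemLp f 2 μ) :
    MemLp (fun y => ∫ v, k v * f (g v y) ∂ν) 2 μ ∧
      ∫ y, ‖∫ v, k v * f (g v y) ∂ν‖ ^ 2 ∂μ ≤ C ^ 2 * ∫ y, ‖f y‖ ^ 2 ∂μ := by
  have hsm : StronglyMeasurable (fun y => ∫ v, k v * f (g v y) ∂ν) := by
    refine StronglyMeasurable.integral_prod_left' (f := fun p : V × Y => k p.1 * f (g p.1 p.2)) ?_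
    exact (hk.comp measurable_fst).stronglyMeasurable.mul (hf.comp_measurable hg)
  have h0 : Integrable (fun y => ‖f y‖ ^ 2) μ :=
    (memLp_two_iff_integrable_sq_norm hf.aestronglyMeasurable).1 hf2
  have h2 : Integrable (fun p : V × Y => ‖f (g p.1 p.2)‖ ^ 2) (ν.prod μ) :=
    (mp_fst h1).integrable_comp_of_integrable h0
  have h3 : Integrable (fun y => C ^ 2 * ∫ v, ‖f (g v y)‖ ^ 2 ∂ν) μ :=
    h2.integral_prod_right.const_mul _
  have h4 : ∀ᵐ y ∂μ, ‖∫ v, k v * f (g v y) ∂ν‖ ^ 2 ≤ C ^ 2 * ∫ v, ‖f (g v y)‖ ^ 2 ∂ν := by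
    filter_upwards [ae_memLp hg h1 f hf hf2] with y hy
    exact norm_integral_sq_le k C hC _ hy
  have h5 : ∫ y, (C ^ 2 * ∫ v, ‖f (g v y)‖ ^ 2 ∂ν) ∂μ = C ^ 2 * ∫ y, ‖f y‖ ^ 2 ∂μ := by
    rw [integral_const_mul]
    congr 1
    rw [← integral_prod_symm (fun p : V × Y => ‖f (g p.1 p.2)‖ ^ 2) h2]
    have h7 := (mp_fst h1).map_eq
    have h8 := integral_map (mp_fst h1).measurable.aemeasurable (μ := ν.prod μ)
      (f := fun y => ‖f y‖ ^ 2) (by rw [h7]; exact h0.aestronglyMeasurable)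
    rw [h7] at h8
    exact h8.symm
  have h6 : Integrable (fun y => ‖∫ v, k v * f (g v y) ∂ν‖ ^ 2) μ := by
    refine h3.mono' (hsm.norm.pow 2).aestronglyMeasurable ?_
    filter_upwards [h4] with y hy
    rw [Real.norm_of_nonneg (sq_nonneg _)]
    exact hy
  refine ⟨(memLp_two_iff_integrable_sq_norm hsm.aestronglyMeasurable).2 h6, ?_⟩
  rw [← h5]
  exact integral_mono_ae h6 h3 h4


/-- a.e. equal functions have a.e. equal averages -/
theorem avg_congr [IsProbabilityMeasure μ] [IsProbabilityMeasure ν]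
    (h1 : MeasurePreserving (fun p : V × Y => (g p.1 p.2, p.2)) (ν.prod μ) (μ.prod μ))
    (f f' : Y → ℂ) (h : f =ᵐ[μ] f') :
    ∀ᵐ y ∂μ, ∀ᵐ v ∂ν, f (g v y) = f' (g v y) := by
  have h2 : ∀ᵐ p ∂(ν.prod μ), f (g p.1 p.2) = f' (g p.1 p.2) :=
    (mp_fst h1).quasiMeasurePreserving.ae h
  have h3 : ∀ᵐ q ∂(μ.prod ν), f (g q.2 q.1) = f' (g q.2 q.1) := by
    have := Measure.measurePreserving_swap (μ := μ) (ν := ν)
    exact this.quasiMeasurePreserving.ae h2
  exact Measure.ae_ae_of_ae_prod h3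

/-- The averaging operator on `L²`. -/
theorem exists_avg_aux [IsProbabilityMeasure μ] [IsProbabilityMeasure ν]
    (hg : Measurable (Function.uncurry g))
    (h1 : MeasurePreserving (fun p : V × Y => (g p.1 p.2, p.2)) (ν.prod μ) (μ.prod μ))
    (k : V → ℂ) (hk : Measurable k) (C : ℝ) (hC0 : 0 ≤ C) (hC : ∀ v, ‖k v‖ ≤ C) :
    ∃ A : Lp ℂ 2 μ →L[ℂ] Lp ℂ 2 μ,
      (∀ f : Lp ℂ 2 μ, A f =ᵐ[μ] fun y => ∫ v, k v * f (g v y) ∂ν) := by
  have hmem : ∀ f : Lp ℂ 2 μ, MemLp (fun y => ∫ v, k v * f (g v y) ∂ν) 2 μ := fun f =>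
    (memLp_avg hg h1 k hk C hC f (Lp.stronglyMeasurable f) (Lp.memLp f)).1
  let L : Lp ℂ 2 μ →ₗ[ℂ] Lp ℂ 2 μ :=
    { toFun := fun f => (hmem f).toLp _
      map_add' := by
        intro f f'
        apply Lp.ext
        refine ((hmem (f + f')).coeFn_toLp).trans ?_
        refine EventuallyEq.trans ?_ (Lp.coeFn_add _ _).symm
        have e1 := (hmem f).coeFn_toLp
        have e2 := (hmem f').coeFn_toLp
        have i1 := ae_memLp hg h1 f (Lp.stronglyMeasurable f) (Lp.memLp f)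
        have i2 := ae_memLp hg h1 f' (Lp.stronglyMeasurable f') (Lp.memLp f')
        have e3 := avg_congr h1 _ _ (Lp.coeFn_add f f')
        filter_upwards [e1, e2, i1, i2, e3] with y h1 h2 i1 i2 h3
        rw [Pi.add_apply, h1, h2]
        have j1 : Integrable (fun v => k v * f (g v y)) ν :=
          (i1.integrable (by norm_num)).bdd_mul hk.aestronglyMeasurable
            (Eventually.of_forall hC)
        have j2 : Integrable (fun v => k v * f' (g v y)) ν :=
          (i2.integrable (by norm_num)).bdd_mul hk.aestronglyMeasurable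
            (Eventually.of_forall hC)
        rw [← integral_add j1 j2]
        refine integral_congr_ae ?_
        filter_upwards [h3] with v hv
        simp only [hv, Pi.add_apply]
        ring
      map_smul' := by
        intro c f
        apply Lp.ext
        refine ((hmem (c • f)).coeFn_toLp).trans ?_
        refine EventuallyEq.trans ?_ (Lp.coeFn_smul _ _).symm
        have e1 := (hmem f).coeFn_toLp
        have e3 := avg_congr h1 _ _ (Lp.coeFn_smul c f)
        filter_upwards [e1, e3] with y h1 h3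
        rw [RingHom.id_apply, Pi.smul_apply, h1, smul_eq_mul, ← integral_const_mul]
        refine integral_congr_ae ?_
        filter_upwards [h3] with v hv
        simp only [hv, Pi.smul_apply, smul_eq_mul]
        ring }
  refine ⟨L.mkContinuous C ?_, fun f => (hmem f).coeFn_toLp⟩
  intro f
  have h2 : ‖L f‖ ^ 2 ≤ (C * ‖f‖) ^ 2 := by
    rw [norm_sq_Lp, mul_pow, norm_sq_Lp f]
    have e : ∫ y, ‖(L f) y‖ ^ 2 ∂μ = ∫ y, ‖∫ v, k v * f (g v y) ∂ν‖ ^ 2 ∂μ := by
      refine integral_congr_ae ?_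
      filter_upwards [(hmem f).coeFn_toLp] with y hy
      have : (L f) y = ∫ v, k v * f (g v y) ∂ν := hy
      rw [this]
    rw [e]
    exact (memLp_avg hg h1 k hk C hC f (Lp.stronglyMeasurable f) (Lp.memLp f)).2
  exact abs_le_of_sq_le_sq' h2 (mul_nonneg hC0 (norm_nonneg _)) |>.2

/-- `L²` inner products of functions. -/
theorem inner_toLp_toLp {a b : V → ℂ} (ha : MemLp a 2 ν) (hb : MemLp b 2 ν) :
    ⟪ha.toLp a, hb.toLp b⟫_ℂ = ∫ v, conj (a v) * b v ∂ν := by
  rw [L2.inner_def]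
  refine integral_congr_ae ?_
  filter_upwards [ha.coeFn_toLp, hb.coeFn_toLp] with v h1 h2
  rw [h1, h2]
  simp [mul_comm]

/-- **Main lemma**: the averaging operators are compact. -/
theorem exists_avg [IsProbabilityMeasure μ] [IsProbabilityMeasure ν]
    (hg : Measurable (Function.uncurry g))
    (h1 : MeasurePreserving (fun p : V × Y => (g p.1 p.2, p.2)) (ν.prod μ) (μ.prod μ))
    (k : V → ℂ) (hk : Measurable k) (C : ℝ) (hC0 : 0 ≤ C) (hC : ∀ v, ‖k v‖ ≤ C) :
    ∃ A : Lp ℂ 2 μ →L[ℂ] Lp ℂ 2 μ, IsCompactOperator A ∧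
      (∀ f : Lp ℂ 2 μ, A f =ᵐ[μ] fun y => ∫ v, k v * f (g v y) ∂ν) ∧
      (∀ f φ : Lp ℂ 2 μ, ⟪φ, A f⟫_ℂ
        = ∫ p : V × Y, conj (φ p.2) * (k p.1 * f (g p.1 p.2)) ∂(ν.prod μ)) := by
  obtain ⟨A, hA⟩ := exists_avg_aux hg h1 k hk C hC0 hC
  refine ⟨A, ?_, hA, ?_⟩
  · refine isCompactOperator_of_hs A (C ^ 2) ?_
    intro n b hb
    have i1 : ∀ᵐ y ∂μ, ∀ i, MemLp (fun v => b i (g v y)) 2 ν :=
      ae_all_iff.2 fun i => ae_memLp hg h1 (b i) (Lp.stronglyMeasurable _) (Lp.memLp _)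
    have hint : ∀ i j, Integrable (fun y => conj (b i y) * b j y) μ := by
      intro i j
      have := L2.integrable_inner (𝕜 := ℂ) (b i) (b j)
      refine this.congr (Eventually.of_forall fun y => ?_)
      simp [mul_comm]
    have i2 : ∀ᵐ y ∂μ, ∀ i j, ∫ v, conj (b i (g v y)) * b j (g v y) ∂ν
        = if i = j then 1 else 0 := by
      refine ae_all_iff.2 fun i => ae_all_iff.2 fun j => ?_
      filter_upwards [ae_integral_eq h1 _ (hint i j)] with y hy
      rw [hy]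
      have h3 := orthonormal_iff_ite.1 hb i j
      rw [← h3, L2.inner_def]
      refine integral_congr_ae (Eventually.of_forall fun y => ?_)
      simp [mul_comm]
    have hkm : MemLp (fun v => conj (k v)) 2 ν := by
      refine MemLp.of_bound (Complex.continuous_conj.measurable.comp hk).aestronglyMeasurable C ?_
      exact Eventually.of_forall fun v => by simpa using hC v
    have i3 : ∀ᵐ y ∂μ, ∑ i, ‖∫ v, k v * b i (g v y) ∂ν‖ ^ 2 ≤ C ^ 2 := by
      filter_upwards [i1, i2] with y hy1 hy2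
      have hw : Orthonormal ℂ (fun i => (hy1 i).toLp _) := by
        rw [orthonormal_iff_ite]
        intro i j
        rw [inner_toLp_toLp]
        exact hy2 i j
      have h4 := hw.sum_inner_products_le (s := Finset.univ) (x := hkm.toLp _)
      have h5 : ∀ i, ‖⟪(hy1 i).toLp _, hkm.toLp _⟫_ℂ‖ = ‖∫ v, k v * b i (g v y) ∂ν‖ := by
        intro i
        rw [inner_toLp_toLp]
        have : (∫ v, conj (b i (g v y)) * conj (k v) ∂ν)
            = conj (∫ v, k v * b i (g v y) ∂ν) := by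
          rw [← integral_conj]
          refine integral_congr_ae (Eventually.of_forall fun v => ?_)
          simp [mul_comm]
        rw [this, Complex.norm_conj]
      simp_rw [h5] at h4
      refine h4.trans ?_
      rw [norm_sq_Lp]
      calc ∫ v, ‖(hkm.toLp _ : Lp ℂ 2 ν) v‖ ^ 2 ∂ν ≤ ∫ v, C ^ 2 ∂ν := by
            refine integral_mono_of_nonneg (Eventually.of_forall fun v => sq_nonneg _)
              (integrable_const _) ?_
            filter_upwards [hkm.coeFn_toLp] with v hv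
            rw [hv]
            have : ‖conj (k v)‖ ≤ C := by simpa using hC v
            gcongr
        _ = C ^ 2 := by simp
    have hs : ∀ i, ‖A (b i)‖ ^ 2 = ∫ y, ‖∫ v, k v * b i (g v y) ∂ν‖ ^ 2 ∂μ := by
      intro i
      rw [norm_sq_Lp]
      refine integral_congr_ae ?_
      filter_upwards [hA (b i)] with y hy
      rw [hy]
    simp_rw [hs]
    have hsi : ∀ i, Integrable (fun y => ‖∫ v, k v * b i (g v y) ∂ν‖ ^ 2) μ := by
      intro i
      have := (memLp_avg hg h1 k hk C hC (b i) (Lp.stronglyMeasurable _) (Lp.memLp _)).1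
      exact (memLp_two_iff_integrable_sq_norm this.aestronglyMeasurable).1 this
    rw [← integral_finsetSum _ fun i _ => hsi i]
    calc ∫ y, ∑ i, ‖∫ v, k v * b i (g v y) ∂ν‖ ^ 2 ∂μ ≤ ∫ y, C ^ 2 ∂μ := by
          exact integral_mono_ae (integrable_finsetSum _ fun i _ => hsi i) (integrable_const _) i3
      _ = C ^ 2 := by simp
  · intro f φ
    have hfc : MemLp (fun p : V × Y => f (g p.1 p.2)) 2 (ν.prod μ) :=
      (Lp.memLp f).comp_measurePreserving (mp_fst h1)
    have hφc : MemLp (fun p : V × Y => φ p.2) 2 (ν.prod μ) :=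
      (Lp.memLp φ).comp_measurePreserving measurePreserving_snd
    have hI : Integrable (fun p : V × Y => conj (φ p.2) * (k p.1 * f (g p.1 p.2))) (ν.prod μ) := by
      have h2 : Integrable (fun p : V × Y => conj (φ p.2) * f (g p.1 p.2)) (ν.prod μ) := by
        refine MemLp.integrable_mul (p := 2) (q := 2) ?_ hfc
        exact hφc.star
      have h3 := h2.bdd_mul (f := fun p : V × Y => k p.1)
        (hk.comp measurable_fst).aestronglyMeasurable (Eventually.of_forall fun p => hC p.1)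
      refine h3.congr (Eventually.of_forall fun p => ?_)
      ring
    rw [integral_prod_symm _ hI, L2.inner_def]
    refine integral_congr_ae ?_
    filter_upwards [hA f] with y hy
    rw [hy]
    simp only [RCLike.inner_apply]
    rw [mul_comm, ← integral_const_mul]

end Crest.Agent.R069.HS
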