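import Mathlib
import Crest.Agent.R069.HSOp

/-!
Row 69, node HS: joint eigenfunctions of the averaging operators are unimodular characters.
-/

set_option autoImplicit false

namespace Crest.Agent.R069.HS

open MeasureTheory Filter
open scoped InnerProductSpace ComplexConjugate ENNReal

variable {Y V : Type*} [MeasurableSpace Y] [MeasurableSpace V] {μ : Measure Y}
  {ν : Measure V} {g : V → Y → Y} {inv : V → V}

/-- An integrable function whose integrals over rectangles vanish is zero. -/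
theorem ae_zero_of_rect [IsProbabilityMeasure μ] [IsProbabilityMeasure ν] (D : V × Y → ℂ)
    (hD : Integrable D (ν.prod μ))
    (h : ∀ (s : Set V) (t : Set Y), MeasurableSet s → MeasurableSet t →
      ∫ p in s ×ˢ t, D p ∂(ν.prod μ) = 0) : D =ᵐ[ν.prod μ] 0 := by
  have key : ∀ s : Set (V × Y), MeasurableSet s → ∫ p in s, D p ∂(ν.prod μ) = 0 := by
    intro s hs
    have huniv : ∫ p, D p ∂(ν.prod μ) = 0 := by
      have := h Set.univ Set.univ MeasurableSet.univ MeasurableSet.univ
      simpa using this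
    refine MeasurableSpace.induction_on_inter
      (C := fun s _ => ∫ p in s, D p ∂(ν.prod μ) = 0) generateFrom_prod.symm isPiSystem_prod
      ?_ ?_ ?_ ?_ s hs
    · simp
    · rintro _ ⟨s, hs, t, ht, rfl⟩
      exact h s t hs ht
    · intro t ht h0
      have := integral_add_compl ht hD
      rw [h0, huniv, zero_add] at this
      exact this
    · intro f hdisj hm h0
      rw [integral_iUnion hm hdisj hD.integrableOn]
      simp [h0]
  exact hD.ae_eq_zero_of_forall_setIntegral_eq_zero fun s hs _ => key s hs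

/-- the move preserves the product measure -/
theorem mp_pair [IsProbabilityMeasure μ] [IsProbabilityMeasure ν] 
    (hinv : Measurable inv) (hg : Measurable (Function.uncurry g))
    (h2 : MeasurePreserving (fun p : V × Y => (inv p.1, g p.1 p.2)) (ν.prod μ) (ν.prod μ))
    (h2' : ∀ᵐ p ∂(ν.prod μ), inv (inv p.1) = p.1 ∧ g (inv p.1) (g p.1 p.2) = p.2) :
    MeasurePreserving (fun p : V × Y => (p.1, g p.1 p.2)) (ν.prod μ) (ν.prod μ) := by
  have h3 : MeasurePreserving inv ν ν := by
    refine ⟨hinv, ?_⟩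
    have e := (measurePreserving_fst (μ := ν) (ν := μ)).comp h2
    have e2 : (Prod.fst ∘ fun p : V × Y => (inv p.1, g p.1 p.2)) = inv ∘ Prod.fst := rfl
    rw [e2] at e
    have e3 := e.map_eq
    rw [← Measure.map_map hinv measurable_fst] at e3
    rw [(measurePreserving_fst (μ := ν) (ν := μ)).map_eq] at e3
    exact e3
  have h4 : MeasurePreserving (Prod.map inv id) (ν.prod μ) (ν.prod μ) :=
    h3.prod (MeasurePreserving.id μ)
  have h5 := h4.comp h2
  refine h5.congr (measurable_fst.prodMk hg) ?_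
  filter_upwards [h2'] with p hp
  simp [hp.1]

theorem ae_integral_eq' [IsProbabilityMeasure μ] [IsProbabilityMeasure ν]
    (hd : MeasurePreserving (fun p : V × Y => (p.1, g p.1 p.2)) (ν.prod μ) (ν.prod μ))
    (F : Y → ℂ) (hF : Integrable F μ) : ∀ᵐ v ∂ν, ∫ y, F (g v y) ∂μ = ∫ y, F y ∂μ := by
  have hmp : MeasurePreserving (fun p : V × Y => g p.1 p.2) (ν.prod μ) μ :=
    (measurePreserving_snd (μ := ν) (ν := μ)).comp hd
  have hFc : Integrable (fun p : V × Y => F (g p.1 p.2)) (ν.prod μ) :=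
    hmp.integrable_comp_of_integrable hF
  have hI : Integrable (fun v => ∫ y, F (g v y) ∂μ) ν := hFc.integral_prod_left
  refine Integrable.ae_eq_of_forall_setIntegral_eq _ _ hI (integrable_const _) ?_
  intro s hs _
  have e1 : ∫ v in s, ∫ y, F (g v y) ∂μ ∂ν
      = ∫ p in (s ×ˢ Set.univ : Set (V × Y)), F (g p.1 p.2) ∂(ν.prod μ) := by
    rw [← Measure.prod_restrict, Measure.restrict_univ, integral_prod]
    rw [← Measure.restrict_univ (μ := μ), Measure.prod_restrict]
    exact hFc.restrict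
  have e2 : ∫ p in (s ×ˢ Set.univ : Set (V × Y)), F (g p.1 p.2) ∂(ν.prod μ)
      = ∫ q in (s ×ˢ Set.univ : Set (V × Y)), F q.2 ∂(ν.prod μ) := by
    have h3 := setIntegral_map (μ := ν.prod μ) (g := fun p : V × Y => (p.1, g p.1 p.2))
      (f := fun q : V × Y => F q.2) (hs.prod (MeasurableSet.univ (α := Y)))
      (by rw [hd.map_eq]; exact hF.aestronglyMeasurable.comp_snd) hd.measurable.aemeasurable
    rw [hd.map_eq] at h3
    rw [h3]
    congr 1
  have e3 : ∫ q in (s ×ˢ Set.univ : Set (V × Y)), F q.2 ∂(ν.prod μ)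
      = ∫ v in s, (∫ z, F z ∂μ) ∂ν := by
    rw [← Measure.prod_restrict, Measure.restrict_univ, integral_prod]
    rw [← Measure.restrict_univ (μ := μ), Measure.prod_restrict]
    exact (hF.comp_snd _).restrict
  rw [e1, e2, e3]

/-- from hermitian weights to all weights -/
theorem eigen_all [IsProbabilityMeasure μ] [IsProbabilityMeasure ν]
    (hg : Measurable (Function.uncurry g)) (hinv : Measurable inv)
    (h1 : MeasurePreserving (fun p : V × Y => (g p.1 p.2, p.2)) (ν.prod μ) (μ.prod μ))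
    (hinv2 : ∀ᵐ v ∂ν, inv (inv v) = v)
    (f : Lp ℂ 2 μ)
    (hE : ∀ k : V → ℂ, Measurable k → (∀ v, ‖k v‖ ≤ 1) → (∀ᵐ v ∂ν, k (inv v) = conj (k v)) →
      ∃ c : ℂ, ∀ᵐ y ∂μ, ∫ v, k v * f (g v y) ∂ν = c * f y)
    (k : V → ℂ) (hk : Measurable k) (hk1 : ∀ v, ‖k v‖ ≤ 1) :
    ∃ c : ℂ, ∀ᵐ y ∂μ, ∫ v, k v * f (g v y) ∂ν = c * f y := by
  have hcm : Measurable (fun v => conj (k (inv v))) :=
    Complex.continuous_conj.measurable.comp (hk.comp hinv)
  have hcn : ∀ v, ‖conj (k (inv v))‖ ≤ 1 := fun v => by simpa using hk1 (inv v)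
  let k1 : V → ℂ := fun v => (k v + conj (k (inv v))) / 2
  let k2 : V → ℂ := fun v => (k v - conj (k (inv v))) / (2 * Complex.I)
  have hk1m : Measurable k1 := (hk.add hcm).div_const _
  have hk2m : Measurable k2 := (hk.sub hcm).div_const _
  have hk1n : ∀ v, ‖k1 v‖ ≤ 1 := by
    intro v
    simp only [k1, norm_div]
    have := norm_add_le (k v) (conj (k (inv v)))
    have h3 := hk1 v
    have h4 := hcn v
    have h5 : ‖(2 : ℂ)‖ = 2 := by simp
    rw [h5, div_le_one (by norm_num)]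
    linarith
  have hk2n : ∀ v, ‖k2 v‖ ≤ 1 := by
    intro v
    simp only [k2, norm_div]
    have := norm_sub_le (k v) (conj (k (inv v)))
    have h3 := hk1 v
    have h4 := hcn v
    have h5 : ‖(2 * Complex.I : ℂ)‖ = 2 := by simp
    rw [h5, div_le_one (by norm_num)]
    linarith
  have hk1h : ∀ᵐ v ∂ν, k1 (inv v) = conj (k1 v) := by
    filter_upwards [hinv2] with v hv
    simp only [k1, hv, map_div₀, map_add, Complex.conj_conj]
    rw [add_comm, Complex.conj_ofNat]
  have hk2h : ∀ᵐ v ∂ν, k2 (inv v) = conj (k2 v) := by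
    filter_upwards [hinv2] with v hv
    simp only [k2, hv, map_div₀, map_sub, map_mul, Complex.conj_conj, Complex.conj_I]
    rw [Complex.conj_ofNat]
    field_simp
    ring
  obtain ⟨c1, hc1⟩ := hE k1 hk1m hk1n hk1h
  obtain ⟨c2, hc2⟩ := hE k2 hk2m hk2n hk2h
  refine ⟨c1 + Complex.I * c2, ?_⟩
  filter_upwards [hc1, hc2, ae_memLp hg h1 f (Lp.stronglyMeasurable f) (Lp.memLp f)]
    with y h3 h4 h5
  have i1 : Integrable (fun v => k1 v * f (g v y)) ν :=
    (h5.integrable (by norm_num)).bdd_mul hk1m.aestronglyMeasurable (Eventually.of_forall hk1n)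
  have i2 : Integrable (fun v => k2 v * f (g v y)) ν :=
    (h5.integrable (by norm_num)).bdd_mul hk2m.aestronglyMeasurable (Eventually.of_forall hk2n)
  have e : ∀ v, k v * f (g v y) = k1 v * f (g v y) + Complex.I * (k2 v * f (g v y)) := by
    intro v
    have hI : Complex.I ≠ 0 := Complex.I_ne_zero
    have : k v = k1 v + Complex.I * k2 v := by
      simp only [k1, k2]
      field_simp
      ring
    rw [this]
    ring
  simp_rw [e]
  rw [integral_add i1 (i2.const_mul _), integral_const_mul, h3, h4]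
  ring

/-- The multiplier of a joint eigenfunction. -/
theorem eigen_kap [IsProbabilityMeasure μ] [IsProbabilityMeasure ν]
    (hg : Measurable (Function.uncurry g))
    (h1 : MeasurePreserving (fun p : V × Y => (g p.1 p.2, p.2)) (ν.prod μ) (μ.prod μ))
    (hd : MeasurePreserving (fun p : V × Y => (p.1, g p.1 p.2)) (ν.prod μ) (ν.prod μ))
    (f : Lp ℂ 2 μ) (hf : f ≠ 0)
    (hE : ∀ k : V → ℂ, Measurable k → (∀ v, ‖k v‖ ≤ 1) →
      ∃ c : ℂ, ∀ᵐ y ∂μ, ∫ v, k v * f (g v y) ∂ν = c * f y) :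
    ∃ kap : V → ℂ, Measurable kap ∧ (∀ v, ‖kap v‖ = 1) ∧
      ∀ᵐ p ∂(ν.prod μ), f (g p.1 p.2) = kap p.1 * f p.2 := by
  have hfs : StronglyMeasurable f := Lp.stronglyMeasurable f
  have hfc : MemLp (fun p : V × Y => f (g p.1 p.2)) 2 (ν.prod μ) :=
    (Lp.memLp f).comp_measurePreserving (mp_fst h1)
  have hfc1 : MemLp (fun p : V × Y => f p.2) 2 (ν.prod μ) :=
    (Lp.memLp f).comp_measurePreserving measurePreserving_snd
  have hf1 : Integrable f μ := (Lp.memLp f).integrable (by norm_num)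
  have hN : ‖f‖ ^ 2 = ∫ y, ‖f y‖ ^ 2 ∂μ := norm_sq_Lp f
  set N : ℝ := ‖f‖ ^ 2 with hNdef
  have hN0 : 0 < N := by
    have : 0 < ‖f‖ := norm_pos_iff.2 hf
    positivity
  -- the function `kap0`
  let P : V × Y → ℂ := fun p => conj (f p.2) * f (g p.1 p.2)
  have hPm : StronglyMeasurable P := by
    refine StronglyMeasurable.mul ?_ (hfs.comp_measurable hg)
    exact Complex.continuous_conj.comp_stronglyMeasurable (hfs.comp_measurable measurable_snd)
  have hPi : Integrable P (ν.prod μ) := MemLp.integrable_mul (p := 2) (q := 2) hfc1.star hfc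
  let kap0 : V → ℂ := fun v => (N : ℂ)⁻¹ * ∫ y, P (v, y) ∂μ
  have hk0m : StronglyMeasurable kap0 := hPm.integral_prod_right'.const_mul _
  have hk0i : Integrable kap0 ν := hPi.integral_prod_left.const_mul _
  have hNc : (N : ℂ) ≠ 0 := by exact_mod_cast hN0.ne'
  -- eigenvalues
  have hlam : ∀ k : V → ℂ, Measurable k → (∀ v, ‖k v‖ ≤ 1) →
      ∀ᵐ y ∂μ, ∫ v, k v * f (g v y) ∂ν = (∫ v, k v * kap0 v ∂ν) * f y := by
    intro k hk hk1
    obtain ⟨c, hc⟩ := hE k hk hk1
    have hPk : Integrable (fun p : V × Y => k p.1 * P p) (ν.prod μ) :=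
      hPi.bdd_mul (f := fun p : V × Y => k p.1) (hk.comp measurable_fst).aestronglyMeasurable
        (Eventually.of_forall fun p => hk1 p.1)
    have e1 : ∫ y, conj (f y) * (∫ v, k v * f (g v y) ∂ν) ∂μ = c * N := by
      have : ∫ y, conj (f y) * (∫ v, k v * f (g v y) ∂ν) ∂μ = ∫ y, c * ((‖f y‖ ^ 2 : ℝ) : ℂ) ∂μ := by
        refine integral_congr_ae ?_
        filter_upwards [hc] with y hy
        rw [hy]
        have : conj (f y) * f y = ((‖f y‖ ^ 2 : ℝ) : ℂ) := by
          rw [mul_comm, Complex.mul_conj, Complex.normSq_eq_norm_sq]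
        rw [← this]; ring
      rw [this, integral_const_mul]
      congr 1
      have h2 : (∫ a, ((‖f a‖ ^ 2 : ℝ) : ℂ) ∂μ) = ((∫ a, ‖f a‖ ^ 2 ∂μ : ℝ) : ℂ) := integral_ofReal
      rw [h2, ← hN]
    have e2 : ∫ y, conj (f y) * (∫ v, k v * f (g v y) ∂ν) ∂μ = ∫ v, k v * (N * kap0 v) ∂ν := by
      have a1 : ∫ p, k p.1 * P p ∂(ν.prod μ) = ∫ y, ∫ v, k v * P (v, y) ∂ν ∂μ :=
        integral_prod_symm _ hPk
      have a2 : ∫ p, k p.1 * P p ∂(ν.prod μ) = ∫ v, ∫ y, k v * P (v, y) ∂μ ∂ν :=
        integral_prod _ hPk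
      have a3 : ∀ y, conj (f y) * (∫ v, k v * f (g v y) ∂ν) = ∫ v, k v * P (v, y) ∂ν := by
        intro y
        rw [← integral_const_mul]
        refine integral_congr_ae (Eventually.of_forall fun v => ?_)
        simp only [P]; ring
      have a4 : ∀ v, k v * ((N : ℂ) * kap0 v) = ∫ y, k v * P (v, y) ∂μ := by
        intro v
        rw [integral_const_mul]
        simp only [kap0]
        rw [← mul_assoc (N : ℂ), mul_inv_cancel₀ hNc, one_mul]
      simp_rw [a3, a4]
      rw [← a1, a2]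
    have e3 : c = ∫ v, k v * kap0 v ∂ν := by
      have : ∫ v, k v * (N * kap0 v) ∂ν = N * ∫ v, k v * kap0 v ∂ν := by
        rw [← integral_const_mul]
        refine integral_congr_ae (Eventually.of_forall fun v => ?_)
        simp only; ring
      rw [this] at e2
      have h3 : c * N = N * ∫ v, k v * kap0 v ∂ν := e1.symm.trans e2
      have h4 : (N : ℂ) * c = N * ∫ v, k v * kap0 v ∂ν := by rw [← h3]; ring
      exact mul_left_cancel₀ hNc h4
    rw [← e3]
    exact hc
  -- the difference vanishes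
  let D : V × Y → ℂ := fun p => f (g p.1 p.2) - kap0 p.1 * f p.2
  have hfci : Integrable (fun p : V × Y => f (g p.1 p.2)) (ν.prod μ) :=
    hfc.integrable (by norm_num)
  have hki : Integrable (fun p : V × Y => kap0 p.1 * f p.2) (ν.prod μ) := hk0i.mul_prod hf1
  have hDi : Integrable D (ν.prod μ) := hfci.sub hki
  have hD : D =ᵐ[ν.prod μ] 0 := by
    refine ae_zero_of_rect D hDi ?_
    intro s t hs ht
    have hDr : Integrable D ((ν.restrict s).prod (μ.restrict t)) := by
      rw [Measure.prod_restrict]; exact hDi.restrict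
    rw [← Measure.prod_restrict, integral_prod_symm _ hDr]
    have hk1 : ∀ v, ‖s.indicator (fun _ => (1 : ℂ)) v‖ ≤ 1 := by
      intro v
      by_cases h : v ∈ s <;> simp [h]
    have hl := hlam (s.indicator fun _ => (1 : ℂ)) (measurable_const.indicator hs) hk1
    have hsec : ∀ᵐ y ∂μ, Integrable (fun v => f (g v y)) ν := by
      filter_upwards [ae_memLp hg h1 f hfs (Lp.memLp f)] with y hy
      exact hy.integrable (by norm_num)
    have hz : ∀ᵐ y ∂μ, ∫ v in s, D (v, y) ∂ν = 0 := by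
      filter_upwards [hl, hsec] with y hy hy2
      have b1 : ∫ v in s, D (v, y) ∂ν = ∫ v in s, f (g v y) ∂ν - ∫ v in s, kap0 v * f y ∂ν := by
        simp only [D]
        exact integral_sub hy2.integrableOn (hk0i.mul_const _).integrableOn
      have b2 : ∀ v, s.indicator (fun _ => (1 : ℂ)) v * f (g v y)
          = s.indicator (fun v => f (g v y)) v := by
        intro v; by_cases h : v ∈ s <;> simp [h]
      have b3 : ∀ v, s.indicator (fun _ => (1 : ℂ)) v * kap0 v = s.indicator kap0 v := by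
        intro v; by_cases h : v ∈ s <;> simp [h]
      simp_rw [b2, b3] at hy
      rw [integral_indicator hs, integral_indicator hs] at hy
      rw [b1, hy, integral_mul_const]
      ring
    rw [integral_congr_ae (ae_restrict_of_ae hz)]
    simp
  have hD' : ∀ᵐ p ∂(ν.prod μ), f (g p.1 p.2) = kap0 p.1 * f p.2 := by
    filter_upwards [hD] with p hp
    have : f (g p.1 p.2) - kap0 p.1 * f p.2 = 0 := hp
    exact sub_eq_zero.1 this
  -- modulus one
  have hk1 : ∀ᵐ v ∂ν, ‖kap0 v‖ = 1 := by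
    have hF : Integrable (fun y => ((‖f y‖ ^ 2 : ℝ) : ℂ)) μ :=
      ((memLp_two_iff_integrable_sq_norm hfs.aestronglyMeasurable).1 (Lp.memLp f)).ofReal
    filter_upwards [ae_integral_eq' hd _ hF, Measure.ae_ae_of_ae_prod hD'] with v h3 h4
    have h5 : ∫ y, ((‖f (g v y)‖ ^ 2 : ℝ) : ℂ) ∂μ
        = ((‖kap0 v‖ ^ 2 : ℝ) : ℂ) * ∫ y, ((‖f y‖ ^ 2 : ℝ) : ℂ) ∂μ := by
      rw [← integral_const_mul]
      refine integral_congr_ae ?_
      filter_upwards [h4] with y hy
      rw [hy, norm_mul, mul_pow]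
      push_cast; ring
    have h2 : (∫ a, ((‖f a‖ ^ 2 : ℝ) : ℂ) ∂μ) = ((∫ a, ‖f a‖ ^ 2 ∂μ : ℝ) : ℂ) := integral_ofReal
    rw [h5, h2, ← hN] at h3
    have h6 : ‖kap0 v‖ ^ 2 * N = N := by exact_mod_cast h3
    have h7 : ‖kap0 v‖ ^ 2 = 1 := by
      have : (‖kap0 v‖ ^ 2 - 1) * N = 0 := by linarith
      rcases mul_eq_zero.1 this with h | h
      · linarith
      · exact absurd h hN0.ne'
    nlinarith [norm_nonneg (kap0 v)]
  classical
  refine ⟨fun v => if ‖kap0 v‖ = 1 then kap0 v else 1, ?_, ?_, ?_⟩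
  · exact Measurable.ite (measurableSet_eq_fun hk0m.measurable.norm measurable_const)
      hk0m.measurable measurable_const
  · intro v
    by_cases h : ‖kap0 v‖ = 1 <;> simp [h]
  · have hk1' : ∀ᵐ p ∂(ν.prod μ), ‖kap0 p.1‖ = 1 :=
      (measurePreserving_fst (μ := ν) (ν := μ)).quasiMeasurePreserving.ae hk1
    filter_upwards [hD', hk1'] with p h3 h4
    rw [h3, if_pos h4]

/-- A function with invariant modulus has constant modulus. -/
theorem eigen_const [IsProbabilityMeasure μ] [IsProbabilityMeasure ν]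
    (h1 : MeasurePreserving (fun p : V × Y => (g p.1 p.2, p.2)) (ν.prod μ) (μ.prod μ))
    (F : Y → ℂ) (hF : Measurable F) 
    (hI : ∀ᵐ p ∂(ν.prod μ), F (g p.1 p.2) = F p.2) :
    ∃ r : ℂ, ∀ᵐ y ∂μ, F y = r := by
  have hS : MeasurableSet {q : Y × Y | F q.1 = F q.2} :=
    measurableSet_eq_fun (hF.comp measurable_fst) (hF.comp measurable_snd)
  have h3 : ∀ᵐ q ∂(μ.prod μ), F q.1 = F q.2 := by
    rw [← h1.map_eq, ae_map_iff h1.measurable.aemeasurable hS]
    exact hI
  have h4 := Measure.ae_ae_of_ae_prod h3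
  have : NeZero μ := ⟨IsProbabilityMeasure.ne_zero μ⟩
  obtain ⟨y0, hy0⟩ := h4.exists
  refine ⟨F y0, ?_⟩
  filter_upwards [hy0] with y hy
  exact hy.symm

end Crest.Agent.R069.HS
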