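import Crest.Agent.R069.Iface
import Crest.Agent.R069.CI
import Crest.Agent.R069.Site

/-!
# Row 69, node IND

The sites of a sated pair on the Loeb space of ANY extension are conditionally independent given
the Loeb environment (note 12234).  `P` is a pair satisfying (S1), `e : Ext P Q`,
`siteP e s : Lb Q.Ω → P.Ω` is the point of `P` at the site `s` of `Q`.
-/

set_option autoImplicit false

open MeasureTheory Filter Set ProbabilityTheory
open scoped ENNReal Topology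

namespace Crest.Agent.R069.Ind

/-! ### null sets -/

section nul

variable {Ω : Type*} {k m : MeasurableSpace Ω} [m0 : MeasurableSpace Ω] {μ : Measure Ω}

theorem nul_le : nul μ ≤ m0 := fun _ hA => hA.1

theorem aele_nul : AELe μ (nul μ) m := by
  intro A hA
  rcases hA.2 with h | h
  · exact ⟨∅, @MeasurableSet.empty _ m, ae_eq_empty.2 h⟩
  · exact ⟨univ, @MeasurableSet.univ _ m, ae_eq_univ.2 h⟩

theorem aele_sup_nul : AELe μ (m ⊔ nul μ) m :=
  AELe.refl.sup aele_nul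

theorem condExp_sup_nul [IsProbabilityMeasure μ] (hm : m ≤ m0)
    {f : Ω → ℝ} (hf : BdM m0 f) : μ[f | m ⊔ nul μ] =ᵐ[μ] μ[f | m] :=
  condExp_eq_of_aele (sup_le hm nul_le) hm aele_sup_nul (AELe.of_le le_sup_left) hf

theorem indep_sup_nul [IsProbabilityMeasure μ] (hk : k ≤ m0)
    (hm : m ≤ m0) (h : Indep k m μ) : Indep k (m ⊔ nul μ) μ :=
  Indep.mono_ae hk hk hm (sup_le hm nul_le) AELe.refl aele_sup_nul h

/-- a.e. equal to a set of `m` and measurable implies measurable for `m ⊔ nul`. -/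
theorem measurableSet_sup_nul (hm : m ≤ m0) {A B : Set Ω}
    (hA : MeasurableSet[m0] A) (hB : MeasurableSet[m] B) (h : A =ᵐ[μ] B) :
    MeasurableSet[m ⊔ nul μ] A := by
  have hB' : MeasurableSet[m ⊔ nul μ] B := (le_sup_left : m ≤ m ⊔ nul μ) B hB
  have hB0 := hm B hB
  have h1 : μ (A \ B) = 0 := ae_le_set.1 h.le
  have h2 : μ (B \ A) = 0 := ae_le_set.1 h.symm.le
  have e1 : MeasurableSet[m ⊔ nul μ] (A \ B) :=
    (le_sup_right : nul μ ≤ m ⊔ nul μ) _ ⟨hA.diff hB0, Or.inl h1⟩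
  have e2 : MeasurableSet[m ⊔ nul μ] (B \ A) :=
    (le_sup_right : nul μ ≤ m ⊔ nul μ) _ ⟨hB0.diff hA, Or.inl h2⟩
  have e3 : A = (B \ (B \ A)) ∪ (A \ B) := by
    ext x
    simp only [mem_union, Set.mem_sdiff]
    tauto
  rw [e3]
  exact MeasurableSet.union (MeasurableSet.diff hB' e2) e1

/-- `comap` of a sub-σ-algebra along an a.e. equal map. -/
theorem comap_le_sup_nul_of_ae {β : Type*} {mβ : MeasurableSpace β} {f g : Ω → β}
    (hf : Measurable f) (hg : Measurable g) (h : f =ᵐ[μ] g) :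
    mβ.comap f ≤ mβ.comap g ⊔ nul μ := by
  rintro _ ⟨B, hB, rfl⟩
  refine measurableSet_sup_nul (measurable_iff_comap_le.1 hg) (hf hB) ⟨B, hB, rfl⟩ ?_
  filter_upwards [h] with x hx
  apply propext
  show f x ∈ B ↔ g x ∈ B
  rw [hx]

theorem comap_nul_le {Ω' : Type*} [m0' : MeasurableSpace Ω'] {μ' : Measure Ω'} {T : Ω' → Ω}
    (hT : MeasurePreserving T μ' μ) : (nul μ).comap T ≤ nul μ' := by
  rintro _ ⟨B, hB, rfl⟩
  refine ⟨hT.measurable hB.1, ?_⟩
  rcases hB.2 with h | h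
  · left
    rw [hT.measure_preimage hB.1.nullMeasurableSet]; exact h
  · right
    rw [← preimage_compl, hT.measure_preimage hB.1.compl.nullMeasurableSet]; exact h

end nul

/-! ### site maps -/

section site

variable {X : Sys} {P Q : Pair X} [StandardBorelSpace P.Ω] [Nonempty P.Ω]

/-- the point of `P` at the site `s` on the Loeb space of the extension `Q`. -/
noncomputable def siteP (e : Ext P Q) (s : ℕ → ℤ) : Lb Q.Ω → P.Ω :=
  sv (fun k => e.f ∘ Q.S (s k))

/-- the induced action on the Loeb space -/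
def lbS (Q : Sys) (n : ℤ) : Lb Q.Ω → Lb Q.Ω := lbmap (fun _ => Q.S n)

theorem lbS_mp (Q : Sys) (n : ℤ) : MeasurePreserving (lbS Q n) (lb Q.μ) (lb Q.μ) :=
  measurePreserving_lbmap (fun _ => Q.S_mp n)

omit [StandardBorelSpace P.Ω] [Nonempty P.Ω] in
theorem fS_mp (e : Ext P Q) (s : ℕ → ℤ) (k : ℕ) :
    MeasurePreserving (e.f ∘ Q.S (s k)) Q.μ P.μ := e.f_mp.comp (Q.S_mp (s k))

theorem siteP_mp (e : Ext P Q) (s : ℕ → ℤ) : MeasurePreserving (siteP e s) (lb Q.μ) P.μ :=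
  (measurePreserving_pt P.μ).comp (measurePreserving_lbmap fun k => e.f_mp.comp (Q.S_mp (s k)))

theorem siteP_preimage_ae (e : Ext P Q) (s : ℕ → ℤ) {A : Set P.Ω} (hA : MeasurableSet A) :
    siteP e s ⁻¹' A =ᵐ[lb Q.μ] intl (fun k => Q.S (s k) ⁻¹' (e.f ⁻¹' A)) := by
  have hmp : MeasurePreserving (lbmap fun k => e.f ∘ Q.S (s k)) (lb Q.μ) (lb P.μ) :=
    measurePreserving_lbmap fun k => e.f_mp.comp (Q.S_mp (s k))
  have h := hmp.quasiMeasurePreserving.ae_eq_comp (pt_preimage_ae (μ := P.μ) hA)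
  exact h

theorem siteP_S (e : Ext P Q) (s : ℕ → ℤ) (n : ℤ) :
    (fun x => siteP e s (lbS Q.toSys n x)) =ᵐ[lb Q.μ] fun x => P.S n (siteP e s x) := by
  have hmp : MeasurePreserving (lbmap fun k => e.f ∘ Q.S (s k)) (lb Q.μ) (lb P.μ) :=
    measurePreserving_lbmap fun k => e.f_mp.comp (Q.S_mp (s k))
  have h1 : ∀ᵐ x ∂(lb Q.μ), pt (lbmap (fun _ => P.S n) (lbmap (fun k => e.f ∘ Q.S (s k)) x)) =
      P.S n (pt (lbmap (fun k => e.f ∘ Q.S (s k)) x)) :=
    hmp.quasiMeasurePreserving.ae (pt_lbmap_ae (μ := P.μ) (P.S_mp n).measurable)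
  have h2 : ∀ᵐ x ∂(lb Q.μ), ∀ᶠ k in (UU : Filter ℕ),
      e.f (Q.S n (Q.S (s k) (x k))) = P.S n (e.f (Q.S (s k) (x k))) :=
    ae_lb_of_forall_ae (μ := Q.μ)
      (p := fun k y => e.f (Q.S n (Q.S (s k) y)) = P.S n (e.f (Q.S (s k) y)))
      fun k => (Q.S_mp (s k)).quasiMeasurePreserving.ae (e.f_S n)
  filter_upwards [h1, h2] with x hx1 hx2
  rw [show siteP e s x = pt (lbmap (fun k => e.f ∘ Q.S (s k)) x) from rfl, ← hx1]
  refine pt_congr ?_
  filter_upwards [hx2] with k hk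
  show e.f (Q.S (s k) (Q.S n (x k))) = P.S n (e.f (Q.S (s k) (x k)))
  rw [← hk, ← Q.S_add, ← Q.S_add, add_comm]

/-- the environment of `P` at the site `s` is in the Loeb environment of `Q`. -/
theorem siteP_C (e : Ext P Q) (s : ℕ → ℤ) :
    P.C.comap (siteP e s) ≤ LL Q.C ⊔ nul (lb Q.μ) := by
  rintro _ ⟨A, hA, rfl⟩
  have hA0 := P.C_le A hA
  refine measurableSet_sup_nul (LL_mono Q.C_le) ((siteP_mp e s).measurable hA0) ?_
    (siteP_preimage_ae e s hA0)
  exact measurableSet_intl fun k => Q.C_S (s k) (e.f_C _ ⟨A, hA, rfl⟩)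

theorem siteP_π_mp (e : Ext P Q) (s : ℕ → ℤ) :
    MeasurePreserving (fun x => P.π (siteP e s x)) (lb Q.μ) X.μ :=
  P.π_mp.comp (siteP_mp e s)

theorem siteP_π_S (e : Ext P Q) (s : ℕ → ℤ) (n : ℤ) :
    (fun x => P.π (siteP e s (lbS Q.toSys n x))) =ᵐ[lb Q.μ]
      fun x => X.S n (P.π (siteP e s x)) := by
  have h1 := siteP_S e s n
  have h2 := (siteP_mp e s).quasiMeasurePreserving.ae (P.π_S n)
  filter_upwards [h1, h2] with x hx1 hx2
  rw [hx1]; exact hx2

/-- the null sets of the Loeb space -/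
@[implicit_reducible]
noncomputable def NN (Q : Sys) : MeasurableSpace (Lb Q.Ω) := nul (lb Q.μ)

/-- the pair over `X` on the Loeb space of `Q` given by a site. -/
noncomputable def sitePair (e : Ext P Q) (s : ℕ → ℤ) (D : MeasurableSpace (Lb Q.Ω))
    (hD : D ≤ LL Q.ms) (hnul : NN Q.toSys ≤ D) (hS : ∀ n, Measurable[D, D] (lbS Q.toSys n))
    (hind : Indep (X.ms.comap fun x => P.π (siteP e s x)) D (lb Q.μ)) : Pair X where
  Ω := Lb Q.Ω
  ms := LL Q.ms
  μ := lb Q.μ
  S n := lbS Q.toSys n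
  S_zero x := funext fun k => Q.S_zero (x k)
  S_add a b x := funext fun k => Q.S_add a b (x k)
  S_mp n := lbS_mp Q.toSys n
  π := fun x => P.π (siteP e s x)
  π_mp := siteP_π_mp e s
  π_S n := siteP_π_S e s n
  C := D
  C_le := hD
  C_nul := hnul
  C_S := hS
  indep := hind

/-- `sitePair` is an extension of `P`. -/
noncomputable def siteExt (e : Ext P Q) (s : ℕ → ℤ) (D : MeasurableSpace (Lb Q.Ω))
    (hD : D ≤ LL Q.ms) (hnul : NN Q.toSys ≤ D) (hS : ∀ n, Measurable[D, D] (lbS Q.toSys n))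
    (hind : Indep (X.ms.comap fun x => P.π (siteP e s x)) D (lb Q.μ))
    (hC : P.C.comap (siteP e s) ≤ D) : Ext P (sitePair e s D hD hnul hS hind) where
  f := siteP e s
  f_mp := siteP_mp e s
  f_S n := siteP_S e s n
  f_π := EventuallyEq.rfl
  f_C := hC

end site

/-! ### invariance up to null sets -/

/-- invariance, up to null sets, of a sub-σ-algebra of the Loeb space. -/
def LInv (Q : Sys) (m : MeasurableSpace (Lb Q.Ω)) : Prop :=
  ∀ n, m.comap (lbS Q n) ≤ m ⊔ NN Q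

section linv

variable {Q : Sys}

theorem LInv.sup {a b : MeasurableSpace (Lb Q.Ω)} (ha : LInv Q a) (hb : LInv Q b) :
    LInv Q (a ⊔ b) := fun n => by
  rw [MeasurableSpace.comap_sup]
  refine sup_le ((ha n).trans ?_) ((hb n).trans ?_)
  · exact sup_le_sup_right le_sup_left _
  · exact sup_le_sup_right le_sup_right _

theorem LInv.iSup {ι : Sort*} {a : ι → MeasurableSpace (Lb Q.Ω)} (ha : ∀ i, LInv Q (a i)) :
    LInv Q (⨆ i, a i) := fun n => by
  rw [MeasurableSpace.comap_iSup]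
  exact iSup_le fun i => (ha i n).trans (sup_le_sup_right (le_iSup a i) _)

theorem comap_NN_le (n : ℤ) : (NN Q).comap (lbS Q n) ≤ NN Q := comap_nul_le (lbS_mp Q n)

theorem LInv.nn : LInv Q (NN Q) := fun n => (comap_NN_le n).trans le_sup_left

theorem LInv.measurable {a : MeasurableSpace (Lb Q.Ω)} (ha : LInv Q a) (n : ℤ) :
    Measurable[a ⊔ NN Q, a ⊔ NN Q] (lbS Q n) := by
  rw [measurable_iff_comap_le, MeasurableSpace.comap_sup]
  exact sup_le (ha n) ((comap_NN_le n).trans le_sup_right)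

theorem LInv.ll {C : MeasurableSpace Q.Ω} (hC : ∀ n, Measurable[C, C] (Q.S n)) :
    LInv Q (LL C) := fun n => by
  refine le_sup_of_le_left ?_
  rw [LL, MeasurableSpace.comap_generateFrom]
  refine MeasurableSpace.generateFrom_le ?_
  rintro _ ⟨_, ⟨A, hA, rfl⟩, rfl⟩
  rw [lbS, lbmap_preimage]
  exact measurableSet_intl fun k => hC n (hA k)

/-- σ-algebras of an a.e. equivariant map are invariant. -/
theorem LInv.comap {M : Sys} {f : Lb Q.Ω → M.Ω} (hf : Measurable f)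
    (hS : ∀ n, (fun x => f (lbS Q n x)) =ᵐ[lb Q.μ] fun x => M.S n (f x))
    {m : MeasurableSpace M.Ω} (hm : m ≤ M.ms) (hmS : ∀ n, Measurable[m, m] (M.S n)) :
    LInv Q (m.comap f) := fun n => by
  rw [MeasurableSpace.comap_comp]
  rintro _ ⟨B, hB, rfl⟩
  have hB0 := hm B hB
  refine measurableSet_sup_nul (B := f ⁻¹' (M.S n ⁻¹' B))
    ((MeasurableSpace.comap_mono hm).trans (measurable_iff_comap_le.1 hf)) ?_
    ⟨_, hmS n hB, rfl⟩ ?_
  · exact (hf.comp (lbS_mp Q n).measurable) hB0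
  · filter_upwards [hS n] with x hx
    apply propext
    show f (lbS Q n x) ∈ B ↔ M.S n (f x) ∈ B
    rw [hx]

end linv

/-! ### the independence of the sites -/

section ind

variable {X : Sys} {P Q : Pair X} [StandardBorelSpace P.Ω] [Nonempty P.Ω]

/-- the σ-algebra of the site `s` of `P` -/
@[implicit_reducible]
noncomputable def sE (e : Ext P Q) (s : ℕ → ℤ) : MeasurableSpace (Lb Q.Ω) :=
  P.ms.comap (siteP e s)

/-- the σ-algebra of the site `s` of `X` -/
@[implicit_reducible]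
noncomputable def sX (e : Ext P Q) (s : ℕ → ℤ) : MeasurableSpace (Lb Q.Ω) :=
  X.ms.comap fun x => P.π (siteP e s x)

theorem sE_le (e : Ext P Q) (s : ℕ → ℤ) : sE e s ≤ LL Q.ms :=
  measurable_iff_comap_le.1 (siteP_mp e s).measurable

theorem sX_le (e : Ext P Q) (s : ℕ → ℤ) : sX e s ≤ LL Q.ms :=
  measurable_iff_comap_le.1 (siteP_π_mp e s).measurable

theorem sX_le_sE (e : Ext P Q) (s : ℕ → ℤ) : sX e s ≤ sE e s := by
  unfold sX sE
  rw [show (fun x => P.π (siteP e s x)) = P.π ∘ siteP e s from rfl, ← MeasurableSpace.comap_comp]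
  exact MeasurableSpace.comap_mono (measurable_iff_comap_le.1 P.π_mp.measurable)

theorem sE_inv (e : Ext P Q) (s : ℕ → ℤ) : LInv Q.toSys (sE e s) :=
  LInv.comap (M := P.toSys) (siteP_mp e s).measurable (siteP_S e s) le_rfl
    fun n => (P.S_mp n).measurable

theorem sX_inv (e : Ext P Q) (s : ℕ → ℤ) : LInv Q.toSys (sX e s) :=
  LInv.comap (M := X) (siteP_π_mp e s).measurable (siteP_π_S e s) le_rfl
    fun n => (X.S_mp n).measurable

theorem LC_inv (Q : Pair X) : LInv Q.toSys (LL Q.C) := LInv.ll Q.C_S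

/-- (S1) at a site (the environment is bundled to keep it out of the instance search). -/
theorem siteAux (hP : S1 P) (e : Ext P Q) (s : ℕ → ℤ) {F : P.Ω → ℝ} (hF : Measurable F)
    (hb : ∃ K, ∀ x, |F x| ≤ K) (D : {m : MeasurableSpace (Lb Q.Ω) // LL Q.C ≤ m ∧ m ≤ LL Q.ms ∧
      LInv Q.toSys m ∧ Indep (sX e s) m (lb Q.μ)}) :
    (lb Q.μ)[fun x => F (siteP e s x) | D.1] =ᵐ[lb Q.μ]
      fun x => (P.μ[F | P.C]) (siteP e s x) := by
  have hCD := D.2.1
  have hD := D.2.2.1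
  have hI := D.2.2.2.1
  have hind := D.2.2.2.2
  have hD' : D.1 ⊔ NN Q.toSys ≤ LL Q.ms := sup_le hD nul_le
  have hind' : Indep (sX e s) (D.1 ⊔ NN Q.toSys) (lb Q.μ) :=
    indep_sup_nul (sX_le e s) hD hind
  have hC' : P.C.comap (siteP e s) ≤ D.1 ⊔ NN Q.toSys :=
    (siteP_C e s).trans (sup_le_sup_right hCD _)
  have h1 := hP (sitePair e s (D.1 ⊔ NN Q.toSys) hD' le_sup_right hI.measurable hind')
    (siteExt e s (D.1 ⊔ NN Q.toSys) hD' le_sup_right hI.measurable hind' hC') F ⟨hF, hb⟩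
  have h2 : (lb Q.μ)[fun x => F (siteP e s x) | D.1 ⊔ NN Q.toSys] =ᵐ[lb Q.μ]
      (lb Q.μ)[fun x => F (siteP e s x) | D.1] :=
    condExp_sup_nul hD ⟨hF.comp (siteP_mp e s).measurable, hb.imp fun K hK x => hK _⟩
  exact h2.symm.trans h1

/-- (S1) at a site. -/
theorem S1_site (hP : S1 P) (e : Ext P Q) (s : ℕ → ℤ) {F : P.Ω → ℝ} (hF : Measurable F)
    (hb : ∃ K, ∀ x, |F x| ≤ K) {D : MeasurableSpace (Lb Q.Ω)} (hCD : LL Q.C ≤ D)
    (hD : D ≤ LL Q.ms) (hI : LInv Q.toSys D) (hind : Indep (sX e s) D (lb Q.μ)) :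
    (lb Q.μ)[fun x => F (siteP e s x) | D] =ᵐ[lb Q.μ]
      fun x => (P.μ[F | P.C]) (siteP e s x) :=
  siteAux hP e s hF hb ⟨D, hCD, hD, hI, hind⟩

theorem factors_site (e : Ext P Q) (s : ℕ → ℤ) {F : Lb Q.Ω → ℝ}
    (hF : StronglyMeasurable[sE e s] F) (hb : ∃ K, ∀ x, |F x| ≤ K) :
    ∃ F' : P.Ω → ℝ, Measurable F' ∧ (∃ K, ∀ x, |F' x| ≤ K) ∧ F = fun x => F' (siteP e s x) := by
  obtain ⟨F', hF', hFF⟩ := BdM.factors (φ := siteP e s) (F := F) ⟨hF.measurable, hb⟩
  exact ⟨F', hF'.meas, hF'.bdd, hFF⟩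

variable {ι : Type*}

/-- output of node JOINT: the `X`-sites are independent, and independent of the Loeb
environment. -/
structure Joint (e : Ext P Q) (s : ι → ℕ → ℤ) : Prop where
  iX : iIndep (fun j => sX e (s j)) (lb Q.μ)
  XC : Indep (⨆ j, sX e (s j)) (LL Q.C) (lb Q.μ)

/-- the hypotheses of the site theorem. -/
theorem hyp (hP : S1 P) {e : Ext P Q} {s : ι → ℕ → ℤ} (hJ : Joint e s) :
    Site.Hyp (lb Q.μ) (fun j => sE e (s j)) (fun j => sX e (s j)) (LL Q.C) (LInv Q.toSys) where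
  inv_sup _ _ := LInv.sup
  inv_C := LC_inv Q
  inv_E S := LInv.iSup fun i => LInv.iSup fun _ => sE_inv e (s i)
  inv_X S := LInv.iSup fun i => LInv.iSup fun _ => sX_inv e (s i)
  E_le j := sE_le e (s j)
  X_le j := sX_le e (s j)
  C_le := LL_mono Q.C_le
  iX := hJ.iX
  XC := hJ.XC
  S1 j D hCD hD hI hind F hF hb := by
    obtain ⟨F', hF', hb', rfl⟩ := factors_site e (s j) hF hb
    have hj : Indep (sX e (s j)) (LL Q.C) (lb Q.μ) :=
      indep_of_indep_of_le_left hJ.XC (le_iSup (fun j => sX e (s j)) j)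
    exact (S1_site hP e (s j) hF' hb' hCD hD hI hind).trans
      (S1_site hP e (s j) hF' hb' le_rfl (LL_mono Q.C_le) (LC_inv Q) hj).symm

end ind

/-! ### node JOINT -/

theorem sitef_indicator (M : Sys) (s : ℕ → ℤ) (A : Set M.Ω) :
    sitef M s (A.indicator fun _ => (1 : ℝ)) =
      (intl fun k => M.S (s k) ⁻¹' A).indicator fun _ => (1 : ℝ) := by
  have h1 : (fun (k : ℕ) (x : M.Ω) => (A.indicator fun _ => (1 : ℝ)) (M.S (s k) x)) =
      fun k => (M.S (s k) ⁻¹' A).indicator fun _ => (1 : ℝ) := by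
    funext k x
    rfl
  unfold sitef
  rw [h1, st_indicator _ (f := fun _ _ => (1 : ℝ)) (stOK_of_bdd (C := 1) (by simp)), st_const]

theorem prod_indicator {Ω ι : Type*} (J : Finset ι) (V : ι → Set Ω) (x : Ω) :
    ∏ i ∈ J, (V i).indicator (fun _ => (1 : ℝ)) x =
      (⋂ i ∈ J, V i).indicator (fun _ => (1 : ℝ)) x := by
  classical
  by_cases h : ∀ i ∈ J, x ∈ V i
  · rw [indicator_of_mem (mem_iInter₂.2 h)]
    exact Finset.prod_eq_one fun i hi => indicator_of_mem (h i hi) _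
  · rw [indicator_of_notMem (fun hx => h (mem_iInter₂.1 hx))]
    push Not at h
    obtain ⟨i, hi, hx⟩ := h
    exact Finset.prod_eq_zero hi (indicator_of_notMem hx _)

section joint

variable {X : Sys} {ι : Type}

theorem xind_sets {s : ι → ℕ → ℤ} {J : Finset ι} (h : XInd X s J) {A : ι → Set X.Ω}
    (hA : ∀ i, MeasurableSet (A i)) :
    lb X.μ (⋂ i ∈ J, intl fun k => X.S (s i k) ⁻¹' A i) = ∏ i ∈ J, X.μ (A i) := by
  have h1 := h (fun i => (A i).indicator fun _ => (1 : ℝ)) fun i =>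
    ⟨measurable_const.indicator (hA i), 1, fun x => by
      by_cases hx : x ∈ A i <;> simp [hx]⟩
  simp only [sitef_indicator, prod_indicator] at h1
  have hV : MeasurableSet (⋂ i ∈ J, intl fun k => X.S (s i k) ⁻¹' A i) :=
    Finset.measurableSet_biInter J fun i _ =>
      measurableSet_intl fun k => (X.S_mp (s i k)).measurable (hA i)
  rw [integral_indicator hV] at h1
  simp only [integral_indicator (hA _)] at h1
  simp only [integral_const, smul_eq_mul, mul_one, measureReal_def,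
    Measure.restrict_apply_univ] at h1
  rw [← ENNReal.toReal_prod] at h1
  exact (ENNReal.toReal_eq_toReal_iff' (measure_ne_top _ _)
    (ENNReal.prod_ne_top fun i _ => measure_ne_top _ _)).1 h1

variable {P Q : Pair X} [StandardBorelSpace P.Ω] [Nonempty P.Ω]

/-- the `X`-site through `P` is the site of `Q.π`. -/
theorem siteX_ae (e : Ext P Q) (s : ℕ → ℤ) {A : Set X.Ω} (hA : MeasurableSet A) :
    (fun x => P.π (siteP e s x)) ⁻¹' A =ᵐ[lb Q.μ]
      lbmap (fun _ => Q.π) ⁻¹' (intl fun k => X.S (s k) ⁻¹' A) := by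
  have h1 := siteP_preimage_ae e s (P.π_mp.measurable hA)
  refine h1.trans ?_
  rw [lbmap_preimage]
  refine intl_ae_eq fun k => ?_
  have h2 : (fun x => Q.π (Q.S (s k) x)) =ᵐ[Q.μ] fun x => P.π (e.f (Q.S (s k) x)) :=
    (Q.S_mp (s k)).quasiMeasurePreserving.ae_eq_comp e.f_π
  filter_upwards [h2, Q.π_S (s k)] with x hx1 hx2
  apply propext
  show P.π (e.f (Q.S (s k) x)) ∈ A ↔ X.S (s k) (Q.π x) ∈ A
  rw [← hx1, hx2]

theorem sX_aele (e : Ext P Q) (s : ℕ → ℤ) :
    AELe (lb Q.μ) (sX e s) (LL (X.ms.comap Q.π)) := by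
  rintro _ ⟨A, hA, rfl⟩
  refine ⟨_, ?_, siteX_ae e s hA⟩
  rw [← comap_lbmap_LL]
  exact ⟨_, measurableSet_intl fun k => (X.S_mp (s k)).measurable hA, rfl⟩

theorem indep_LLX (Q : Pair X) : Indep (LL (X.ms.comap Q.π)) (LL Q.C) (lb Q.μ) :=
  indep_LL (measurable_iff_comap_le.1 Q.π_mp.measurable) Q.C_le Q.indep

theorem indep_sX_LL (e : Ext P Q) {κ : Sort*} (s : κ → ℕ → ℤ) :
    Indep (⨆ j, sX e (s j)) (LL Q.C) (lb Q.μ) :=
  Indep.mono_ae (LL_mono (measurable_iff_comap_le.1 Q.π_mp.measurable))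
    (iSup_le fun j => sX_le e (s j)) (LL_mono Q.C_le) (LL_mono Q.C_le)
    (AELe.iSup fun j => sX_aele e (s j)) AELe.refl (indep_LLX Q)

theorem indep_sX_LL_one (e : Ext P Q) (s : ℕ → ℤ) : Indep (sX e s) (LL Q.C) (lb Q.μ) :=
  Indep.mono_ae (LL_mono (measurable_iff_comap_le.1 Q.π_mp.measurable))
    (sX_le e s) (LL_mono Q.C_le) (LL_mono Q.C_le) (sX_aele e s) AELe.refl (indep_LLX Q)

theorem iIndep_sX (e : Ext P Q) {s : ι → ℕ → ℤ} {J : Finset ι} (h : XInd X s J) :
    iIndep (fun j : J => sX e (s j)) (lb Q.μ) := by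
  classical
  rw [iIndep_iff]
  intro t f hf
  have hex : ∀ j : J, ∃ A : Set X.Ω, MeasurableSet A ∧
      (j ∈ t → (fun x => P.π (siteP e (s j) x)) ⁻¹' A = f j) ∧ (j ∉ t → A = univ) := by
    intro j
    by_cases hj : j ∈ t
    · obtain ⟨A, hA, hAf⟩ := hf j hj
      exact ⟨A, hA, fun _ => hAf, fun h => absurd hj h⟩
    · exact ⟨univ, MeasurableSet.univ, fun h => absurd h hj, fun _ => rfl⟩
  choose A hA hAf hAu using hex
  have hQ : MeasurePreserving (lbmap fun _ : ℕ => Q.π) (lb Q.μ) (lb X.μ) :=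
    measurePreserving_lbmap fun _ => Q.π_mp
  set V : J → Set (Lb X.Ω) := fun j => intl fun k => X.S (s j k) ⁻¹' A j with hV
  have hVm : ∀ j, MeasurableSet (V j) := fun j =>
    measurableSet_intl fun k => (X.S_mp (s j k)).measurable (hA j)
  -- the main identity
  have key : lb X.μ (⋂ j ∈ t, V j) = ∏ j ∈ t, X.μ (A j) := by
    have h1 := xind_sets h (A := fun i => if hi : i ∈ J then A ⟨i, hi⟩ else univ) (by
      intro i
      by_cases hi : i ∈ J
      · simp only [hi, dif_pos]; exact hA _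
      · simp only [hi, dif_neg, not_false_iff]; exact MeasurableSet.univ)
    have h2 : (⋂ i ∈ J, intl fun k => X.S (s i k) ⁻¹'
        (if hi : i ∈ J then A ⟨i, hi⟩ else univ)) = ⋂ j ∈ t, V j := by
      ext x
      simp only [mem_iInter]
      constructor
      · intro hx j _
        have := hx j j.2
        simpa only [j.2, dif_pos] using this
      · intro hx i hi
        simp only [hi, dif_pos]
        by_cases hit : (⟨i, hi⟩ : J) ∈ t
        · exact hx ⟨i, hi⟩ hit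
        · rw [hAu ⟨i, hi⟩ hit]
          simp
    have h3 : ∏ i ∈ J, X.μ (if hi : i ∈ J then A ⟨i, hi⟩ else univ) = ∏ j ∈ t, X.μ (A j) := by
      rw [← Finset.prod_attach J]
      have h4 : ∀ j ∈ J.attach, X.μ (if hi : (j : ι) ∈ J then A ⟨j, hi⟩ else univ) = X.μ (A j) := by
        intro j _
        simp only [j.2, dif_pos]
      rw [Finset.prod_congr rfl h4]
      symm
      refine Finset.prod_subset (Finset.subset_univ t) fun j _ hj => ?_
      rw [hAu j hj, measure_univ]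
    rw [h2, h3] at h1
    exact h1
  have hone : ∀ j ∈ t, lb Q.μ (f j) = X.μ (A j) := by
    intro j hj
    rw [← hAf j hj]
    exact (siteP_π_mp e (s j)).measure_preimage (hA j).nullMeasurableSet
  have hall : lb Q.μ (⋂ j ∈ t, f j) = lb X.μ (⋂ j ∈ t, V j) := by
    have h5 : (⋂ j ∈ t, f j) =ᵐ[lb Q.μ] (lbmap fun _ : ℕ => Q.π) ⁻¹' (⋂ j ∈ t, V j) := by
      have h6 : ∀ j ∈ t, f j =ᵐ[lb Q.μ] (lbmap fun _ : ℕ => Q.π) ⁻¹' V j := fun j hj => by
        rw [← hAf j hj]
        exact siteX_ae e (s j) (hA j)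
      have h7 : ∀ᵐ x ∂(lb Q.μ), ∀ j ∈ t, (x ∈ f j ↔ x ∈ (lbmap fun _ : ℕ => Q.π) ⁻¹' V j) := by
        rw [Filter.eventually_all_finset]
        intro j hj
        filter_upwards [h6 j hj] with x hx
        exact Iff.of_eq hx
      filter_upwards [h7] with x hx
      apply propext
      show x ∈ (⋂ j ∈ t, f j) ↔ x ∈ (lbmap fun _ : ℕ => Q.π) ⁻¹' (⋂ j ∈ t, V j)
      simp only [mem_iInter, mem_preimage]
      exact forall_congr' fun j => forall_congr' fun hj => hx j hj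
    rw [measure_congr h5]
    exact hQ.measure_preimage (Finset.measurableSet_biInter t fun j _ => hVm j).nullMeasurableSet
  rw [hall, key]
  exact Finset.prod_congr rfl fun j hj => (hone j hj).symm

theorem joint (e : Ext P Q) {s : ι → ℕ → ℤ} {J : Finset ι} (h : XInd X s J) :
    Joint e (fun j : J => s j) where
  iX := iIndep_sX e h
  XC := indep_sX_LL e fun j : J => s j

end joint

/-! ### node IND -/

/-- the identity extension -/
def extRefl {X : Sys} (P : Pair X) : Ext P P where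
  f := id
  f_mp := MeasurePreserving.id _
  f_S _ := EventuallyEq.rfl
  f_π := EventuallyEq.rfl
  f_C := by rw [MeasurableSpace.comap_id]

section final

variable {X : Sys} {P Q : Pair X} [StandardBorelSpace P.Ω] [Nonempty P.Ω]

/-- the function at the site is the function at the site point. -/
theorem sitef_ae (e : Ext P Q) (s : ℕ → ℤ) {F : P.Ω → ℝ} (hF : Measurable F) :
    sitef Q.toSys s (F ∘ e.f) =ᵐ[lb Q.μ] fun x => F (siteP e s x) :=
  (comp_sv_ae_eq_st (fS_mp e s) hF).symm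

/-- E[F(e_s) | LL D] = E[F | C](e_s). -/
theorem condExp_site (hP : S1 P) (e : Ext P Q) (s : ℕ → ℤ) {F : P.Ω → ℝ} (hF : Measurable F)
    (hb : ∃ K, ∀ x, |F x| ≤ K) :
    (lb Q.μ)[fun x => F (siteP e s x) | LL Q.C] =ᵐ[lb Q.μ]
      fun x => (P.μ[F | P.C]) (siteP e s x) :=
  S1_site hP e s hF hb le_rfl (LL_mono Q.C_le) (LC_inv Q) (indep_sX_LL_one e s)

/-- compatibility of the sites of `P` and of `Q`. -/
theorem siteP_refl_mp (e : Ext P Q) (s : ℕ → ℤ) :
    (fun x => siteP (extRefl P) s (Lb.mp e.f x)) =ᵐ[lb Q.μ] siteP e s := by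
  have h : ∀ k, (P.S (s k) ∘ e.f) =ᵐ[Q.μ] (e.f ∘ Q.S (s k)) := fun k => (e.f_S (s k)).symm
  have h1 : sv (fun k => P.S (s k) ∘ e.f) =ᵐ[lb Q.μ] siteP e s := sv_congr_ae h
  have h2 : (fun x => siteP (extRefl P) s (Lb.mp e.f x)) = sv (fun k => P.S (s k) ∘ e.f) := by
    funext x
    unfold siteP sv
    rfl
  rw [h2]
  exact h1

theorem condExp_site_comp (hP : S1 P) (e : Ext P Q) (s : ℕ → ℤ) {F : P.Ω → ℝ}
    (hF : Measurable F) (hb : ∃ K, ∀ x, |F x| ≤ K) :
    (fun x => ((lb P.μ)[sitef P.toSys s F | LL P.C]) (Lb.mp e.f x)) =ᵐ[lb Q.μ]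
      fun x => (P.μ[F | P.C]) (siteP e s x) := by
  have h1 : (lb P.μ)[sitef P.toSys s F | LL P.C] =ᵐ[lb P.μ]
      fun x => (P.μ[F | P.C]) (siteP (extRefl P) s x) :=
    (condExp_congr_ae (sitef_ae (extRefl P) s hF)).trans (condExp_site hP (extRefl P) s hF hb)
  have hmp : MeasurePreserving (Lb.mp e.f) (lb Q.μ) (lb P.μ) :=
    measurePreserving_lbmap fun _ => e.f_mp
  refine (hmp.quasiMeasurePreserving.ae_eq_comp h1).trans ?_
  filter_upwards [siteP_refl_mp e s] with x hx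
  show (P.μ[F | P.C]) (siteP (extRefl P) s (Lb.mp e.f x)) = _
  rw [hx]

variable {ι : Type}

/-- (iii), point form. -/
theorem condExp_prod_site (hP : S1 P) (e : Ext P Q) {s : ι → ℕ → ℤ} {J : Finset ι}
    (hX : XInd X s J) {F : ι → P.Ω → ℝ} (hF : ∀ i, Bd P.ms (F i)) :
    (lb Q.μ)[fun x => ∏ i ∈ J, F i (siteP e (s i) x) | LL Q.C] =ᵐ[lb Q.μ]
      fun x => ∏ i ∈ J, (P.μ[F i | P.C]) (siteP e (s i) x) := by
  classical
  have H := hyp hP (joint e hX)
  have h1 := H.condExp_prod Finset.univ (fun (j : J) x => F j (siteP e (s j) x))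
    (fun j => ((hF j).1.comp (comap_measurable (siteP e (s j)))).stronglyMeasurable)
    (fun j => (hF j).2.imp fun K hK x => hK _)
  have e1 : (∏ j : J, fun x => F j (siteP e (s j) x)) =
      fun x => ∏ i ∈ J, F i (siteP e (s i) x) := by
    funext x
    rw [Finset.prod_apply, Finset.prod_coe_sort J fun i => F i (siteP e (s i) x)]
  rw [e1] at h1
  refine h1.trans ?_
  have h2 : ∀ᵐ x ∂(lb Q.μ), ∀ j : J,
      ((lb Q.μ)[fun x => F j (siteP e (s j) x) | LL Q.C]) x =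
        (P.μ[F j | P.C]) (siteP e (s j) x) := by
    rw [ae_all_iff]
    intro j
    exact condExp_site hP e (s j) (hF j).1 (hF j).2
  filter_upwards [h2] with x hx
  rw [Finset.prod_apply, Finset.prod_congr rfl fun j _ => hx j,
    Finset.prod_coe_sort J fun i => (P.μ[F i | P.C]) (siteP e (s i) x)]

theorem indAt (hP : S1 P) (e : Ext P Q) {s : ι → ℕ → ℤ} {J : Finset ι}
    (hX : XInd X s J) : IndAt s J P Q e := by
  intro F hF
  have h1 : (fun x => ∏ i ∈ J, sitef Q.toSys (s i) (F i ∘ e.f) x) =ᵐ[lb Q.μ]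
      fun x => ∏ i ∈ J, F i (siteP e (s i) x) := by
    have h2 : ∀ᵐ x ∂(lb Q.μ), ∀ i ∈ J,
        sitef Q.toSys (s i) (F i ∘ e.f) x = F i (siteP e (s i) x) := by
      rw [Filter.eventually_all_finset]
      exact fun i _ => sitef_ae e (s i) (hF i).1
    filter_upwards [h2] with x hx
    exact Finset.prod_congr rfl hx
  refine (condExp_congr_ae h1).trans ((condExp_prod_site hP e hX hF).trans ?_)
  have h3 : ∀ᵐ x ∂(lb Q.μ), ∀ i ∈ J,
      ((lb P.μ)[sitef P.toSys (s i) (F i) | LL P.C]) (Lb.mp e.f x) =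
        (P.μ[F i | P.C]) (siteP e (s i) x) := by
    rw [Filter.eventually_all_finset]
    exact fun i _ => condExp_site_comp hP e (s i) (hF i).1 (hF i).2
  filter_upwards [h3] with x hx
  exact (Finset.prod_congr rfl hx).symm

end final

/-- **Node IND.** -/
theorem n_ind : N_IND := by
  intro X _ P hstd hS1 ι _ s J hX Q e
  have : StandardBorelSpace P.Ω := hstd
  have : Nonempty P.Ω := nonempty_of_isProbabilityMeasure P.μ
  exact indAt hS1 e hX

end Crest.Agent.R069.Ind
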