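import Crest.Agent.R069.Defs
import Crest.Agent.R069.Sites
import Crest.Agent.R069.CI

/-!
# Row 69, node JOINT: joint independence of the `X`-sites and of the environment

* `MixU X s`: `X` is mixing along the tuple of sites `s` (limits along `UU`, for sets);
* `siteX Q t`: the internal site sigma-algebra of the base `X` at the site `t` on `Lb Q.Ω`;
* `iIndep_siteX`, `indep_siteX_LL`: the `X`-sites and `LL C` are jointly independent;
* `joint_sites`: the same for the point sites of an extension;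
* `AInv`: invariance mod null sets of a sigma-algebra on the Loeb space.
-/

set_option autoImplicit false

open MeasureTheory Filter Set ProbabilityTheory
open scoped ENNReal Topology

namespace Crest.Agent.R069

/-! ### Independence of families mod null sets -/

theorem iIndep.mono_ae {Ω ι : Type*} {mΩ : MeasurableSpace Ω} {μ : Measure Ω}
    {m m' : ι → MeasurableSpace Ω} (h : ∀ i, AELe μ (m' i) (m i)) (hi : iIndep m μ) :
    iIndep m' μ := by
  classical
  rw [iIndep_iff] at hi ⊢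
  intro t f hf
  have hf' : ∀ i, ∃ g : Set Ω, MeasurableSet[m i] g ∧ (i ∈ t → f i =ᵐ[μ] g) := by
    intro i
    by_cases hit : i ∈ t
    · obtain ⟨g, hg, hfg⟩ := h i (f i) (hf i hit)
      exact ⟨g, hg, fun _ => hfg⟩
    · exact ⟨∅, @MeasurableSet.empty _ (m i), fun h => absurd h hit⟩
  choose g hg hfg using hf'
  have e1 : (⋂ i ∈ t, f i) =ᵐ[μ] ⋂ i ∈ t, g i :=
    Filter.EventuallyEq.countable_bInter t.countable_toSet fun i hi => hfg i hi
  rw [measure_congr e1, hi t (fun i _ => hg i)]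
  exact Finset.prod_congr rfl fun i hi => (measure_congr (hfg i hi)).symm

theorem iIndep_comap {Ω Ω' ι : Type*} {mΩ : MeasurableSpace Ω} {mΩ' : MeasurableSpace Ω'}
    {μ : Measure Ω} {μ' : Measure Ω'} {φ : Ω' → Ω} (hφ : MeasurePreserving φ μ' μ)
    {m : ι → MeasurableSpace Ω} (hm : ∀ i, m i ≤ mΩ) (hi : iIndep m μ) :
    iIndep (fun i => (m i).comap φ) μ' := by
  classical
  rw [iIndep_iff] at hi ⊢
  intro t f hf
  have hf' : ∀ i, ∃ g : Set Ω, MeasurableSet[m i] g ∧ (i ∈ t → f i = φ ⁻¹' g) := by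
    intro i
    by_cases hit : i ∈ t
    · obtain ⟨g, hg, hfg⟩ := hf i hit
      exact ⟨g, hg, fun _ => hfg.symm⟩
    · exact ⟨∅, @MeasurableSet.empty _ (m i), fun h => absurd h hit⟩
  choose g hg hfg using hf'
  have e1 : (⋂ i ∈ t, f i) = φ ⁻¹' ⋂ i ∈ t, g i := by
    ext x
    simp only [mem_iInter, mem_preimage]
    constructor
    · intro hx i hi
      have := hx i hi
      rw [hfg i hi] at this
      exact this
    · intro hx i hi
      rw [hfg i hi]
      exact hx i hi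
  have e2 : MeasurableSet (⋂ i ∈ t, g i) := Finset.measurableSet_biInter t fun i _ => hm i _ (hg i)
  rw [e1, hφ.measure_preimage e2.nullMeasurableSet, hi t (fun i _ => hg i)]
  refine Finset.prod_congr rfl fun i hi => ?_
  rw [hfg i hi, hφ.measure_preimage (hm i _ (hg i)).nullMeasurableSet]

/-! ### Site sigma-algebras -/

section sites

variable {M : Sys} {s : ℕ → ℤ}

theorem S_meas (M : Sys) (n : ℤ) : Measurable[M.ms, M.ms] (M.S n) := (M.S_mp n).measurable

theorem S_preimage_ae (M : Sys) (n : ℤ) {A B : Set M.Ω} (h : A =ᵐ[M.μ] B) :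
    M.S n ⁻¹' A =ᵐ[M.μ] M.S n ⁻¹' B :=
  (M.S_mp n).quasiMeasurePreserving.preimage_ae_eq h

theorem intl_S_ae (M : Sys) (s : ℕ → ℤ) {A B : Set M.Ω} (h : A =ᵐ[M.μ] B) :
    intl (fun k => M.S (s k) ⁻¹' A) =ᵐ[lb M.μ] intl (fun k => M.S (s k) ⁻¹' B) :=
  intl_ae_eq fun k => S_preimage_ae M (s k) h

/-- the generating sets of the site sigma-algebra -/
def siteSets (M : Sys) (s : ℕ → ℤ) (m : MeasurableSpace M.Ω) : Set (Set (Lb M.Ω)) :=
  {B | ∃ A : Set M.Ω, MeasurableSet[m] A ∧ B = intl (fun k => M.S (s k) ⁻¹' A)}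

theorem siteM_gen (M : Sys) (s : ℕ → ℤ) (m : MeasurableSpace M.Ω) :
    siteM M s m = MeasurableSpace.generateFrom (siteSets M s m) := rfl

theorem measurableSet_siteM {m : MeasurableSpace M.Ω} {A : Set M.Ω} (hA : MeasurableSet[m] A) :
    MeasurableSet[siteM M s m] (intl (fun k => M.S (s k) ⁻¹' A)) :=
  MeasurableSpace.measurableSet_generateFrom ⟨A, hA, rfl⟩

theorem isPiSystem_siteSets (m : MeasurableSpace M.Ω) : IsPiSystem (siteSets M s m) := by
  rintro _ ⟨A, hA, rfl⟩ _ ⟨B, hB, rfl⟩ _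
  exact ⟨A ∩ B, MeasurableSet.inter hA hB, (intl_inter _ _).symm⟩

theorem siteM_le_LL {m : MeasurableSpace M.Ω} (h : ∀ n, Measurable[m, m] (M.S n)) :
    siteM M s m ≤ LL m := by
  refine MeasurableSpace.generateFrom_le ?_
  rintro _ ⟨A, hA, rfl⟩
  exact measurableSet_intl (fun k => h (s k) hA)

theorem siteA_le (s : ℕ → ℤ) : siteA M s ≤ LL M.ms := siteM_le M s le_rfl

/-- a site of a sub-sigma-algebra contained mod null sets in another one -/
theorem AELe.siteM {m m' : MeasurableSpace M.Ω}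
    (h : AELe M.μ m m') : AELe (@lb M.Ω M.ms M.μ) (siteM M s m) (siteM M s m') := by
  refine AELe.generateFrom ?_
  rintro _ ⟨A, hA, rfl⟩
  obtain ⟨B, hB, hAB⟩ := h A hA
  exact ⟨_, measurableSet_siteM hB, intl_S_ae M s hAB⟩

theorem Lbmp_eq {α β : Type*} (f : α → β) : Lb.mp f = lbmap (fun _ => f) := rfl

theorem Lbmp_mp {α β : Type*} [MeasurableSpace α] [MeasurableSpace β] {μ : Measure α}
    {ν : Measure β} [IsProbabilityMeasure μ] [IsProbabilityMeasure ν] {f : α → β}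
    (hf : MeasurePreserving f μ ν) : MeasurePreserving (Lb.mp f) (lb μ) (lb ν) :=
  measurePreserving_lbmap (fun _ => hf)

theorem Lbmp_preimage {α β : Type*} (f : α → β) (A : ℕ → Set β) :
    Lb.mp f ⁻¹' intl A = intl (fun k => f ⁻¹' A k) := rfl

theorem S_comm (M : Sys) (a b : ℤ) (x : M.Ω) : M.S a (M.S b x) = M.S b (M.S a x) := by
  rw [← M.S_add, ← M.S_add, add_comm]

/-! ### Invariance mod null sets -/

/-- invariance mod null sets of a sigma-algebra on a system -/
def SInv (M : Sys) (m : MeasurableSpace M.Ω) : Prop :=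
  ∀ n, AELe M.μ (m.comap (M.S n)) m

theorem SInv.of_measurable {m : MeasurableSpace M.Ω} (h : ∀ n, Measurable[m, m] (M.S n)) :
    SInv M m := fun n => AELe.of_le (measurable_iff_comap_le.1 (h n))

theorem SInv.sup {m m' : MeasurableSpace M.Ω} (h : SInv M m) (h' : SInv M m') :
    SInv M (m ⊔ m') := fun n => by
  rw [MeasurableSpace.comap_sup]
  exact AELe.sup_sup (h n) (h' n)

theorem SInv.iSup {κ : Sort*} {m : κ → MeasurableSpace M.Ω} (h : ∀ i, SInv M (m i)) :
    SInv M (⨆ i, m i) := fun n => by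
  rw [MeasurableSpace.comap_iSup]
  exact AELe.iSup fun i => (h i n).trans (AELe.of_le (le_iSup m i))

theorem SInv.bot : SInv M ⊥ := fun n => by
  rw [MeasurableSpace.comap_bot]; exact AELe.refl

/-- an a.e. invariant sigma-algebra containing the null sets is invariant -/
theorem SInv.measurable {m : MeasurableSpace M.Ω} (h : SInv M m) (hm : m ≤ M.ms)
    (hn : @nul M.Ω M.ms M.μ ≤ m) (n : ℤ) : Measurable[m, m] (M.S n) := by
  intro A hA
  obtain ⟨B, hB, hAB⟩ := h n _ ⟨A, hA, rfl⟩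
  exact measurableSet_of_ae_nul (mα := M.ms) hm hn (S_meas M n (hm _ hA)) hB hAB

theorem measurable_S_nul (n : ℤ) : Measurable[nul M.μ, nul M.μ] (M.S n) := by
  intro A hA
  obtain ⟨hA1, hA2⟩ := hA
  refine ⟨(M.S_mp n).measurable hA1, ?_⟩
  rcases hA2 with h | h
  · left
    rw [(M.S_mp n).measure_preimage hA1.nullMeasurableSet]; exact h
  · right
    rw [← preimage_compl, (M.S_mp n).measure_preimage hA1.compl.nullMeasurableSet]; exact h

theorem SInv.nul : SInv M (nul M.μ) := SInv.of_measurable measurable_S_nul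

/-- invariance (mod null sets) of a sigma-algebra on the Loeb space -/
def AInv (M : Sys) (D : MeasurableSpace (Lb M.Ω)) : Prop := SInv M.loeb D

theorem AInv_LL {m : MeasurableSpace M.Ω} (h : ∀ n, Measurable[m, m] (M.S n)) : AInv M (LL m) :=
  SInv.of_measurable (M := M.loeb) fun n => measurable_lbmap' (fun _ => h n)

theorem AInv_nulL : AInv M (nulL M) := SInv.nul (M := M.loeb)

theorem AInv_siteM {m : MeasurableSpace M.Ω} (h : SInv M m) : AInv M (siteM M s m) := by
  intro n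
  have key : AELe (@lb M.Ω M.ms M.μ)
      (MeasurableSpace.comap (Lb.mp (M.S n)) (MeasurableSpace.generateFrom (siteSets M s m)))
      (siteM M s m) := by
    rw [MeasurableSpace.comap_generateFrom]
    refine AELe.generateFrom ?_
    rintro _ ⟨_, ⟨A, hA, rfl⟩, rfl⟩
    obtain ⟨B, hB, hAB⟩ := h n (M.S n ⁻¹' A) ⟨A, hA, rfl⟩
    refine ⟨_, measurableSet_siteM hB, ?_⟩
    have e : ∀ k, M.S n ⁻¹' (M.S (s k) ⁻¹' A) = M.S (s k) ⁻¹' (M.S n ⁻¹' A) := by
      intro k; ext x; simp only [mem_preimage]; rw [S_comm]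
    rw [Lbmp_preimage]
    simp_rw [e]
    exact intl_S_ae M s hAB
  exact key

end sites

/-! ### Mixing along a tuple of sites -/

/-- `X` is mixing along the tuple of sites `s` (along `UU`). -/
def MixU {ι : Type} [Fintype ι] (X : Sys) (s : ι → ℕ → ℤ) : Prop :=
  ∀ A : ι → Set X.Ω, (∀ i, MeasurableSet (A i)) →
    Tendsto (fun k => X.μ (⋂ i, X.S (s i k) ⁻¹' A i)) (UU : Filter ℕ) (𝓝 (∏ i, X.μ (A i)))

theorem lb_site (X : Sys) (t : ℕ → ℤ) {A : Set X.Ω} (hA : MeasurableSet A) :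
    lb X.μ (intl (fun k => X.S (t k) ⁻¹' A)) = X.μ A := by
  rw [lb_intl X.μ (fun k => S_meas X (t k) hA)]
  apply ulim_eq
  have : ∀ k, X.μ (X.S (t k) ⁻¹' A) = X.μ A := fun k =>
    (X.S_mp (t k)).measure_preimage hA.nullMeasurableSet
  simp_rw [this]
  exact tendsto_const_nhds

/-- the sites of a system along which it is mixing are independent -/
theorem MixU.iIndep {ι : Type} [Fintype ι] {X : Sys} {s : ι → ℕ → ℤ} (h : MixU X s) :
    iIndep (fun i => siteM X (s i) X.ms) (lb X.μ) := by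
  classical
  refine iIndepSets.iIndep (m := fun i => siteM X (s i) X.ms) (fun i => siteM_le X (s i) le_rfl)
    (fun i => siteSets X (s i) X.ms) (fun i => isPiSystem_siteSets _)
    (fun i => rfl) ?_
  rw [iIndepSets_iff]
  intro t f hf
  have hf' : ∀ i : ι, ∃ A : Set X.Ω, MeasurableSet A ∧
      (i ∈ t → f i = intl (fun k => X.S (s i k) ⁻¹' A)) ∧ (i ∉ t → A = univ) := by
    intro i
    by_cases hi : i ∈ t
    · obtain ⟨A, hA, hfA⟩ := hf i hi
      exact ⟨A, hA, fun _ => hfA, fun h => absurd hi h⟩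
    · exact ⟨univ, MeasurableSet.univ, fun h => absurd h hi, fun _ => rfl⟩
  choose A hA hfA hAu using hf'
  set B : ι → ℕ → Set X.Ω := fun i k => X.S (s i k) ⁻¹' (A i) with hB
  have hBm : ∀ i k, MeasurableSet (B i k) := fun i k => S_meas X (s i k) (hA i)
  have hinter : (⋂ i ∈ t, f i) = intl (fun k => ⋂ i, B i k) := by
    ext x
    have e1 : x ∈ intl (fun k => ⋂ i, B i k) ↔ ∀ i, ∀ᶠ k in (UU : Filter ℕ), x k ∈ B i k := by
      rw [mem_intl]
      simp only [mem_iInter]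
      rw [eventually_all]
    rw [e1]
    simp only [mem_iInter]
    constructor
    · intro hx i
      by_cases hi : i ∈ t
      · have := hx i hi
        rw [hfA i hi] at this
        exact this
      · refine Eventually.of_forall fun k => ?_
        simp only [hB, hAu i hi, preimage_univ, mem_univ]
    · intro hx i hi
      rw [hfA i hi]
      exact hx i
  have hmeas : ∀ k, MeasurableSet (⋂ i, B i k) := fun k => MeasurableSet.iInter fun i => hBm i k
  rw [hinter, lb_intl X.μ hmeas]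
  apply ulim_eq
  have h1 := h A hA
  have h2 : ∏ i ∈ t, lb X.μ (f i) = ∏ i, X.μ (A i) := by
    have h3 : ∀ i ∈ t, lb X.μ (f i) = X.μ (A i) := by
      intro i hi
      rw [hfA i hi, lb_site X (s i) (hA i)]
    rw [Finset.prod_congr rfl h3]
    refine Finset.prod_subset (Finset.subset_univ _) ?_
    intro i _ hi
    rw [hAu i hi, measure_univ]
  rw [h2]
  exact h1

theorem sitef_indicator (X : Sys) (t : ℕ → ℤ) (A : Set X.Ω) :
    sitef X t (A.indicator (fun _ => (1 : ℝ))) =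
      (intl (fun k => X.S (t k) ⁻¹' A)).indicator (fun _ => (1 : ℝ)) := by
  classical
  funext x
  unfold sitef
  by_cases hx : x ∈ intl (fun k => X.S (t k) ⁻¹' A)
  · rw [indicator_of_mem hx]
    apply st_eq
    refine tendsto_const_nhds.congr' ?_
    filter_upwards [hx] with k hk
    exact (indicator_of_mem (show X.S (t k) (x k) ∈ A from hk) (fun _ => (1 : ℝ))).symm
  · rw [indicator_of_notMem hx]
    apply st_eq
    refine tendsto_const_nhds.congr' ?_
    have hx' : x ∈ (intl (fun k => X.S (t k) ⁻¹' A))ᶜ := hx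
    rw [← intl_compl] at hx'
    filter_upwards [hx'] with k hk
    exact (indicator_of_notMem (show X.S (t k) (x k) ∉ A from hk) (fun _ => (1 : ℝ))).symm

/-- `XInd` gives independence of the sites in `J` -/
theorem XInd.iIndep {ι : Type} {X : Sys} {s : ι → ℕ → ℤ} {J : Finset ι} (h : XInd X s J) :
    iIndep (fun i : J => siteM X (s i) X.ms) (lb X.μ) := by
  classical
  refine iIndepSets.iIndep (m := fun i : J => siteM X (s i) X.ms)
    (fun i => siteM_le X (s i) le_rfl)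
    (fun i => siteSets X (s i) X.ms) (fun i => isPiSystem_siteSets _)
    (fun i => rfl) ?_
  rw [iIndepSets_iff]
  intro t f hf
  have hf' : ∀ i : J, ∃ A : Set X.Ω, MeasurableSet A ∧
      (i ∈ t → f i = intl (fun k => X.S (s i k) ⁻¹' A)) ∧ (i ∉ t → A = univ) := by
    intro i
    by_cases hi : i ∈ t
    · obtain ⟨A, hA, hfA⟩ := hf i hi
      exact ⟨A, hA, fun _ => hfA, fun h => absurd hi h⟩
    · exact ⟨univ, MeasurableSet.univ, fun h => absurd h hi, fun _ => rfl⟩
  choose A hA hfA hAu using hf'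
  set A' : ι → Set X.Ω := fun i => if hi : i ∈ J then A ⟨i, hi⟩ else univ with hA'
  have hA'm : ∀ i, MeasurableSet (A' i) := by
    intro i
    simp only [hA']
    split_ifs with hi
    · exact hA _
    · exact MeasurableSet.univ
  have hA'J : ∀ i : J, A' i = A i := by
    intro i; simp [hA']
  have hbd : ∀ i, Bd X.ms ((A' i).indicator (fun _ => (1 : ℝ))) := by
    intro i
    refine ⟨measurable_const.indicator (hA'm i), 1, fun x => ?_⟩
    by_cases hx : x ∈ A' i <;> simp [hx]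
  have h1 := h (fun i => (A' i).indicator (fun _ => (1 : ℝ))) hbd
  have hBm : ∀ i, MeasurableSet (intl (fun k => X.S (s i k) ⁻¹' A' i)) := fun i =>
    measurableSet_intl fun k => S_meas X (s i k) (hA'm i)
  have h2 : ∀ x : Lb X.Ω, ∏ i ∈ J, sitef X (s i) ((A' i).indicator (fun _ => (1 : ℝ))) x =
      (⋂ i ∈ J, intl (fun k => X.S (s i k) ⁻¹' A' i)).indicator (fun _ => (1 : ℝ)) x := by
    intro x
    simp_rw [sitef_indicator]
    by_cases hx : x ∈ ⋂ i ∈ J, intl (fun k => X.S (s i k) ⁻¹' A' i)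
    · rw [indicator_of_mem hx]
      refine Finset.prod_eq_one fun i hi => ?_
      rw [indicator_of_mem (mem_iInter₂.1 hx i hi)]
    · rw [indicator_of_notMem hx]
      have hx' : ∃ i ∈ J, x ∉ intl (fun k => X.S (s i k) ⁻¹' A' i) := by
        by_contra hc
        push Not at hc
        exact hx (mem_iInter₂.2 hc)
      obtain ⟨i, hi, hxi⟩ := hx'
      refine Finset.prod_eq_zero hi ?_
      rw [indicator_of_notMem hxi]
  simp_rw [h2] at h1
  have hIm : MeasurableSet (⋂ i ∈ J, intl (fun k => X.S (s i k) ⁻¹' A' i)) :=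
    Finset.measurableSet_biInter J fun i _ => hBm i
  rw [integral_indicator hIm, setIntegral_const, smul_eq_mul, mul_one] at h1
  have h3 : ∀ i, ∫ x, (A' i).indicator (fun _ => (1 : ℝ)) x ∂X.μ = X.μ.real (A' i) := by
    intro i
    rw [integral_indicator (hA'm i), setIntegral_const, smul_eq_mul, mul_one]
  simp_rw [h3] at h1
  have h4 : lb X.μ (⋂ i ∈ J, intl (fun k => X.S (s i k) ⁻¹' A' i)) = ∏ i ∈ J, X.μ (A' i) := by
    have h5 : (∏ i ∈ J, X.μ (A' i)).toReal = ∏ i ∈ J, X.μ.real (A' i) := by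
      rw [ENNReal.toReal_prod]; rfl
    rw [← h5] at h1
    refine (ENNReal.toReal_eq_toReal_iff' (measure_ne_top _ _) ?_).1 h1
    exact ENNReal.prod_ne_top fun i _ => measure_ne_top _ _
  have h6 : (⋂ i ∈ t, f i) = ⋂ i ∈ J, intl (fun k => X.S (s i k) ⁻¹' A' i) := by
    ext x
    simp only [mem_iInter]
    constructor
    · intro hx i hi
      by_cases hit : (⟨i, hi⟩ : J) ∈ t
      · have := hx ⟨i, hi⟩ hit
        rw [hfA _ hit] at this
        rw [hA'J ⟨i, hi⟩]
        exact this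
      · rw [hA'J ⟨i, hi⟩, hAu _ hit]
        simp
    · intro hx i hi
      rw [hfA i hi]
      have := hx i i.2
      rw [hA'J i] at this
      exact this
  rw [h6, h4]
  have h7 : ∏ i ∈ t, lb X.μ (f i) = ∏ i : J, X.μ (A i) := by
    have h3 : ∀ i ∈ t, lb X.μ (f i) = X.μ (A i) := by
      intro i hi
      rw [hfA i hi, lb_site X (s i) (hA i)]
    rw [Finset.prod_congr rfl h3]
    refine Finset.prod_subset (Finset.subset_univ _) ?_
    intro i _ hi
    rw [hAu i hi, measure_univ]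
  rw [h7, ← Finset.prod_coe_sort J (fun i => X.μ (A' i))]
  exact Finset.prod_congr rfl fun i _ => by rw [hA'J i]

/-! ### Joint independence of the `X`-sites and of the environment -/

section joint

variable {X : Sys} {ι : Type}

/-- the site of `X` on the Loeb space of a pair over `X` -/
@[implicit_reducible]
def siteX (Q : Pair X) (s : ℕ → ℤ) : MeasurableSpace (Lb Q.Ω) :=
  siteM Q.toSys s (X.ms.comap Q.π)

theorem siteX_le (Q : Pair X) (s : ℕ → ℤ) : siteX Q s ≤ LL Q.ms :=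
  siteM_le Q.toSys s (measurable_iff_comap_le.1 Q.π_mp.measurable)

theorem siteX_le_siteA (Q : Pair X) (s : ℕ → ℤ) : siteX Q s ≤ siteA Q.toSys s :=
  siteM_mono Q.toSys s (measurable_iff_comap_le.1 Q.π_mp.measurable)

theorem preimage_site_ae (Q : Pair X) (n : ℤ) (A : Set X.Ω) :
    Q.S n ⁻¹' (Q.π ⁻¹' A) =ᵐ[Q.μ] Q.π ⁻¹' (X.S n ⁻¹' A) := by
  filter_upwards [Q.π_S n] with x hx
  apply propext
  show Q.π (Q.S n x) ∈ A ↔ X.S n (Q.π x) ∈ A
  rw [hx]

theorem SInv_comap_π (Q : Pair X) : SInv Q.toSys (X.ms.comap Q.π) := by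
  intro n
  rintro _ ⟨_, ⟨A, hA, rfl⟩, rfl⟩
  exact ⟨Q.π ⁻¹' (X.S n ⁻¹' A), ⟨_, (X.S_mp n).measurable hA, rfl⟩, preimage_site_ae Q n A⟩

theorem AInv_siteX (Q : Pair X) (s : ℕ → ℤ) : AInv Q.toSys (siteX Q s) :=
  AInv_siteM (SInv_comap_π Q)

theorem AInv_LLC (Q : Pair X) : AInv Q.toSys (LL Q.C) := AInv_LL Q.C_S

/-- the `X`-site on `Lb Q` is the pull back of the `X`-site on `Lb X` -/
theorem aele_siteX_comap (Q : Pair X) (s : ℕ → ℤ) :
    AELe (lb Q.μ) (siteX Q s) ((siteM X s X.ms).comap (Lb.mp Q.π)) := by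
  refine AELe.generateFrom ?_
  rintro _ ⟨_, ⟨A, hA, rfl⟩, rfl⟩
  refine ⟨_, ⟨_, measurableSet_siteM (s := s) hA, rfl⟩, ?_⟩
  rw [Lbmp_preimage]
  exact intl_ae_eq fun k => preimage_site_ae Q (s k) A

theorem iIndep_siteX_of {κ : Type} {s : κ → ℕ → ℤ} (Q : Pair X)
    (h : iIndep (fun i => siteM X (s i) X.ms) (lb X.μ)) :
    iIndep (fun i => siteX Q (s i)) (lb Q.μ) :=
  iIndep.mono_ae (fun i => aele_siteX_comap Q (s i))
    (iIndep_comap (Lbmp_mp Q.π_mp) (fun i => siteM_le X (s i) le_rfl) h)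

/-- the sites of `X` are independent -/
theorem iIndep_siteX [Fintype ι] {s : ι → ℕ → ℤ} (Q : Pair X) (h : MixU X s) :
    iIndep (fun i => siteX Q (s i)) (lb Q.μ) := iIndep_siteX_of Q h.iIndep

theorem iIndep_siteX_XInd {s : ι → ℕ → ℤ} {J : Finset ι} (Q : Pair X) (h : XInd X s J) :
    iIndep (fun i : J => siteX Q (s i)) (lb Q.μ) :=
  iIndep_siteX_of (s := fun i : J => s i) Q h.iIndep

/-- the sites of `X` are contained in `LL (comap π)` up to null sets -/
theorem aele_siteX_LL (Q : Pair X) (s : ℕ → ℤ) :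
    AELe (lb Q.μ) (siteX Q s) (LL (X.ms.comap Q.π)) := by
  refine AELe.generateFrom ?_
  rintro _ ⟨_, ⟨A, hA, rfl⟩, rfl⟩
  refine ⟨intl (fun k => Q.π ⁻¹' (X.S (s k) ⁻¹' A)), measurableSet_intl fun k => ?_, ?_⟩
  · exact ⟨_, (X.S_mp (s k)).measurable hA, rfl⟩
  · exact intl_ae_eq fun k => preimage_site_ae Q (s k) A

/-- the `X`-sites are jointly independent of the environment -/
theorem indep_siteX_LL {κ : Type} (Q : Pair X) (s : κ → ℕ → ℤ) :
    Indep (⨆ i, siteX Q (s i)) (LL Q.C) (lb Q.μ) := by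
  have hπ : X.ms.comap Q.π ≤ Q.ms := measurable_iff_comap_le.1 Q.π_mp.measurable
  have h1 : Indep (LL (X.ms.comap Q.π)) (LL Q.C) (lb Q.μ) := indep_LL hπ Q.C_le Q.indep
  exact Indep.mono_ae (LL_mono hπ) (iSup_le fun i => siteX_le Q (s i)) (LL_mono Q.C_le)
    (LL_mono Q.C_le) (AELe.iSup fun i => aele_siteX_LL Q (s i)) AELe.refl h1

end joint

/-! ### Point sites of an extension -/

section point

variable {X : Sys} {ι : Type} {P Q : Pair X} [StandardBorelSpace P.Ω] [Nonempty P.Ω]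

/-- the point site of an extension: `Lb Q → P` -/
noncomputable def siteE (e : Ext P Q) (t : ℕ → ℤ) : Lb Q.Ω → P.Ω :=
  sv (fun k => e.f ∘ Q.S (t k))

theorem siteE_apply (e : Ext P Q) (t : ℕ → ℤ) (x : Lb Q.Ω) :
    siteE e t x = pt (fun k => e.f (Q.S (t k) (x k))) := rfl

omit [StandardBorelSpace P.Ω] [Nonempty P.Ω] in
theorem siteE_g_mp (e : Ext P Q) (n : ℤ) : MeasurePreserving (e.f ∘ Q.S n) Q.μ P.μ :=
  e.f_mp.comp (Q.S_mp n)

theorem siteE_mp (e : Ext P Q) (t : ℕ → ℤ) : MeasurePreserving (siteE e t) (lb Q.μ) P.μ :=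
  measurePreserving_sv fun k => siteE_g_mp e (t k)

theorem siteE_preimage_ae (e : Ext P Q) (t : ℕ → ℤ) {A : Set P.Ω} (hA : MeasurableSet A) :
    siteE e t ⁻¹' A =ᵐ[lb Q.μ] intl (fun k => Q.S (t k) ⁻¹' (e.f ⁻¹' A)) :=
  sv_preimage_ae (fun k => siteE_g_mp e (t k)) hA

/-- a.e. equivariance of the point site -/
theorem siteE_S (e : Ext P Q) (t : ℕ → ℤ) (n : ℤ) :
    (fun x => siteE e t (Q.toSys.loeb.S n x)) =ᵐ[lb Q.μ] fun x => P.S n (siteE e t x) := by
  have h1 : sv (fun k => e.f ∘ Q.S (t k) ∘ Q.S n) =ᵐ[lb Q.μ]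
      sv (fun k => P.S n ∘ (e.f ∘ Q.S (t k))) := by
    refine sv_congr_ae fun k => ?_
    have h2 : ∀ᵐ x ∂Q.μ, e.f (Q.S n (Q.S (t k) x)) = P.S n (e.f (Q.S (t k) x)) :=
      (Q.S_mp (t k)).quasiMeasurePreserving.ae (e.f_S n)
    filter_upwards [h2] with x hx
    show e.f (Q.S (t k) (Q.S n x)) = P.S n (e.f (Q.S (t k) x))
    rw [S_comm Q.toSys (t k) n x, hx]
  have h3 := sv_comp_ae (μ := Q.μ) (g := fun k => e.f ∘ Q.S (t k))
    (fun k => siteE_g_mp e (t k)) (S_meas P.toSys n)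
  filter_upwards [h1, h3] with x hx1 hx3
  exact hx1.trans hx3

/-- the point site of a sub-sigma-algebra -/
theorem aele_comap_siteE (e : Ext P Q) (t : ℕ → ℤ) {m : MeasurableSpace P.Ω} (hm : m ≤ P.ms) :
    AELe (lb Q.μ) (m.comap (siteE e t)) (siteM Q.toSys t (m.comap e.f)) := by
  rintro _ ⟨A, hA, rfl⟩
  exact ⟨_, measurableSet_siteM ⟨A, hA, rfl⟩, siteE_preimage_ae e t (hm _ hA)⟩

theorem aele_siteM_comap (e : Ext P Q) (t : ℕ → ℤ) {m : MeasurableSpace P.Ω} (hm : m ≤ P.ms) :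
    AELe (lb Q.μ) (siteM Q.toSys t (m.comap e.f)) (m.comap (siteE e t)) := by
  refine AELe.generateFrom ?_
  rintro _ ⟨_, ⟨A, hA, rfl⟩, rfl⟩
  exact ⟨_, ⟨A, hA, rfl⟩, (siteE_preimage_ae e t (hm _ hA)).symm⟩

/-- the environment of `P` at a site lies in `LL Q.C` -/
theorem aele_comap_siteE_LL (e : Ext P Q) (t : ℕ → ℤ) :
    AELe (lb Q.μ) (P.C.comap (siteE e t)) (LL Q.C) :=
  (aele_comap_siteE e t P.C_le).trans
    (AELe.of_le ((siteM_mono Q.toSys t e.f_C).trans (siteM_le_LL Q.C_S)))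

theorem π_siteE_ae (e : Ext P Q) (t : ℕ → ℤ) {A : Set X.Ω} (hA : MeasurableSet A) :
    (fun x => P.π (siteE e t x)) ⁻¹' A =ᵐ[lb Q.μ] intl (fun k => Q.S (t k) ⁻¹' (Q.π ⁻¹' A)) := by
  have hA' : MeasurableSet (P.π ⁻¹' A) := P.π_mp.measurable hA
  have h1 := siteE_preimage_ae e t hA'
  have h0 : (fun x => P.π (siteE e t x)) ⁻¹' A = siteE e t ⁻¹' (P.π ⁻¹' A) := rfl
  have h2 : e.f ⁻¹' (P.π ⁻¹' A) =ᵐ[Q.μ] Q.π ⁻¹' A := by
    filter_upwards [e.f_π] with x hx
    apply propext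
    show P.π (e.f x) ∈ A ↔ Q.π x ∈ A
    rw [hx]; rfl
  rw [h0]
  exact h1.trans (intl_S_ae Q.toSys t h2)

theorem aele_comap_π_siteE (e : Ext P Q) (t : ℕ → ℤ) :
    AELe (lb Q.μ) (X.ms.comap (fun x => P.π (siteE e t x))) (siteX Q t) := by
  rintro _ ⟨A, hA, rfl⟩
  exact ⟨_, measurableSet_siteM ⟨A, hA, rfl⟩, π_siteE_ae e t hA⟩

theorem aele_siteX_π_siteE (e : Ext P Q) (t : ℕ → ℤ) :
    AELe (lb Q.μ) (siteX Q t) (X.ms.comap (fun x => P.π (siteE e t x))) := by
  refine AELe.generateFrom ?_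
  rintro _ ⟨_, ⟨A, hA, rfl⟩, rfl⟩
  exact ⟨_, ⟨A, hA, rfl⟩, (π_siteE_ae e t hA).symm⟩

theorem measurable_π_siteE (e : Ext P Q) (t : ℕ → ℤ) :
    Measurable (fun x => P.π (siteE e t x)) :=
  P.π_mp.measurable.comp (siteE_mp e t).measurable

/-- (J), first half, from independence of the `X`-sites on `Lb X` -/
theorem iIndep_point {κ : Type} {s : κ → ℕ → ℤ} (e : Ext P Q)
    (h : iIndep (fun i => siteM X (s i) X.ms) (lb X.μ)) :
    iIndep (fun j => X.ms.comap (fun x => P.π (siteE e (s j) x))) (lb Q.μ) :=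
  iIndep.mono_ae (fun j => aele_comap_π_siteE e (s j)) (iIndep_siteX_of Q h)

/-- (J), second half -/
theorem indep_point {κ : Type} (s : κ → ℕ → ℤ) (e : Ext P Q) :
    Indep (⨆ j, X.ms.comap (fun x => P.π (siteE e (s j) x))) (LL Q.C) (lb Q.μ) :=
  Indep.mono_ae (iSup_le fun i => siteX_le Q (s i))
    (iSup_le fun i => measurable_iff_comap_le.1 (measurable_π_siteE e (s i))) (LL_mono Q.C_le)
    (LL_mono Q.C_le) (AELe.iSup fun i => (aele_comap_π_siteE e (s i)).trans
      (AELe.of_le (le_iSup (fun i => siteX Q (s i)) i))) AELe.refl (indep_siteX_LL Q s)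

/-- **JOINT** (J): the `X`-sites of an extension are independent, and jointly independent of the
environment. -/
theorem joint_sites [Fintype ι] {s : ι → ℕ → ℤ} (e : Ext P Q) (h : MixU X s) :
    iIndep (fun j => X.ms.comap (fun x => P.π (siteE e (s j) x))) (lb Q.μ) ∧
      Indep (⨆ j, X.ms.comap (fun x => P.π (siteE e (s j) x))) (LL Q.C) (lb Q.μ) :=
  ⟨iIndep_point e h.iIndep, indep_point s e⟩

/-- **JOINT** (J) from `XInd`. -/
theorem joint_sites_XInd {s : ι → ℕ → ℤ} {J : Finset ι} (e : Ext P Q) (h : XInd X s J) :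
    iIndep (fun j : J => X.ms.comap (fun x => P.π (siteE e (s j) x))) (lb Q.μ) ∧
      Indep (⨆ j : J, X.ms.comap (fun x => P.π (siteE e (s j) x))) (LL Q.C) (lb Q.μ) :=
  ⟨iIndep_point (s := fun j : J => s j) e h.iIndep, indep_point (fun j : J => s j) e⟩

end point

end Crest.Agent.R069
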