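import Crest.Agent.R069.SatDefs
import Crest.Agent.R069.EndDefs
import Crest.Agent.R69.Red

/-!
Row 69 (S0092), node LEAST: mixing of a `Sys` along the ultrafilter `UU`, conversions between
`R69.Mix / R69.MixR`, `End.Mix / End.MixAll` and the notions on `Sys`, the choice of the least
number of sites where mixing fails, and the final glue.
-/

set_option autoImplicit false

open MeasureTheory Filter Set
open scoped Topology

noncomputable section

namespace Crest.Agent.R069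

/-! ### the filter of far tuples -/

/-- the filter of tuples of sites with all pairwise distances large -/
def farF (ι : Type*) : Filter (ι → ℤ) :=
  ⨅ (i : ι) (j : ι) (_ : i ≠ j), comap (fun t : ι → ℤ => |t i - t j|) atTop

/-- sites far apart along the ultrafilter -/
def Far {ι : Type*} (s : ι → ℕ → ℤ) : Prop :=
  ∀ i j, i ≠ j → Tendsto (fun k => |s i k - s j k|) (UU : Filter ℕ) atTop

theorem tendsto_farF {ι κ : Type*} {l : Filter κ} {u : κ → ι → ℤ} :
    Tendsto u l (farF ι) ↔ ∀ i j, i ≠ j → Tendsto (fun k => |u k i - u k j|) l atTop := by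
  simp only [farF, tendsto_iInf, tendsto_comap_iff]
  rfl

instance {ι : Type*} [Countable ι] : (farF ι).IsCountablyGenerated := by
  unfold farF
  infer_instance

theorem UU_le_atTop : (UU : Filter ℕ) ≤ atTop := by
  rw [← Nat.cofinite_eq_atTop]
  exact Filter.hyperfilter_le_cofinite

theorem Far.of_atTop {ι : Type*} {s : ι → ℕ → ℤ}
    (h : ∀ i j, i ≠ j → Tendsto (fun k => |s i k - s j k|) atTop atTop) : Far s :=
  fun i j hij => (h i j hij).mono_left UU_le_atTop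

theorem tendsto_far_iff_seq {ι : Type*} [Countable ι] {β : Type*} {val : (ι → ℤ) → β}
    {F : Filter β} :
    Tendsto val (farF ι) F ↔ ∀ s : ι → ℕ → ℤ,
      (∀ i j, i ≠ j → Tendsto (fun k => |s i k - s j k|) atTop atTop) →
      Tendsto (fun k => val (fun i => s i k)) atTop F := by
  constructor
  · intro h s hs
    exact h.comp (tendsto_farF.2 hs)
  · intro h
    refine tendsto_of_seq_tendsto fun u hu => ?_
    exact h (fun i k => u k i) (tendsto_farF.1 hu)

theorem tendsto_far_iff_UU {ι : Type*} [Countable ι] {β : Type*} {val : (ι → ℤ) → β}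
    {F : Filter β} :
    Tendsto val (farF ι) F ↔ ∀ s : ι → ℕ → ℤ, Far s →
      Tendsto (fun k => val (fun i => s i k)) (UU : Filter ℕ) F := by
  constructor
  · intro h s hs
    exact h.comp (tendsto_farF.2 hs)
  · intro h
    by_contra hc
    rw [tendsto_def] at hc
    push Not at hc
    obtain ⟨U, hU, hU2⟩ := hc
    have h1 : ∃ᶠ t in farF ι, val t ∉ U := by
      intro h2
      apply hU2
      filter_upwards [h2] with t ht
      exact not_not.1 ht
    obtain ⟨u, hu, hu2⟩ := exists_seq_forall_of_frequently h1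
    have h3 := h (fun i k => u k i) (Far.of_atTop (tendsto_farF.1 hu))
    have h4 := h3 hU
    have h5 : ∀ᶠ k in (UU : Filter ℕ), False := by
      filter_upwards [h4] with k hk
      exact hu2 k hk
    exact (Filter.NeBot.ne (f := (UU : Filter ℕ)) inferInstance) (Filter.empty_mem_iff_bot.1 h5)

/-! ### the time one map -/

/-- the time one map as a measurable equivalence -/
def Sys.eqv (X : Sys) : X.Ω ≃ᵐ X.Ω where
  toFun := X.S 1
  invFun := X.S (-1)
  left_inv x := by rw [← X.S_add]; simpa using X.S_zero x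
  right_inv x := by rw [← X.S_add]; simpa using X.S_zero x
  measurable_toFun := (X.S_mp 1).measurable
  measurable_invFun := (X.S_mp (-1)).measurable

theorem Sys.eqv_apply (X : Sys) (x : X.Ω) : X.eqv x = X.S 1 x := rfl

theorem Sys.eqv_inv_apply (X : Sys) (x : X.Ω) : (X.eqv⁻¹ : X.Ω ≃ᵐ X.Ω) x = X.S (-1) x := rfl

theorem Sys.eqv_pow (X : Sys) (n : ℕ) (x : X.Ω) : (X.eqv ^ n : X.Ω ≃ᵐ X.Ω) x = X.S n x := by
  induction n generalizing x with
  | zero =>
    rw [pow_zero, R69.me_one_apply]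
    simpa using (X.S_zero x).symm
  | succ n ih =>
    rw [pow_succ, R69.me_mul_apply, ih, X.eqv_apply, ← X.S_add]
    push_cast
    rfl

theorem Sys.eqv_zpow (X : Sys) (n : ℤ) (x : X.Ω) : (X.eqv ^ n : X.Ω ≃ᵐ X.Ω) x = X.S n x := by
  cases n with
  | ofNat n =>
    rw [Int.ofNat_eq_natCast, zpow_natCast]
    exact X.eqv_pow n x
  | negSucc n =>
    have h1 : (X.eqv ^ (n + 1) : X.Ω ≃ᵐ X.Ω) ((X.eqv ^ (Int.negSucc n) : X.Ω ≃ᵐ X.Ω) x) = x := by
      rw [zpow_negSucc, R69.me_apply_inv_self]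
    rw [X.eqv_pow] at h1
    have h2 := congrArg (X.S (-((n + 1 : ℕ) : ℤ))) h1
    rw [← X.S_add, neg_add_cancel, X.S_zero] at h2
    rw [h2, Int.negSucc_eq]
    push_cast
    rfl

theorem Sys.eqv_mp (X : Sys) : MeasurePreserving X.eqv X.μ X.μ := X.S_mp 1

/-- the system of a measure preserving measurable equivalence -/
def Sys.of {Γ : Type} [MeasurableSpace Γ] (ν : Measure Γ) [IsProbabilityMeasure ν] (T : Γ ≃ᵐ Γ)
    (hT : MeasurePreserving T ν ν) : Sys where
  Ω := Γ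
  μ := ν
  S n := ⇑(T ^ n : Γ ≃ᵐ Γ)
  S_zero x := by rw [zpow_zero]; rfl
  S_add a b x := R69.me_zpow_add T a b x
  S_mp n := R69.mp_zpow hT n

theorem Sys.of_eqv {Γ : Type} [MeasurableSpace Γ] (ν : Measure Γ) [IsProbabilityMeasure ν]
    (T : Γ ≃ᵐ Γ) (hT : MeasurePreserving T ν ν) : (Sys.of ν T hT).eqv = T := by
  apply MeasurableEquiv.ext
  funext x
  show (T ^ (1 : ℤ) : Γ ≃ᵐ Γ) x = T x
  rw [zpow_one]

/-! ### mixing -/

/-- mixing -/
def Sys.Mixing (X : Sys) : Prop := R69.Mix X.μ X.eqv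

/-- `τ` is the product functional along the sites `s` -/
def Sys.TauProd (X : Sys) {ι : Type*} [Fintype ι] (s : ι → ℕ → ℤ) : Prop :=
  ∀ f : ι → X.Ω → ℝ, (∀ i, Measurable (f i)) → (∀ i, ∃ C : ℝ, ∀ x, |f i x| ≤ C) →
    Tendsto (fun k => ∫ x, ∏ i, f i (X.S (s i k) x) ∂X.μ) (UU : Filter ℕ)
      (𝓝 (∏ i, ∫ x, f i x ∂X.μ))

/-- mixing of order `q` (`q` sites) -/
def Sys.MixQ (X : Sys) (q : ℕ) : Prop := ∀ s : Fin q → ℕ → ℤ, Far s → X.TauProd s

theorem Sys.mixing_iff (X : Sys) : X.Mixing ↔ ∀ A B : Set X.Ω, MeasurableSet A → MeasurableSet B →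
    Tendsto (fun n : ℕ => X.μ (A ∩ X.S n ⁻¹' B)) atTop (𝓝 (X.μ A * X.μ B)) := by
  unfold Sys.Mixing R69.Mix
  refine forall_congr' fun A => forall_congr' fun B => forall_congr' fun hA =>
    forall_congr' fun hB => ?_
  have : ∀ n : ℕ, ((X.eqv : X.Ω → X.Ω)^[n]) = X.S n := fun n => by
    rw [← R69.me_pow_coe]
    funext x
    exact X.eqv_pow n x
  simp_rw [this]

theorem tendsto_abs_iff {κ : Type*} {l : Filter κ} {u : κ → ℤ} :
    Tendsto (fun k => |u k|) l atTop ↔ Tendsto u l cofinite := by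
  rw [Int.cofinite_eq, ← comap_abs_atTop, tendsto_comap_iff]
  rfl

theorem Sys.mixQ_iff (X : Sys) (r : ℕ) : X.MixQ r ↔ R69.MixR X.μ X.eqv r := by
  have key : ∀ f : Fin r → X.Ω → ℝ,
      (∀ s : Fin r → ℕ → ℤ, Far s → Tendsto (fun k => ∫ x, ∏ i, f i (X.S (s i k) x) ∂X.μ)
        (UU : Filter ℕ) (𝓝 (∏ i, ∫ x, f i x ∂X.μ))) ↔
      (∀ s : Fin r → ℕ → ℤ, (∀ i j, i ≠ j → Tendsto (fun k => s i k - s j k) atTop cofinite) →
        Tendsto (fun k => ∫ x, ∏ i, f i ((X.eqv ^ (s i k) : X.Ω ≃ᵐ X.Ω) x) ∂X.μ) atTop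
        (𝓝 (∏ i, ∫ x, f i x ∂X.μ))) := by
    intro f
    simp_rw [X.eqv_zpow]
    have h1 := tendsto_far_iff_UU (ι := Fin r) (val := fun t => ∫ x, ∏ i, f i (X.S (t i) x) ∂X.μ)
      (F := 𝓝 (∏ i, ∫ x, f i x ∂X.μ))
    have h2 := tendsto_far_iff_seq (ι := Fin r) (val := fun t => ∫ x, ∏ i, f i (X.S (t i) x) ∂X.μ)
      (F := 𝓝 (∏ i, ∫ x, f i x ∂X.μ))
    rw [← h1, h2]
    simp_rw [tendsto_abs_iff]
  constructor
  · intro h s hs f hf hb
    exact (key f).1 (fun s hs => h s hs f hf hb) s hs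
  · intro h s hs f hf hb
    exact (key f).2 (fun s hs => h s hs f hf hb) s hs

theorem Sys.mixQ_zero (X : Sys) : X.MixQ 0 := by
  intro s hs f hf hb
  simp

theorem Sys.integral_S (X : Sys) (n : ℤ) {f : X.Ω → ℝ} (hf : Measurable f) :
    ∫ x, f (X.S n x) ∂X.μ = ∫ x, f x ∂X.μ := by
  rw [← integral_map (X.S_mp n).measurable.aemeasurable hf.aestronglyMeasurable,
    (X.S_mp n).map_eq]

theorem Sys.mixQ_one (X : Sys) : X.MixQ 1 := by
  intro s hs f hf hb
  simp only [Finset.univ_unique, Fin.default_eq_zero, Finset.prod_singleton]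
  simp_rw [X.integral_S _ (hf 0)]
  exact tendsto_const_nhds

theorem memLp_of_bdd {α : Type*} [MeasurableSpace α] {μ : Measure α} [IsFiniteMeasure μ]
    {f : α → ℝ} (hf : Measurable f) (hb : ∃ C : ℝ, ∀ x, |f x| ≤ C) : MemLp f 2 μ := by
  obtain ⟨C, hC⟩ := hb
  exact MemLp.of_bound hf.aestronglyMeasurable C (Eventually.of_forall hC)

theorem Sys.mixQ_two (X : Sys) (hX : X.Mixing) : X.MixQ 2 := by
  intro s hs f hf hb
  simp only [Fin.prod_univ_two]
  have h1 : ∀ k, ∫ x, f 0 (X.S (s 0 k) x) * f 1 (X.S (s 1 k) x) ∂X.μ =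
      ∫ x, f 0 x * f 1 ((X.eqv ^ (s 1 k - s 0 k) : X.Ω ≃ᵐ X.Ω) x) ∂X.μ := fun k => by
    have h2 := X.integral_S (s 0 k)
      (f := fun x => f 0 x * f 1 ((X.eqv ^ (s 1 k - s 0 k) : X.Ω ≃ᵐ X.Ω) x))
      ((hf 0).mul ((hf 1).comp (X.eqv ^ (s 1 k - s 0 k) : X.Ω ≃ᵐ X.Ω).measurable))
    rw [← h2]
    refine integral_congr_ae (Eventually.of_forall fun x => ?_)
    show f 0 (X.S (s 0 k) x) * f 1 (X.S (s 1 k) x) = f 0 (X.S (s 0 k) x) *
      f 1 ((X.eqv ^ (s 1 k - s 0 k) : X.Ω ≃ᵐ X.Ω) (X.S (s 0 k) x))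
    rw [X.eqv_zpow, ← X.S_add, sub_add_cancel]
  simp_rw [h1]
  have h3 := R69.Mix.tendsto_L2 hX X.eqv_mp (memLp_of_bdd (hf 0) (hb 0)) (memLp_of_bdd (hf 1) (hb 1))
  refine h3.comp (tendsto_abs_iff.1 ?_)
  exact hs 1 0 (by decide)

/-- mixing of all orders in the sense of `END` gives `MixQ` -/
theorem Sys.mixQ_of_mixAll (X : Sys) (h : End.MixAll X.μ X.S) (q : ℕ) : X.MixQ q := by
  intro s hs f hf hb
  have h1 : Tendsto (fun t : Fin q → ℤ => ∫ x, ∏ i, ((f i (X.S (t i) x) : ℝ) : ℂ) ∂X.μ) (farF (Fin q))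
      (𝓝 (∏ i, ∫ x, ((f i x : ℝ) : ℂ) ∂X.μ)) := by
    rw [tendsto_far_iff_seq]
    intro s hs
    exact h (Fin q) s hs (fun i x => ((f i x : ℝ) : ℂ)) (fun i => ⟨(Complex.measurable_ofReal.comp (hf i)),
      (hb i).choose, fun x => by
        rw [Complex.norm_real]; exact (hb i).choose_spec x⟩)
  have h2 := tendsto_far_iff_UU.1 h1 s hs
  have h3 := (Complex.continuous_re.tendsto _).comp h2
  have e1 : ∀ t : Fin q → ℤ, ∫ x, ∏ i, ((f i (X.S (t i) x) : ℝ) : ℂ) ∂X.μ =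
      ((∫ x, ∏ i, f i (X.S (t i) x) ∂X.μ : ℝ) : ℂ) := fun t => by
    rw [← integral_complex_ofReal]
    refine integral_congr_ae (Eventually.of_forall fun x => ?_)
    simp
  have e2 : ∏ i, ∫ x, ((f i x : ℝ) : ℂ) ∂X.μ = ((∏ i, ∫ x, f i x ∂X.μ : ℝ) : ℂ) := by
    rw [Complex.ofReal_prod]
    refine Finset.prod_congr rfl fun i _ => ?_
    exact integral_complex_ofReal
  rw [e2] at h3
  refine h3.congr fun k => ?_
  simp only [Function.comp]
  rw [e1, Complex.ofReal_re]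

theorem Sys.tauProd_of_mixAll (X : Sys) (h : End.MixAll X.μ X.S) {ι : Type*} [Fintype ι]
    (s : ι → ℕ → ℤ) (hs : Far s) : X.TauProd s := by
  classical
  intro f hf hb
  let e := (Fintype.equivFin ι)
  have h1 := X.mixQ_of_mixAll h (Fintype.card ι) (fun i => s (e.symm i))
    (fun i j hij => hs _ _ (fun h => hij (e.symm.injective h))) (fun i => f (e.symm i))
    (fun i => hf _) (fun i => hb _)
  have e1 : ∀ g : ι → ℝ, ∏ i : Fin (Fintype.card ι), g (e.symm i) = ∏ i, g i := fun g =>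
    Equiv.prod_comp e.symm g
  have e2 : ∀ k x, ∏ i : Fin (Fintype.card ι), f (e.symm i) (X.S (s (e.symm i) k) x) =
      ∏ i, f i (X.S (s i k) x) := fun k x => e1 fun i => f i (X.S (s i k) x)
  simp_rw [e2] at h1
  rw [e1 fun i => ∫ x, f i x ∂X.μ] at h1
  exact h1

/-- mixing, in the form of `END` -/
theorem Sys.end_mix (X : Sys) (hX : X.Mixing) : End.Mix X.μ X.S := by
  intro f g hf hg
  obtain ⟨hfm, Cf, hCf⟩ := hf
  obtain ⟨hgm, Cg, hCg⟩ := hg
  have hre : ∀ {f : X.Ω → ℂ} {C : ℝ}, Measurable f → (∀ x, ‖f x‖ ≤ C) →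
      MemLp (fun x => (f x).re) 2 X.μ := fun {f C} hf hC =>
    memLp_of_bdd (Complex.measurable_re.comp hf) ⟨C, fun x => (Complex.abs_re_le_norm _).trans (hC x)⟩
  have him : ∀ {f : X.Ω → ℂ} {C : ℝ}, Measurable f → (∀ x, ‖f x‖ ≤ C) →
      MemLp (fun x => (f x).im) 2 X.μ := fun {f C} hf hC =>
    memLp_of_bdd (Complex.measurable_im.comp hf) ⟨C, fun x => (Complex.abs_im_le_norm _).trans (hC x)⟩
  have hlim : ∀ {u v : X.Ω → ℝ}, MemLp u 2 X.μ → MemLp v 2 X.μ →
      Tendsto (fun n : ℕ => ∫ x, u x * v (X.S n x) ∂X.μ) atTop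
        (𝓝 ((∫ x, u x ∂X.μ) * ∫ x, v x ∂X.μ)) := fun {u v} hu hv => by
    have h1 := R69.Mix.tendsto_L2 hX X.eqv_mp hu hv
    have h2 : Tendsto (fun n : ℕ => (n : ℤ)) atTop cofinite := by
      rw [Int.cofinite_eq]
      exact tendsto_natCast_atTop_atTop.mono_right le_sup_right
    refine (h1.comp h2).congr fun n => ?_
    simp only [Function.comp]
    refine integral_congr_ae (Eventually.of_forall fun x => ?_)
    simp only [X.eqv_zpow]
  have hcomp : ∀ {v : X.Ω → ℝ} (n : ℕ), MemLp v 2 X.μ → MemLp (fun x => v (X.S n x)) 2 X.μ :=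
    fun n hv => hv.comp_measurePreserving (X.S_mp n)
  have hint : ∀ {u v : X.Ω → ℝ} , MemLp u 2 X.μ → MemLp v 2 X.μ →
      Integrable (fun x => u x * v x) X.μ := fun hu hv => hu.integrable_mul hv
  have hf1 := hre hfm hCf
  have hf2 := him hfm hCf
  have hg1 := hre hgm hCg
  have hg2 := him hgm hCg
  have h11 := hlim hf1 hg1
  have h12 := hlim hf1 hg2
  have h21 := hlim hf2 hg1
  have h22 := hlim hf2 hg2
  have hfi : Integrable f X.μ :=
    Integrable.of_bound hfm.aestronglyMeasurable Cf (Eventually.of_forall hCf)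
  have hgi : Integrable g X.μ :=
    Integrable.of_bound hgm.aestronglyMeasurable Cg (Eventually.of_forall hCg)
  have hR : Tendsto (fun n : ℕ => (∫ x, f x * g (X.S n x) ∂X.μ).re) atTop
      (𝓝 ((∫ x, f x ∂X.μ) * ∫ x, g x ∂X.μ).re) := by
    have h3 := h11.sub h22
    have e1 : ((∫ x, f x ∂X.μ) * ∫ x, g x ∂X.μ).re = (∫ x, (f x).re ∂X.μ) * (∫ x, (g x).re ∂X.μ) -
        (∫ x, (f x).im ∂X.μ) * ∫ x, (g x).im ∂X.μ := by
      rw [Complex.mul_re]
      have a1 : (∫ x, f x ∂X.μ).re = ∫ x, (f x).re ∂X.μ := (integral_re hfi).symm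
      have a2 : (∫ x, g x ∂X.μ).re = ∫ x, (g x).re ∂X.μ := (integral_re hgi).symm
      have a3 : (∫ x, f x ∂X.μ).im = ∫ x, (f x).im ∂X.μ := (integral_im hfi).symm
      have a4 : (∫ x, g x ∂X.μ).im = ∫ x, (g x).im ∂X.μ := (integral_im hgi).symm
      rw [a1, a2, a3, a4]
    rw [e1]
    refine h3.congr fun n => ?_
    rw [← integral_sub (hint hf1 (hcomp n hg1)) (hint hf2 (hcomp n hg2))]
    have hI : Integrable (fun x => f x * g (X.S n x)) X.μ :=
      Integrable.of_bound (hfm.mul (hgm.comp (X.S_mp n).measurable)).aestronglyMeasurable (Cf * Cg)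
        (Eventually.of_forall fun x => by
          rw [norm_mul]
          exact mul_le_mul (hCf x) (hCg _) (norm_nonneg _) ((norm_nonneg _).trans (hCf x)))
    have a5 : (∫ x, f x * g (X.S n x) ∂X.μ).re = ∫ x, (f x * g (X.S n x)).re ∂X.μ :=
      (integral_re hI).symm
    rw [a5]
    simp_rw [Complex.mul_re]
  have hI : Tendsto (fun n : ℕ => (∫ x, f x * g (X.S n x) ∂X.μ).im) atTop
      (𝓝 ((∫ x, f x ∂X.μ) * ∫ x, g x ∂X.μ).im) := by
    have h3 := h12.add h21
    have e1 : ((∫ x, f x ∂X.μ) * ∫ x, g x ∂X.μ).im = (∫ x, (f x).re ∂X.μ) * (∫ x, (g x).im ∂X.μ) +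
        (∫ x, (f x).im ∂X.μ) * ∫ x, (g x).re ∂X.μ := by
      rw [Complex.mul_im]
      have a1 : (∫ x, f x ∂X.μ).re = ∫ x, (f x).re ∂X.μ := (integral_re hfi).symm
      have a2 : (∫ x, g x ∂X.μ).re = ∫ x, (g x).re ∂X.μ := (integral_re hgi).symm
      have a3 : (∫ x, f x ∂X.μ).im = ∫ x, (f x).im ∂X.μ := (integral_im hfi).symm
      have a4 : (∫ x, g x ∂X.μ).im = ∫ x, (g x).im ∂X.μ := (integral_im hgi).symm
      rw [a1, a2, a3, a4]
    rw [e1]
    refine h3.congr fun n => ?_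
    rw [← integral_add (hint hf1 (hcomp n hg2)) (hint hf2 (hcomp n hg1))]
    have hI : Integrable (fun x => f x * g (X.S n x)) X.μ :=
      Integrable.of_bound (hfm.mul (hgm.comp (X.S_mp n).measurable)).aestronglyMeasurable (Cf * Cg)
        (Eventually.of_forall fun x => by
          rw [norm_mul]
          exact mul_le_mul (hCf x) (hCg _) (norm_nonneg _) ((norm_nonneg _).trans (hCf x)))
    have a5 : (∫ x, f x * g (X.S n x) ∂X.μ).im = ∫ x, (f x * g (X.S n x)).im ∂X.μ :=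
      (integral_im hI).symm
    rw [a5]
    simp_rw [Complex.mul_im]
  have h5 := ((Complex.continuous_ofReal.tendsto _).comp hR).add
    (((Complex.continuous_ofReal.tendsto _).comp hI).mul_const Complex.I)
  rw [Complex.re_add_im] at h5
  refine h5.congr fun n => ?_
  simp only [Function.comp]
  exact Complex.re_add_im _

theorem Sys.end_act (X : Sys) : End.Act X.μ X.S := ⟨X.S_mp, X.S_add, X.S_zero⟩

/-! ### the least number of sites -/

/-- the statement for standard Borel systems -/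
def AllMix : Prop := ∀ X : Sys, StandardBorelSpace X.Ω → X.Mixing → ∀ q, X.MixQ q

/-- all mixing standard Borel systems are mixing on fewer than `r` sites -/
def MixBelow (r : ℕ) : Prop := ∀ X : Sys, StandardBorelSpace X.Ω → X.Mixing → ∀ q < r, X.MixQ q

theorem exists_least (h : ¬ AllMix) :
    ∃ r : ℕ, 3 ≤ r ∧ MixBelow r ∧ ∃ X : Sys, StandardBorelSpace X.Ω ∧ X.Mixing ∧
      ∃ s : Fin r → ℕ → ℤ, Far s ∧ ¬ X.TauProd s := by
  classical
  have hex : ∃ r, ∃ X : Sys, StandardBorelSpace X.Ω ∧ X.Mixing ∧ ¬ X.MixQ r := by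
    unfold AllMix at h
    push Not at h
    obtain ⟨X, h1, h2, q, h3⟩ := h
    exact ⟨q, X, h1, h2, h3⟩
  obtain ⟨X, hX1, hX2, hX3⟩ := Nat.find_spec hex
  refine ⟨Nat.find hex, ?_, ?_, X, hX1, hX2, ?_⟩
  · by_contra hlt
    have h4 : Nat.find hex < 3 := not_le.1 hlt
    generalize Nat.find hex = r at hX3 h4
    interval_cases r
    · exact hX3 X.mixQ_zero
    · exact hX3 X.mixQ_one
    · exact hX3 (X.mixQ_two hX2)
  · intro Y hY hmix q hq
    by_contra hc
    exact Nat.find_min hex hq ⟨Y, hY, hmix, hc⟩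
  · unfold Sys.MixQ at hX3
    push Not at hX3
    exact hX3

/-- **Final glue**: `S0092` from the statement for standard Borel systems. -/
theorem S0092_of_allMix (H : AllMix)
    {Ω : Type*} [MeasurableSpace Ω] (μ : Measure Ω) [IsProbabilityMeasure μ]
    (T : Ω ≃ᵐ Ω) (hT : MeasurePreserving T μ μ)
    (hmix : ∀ A B : Set Ω, MeasurableSet A → MeasurableSet B →
      Tendsto (fun n : ℕ => μ (A ∩ (T^[n]) ⁻¹' B)) atTop (nhds (μ A * μ B)))
    (k : ℕ) (A : Fin (k + 1) → Set Ω) (hA : ∀ i, MeasurableSet (A i)) :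
    Tendsto (fun n : Fin k → ℕ =>
        μ (⋂ i : Fin (k + 1), (T^[∑ j : Fin k, if (j : ℕ) < (i : ℕ) then n j else 0]) ⁻¹' A i))
      atTop (nhds (∏ i, μ (A i))) := by
  refine R69.S0092_of ?_ μ T hT hmix k A hA
  intro Γ _ hΓ ν _ S hS hm r
  have h1 : (Sys.of ν S hS).Mixing := by
    unfold Sys.Mixing
    rw [Sys.of_eqv]
    exact hm
  have h2 := ((Sys.of ν S hS).mixQ_iff r).1 (H (Sys.of ν S hS) hΓ h1 r)
  rw [Sys.of_eqv] at h2
  exact h2

/-- **Final glue**, with the core as hypothesis: for the least data there is a system `Y` (a factor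
of `X`), mixing of all orders, along which `τ` is not the product. -/
theorem allMix_of_core
    (core : ∀ r : ℕ, 3 ≤ r → MixBelow r → ∀ X : Sys, StandardBorelSpace X.Ω → X.Mixing →
      ∀ s : Fin r → ℕ → ℤ, Far s → ¬ X.TauProd s →
        ∃ Y : Sys, ¬ Y.TauProd s ∧ End.MixAll Y.μ Y.S) : AllMix := by
  by_contra h
  obtain ⟨r, hr, hb, X, hX1, hX2, s, hs, hX3⟩ := exists_least h
  obtain ⟨Y, hY1, hY2⟩ := core r hr hb X hX1 hX2 s hs hX3
  exact hY1 (Y.tauProd_of_mixAll hY2 s hs)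

/-! ### factors -/

section factor

variable {X Y : Sys} {π : X.Ω → Y.Ω}

theorem Sys.TauProd.factor (hπ : MeasurePreserving π X.μ Y.μ)
    (hS : ∀ n, (fun x => π (X.S n x)) =ᵐ[X.μ] fun x => Y.S n (π x)) {ι : Type*} [Fintype ι]
    {s : ι → ℕ → ℤ} (h : X.TauProd s) : Y.TauProd s := by
  intro f hf hb
  have h1 := h (fun i x => f i (π x)) (fun i => (hf i).comp hπ.measurable)
    (fun i => ⟨(hb i).choose, fun x => (hb i).choose_spec _⟩)
  have e1 : ∀ i, ∫ x, f i (π x) ∂X.μ = ∫ y, f i y ∂Y.μ := fun i => by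
    rw [← hπ.map_eq, integral_map hπ.measurable.aemeasurable (hf i).aestronglyMeasurable]
  simp_rw [e1] at h1
  refine h1.congr fun k => ?_
  have hm : Measurable fun y => ∏ i, f i (Y.S (s i k) y) :=
    Finset.measurable_fun_prod _ fun i _ => (hf i).comp (Y.S_mp (s i k)).measurable
  rw [← hπ.map_eq, integral_map hπ.measurable.aemeasurable hm.aestronglyMeasurable]
  refine integral_congr_ae ?_
  have h2 : ∀ᵐ x ∂X.μ, ∀ i, π (X.S (s i k) x) = Y.S (s i k) (π x) :=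
    ae_all_iff.2 fun i => hS (s i k)
  filter_upwards [h2] with x hx
  simp_rw [hx]

theorem Sys.MixQ.factor (hπ : MeasurePreserving π X.μ Y.μ)
    (hS : ∀ n, (fun x => π (X.S n x)) =ᵐ[X.μ] fun x => Y.S n (π x)) {q : ℕ} (h : X.MixQ q) :
    Y.MixQ q := fun s hs => (h s hs).factor hπ hS

theorem Sys.Mixing.factor (hπ : MeasurePreserving π X.μ Y.μ)
    (hS : ∀ n, (fun x => π (X.S n x)) =ᵐ[X.μ] fun x => Y.S n (π x)) (h : X.Mixing) :
    Y.Mixing := by
  rw [Sys.mixing_iff] at h ⊢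
  intro A B hA hB
  have h1 := h (π ⁻¹' A) (π ⁻¹' B) (hπ.measurable hA) (hπ.measurable hB)
  rw [hπ.measure_preimage hA.nullMeasurableSet, hπ.measure_preimage hB.nullMeasurableSet] at h1
  refine h1.congr fun n => ?_
  rw [← hπ.measure_preimage (hA.inter ((Y.S_mp n).measurable hB)).nullMeasurableSet]
  refine measure_congr ?_
  filter_upwards [hS n] with x hx
  have hx' : π (X.S n x) = Y.S n (π x) := hx
  show (π x ∈ A ∧ π (X.S n x) ∈ B) = (π x ∈ A ∧ Y.S n (π x) ∈ B)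
  rw [hx']

end factor

end Crest.Agent.R069
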