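import Crest.Agent.R069.ArrFib
import Crest.Agent.R069.Sites

/-!
# The level system as input of the array theorem (row 69)

On any probability space `(L, P)` with an environment algebra `mCC`, a tuple of points
`e : L → R → E` and an environment variable `w` with kernel `κ` (`IsEnv`), the law `ρ` of `(e, w)`
has the properties needed by the two-level array.
-/

set_option autoImplicit false
set_option linter.unusedSectionVars false

open MeasureTheory Filter Set ProbabilityTheory
open scoped ENNReal Topology

namespace Crest.Agent.R069.LevArr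

open Crest.Agent.R069.Arr

section gen

variable {L : Type*} {mCC : MeasurableSpace L} {mL : MeasurableSpace L} {P : Measure L}
  [IsProbabilityMeasure P] {R : Type*} [Fintype R] [DecidableEq R]
  {E : Type*} {mC : MeasurableSpace E} [mE : MeasurableSpace E] [StandardBorelSpace E]
  [Nonempty E]
  {V : Type*} [mV : MeasurableSpace V] {e : L → R → E} {w : L → V} {κ : Kernel V (R → E)}

/-- the level law -/
noncomputable def rho (P : Measure L) (e : L → R → E) (w : L → V) : Measure ((R → E) × V) :=
  P.map (fun x => (e x, w x))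

theorem measurable_ew (h : IsEnv mCC P e w κ) (hC : mCC ≤ mL) (he : Measurable e) :
    Measurable (fun x => (e x, w x)) := he.prodMk (h.measL hC)

theorem rho_mp (h : IsEnv mCC P e w κ) (hC : mCC ≤ mL) (he : Measurable e) :
    MeasurePreserving (fun x => (e x, w x)) P (rho P e w) :=
  ⟨measurable_ew h hC he, rfl⟩

theorem rho_prob (h : IsEnv mCC P e w κ) (hC : mCC ≤ mL) (he : Measurable e) :
    IsProbabilityMeasure (rho P e w) :=
  Measure.isProbabilityMeasure_map (measurable_ew h hC he).aemeasurable

theorem rho_snd (h : IsEnv mCC P e w κ) (hC : mCC ≤ mL) (he : Measurable e) :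
    (rho P e w).map Prod.snd = P.map w := by
  rw [rho, Measure.map_map measurable_snd (measurable_ew h hC he)]
  rfl

theorem rho_fst (h : IsEnv mCC P e w κ) (hC : mCC ≤ mL) (he : Measurable e) :
    (rho P e w).map Prod.fst = P.map e := by
  rw [rho, Measure.map_map measurable_fst (measurable_ew h hC he)]
  rfl

/-- the conditional law of the tuple given the environment coordinate is `κ`. -/
theorem ce (h : IsEnv mCC P e w κ) (hC : mCC ≤ mL) (he : Measurable e) {F : (R → E) → ℝ}
    (hF : Measurable F) {K : ℝ} (hb : ∀ z, |F z| ≤ K) :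
    (rho P e w)[fun q => F q.1 | mV.comap Prod.snd] =ᵐ[rho P e w]
      fun q => ∫ z, F z ∂(κ q.2) := by
  have hmk := h.markov
  have hpr := rho_prob h hC he
  have hmp := rho_mp h hC he
  have hint : Integrable (fun q : (R → E) × V => F q.1) (rho P e w) :=
    Integrable.of_bound (hF.comp measurable_fst).aestronglyMeasurable K
      (ae_of_all _ fun q => by rw [Real.norm_eq_abs]; exact hb _)
  have hk : StronglyMeasurable fun v => ∫ z, F z ∂(κ v) :=
    hF.stronglyMeasurable.integral_kernel
  have hkb : ∀ v, |∫ z, F z ∂(κ v)| ≤ K := by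
    intro v
    have h1 := norm_integral_le_of_norm_le_const (μ := κ v) (f := F) (C := K)
      (ae_of_all _ fun z => by rw [Real.norm_eq_abs]; exact hb z)
    simpa using h1
  have hint2 : Integrable (fun q : (R → E) × V => ∫ z, F z ∂(κ q.2)) (rho P e w) :=
    Integrable.of_bound (hk.measurable.comp measurable_snd).aestronglyMeasurable K
      (ae_of_all _ fun q => by rw [Real.norm_eq_abs]; exact hkb _)
  have hint3 : Integrable (fun x => F (e x)) P := hmp.integrable_comp_of_integrable hint
  symm
  refine ae_eq_condExp_of_forall_setIntegral_eq measurable_snd.comap_le hint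
    (fun _ _ _ => hint2.integrableOn) ?_ ?_
  · rintro _ ⟨B, hB, rfl⟩ _
    have hB' : MeasurableSet (Prod.snd ⁻¹' B : Set ((R → E) × V)) := measurable_snd hB
    have h1 : ∫ q in Prod.snd ⁻¹' B, (fun q : (R → E) × V => ∫ z, F z ∂(κ q.2)) q ∂(rho P e w) =
        ∫ x in w ⁻¹' B, ∫ z, F z ∂(κ (w x)) ∂P := by
      rw [rho, setIntegral_map hB' (hint2.aestronglyMeasurable)
        (measurable_ew h hC he).aemeasurable]
      rfl
    have h2 : ∫ q in Prod.snd ⁻¹' B, (fun q : (R → E) × V => F q.1) q ∂(rho P e w) =
        ∫ x in w ⁻¹' B, F (e x) ∂P := by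
      rw [rho, setIntegral_map hB' (hint.aestronglyMeasurable)
        (measurable_ew h hC he).aemeasurable]
      rfl
    rw [h1, h2]
    have h3 := h.condExp hC he hF.stronglyMeasurable hint3
    rw [← setIntegral_condExp hC hint3 (h.meas hB)]
    exact setIntegral_congr_ae (h.measL hC hB) (h3.mono fun x hx _ => hx.symm)
  · exact (hk.comp_measurable (comap_measurable Prod.snd)).aestronglyMeasurable

/-- independence of all coordinates but one, in kernel form. -/
theorem kind (h : IsEnv mCC P e w κ) (hC : mCC ≤ mL) (he : Measurable e)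
    {μ : Measure E} (hCE : mC ≤ mE) (J : Finset R)
    {F : R → E → ℝ} (hF : ∀ j, Measurable (F j)) {K : R → ℝ} (hb : ∀ j z, |F j z| ≤ K j)
    (hind : P[fun x => ∏ j ∈ J, F j (e x j) | mCC] =ᵐ[P]
      fun x => ∏ j ∈ J, (μ[F j | mC]) (e x j)) :
    ∀ᵐ q ∂(rho P e w), ∫ z, ∏ j ∈ J, F j (z j) ∂(κ q.2) = ∏ j ∈ J, (μ[F j | mC]) (q.1 j) := by
  have hmk := h.markov
  have hG : Measurable fun z : R → E => ∏ j ∈ J, F j (z j) :=
    Finset.measurable_prod _ fun j _ => (hF j).comp (measurable_pi_apply j)
  have hm : MeasurableSet {q : (R → E) × V |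
      ∫ z, ∏ j ∈ J, F j (z j) ∂(κ q.2) = ∏ j ∈ J, (μ[F j | mC]) (q.1 j)} := by
    refine measurableSet_eq_fun ?_ ?_
    · exact (hG.stronglyMeasurable.integral_kernel).measurable.comp measurable_snd
    · refine Finset.measurable_prod _ fun j _ => ?_
      have h1 : Measurable (μ[F j | mC]) :=
        (stronglyMeasurable_condExp.mono hCE).measurable
      exact h1.comp ((measurable_pi_apply j).comp measurable_fst)
  rw [rho, ae_map_iff (measurable_ew h hC he).aemeasurable hm]
  have hint : Integrable (fun x => (fun z : R → E => ∏ j ∈ J, F j (z j)) (e x)) P := by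
    refine Integrable.of_bound (C := ∏ j ∈ J, K j) (hG.comp he).aestronglyMeasurable
      (ae_of_all _ fun x => ?_)
    rw [Real.norm_eq_abs, Finset.abs_prod]
    exact Finset.prod_le_prod (fun j _ => abs_nonneg _) fun j _ => hb j _
  have h1 := h.condExp hC he hG.stronglyMeasurable hint
  filter_upwards [h1, hind] with x hx1 hx2
  rw [← hx2, hx1]

/-- determinism of a coordinate, in joint form. -/
theorem kdet (h : IsEnv mCC P e w κ) (hC : mCC ≤ mL) (he : Measurable e) (j0 : R)
    (hdet : AELe P (mE.comap (fun x => e x j0))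
      ((⨆ j : {j // j ≠ j0}, mE.comap (fun x => e x j)) ⊔ mCC)) :
    ∃ ψ : V × ({j // j ≠ j0} → E) → E, Measurable ψ ∧
      ∀ᵐ q ∂(rho P e w), q.1 j0 = ψ (q.2, fun j => q.1 j) := by
  rw [← comap_pi_eq_iSup (fun (j : {j // j ≠ j0}) x => e x j)] at hdet
  obtain ⟨Φ, hΦ, h1, -⟩ := h.exists_determined hC he (π := fun z => z j0)
    (measurable_pi_apply j0) (ρ := fun z (j : {j // j ≠ j0}) => z j)
    (measurable_pi_lambda _ fun j => measurable_pi_apply _) hdet
  refine ⟨Φ, hΦ, ?_⟩
  have hm : MeasurableSet {q : (R → E) × V | q.1 j0 = Φ (q.2, fun j => q.1 j)} := by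
    refine measurableSet_eq_fun ?_ ?_
    · exact (measurable_pi_apply j0).comp measurable_fst
    · refine hΦ.comp (measurable_snd.prodMk ?_)
      exact measurable_pi_lambda _ fun j => (measurable_pi_apply _).comp measurable_fst
  rw [rho, ae_map_iff (measurable_ew h hC he).aemeasurable hm]
  exact h1

/-- invariance of the level law. -/
theorem rho_inv (h : IsEnv mCC P e w κ) (hC : mCC ≤ mL) (he : Measurable e)
    {Sn : L → L} (hS : MeasurePreserving Sn P P) {T : E → E} (hT : Measurable T)
    {SV : V → V} (hSV : Measurable SV) (heT : ∀ j, (fun x => e (Sn x) j) =ᵐ[P] fun x => T (e x j))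
    (hw : (fun x => w (Sn x)) =ᵐ[P] fun x => SV (w x)) :
    MeasurePreserving (fun q : (R → E) × V => ((fun j => T (q.1 j)), SV q.2))
      (rho P e w) (rho P e w) := by
  have hm : Measurable (fun q : (R → E) × V => ((fun j => T (q.1 j)), SV q.2)) := by
    refine Measurable.prodMk ?_ (hSV.comp measurable_snd)
    exact measurable_pi_lambda _ fun j => hT.comp ((measurable_pi_apply j).comp measurable_fst)
  have hew := measurable_ew h hC he
  refine ⟨hm, ?_⟩
  conv_lhs => rw [rho]
  rw [Measure.map_map hm hew]
  have h1 : ((fun q : (R → E) × V => ((fun j => T (q.1 j)), SV q.2)) ∘ fun x => (e x, w x)) =ᵐ[P]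
      (fun x => (e x, w x)) ∘ Sn := by
    filter_upwards [ae_all_iff.2 heT, hw] with x hx hx2
    simp only [Function.comp]
    rw [hx2]
    congr 1
    funext j
    exact (hx j).symm
  rw [Measure.map_congr h1, ← Measure.map_map hew hS.measurable, hS.map_eq, rho]

end gen

end Crest.Agent.R069.LevArr
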