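import Crest.Agent.R069.LoebMap

/-!
# Standard part maps and sites (row 69)

For a standard Borel space `M` the point map `pt : Lb M → M` (limit along the ultrafilter in a
compact model of `M`) is measurable, measure preserving, and
`pt ⁻¹' A = intl (fun _ => A)` a.e. for EVERY measurable set `A`; for every measurable `g` with
values in a second countable space, `g (x k) → g (pt x)` along `UU` for a.e. `x`.
-/

set_option autoImplicit false

open MeasureTheory Filter Set
open scoped ENNReal Topology

namespace Crest.Agent.R069

section cantor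

variable {M : Type*} [MeasurableSpace M] [StandardBorelSpace M]

variable (M) in
/-- A measurable embedding into the Cantor space. -/
noncomputable def toC : M → (ℕ → Bool) :=
  (MeasurableSpace.measurable_injection_nat_bool_of_countablySeparated M).choose

theorem measurable_toC : Measurable (toC M) :=
  (MeasurableSpace.measurable_injection_nat_bool_of_countablySeparated M).choose_spec.1

theorem injective_toC : Function.Injective (toC M) :=
  (MeasurableSpace.measurable_injection_nat_bool_of_countablySeparated M).choose_spec.2

theorem measurableEmbedding_toC : MeasurableEmbedding (toC M) :=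
  measurable_toC.measurableEmbedding injective_toC

open Classical in
/-- The limit of the codes. -/
noncomputable def cod (x : Lb M) : ℕ → Bool :=
  fun n => decide (∀ᶠ k in (UU : Filter ℕ), toC M (x k) n = true)

theorem cod_apply_true (x : Lb M) (n : ℕ) :
    cod x n = true ↔ ∀ᶠ k in (UU : Filter ℕ), toC M (x k) n = true := by
  simp [cod]

theorem cod_eventually (x : Lb M) (n : ℕ) :
    ∀ᶠ k in (UU : Filter ℕ), toC M (x k) n = cod x n := by
  by_cases h : ∀ᶠ k in (UU : Filter ℕ), toC M (x k) n = true
  · have h1 : cod x n = true := (cod_apply_true x n).2 h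
    filter_upwards [h] with k hk
    rw [hk, h1]
  · have h1 : cod x n = false := by
      rw [← Bool.not_eq_true]
      exact fun hc => h ((cod_apply_true x n).1 hc)
    rw [← Ultrafilter.eventually_not] at h
    filter_upwards [h] with k hk
    rw [h1]
    simpa using hk

theorem measurable_cod : Measurable (cod (M := M)) := by
  rw [measurable_pi_iff]
  intro n
  refine measurable_to_bool ?_
  have : (fun x : Lb M => cod x n) ⁻¹' {true} = intl (fun _ => (fun m => toC M m n) ⁻¹' {true}) := by
    ext x
    simp only [mem_preimage, mem_singleton_iff, mem_intl]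
    exact cod_apply_true x n
  rw [this]
  refine measurableSet_intl (fun _ => ?_)
  exact (measurable_pi_apply n).comp measurable_toC (measurableSet_singleton _)

/-- preimages of cylinders under `cod` are internal. -/
theorem cod_preimage_cylinder (s : Finset ℕ) (S : Set (∀ _ : s, Bool)) :
    cod (M := M) ⁻¹' (cylinder (α := fun _ => Bool) s S) =
      intl (fun _ => toC M ⁻¹' (cylinder (α := fun _ => Bool) s S)) := by
  ext x
  have h1 : ∀ᶠ k in (UU : Filter ℕ), ∀ n ∈ s, toC M (x k) n = cod x n := by
    rw [Filter.eventually_all_finset]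
    exact fun n _ => cod_eventually x n
  have h2 : ∀ᶠ k in (UU : Filter ℕ),
      (toC M (x k) ∈ cylinder (α := fun _ => Bool) s S ↔
        cod x ∈ cylinder (α := fun _ => Bool) s S) := by
    filter_upwards [h1] with k hk
    rw [mem_cylinder, mem_cylinder]
    have : s.restrict (toC M (x k)) = s.restrict (cod x) := by
      funext n
      exact hk n n.2
    rw [this]
  simp only [mem_preimage, mem_intl]
  constructor
  · intro h
    filter_upwards [h2] with k hk
    exact hk.2 h
  · intro h
    obtain ⟨k, hk1, hk2⟩ := (h2.and h).exists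
    exact hk1.1 hk2

variable [Nonempty M]

/-- The standard part map (limit along the ultrafilter in a compact model of `M`). -/
noncomputable def pt (x : Lb M) : M :=
  Function.extend (toC M) id (fun _ => Classical.arbitrary M) (cod x)

theorem measurable_pt : Measurable (pt (M := M)) :=
  (measurableEmbedding_toC.measurable_extend measurable_id measurable_const).comp measurable_cod

theorem toC_pt_of_mem {x : Lb M} (h : cod x ∈ range (toC M)) : toC M (pt x) = cod x := by
  obtain ⟨m, hm⟩ := h
  unfold pt
  rw [← hm, injective_toC.extend_apply]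
  rfl

end cantor

section main

variable {M : Type*} [MeasurableSpace M] [StandardBorelSpace M]

/-- The main property of the codes: for every measurable set of codes. -/
theorem cod_preimage_ae {μ : Measure M} [IsProbabilityMeasure μ] {B : Set (ℕ → Bool)}
    (hB : MeasurableSet B) :
    cod (M := M) ⁻¹' B =ᵐ[lb μ] intl (fun _ => toC M ⁻¹' B) := by
  induction B, hB using MeasurableSpace.induction_on_inter
    (s := measurableCylinders (fun _ : ℕ => Bool))
    (generateFrom_measurableCylinders (α := fun _ : ℕ => Bool)).symm
    isPiSystem_measurableCylinders with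
  | empty => simp
  | basic t ht =>
    rw [mem_measurableCylinders] at ht
    obtain ⟨s, S, -, rfl⟩ := ht
    exact Filter.EventuallyEq.of_eq (cod_preimage_cylinder s S)
  | compl t htm ih =>
    rw [preimage_compl]
    have : (intl fun _ : ℕ => toC M ⁻¹' tᶜ) = (intl fun _ => toC M ⁻¹' t)ᶜ := by
      rw [← intl_compl]; rfl
    rw [this]
    exact ih.compl
  | iUnion f hd hfm ih =>
    set A : ℕ → Set (Lb M) := fun i => intl (fun _ => toC M ⁻¹' (f i)) with hA
    have hAm : ∀ i, MeasurableSet (A i) := fun i =>
      measurableSet_intl (fun _ => measurable_toC (hfm i))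
    have h1 : cod (M := M) ⁻¹' (⋃ i, f i) =ᵐ[lb μ] ⋃ i, A i := by
      rw [preimage_iUnion]
      exact Filter.EventuallyEq.countable_iUnion (fun i => ih i)
    refine h1.trans ?_
    -- inclusion and equality of measures
    have hsub : (⋃ i, A i) ⊆ intl (fun _ => toC M ⁻¹' (⋃ i, f i)) := by
      rw [iUnion_subset_iff]
      intro i
      rw [hA]
      rw [intl_subset_iff]
      exact Eventually.of_forall (fun k => preimage_mono (subset_iUnion f i))
    have hAd : Pairwise (Function.onFun Disjoint A) := by
      intro i j hij
      rw [Function.onFun, disjoint_iff_inter_eq_empty, hA]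
      simp only
      rw [← intl_inter]
      have : (fun k : ℕ => toC M ⁻¹' f i ∩ toC M ⁻¹' f j) = fun _ => ∅ := by
        funext k
        rw [← preimage_inter, disjoint_iff_inter_eq_empty.1 (hd hij), preimage_empty]
      rw [this, intl_empty]
    have hint : ∀ C : Set (ℕ → Bool), MeasurableSet C →
        lb μ (intl (fun _ => toC M ⁻¹' C)) = μ (toC M ⁻¹' C) := by
      intro C hC
      rw [lb_intl μ (fun _ => measurable_toC hC)]
      exact ulim_eq tendsto_const_nhds
    refine ae_eq_of_subset_of_measure_ge hsub ?_ (MeasurableSet.iUnion hAm).nullMeasurableSet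
      (measure_ne_top _ _)
    rw [hint _ (MeasurableSet.iUnion hfm), measure_iUnion hAd hAm, preimage_iUnion,
      measure_iUnion (fun i j hij => Disjoint.preimage _ (hd hij))
        (fun i => measurable_toC (hfm i))]
    exact (ENNReal.tsum_le_tsum (fun i => (hint _ (hfm i)).ge))

theorem map_cod {μ : Measure M} [IsProbabilityMeasure μ] {B : Set (ℕ → Bool)}
    (hB : MeasurableSet B) : lb μ (cod (M := M) ⁻¹' B) = μ (toC M ⁻¹' B) := by
  rw [measure_congr (cod_preimage_ae hB), lb_intl μ (fun _ => measurable_toC hB)]
  exact ulim_eq tendsto_const_nhds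

theorem ae_cod_mem_range {μ : Measure M} [IsProbabilityMeasure μ] :
    ∀ᵐ x ∂(lb μ), cod (M := M) x ∈ range (toC M) := by
  have h := map_cod (μ := μ) (measurableEmbedding_toC (M := M)).measurableSet_range
  rw [preimage_range] at h
  rw [measure_univ] at h
  exact (prob_compl_eq_zero_iff
    (measurable_cod (measurableEmbedding_toC (M := M)).measurableSet_range)).2 h

variable [Nonempty M]

theorem ae_toC_pt {μ : Measure M} [IsProbabilityMeasure μ] :
    ∀ᵐ x ∂(lb μ), toC M (pt x) = cod x := by
  filter_upwards [ae_cod_mem_range (μ := μ)] with x hx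
  exact toC_pt_of_mem hx

/-- **Standard part**: preimages of arbitrary measurable sets are internal a.e. -/
theorem pt_preimage_ae {μ : Measure M} [IsProbabilityMeasure μ] {A : Set M}
    (hA : MeasurableSet A) : pt (M := M) ⁻¹' A =ᵐ[lb μ] intl (fun _ => A) := by
  have h1 : MeasurableSet (toC M '' A) := measurableEmbedding_toC.measurableSet_image' hA
  have h2 := cod_preimage_ae (μ := μ) h1
  have h3 : toC M ⁻¹' (toC M '' A) = A := preimage_image_eq A injective_toC
  rw [h3] at h2
  refine EventuallyEq.trans ?_ h2
  filter_upwards [ae_toC_pt (μ := μ)] with x hx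
  apply propext
  show pt x ∈ A ↔ cod x ∈ toC M '' A
  rw [← hx]
  exact (injective_toC.mem_set_image).symm

theorem ae_mem_iff_pt {μ : Measure M} [IsProbabilityMeasure μ] {A : Set M}
    (hA : MeasurableSet A) :
    ∀ᵐ x ∂(lb μ), (pt x ∈ A ↔ ∀ᶠ k in (UU : Filter ℕ), x k ∈ A) := by
  filter_upwards [pt_preimage_ae (μ := μ) hA] with x hx
  exact Iff.of_eq hx

theorem measurePreserving_pt (μ : Measure M) [IsProbabilityMeasure μ] :
    MeasurePreserving (pt (M := M)) (lb μ) μ := by
  refine ⟨measurable_pt, ?_⟩
  ext A hA
  rw [Measure.map_apply measurable_pt hA, measure_congr (pt_preimage_ae hA),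
    lb_intl μ (fun _ => hA)]
  exact ulim_eq tendsto_const_nhds

/-- Convergence of measurable functions with values in a second countable space. -/
theorem ae_tendsto_pt {μ : Measure M} [IsProbabilityMeasure μ] {N : Type*} [TopologicalSpace N]
    [SecondCountableTopology N] [MeasurableSpace N] [OpensMeasurableSpace N] {g : M → N}
    (hg : Measurable g) :
    ∀ᵐ x ∂(lb μ), Tendsto (fun k => g (x k)) (UU : Filter ℕ) (𝓝 (g (pt x))) := by
  have hc := TopologicalSpace.countable_countableBasis N
  have h1 : ∀ᵐ x ∂(lb μ), ∀ V ∈ TopologicalSpace.countableBasis N,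
      (pt x ∈ g ⁻¹' V ↔ ∀ᶠ k in (UU : Filter ℕ), x k ∈ g ⁻¹' V) := by
    rw [ae_ball_iff hc]
    intro V hV
    exact ae_mem_iff_pt (hg (TopologicalSpace.isOpen_of_mem_countableBasis hV).measurableSet)
  filter_upwards [h1] with x hx
  rw [(TopologicalSpace.isBasis_countableBasis N).nhds_hasBasis.tendsto_right_iff]
  rintro V ⟨hV, hxV⟩
  exact (hx V hV).1 hxV

/-- Countable families of codes determine points: naturality of the standard part. -/
theorem pt_lbmap_ae {μ : Measure M} [IsProbabilityMeasure μ] {N : Type*} [MeasurableSpace N]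
    [StandardBorelSpace N] [Nonempty N] {g : M → N} (hg : Measurable g) :
    ∀ᵐ x ∂(lb μ), pt (lbmap (fun _ => g) x) = g (pt x) := by
  have : IsProbabilityMeasure (μ.map g) := Measure.isProbabilityMeasure_map hg.aemeasurable
  have hmp : MeasurePreserving (lbmap (fun _ : ℕ => g)) (lb μ) (lb (μ.map g)) :=
    measurePreserving_lbmap (fun _ => ⟨hg, rfl⟩)
  have h0 : ∀ᵐ y ∂(lb (μ.map g)), toC N (pt y) = cod y := ae_toC_pt
  have h1 := hmp.quasiMeasurePreserving.tendsto_ae.eventually h0
  have h2 : ∀ᵐ x ∂(lb μ), ∀ n : ℕ, (pt x ∈ {m | toC N (g m) n = true} ↔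
      ∀ᶠ k in (UU : Filter ℕ), x k ∈ {m | toC N (g m) n = true}) := by
    rw [ae_all_iff]
    intro n
    refine ae_mem_iff_pt ?_
    exact ((measurable_pi_apply n).comp (measurable_toC.comp hg)) (measurableSet_singleton true)
  filter_upwards [h1, h2] with x hx1 hx2
  apply injective_toC
  rw [hx1]
  funext n
  rw [Bool.eq_iff_iff, cod_apply_true]
  exact (hx2 n).symm

end main

end Crest.Agent.R069
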