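import Crest.Agent.R069.LevSys
import Crest.Agent.R069.LoebPt
import Crest.Agent.R069.CI

/-!
# The level system of a pair: instance of `LevData` on the Loeb space (row 69)
-/

set_option autoImplicit false

open MeasureTheory Filter Set ProbabilityTheory
open scoped ENNReal Topology

namespace Crest.Agent.R069

namespace LevI

/-! ### null sets -/

section nul

variable {α : Type*} {m m₁ m₂ : MeasurableSpace α} [mα : MeasurableSpace α] {μ : Measure α}

/-- adding null sets does not change a sigma-algebra modulo null sets -/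
theorem aele_sup_nul : AELe μ (m ⊔ nul μ) m := by
  refine AELe.sup AELe.refl ?_
  intro A hA
  rcases hA.2 with h | h
  · exact ⟨∅, @MeasurableSet.empty _ m, ae_eq_empty.2 h⟩
  · exact ⟨univ, @MeasurableSet.univ _ m, ae_eq_univ.2 h⟩

/-- a measurable set which is a.e. equal to a set of `m` belongs to `m ⊔ nul μ`. -/
theorem mem_sup_nul (hm : m ≤ mα) {A B : Set α}
    (hA : MeasurableSet[mα] A) (hB : MeasurableSet[m] B) (h : A =ᵐ[μ] B) :
    MeasurableSet[m ⊔ nul μ] A := by
  have h1 : MeasurableSet[nul μ] (A \ B) :=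
    ⟨hA.diff (hm _ hB), Or.inl (measure_mono_null (by
      intro x hx
      simp only [mem_compl_iff, mem_ofPred_eq]
      intro (hc : A x = B x)
      exact hx.2 (hc ▸ hx.1 : B x)) h)⟩
  have h2 : MeasurableSet[nul μ] (B \ A) :=
    ⟨(hm _ hB).diff hA, Or.inl (measure_mono_null (by
      intro x hx
      simp only [mem_compl_iff, mem_ofPred_eq]
      intro (hc : A x = B x)
      exact hx.2 (hc.symm ▸ hx.1 : A x)) h)⟩
  have h3 : A = (B \ (B \ A)) ∪ (A \ B) := by
    ext x
    simp only [mem_union, Set.mem_sdiff, not_and, not_not]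
    constructor
    · intro hx
      by_cases hxB : x ∈ B
      · exact Or.inl ⟨hxB, fun _ => hx⟩
      · exact Or.inr ⟨hx, hxB⟩
    · rintro (⟨hx, hx'⟩ | ⟨hx, _⟩)
      · exact hx' hx
      · exact hx
  rw [h3]
  have h4 : MeasurableSet[m ⊔ nul μ] B := (le_sup_left : m ≤ m ⊔ nul μ) _ hB
  have h5 : MeasurableSet[m ⊔ nul μ] (B \ A) := (le_sup_right : nul μ ≤ m ⊔ nul μ) _ h2
  have h6 : MeasurableSet[m ⊔ nul μ] (A \ B) := (le_sup_right : nul μ ≤ m ⊔ nul μ) _ h1
  exact (h4.diff h5).union h6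

theorem aele_iff_le_sup_nul (h₁ : m₁ ≤ mα) (h₂ : m₂ ≤ mα) :
    AELe μ m₁ m₂ ↔ m₁ ≤ m₂ ⊔ nul μ := by
  constructor
  · intro h A hA
    obtain ⟨B, hB, hAB⟩ := h A hA
    exact mem_sup_nul h₂ (h₁ _ hA) hB hAB
  · intro h
    exact (AELe.of_le h).trans aele_sup_nul

theorem indep_sup_nul_right [IsProbabilityMeasure μ]
    (h₁ : m₁ ≤ mα) (h₂ : m₂ ≤ mα) (h : Indep m₁ m₂ μ) : Indep m₁ (m₂ ⊔ nul μ) μ := by
  rw [Indep_iff]
  intro A B hA hB
  obtain ⟨B', hB', hBB'⟩ := aele_sup_nul (μ := μ) (m := m₂) B hB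
  rw [measure_congr hBB', measure_congr ((ae_eq_refl A).inter hBB')]
  exact (Indep_iff _ _ _).1 h A B' hA hB'

theorem comap_nul_le {β : Type*} [mβ : MeasurableSpace β] {ν : Measure β} {f : β → α}
    (hf : MeasurePreserving f ν μ) : (nul μ).comap f ≤ nul ν := by
  rintro _ ⟨B, hB, rfl⟩
  refine ⟨hf.measurable hB.1, ?_⟩
  rcases hB.2 with h | h
  · left
    rw [hf.measure_preimage hB.1.nullMeasurableSet, h]
  · right
    rw [← preimage_compl, hf.measure_preimage hB.1.compl.nullMeasurableSet, h]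

end nul

/-! ### sigma-algebras of the level system pulled back to `Λ` -/

section pull

variable {E : Sys} {ι : Type} [Countable ι] (D : LevData E ι)

/-- `mv` with codomain the level system. -/
def mvJ : D.Λ → D.J.Ω := D.mv

theorem mvJ_mp : MeasurePreserving (mvJ D) D.P D.J.μ := D.mv_mp

/-- the pull back of `Dm A`. -/
@[implicit_reducible]
def Lm (A : Set ι) : MeasurableSpace D.Λ :=
  (⨆ i, ⨆ _ : i ∈ A, E.ms.comap (D.e i)) ⊔ (inferInstance : MeasurableSpace WS).comap D.w

omit [Countable ι] in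
theorem Lm_le (A : Set ι) : Lm D A ≤ D.ms := by
  refine sup_le ?_ D.w_meas.comap_le
  exact iSup_le fun i => iSup_le fun _ => (D.e_mp i).measurable.comap_le

/-- the part of `Dm A` without null sets -/
@[implicit_reducible]
def Dm0 (A : Set ι) : MeasurableSpace D.J.Ω :=
  (⨆ i, ⨆ _ : i ∈ A, E.ms.comap (D.co i)) ⊔ (inferInstance : MeasurableSpace WS).comap D.en

theorem Dm_eq (A : Set ι) : D.Dm A = Dm0 D A ⊔ nul D.J.μ := rfl

theorem Dm0_le (A : Set ι) : Dm0 D A ≤ D.J.ms := le_sup_left.trans (D.Dm_le A)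

theorem comap_Dm0 (A : Set ι) : (Dm0 D A).comap (mvJ D) = Lm D A := by
  have h1 : ∀ i, D.co i ∘ mvJ D = D.e i := fun i => rfl
  have h2 : D.en ∘ mvJ D = D.w := rfl
  simp only [Dm0, Lm, MeasurableSpace.comap_sup, MeasurableSpace.comap_iSup,
    MeasurableSpace.comap_comp, h1, h2]

theorem comap_Dm_le (A : Set ι) : (D.Dm A).comap (mvJ D) ≤ Lm D A ⊔ nul D.P := by
  rw [Dm_eq, MeasurableSpace.comap_sup, comap_Dm0]
  exact sup_le_sup_left (comap_nul_le (mvJ_mp D)) _

/-- **Independence on the level system** from independence upstairs. -/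
theorem indep_Dm {X : Sys} (P : Pair X) (D : LevData P.toSys ι) (j : ι) (A : Set ι)
    (h : Indep (X.ms.comap (P.π ∘ D.e j)) (Lm D A) D.P) :
    @Indep _ (X.ms.comap (P.π ∘ D.co j)) (D.Dm A) D.J.ms D.J.μ := by
  have h1 : X.ms.comap (P.π ∘ D.co j) ≤ D.J.ms := (D.pi_mp P j).measurable.comap_le
  rw [Dm_eq]
  refine indep_sup_nul_right h1 (Dm0_le D A) ?_
  refine (indep_map_iff (mvJ_mp D).measurable h1 (Dm0_le D A)).2 ?_
  rw [comap_Dm0, MeasurableSpace.comap_comp]
  exact h

/-- exact inclusion on the level system from inclusion mod null upstairs. -/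
theorem comap_co_le_Dm_of_aele (j : ι) (A : Set ι) {mC : MeasurableSpace E.Ω} (hC : mC ≤ E.ms)
    (h : AELe D.P (mC.comap (D.e j)) (Lm D A)) : mC.comap (D.co j) ≤ D.Dm A := by
  have h1 : mC.comap (D.co j) ≤ D.J.ms :=
    (MeasurableSpace.comap_mono hC).trans (D.measurable_co j).comap_le
  rw [Dm_eq]
  refine (aele_iff_le_sup_nul h1 (Dm0_le D A)).1 ?_
  refine (aele_comap_iff (mvJ_mp D) h1 (Dm0_le D A)).1 ?_
  rw [comap_Dm0, MeasurableSpace.comap_comp]
  exact h

end pull

/-! ### the Loeb instance -/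

section inst

instance instNonemptySys (M : Sys) : Nonempty M.Ω := nonempty_of_isProbabilityMeasure M.μ

/-- the site map -/
noncomputable def siteP (M : Sys) [StandardBorelSpace M.Ω] (s : ℕ → ℤ) : Lb M.Ω → M.Ω :=
  fun x => pt (lbmap (fun k => M.S (s k)) x)

theorem siteP_mp (M : Sys) [StandardBorelSpace M.Ω] (s : ℕ → ℤ) :
    MeasurePreserving (siteP M s) (lb M.μ) M.μ :=
  (measurePreserving_pt M.μ).comp (measurePreserving_lbmap fun k => M.S_mp (s k))

theorem siteP_S (M : Sys) [StandardBorelSpace M.Ω] (s : ℕ → ℤ) (n : ℤ) :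
    (fun x => siteP M s (lbmap (fun _ => M.S n) x)) =ᵐ[lb M.μ]
      fun x => M.S n (siteP M s x) := by
  have h1 := pt_lbmap_ae (μ := M.μ) (M.S_mp n).measurable
  have h2 := (measurePreserving_lbmap (μ := M.μ) (ν := M.μ)
    fun k => M.S_mp (s k)).quasiMeasurePreserving.ae h1
  filter_upwards [h2] with x hx
  rw [siteP, siteP, ← hx]
  congr 1
  funext k
  simp only [lbmap_apply]
  rw [← M.S_add, ← M.S_add, add_comm]

/-- preimages under sites are internal a.e. -/
theorem siteP_preimage (M : Sys) [StandardBorelSpace M.Ω] (s : ℕ → ℤ) {A : Set M.Ω}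
    (hA : MeasurableSet A) :
    siteP M s ⁻¹' A =ᵐ[lb M.μ] intl (fun k => M.S (s k) ⁻¹' A) := by
  have h1 := pt_preimage_ae (μ := M.μ) hA
  have h2 := (measurePreserving_lbmap (μ := M.μ) (ν := M.μ)
    fun k => M.S_mp (s k)).quasiMeasurePreserving.preimage_ae_eq h1
  exact h2

/-- `C` at a site belongs to the internal `C`. -/
theorem aele_site_C (M : Sys) [StandardBorelSpace M.Ω] (s : ℕ → ℤ) (mC : MeasurableSpace M.Ω)
    (hC : mC ≤ M.ms) (hS : ∀ n, Measurable[mC, mC] (M.S n)) :
    @AELe (Lb M.Ω) (LL M.ms) (@lb M.Ω M.ms M.μ) (mC.comap (siteP M s)) (LL mC) := by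
  rintro _ ⟨B, hB, rfl⟩
  exact ⟨_, measurableSet_intl (fun k => hS (s k) hB), @siteP_preimage M _ s _ (hC _ hB)⟩

/-- **LevData of a system with an internal environment.** -/
noncomputable def levData (M : Sys) [StandardBorelSpace M.Ω] {ι : Type} (s : ι → ℕ → ℤ)
    (g : ℕ → Lb M.Ω → ℝ) (hg : ∀ q, Measurable (g q)) : LevData M ι where
  Λ := Lb M.Ω
  P := lb M.μ
  S n := lbmap (fun _ => M.S n)
  S_add a b x := by funext k; exact M.S_add a b (x k)
  S_mp n := measurePreserving_lbmap fun _ => M.S_mp n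
  e i := siteP M (s i)
  e_mp i := siteP_mp M (s i)
  e_S i n := siteP_S M (s i) n
  w := envW (fun n => lbmap (fun _ => M.S n)) g
  w_meas := measurable_envW (fun n => (measurePreserving_lbmap (μ := M.μ) (ν := M.μ)
    fun _ => M.S_mp n).measurable) hg
  w_S n := Eventually.of_forall fun x =>
    envW_S (fun a b x => by funext k; exact M.S_add a b (x k)) g n x

variable (M : Sys) [StandardBorelSpace M.Ω] {ι : Type} (s : ι → ℕ → ℤ)
  (g : ℕ → Lb M.Ω → ℝ) (hg : ∀ q, Measurable (g q))

/-- the environment is internally `C`-measurable -/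
theorem comap_w_le {mC : MeasurableSpace M.Ω} (hS : ∀ n, Measurable[mC, mC] (M.S n))
    (hgC : ∀ q, Measurable[LL mC] (g q)) :
    (inferInstance : MeasurableSpace WS).comap (levData M s g hg).w ≤ LL mC := by
  have : Measurable[LL mC] (levData M s g hg).w :=
    @measurable_envW _ (LL mC) (fun n => lbmap (fun _ => M.S n))
      (fun n => measurable_lbmap' fun _ => hS n) g hgC
  exact this.comap_le

/-- every single function of the family is environment measurable -/
theorem measurable_g_w (q : ℕ) :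
    Measurable[(inferInstance : MeasurableSpace WS).comap (levData M s g hg).w] (g q) := by
  have h1 : g q = (fun v : WS => v 0 q) ∘ (levData M s g hg).w := by
    funext x
    simp only [levData, envW, Function.comp]
    congr 1
    funext k
    simp [M.S_zero]
  rw [h1]
  exact ((measurable_pi_apply q).comp (measurable_pi_apply 0)).comp (comap_measurable _)

end inst

end LevI

end Crest.Agent.R069
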