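import Crest.Agent.R069.SatDefs

/-!
# The level system (row 69, N-LEV)

Given a probability space `Λ` with a `ℤ`-action, finitely many factor maps `e i : Λ → E` and an
equivariant environment map `w : Λ → (ℤ → ℕ → ℝ)`, the law of `(e, w)` is a system `J` on
`(ι → E) × (ℤ → ℕ → ℝ)`; its coordinates are factor maps to `E`.
-/

set_option autoImplicit false

open MeasureTheory Filter Set ProbabilityTheory
open scoped ENNReal Topology

namespace Crest.Agent.R069

/-- the environment space -/
abbrev WS : Type := ℤ → ℕ → ℝ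

/-- the shift on the environment space -/
def shiftW (n : ℤ) (v : WS) : WS := fun j => v (j + n)

theorem shiftW_zero (v : WS) : shiftW 0 v = v := by
  funext j; simp [shiftW]

theorem shiftW_add (a b : ℤ) (v : WS) : shiftW (a + b) v = shiftW a (shiftW b v) := by
  funext j; simp only [shiftW]; congr 1; ring

theorem measurable_shiftW (n : ℤ) : Measurable (shiftW n) :=
  measurable_pi_lambda _ fun j => measurable_pi_apply (j + n)

/-- the environment map of a sequence of functions: the full orbit. -/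
def envW {Λ : Type*} (S : ℤ → Λ → Λ) (g : ℕ → Λ → ℝ) (x : Λ) : WS := fun j q => g q (S j x)

theorem envW_S {Λ : Type*} {S : ℤ → Λ → Λ} (hadd : ∀ a b x, S (a + b) x = S a (S b x))
    (g : ℕ → Λ → ℝ) (n : ℤ) (x : Λ) : envW S g (S n x) = shiftW n (envW S g x) := by
  funext j q
  simp only [envW, shiftW, hadd]

theorem measurable_envW {Λ : Type*} {m : MeasurableSpace Λ} {S : ℤ → Λ → Λ}
    (hS : ∀ n, Measurable (S n)) {g : ℕ → Λ → ℝ} (hg : ∀ q, Measurable (g q)) :
    Measurable (envW S g) :=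
  measurable_pi_lambda _ fun j => measurable_pi_lambda _ fun q => (hg q).comp (hS j)

/-- Independence is preserved by passing to the law. -/
theorem indep_map_iff {α β : Type*} [MeasurableSpace α] {m₁ m₂ : MeasurableSpace β}
    [mβ : MeasurableSpace β] {P : Measure α}
    {f : α → β} (hf : Measurable f) (h₁ : m₁ ≤ mβ) (h₂ : m₂ ≤ mβ) :
    Indep m₁ m₂ (P.map f) ↔ Indep (m₁.comap f) (m₂.comap f) P := by
  rw [Indep_iff, Indep_iff]
  constructor
  · rintro h _ _ ⟨A, hA, rfl⟩ ⟨B, hB, rfl⟩
    have := h A B hA hB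
    rwa [Measure.map_apply hf (h₁ _ hA), Measure.map_apply hf (h₂ _ hB),
      Measure.map_apply hf ((h₁ _ hA).inter (h₂ _ hB)), preimage_inter] at this
  · intro h A B hA hB
    have := h (f ⁻¹' A) (f ⁻¹' B) ⟨A, hA, rfl⟩ ⟨B, hB, rfl⟩
    rwa [Measure.map_apply hf (h₁ _ hA), Measure.map_apply hf (h₂ _ hB),
      Measure.map_apply hf ((h₁ _ hA).inter (h₂ _ hB)), preimage_inter]

/-- The input of the level system. -/
structure LevData (E : Sys) (ι : Type) : Type 1 where
  Λ : Type
  [ms : MeasurableSpace Λ]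
  P : Measure Λ
  [pr : IsProbabilityMeasure P]
  S : ℤ → Λ → Λ
  S_add : ∀ a b x, S (a + b) x = S a (S b x)
  S_mp : ∀ n, MeasurePreserving (S n) P P
  e : ι → Λ → E.Ω
  e_mp : ∀ i, MeasurePreserving (e i) P E.μ
  e_S : ∀ i n, (fun x => e i (S n x)) =ᵐ[P] fun x => E.S n (e i x)
  w : Λ → WS
  w_meas : Measurable w
  w_S : ∀ n, (fun x => w (S n x)) =ᵐ[P] fun x => shiftW n (w x)

attribute [instance] LevData.ms LevData.pr

namespace LevData

variable {E : Sys} {ι : Type} [Countable ι] (D : LevData E ι)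

/-- the map to the level system -/
def mv (x : D.Λ) : (ι → E.Ω) × WS := (fun i => D.e i x, D.w x)

omit [Countable ι] in
theorem measurable_mv : Measurable D.mv :=
  (measurable_pi_lambda _ fun i => (D.e_mp i).measurable).prodMk D.w_meas

/-- the action on the level system -/
def SJ (E : Sys) (ι : Type) (n : ℤ) (q : (ι → E.Ω) × WS) : (ι → E.Ω) × WS :=
  (fun i => E.S n (q.1 i), shiftW n q.2)

omit [Countable ι] in
theorem measurable_SJ (n : ℤ) : Measurable (SJ E ι n) := by
  refine Measurable.prodMk ?_ ((measurable_shiftW n).comp measurable_snd)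
  exact measurable_pi_lambda _ fun i =>
    (E.S_mp n).measurable.comp ((measurable_pi_apply i).comp measurable_fst)

theorem mv_S (n : ℤ) : (fun x => D.mv (D.S n x)) =ᵐ[D.P] fun x => SJ E ι n (D.mv x) := by
  have h1 : ∀ᵐ x ∂D.P, ∀ i, D.e i (D.S n x) = E.S n (D.e i x) := by
    rw [ae_all_iff]; exact fun i => D.e_S i n
  filter_upwards [h1, D.w_S n] with x hx hw
  simp only [mv, SJ]
  rw [hw]
  congr 1
  funext i
  exact hx i

/-- **the level system** -/
noncomputable def J : Sys where
  Ω := (ι → E.Ω) × WS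
  μ := D.P.map D.mv
  pr := Measure.isProbabilityMeasure_map D.measurable_mv.aemeasurable
  S := SJ E ι
  S_zero q := by simp only [SJ, E.S_zero, shiftW_zero]
  S_add a b q := by simp only [SJ, E.S_add, shiftW_add]
  S_mp n := by
    refine ⟨measurable_SJ n, ?_⟩
    rw [Measure.map_map (measurable_SJ n) D.measurable_mv]
    have h1 : (SJ E ι n) ∘ D.mv =ᵐ[D.P] D.mv ∘ D.S n := (D.mv_S n).symm
    rw [Measure.map_congr h1, ← Measure.map_map D.measurable_mv (D.S_mp n).measurable,
      (D.S_mp n).map_eq]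

theorem mv_mp : MeasurePreserving D.mv D.P D.J.μ := ⟨D.measurable_mv, rfl⟩

/-- coordinate maps -/
def co (i : ι) (q : D.J.Ω) : E.Ω := q.1 i

/-- the environment coordinate -/
def en (q : D.J.Ω) : WS := q.2

theorem measurable_co (i : ι) : Measurable (D.co i) :=
  (measurable_pi_apply i).comp measurable_fst

theorem measurable_en : Measurable D.en := measurable_snd

theorem co_mp (i : ι) : MeasurePreserving (D.co i) D.J.μ E.μ := by
  refine ⟨D.measurable_co i, ?_⟩
  change Measure.map (D.co i) (D.P.map D.mv) = E.μ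
  rw [Measure.map_map (D.measurable_co i) D.measurable_mv]
  exact (D.e_mp i).map_eq

theorem co_S (i : ι) (n : ℤ) (q : D.J.Ω) : D.co i (D.J.S n q) = E.S n (D.co i q) := rfl

theorem en_S (n : ℤ) (q : D.J.Ω) : D.en (D.J.S n q) = shiftW n (D.en q) := rfl

theorem co_mv (i : ι) (x : D.Λ) : D.co i (D.mv x) = D.e i x := rfl

theorem en_mv (x : D.Λ) : D.en (D.mv x) = D.w x := rfl

/-- the sigma-algebra of the coordinates in `A`, the environment and the null sets. -/
@[implicit_reducible]
noncomputable def Dm (A : Set ι) : MeasurableSpace D.J.Ω :=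
  (⨆ i, ⨆ _ : i ∈ A, E.ms.comap (D.co i)) ⊔ (inferInstance : MeasurableSpace WS).comap D.en ⊔
    nul D.J.μ

end LevData

theorem nul_le' {α : Type*} [m : MeasurableSpace α] (μ : Measure α) : nul μ ≤ m :=
  fun _ h => h.1

namespace LevData

variable {E : Sys} {ι : Type} [Countable ι] (D : LevData E ι)

theorem Dm_le (A : Set ι) : D.Dm A ≤ D.J.ms := by
  refine sup_le (sup_le ?_ ?_) (nul_le' _)
  · exact iSup_le fun i => iSup_le fun _ => (D.measurable_co i).comap_le
  · exact D.measurable_en.comap_le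

theorem nul_le_Dm (A : Set ι) : nul D.J.μ ≤ D.Dm A := le_sup_right

theorem comap_co_le_Dm {A : Set ι} {i : ι} (hi : i ∈ A) : E.ms.comap (D.co i) ≤ D.Dm A :=
  (le_iSup₂ (f := fun i (_ : i ∈ A) => E.ms.comap (D.co i)) i hi).trans
    (le_sup_left.trans le_sup_left)

theorem comap_en_le_Dm (A : Set ι) :
    (inferInstance : MeasurableSpace WS).comap D.en ≤ D.Dm A :=
  le_sup_right.trans le_sup_left

theorem Dm_mono {A B : Set ι} (h : A ⊆ B) : D.Dm A ≤ D.Dm B := by
  refine sup_le_sup (sup_le_sup ?_ le_rfl) le_rfl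
  exact iSup_le fun i => iSup_le fun hi => le_iSup₂ (f := fun i (_ : i ∈ B) =>
    E.ms.comap (D.co i)) i (h hi)

/-- measurability into `m₁ ⊔ m₂ ⊔ …` of an invariant map -/
theorem Dm_S (A : Set ι) (n : ℤ) : Measurable[D.Dm A, D.Dm A] (D.J.S n) := by
  rw [measurable_iff_comap_le]
  simp only [Dm, MeasurableSpace.comap_sup, MeasurableSpace.comap_iSup,
    MeasurableSpace.comap_comp]
  refine sup_le (sup_le ?_ ?_) ?_
  · refine iSup_le fun i => iSup_le fun hi => ?_
    refine le_trans ?_ (D.comap_co_le_Dm hi)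
    have : D.co i ∘ D.J.S n = E.S n ∘ D.co i := rfl
    rw [this, ← MeasurableSpace.comap_comp]
    exact MeasurableSpace.comap_mono (E.S_mp n).measurable.comap_le
  · refine le_trans ?_ (D.comap_en_le_Dm A)
    have : D.en ∘ D.J.S n = shiftW n ∘ D.en := rfl
    rw [this, ← MeasurableSpace.comap_comp]
    exact MeasurableSpace.comap_mono (measurable_shiftW n).comap_le
  · refine le_trans ?_ (D.nul_le_Dm A)
    rintro _ ⟨B, hB, rfl⟩
    refine ⟨(D.J.S_mp n).measurable hB.1, ?_⟩
    rcases hB.2 with h | h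
    · left
      rw [(D.J.S_mp n).measure_preimage hB.1.nullMeasurableSet, h]
    · right
      rw [← preimage_compl, (D.J.S_mp n).measure_preimage hB.1.compl.nullMeasurableSet, h]

end LevData

theorem LevData.pi_mp {X : Sys} (P : Pair X) {ι : Type} [Countable ι]
    (D : LevData P.toSys ι) (j : ι) : MeasurePreserving (P.π ∘ D.co j) D.J.μ X.μ :=
  P.π_mp.comp (D.co_mp j)

theorem LevData.pi_S {X : Sys} (P : Pair X) {ι : Type} [Countable ι]
    (D : LevData P.toSys ι) (j : ι) (n : ℤ) :
    (fun q => (P.π ∘ D.co j) (D.J.S n q)) =ᵐ[D.J.μ] fun q => X.S n ((P.π ∘ D.co j) q) :=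
  (D.co_mp j).quasiMeasurePreserving.ae (P.π_S n)

/-- The pair `(J, m)` over `X` through the coordinate `j`. -/
noncomputable def LevData.pair {X : Sys} (P : Pair X) {ι : Type} [Countable ι]
    (D : LevData P.toSys ι) (j : ι) (m : MeasurableSpace D.J.Ω) (hm : m ≤ D.J.ms)
    (hnul : @nul _ D.J.ms D.J.μ ≤ m) (hS : ∀ n, Measurable[m, m] (D.J.S n))
    (hind : @Indep _ (X.ms.comap (P.π ∘ D.co j)) m D.J.ms D.J.μ) : Pair X where
  toSys := D.J
  π := P.π ∘ D.co j
  π_mp := D.pi_mp P j
  π_S := D.pi_S P j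
  C := m
  C_le := hm
  C_nul := hnul
  C_S := hS
  indep := hind

/-- the coordinate `j` as an extension. -/
noncomputable def LevData.ext {X : Sys} (P : Pair X) {ι : Type} [Countable ι]
    (D : LevData P.toSys ι) (j : ι) (m : MeasurableSpace D.J.Ω) (hm : m ≤ D.J.ms)
    (hnul : @nul _ D.J.ms D.J.μ ≤ m) (hS : ∀ n, Measurable[m, m] (D.J.S n))
    (hind : @Indep _ (X.ms.comap (P.π ∘ D.co j)) m D.J.ms D.J.μ)
    (hC : P.C.comap (D.co j) ≤ m) :
    Ext P (D.pair P j m hm hnul hS hind) where
  f := D.co j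
  f_mp := D.co_mp j
  f_S _ := Eventually.of_forall fun _ => rfl
  f_π := Eventually.of_forall fun _ => rfl
  f_C := hC

end Crest.Agent.R069
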