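import Mathlib

/-!
# Loeb measure on the ultrapower (row 69)

`Lb α` is the type of sequences `ℕ → α` (no quotient is needed) with the sigma-algebra generated
by the internal sets `intl A = {x | ∀ᶠ k in UU, x k ∈ A k}` and the Loeb measure `lb μ`
with `lb μ (intl A) = lim_UU μ (A k)`.
-/

set_option autoImplicit false

open MeasureTheory Filter Set
open scoped ENNReal Topology

namespace Crest.Agent.R069

/-- The fixed nonprincipal ultrafilter on `ℕ`. -/
noncomputable abbrev UU : Ultrafilter ℕ := Filter.hyperfilter ℕ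

/-- The ultrapower of a type, realised by sequences. -/
def Lb (α : Type*) : Type _ := ℕ → α

/-- The internal set given by a sequence of sets. -/
def intl {α : Type*} (A : ℕ → Set α) : Set (Lb α) := {x | ∀ᶠ k in (UU : Filter ℕ), x k ∈ A k}

/-- Limit along the ultrafilter in a compact space. -/
noncomputable def ulim {β : Type*} [TopologicalSpace β] [Nonempty β] (f : ℕ → β) : β :=
  lim ((UU.map f : Ultrafilter β) : Filter β)

section ulim

variable {β : Type*} [TopologicalSpace β] [Nonempty β]

theorem tendsto_ulim [CompactSpace β] (f : ℕ → β) :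
    Tendsto f (UU : Filter ℕ) (𝓝 (ulim f)) := by
  have := (UU.map f).le_nhds_lim
  exact this

theorem ulim_eq [T2Space β] {f : ℕ → β} {b : β} (h : Tendsto f (UU : Filter ℕ) (𝓝 b)) :
    ulim f = b := by
  unfold ulim
  exact Filter.Tendsto.limUnder_eq h

end ulim

section sets

variable {α : Type*}

theorem eventually_UU_of_atTop {p : ℕ → Prop} (h : ∀ᶠ k in atTop, p k) :
    ∀ᶠ k in (UU : Filter ℕ), p k := by
  have : (UU : Filter ℕ) ≤ cofinite := Filter.hyperfilter_le_cofinite
  rw [Nat.cofinite_eq_atTop] at this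
  exact this h

@[simp] theorem mem_intl {A : ℕ → Set α} {x : Lb α} :
    x ∈ intl A ↔ ∀ᶠ k in (UU : Filter ℕ), x k ∈ A k := Iff.rfl

theorem intl_inter (A B : ℕ → Set α) : intl (fun k => A k ∩ B k) = intl A ∩ intl B := by
  ext x; simp [intl, Filter.eventually_and]

theorem intl_union (A B : ℕ → Set α) : intl (fun k => A k ∪ B k) = intl A ∪ intl B := by
  ext x; simp [intl, Ultrafilter.eventually_or]

theorem intl_compl (A : ℕ → Set α) : intl (fun k => (A k)ᶜ) = (intl A)ᶜ := by
  ext x
  show (∀ᶠ k in (UU : Filter ℕ), ¬ (x k ∈ A k)) ↔ ¬ (∀ᶠ k in (UU : Filter ℕ), x k ∈ A k)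
  exact Ultrafilter.eventually_not

theorem intl_diff (A B : ℕ → Set α) : intl (fun k => A k \ B k) = intl A \ intl B := by
  have := intl_inter A (fun k => (B k)ᶜ)
  simp only [intl_compl] at this
  simpa [sdiff_eq] using this

@[simp] theorem intl_empty : intl (fun _ : ℕ => (∅ : Set α)) = ∅ := by
  ext x
  simp only [mem_intl, mem_empty_iff_false, iff_false]
  intro h
  obtain ⟨k, hk⟩ := h.exists
  exact hk

@[simp] theorem intl_univ : intl (fun _ : ℕ => (univ : Set α)) = univ := by
  ext x; simp [intl]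

theorem intl_nonempty {A : ℕ → Set α} [Nonempty α]
    (h : ∀ᶠ k in (UU : Filter ℕ), (A k).Nonempty) : (intl A).Nonempty := by
  classical
  refine ⟨fun k => if h : (A k).Nonempty then h.choose else Classical.arbitrary α, ?_⟩
  filter_upwards [h] with k hk
  simp only [hk, dif_pos]
  exact hk.choose_spec

theorem nonempty_of_intl_nonempty {A : ℕ → Set α}
    (h : (intl A).Nonempty) : ∀ᶠ k in (UU : Filter ℕ), (A k).Nonempty := by
  obtain ⟨x, hx⟩ := h
  filter_upwards [hx] with k hk using ⟨_, hk⟩

theorem intl_subset_iff {A B : ℕ → Set α} :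
    intl A ⊆ intl B ↔ ∀ᶠ k in (UU : Filter ℕ), A k ⊆ B k := by
  constructor
  · intro h
    by_contra hne
    rw [← Ultrafilter.eventually_not] at hne
    have h1 : ∀ᶠ k in (UU : Filter ℕ), (A k \ B k).Nonempty := by
      filter_upwards [hne] with k hk
      exact Set.not_subset.1 hk |>.imp (fun x hx => ⟨hx.1, hx.2⟩)
    have : Nonempty α := by
      obtain ⟨k, x, _⟩ := h1.exists
      exact ⟨x⟩
    obtain ⟨x, hx⟩ := intl_nonempty h1
    rw [intl_diff] at hx
    exact hx.2 (h hx.1)
  · intro h x hx
    filter_upwards [h, hx] with k h1 h2 using h1 h2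

theorem intl_eq_iff {A B : ℕ → Set α} :
    intl A = intl B ↔ ∀ᶠ k in (UU : Filter ℕ), A k = B k := by
  rw [Subset.antisymm_iff, intl_subset_iff, intl_subset_iff, ← Filter.eventually_and]
  simp only [Subset.antisymm_iff]

/-- **Countable saturation**: a sequence of internal sets with nonempty finite intersections
has nonempty intersection. -/
theorem intl_saturation [Nonempty α] (A : ℕ → ℕ → Set α)
    (h : ∀ n, (⋂ j ∈ Finset.range (n + 1), intl (A j)).Nonempty) :
    (⋂ n, intl (A n)).Nonempty := by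
  classical
  set C : ℕ → ℕ → Set α := fun n k => ⋂ j ∈ Finset.range (n + 1), A j k with hC
  have hCi : ∀ n, intl (C n) = ⋂ j ∈ Finset.range (n + 1), intl (A j) := by
    intro n
    ext x
    simp only [hC, mem_intl, mem_iInter, Finset.mem_range]
    constructor
    · intro hx j hj
      filter_upwards [hx] with k hk using hk j hj
    · intro hx
      have : ∀ᶠ k in (UU : Filter ℕ), ∀ j ∈ Finset.range (n + 1), x k ∈ A j k := by
        rw [Filter.eventually_all_finset]
        intro j hj
        exact hx j (Finset.mem_range.1 hj)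
      filter_upwards [this] with k hk j hj using hk j (Finset.mem_range.2 hj)
  have hne : ∀ n, ∀ᶠ k in (UU : Filter ℕ), (C n k).Nonempty := by
    intro n
    apply nonempty_of_intl_nonempty
    rw [hCi]; exact h n
  have hmono : ∀ {n m : ℕ} (k : ℕ), n ≤ m → C m k ⊆ C n k := by
    intro n m k hnm x hx
    simp only [hC, mem_iInter, Finset.mem_range] at hx ⊢
    intro j hj; exact hx j (by omega)
  -- choose the largest `n ≤ k` with `C n k` nonempty
  let N : ℕ → ℕ := fun k => Nat.findGreatest (fun n => (C n k).Nonempty) k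
  let x : Lb α := fun k => if h : (C (N k) k).Nonempty then h.choose else Classical.arbitrary α
  refine ⟨x, ?_⟩
  rw [mem_iInter]
  intro n
  have h1 : ∀ᶠ k in (UU : Filter ℕ), n ≤ k := eventually_UU_of_atTop (eventually_ge_atTop n)
  show ∀ᶠ k in (UU : Filter ℕ), x k ∈ A n k
  filter_upwards [h1, hne n] with k hk hk2
  have h3 : (C (N k) k).Nonempty :=
    Nat.findGreatest_spec (P := fun n => (C n k).Nonempty) hk hk2
  have h4 : n ≤ N k := Nat.le_findGreatest (P := fun n => (C n k).Nonempty) hk hk2
  have h5 : x k ∈ C (N k) k := by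
    simp only [x, h3, dif_pos]
    exact h3.choose_spec
  have h6 := hmono k h4 h5
  simp only [hC, mem_iInter, Finset.mem_range] at h6
  exact h6 n (by omega)

/-- Compactness: an internal set covered by countably many internal sets is covered by finitely
many of them. -/
theorem intl_finite_subcover {B : ℕ → Set α} {A : ℕ → ℕ → Set α}
    (h : intl B ⊆ ⋃ n, intl (A n)) : ∃ N, intl B ⊆ ⋃ n ∈ Finset.range N, intl (A n) := by
  classical
  by_contra hcon
  push Not at hcon
  have hex : ∀ N, ∃ x, x ∈ intl B ∧ ∀ n < N, x ∉ intl (A n) := by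
    intro N
    obtain ⟨x, hx1, hx2⟩ := Set.not_subset.1 (hcon N)
    refine ⟨x, hx1, fun n hn hxn => hx2 ?_⟩
    simp only [mem_iUnion, Finset.mem_range, exists_prop]
    exact ⟨n, hn, hxn⟩
  have : Nonempty α := by
    obtain ⟨x, _⟩ := hex 0
    exact ⟨x 0⟩
  obtain ⟨y, hy⟩ := intl_saturation (α := α) (fun n k => B k \ A n k) (by
    intro n
    obtain ⟨x, hx1, hx2⟩ := hex (n + 1)
    refine ⟨x, ?_⟩
    simp only [mem_iInter, Finset.mem_range, intl_diff]
    intro j hj
    exact ⟨hx1, hx2 j hj⟩)
  simp only [mem_iInter, intl_diff] at hy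
  have := h (hy 0).1
  obtain ⟨n, hn⟩ := mem_iUnion.1 this
  exact (hy n).2 hn

end sets

section sigma

variable {α : Type*}

/-- The internal sets of a sigma-algebra. -/
def intlSets (m : MeasurableSpace α) : Set (Set (Lb α)) :=
  {B | ∃ A : ℕ → Set α, (∀ k, MeasurableSet[m] (A k)) ∧ B = intl A}

/-- The Loeb sigma-algebra (of a sub-sigma-algebra). -/
@[implicit_reducible]
def LL (m : MeasurableSpace α) : MeasurableSpace (Lb α) := MeasurableSpace.generateFrom (intlSets m)

instance instMSLb [m : MeasurableSpace α] : MeasurableSpace (Lb α) := LL m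

theorem measurableSet_intl {m : MeasurableSpace α} {A : ℕ → Set α}
    (hA : ∀ k, MeasurableSet[m] (A k)) : MeasurableSet[LL m] (intl A) :=
  MeasurableSpace.measurableSet_generateFrom ⟨A, hA, rfl⟩

theorem intlSets_mono {m m' : MeasurableSpace α} (h : m ≤ m') : intlSets m ⊆ intlSets m' := by
  rintro B ⟨A, hA, rfl⟩
  exact ⟨A, fun k => h _ (hA k), rfl⟩

theorem LL_mono {m m' : MeasurableSpace α} (h : m ≤ m') : LL m ≤ LL m' :=
  MeasurableSpace.generateFrom_mono (intlSets_mono h)

theorem isSetRing_intlSets (m : MeasurableSpace α) : IsSetRing (intlSets m) where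
  empty_mem := ⟨fun _ => ∅, fun _ => MeasurableSet.empty, by simp⟩
  union_mem := by
    rintro _ _ ⟨A, hA, rfl⟩ ⟨B, hB, rfl⟩
    exact ⟨fun k => A k ∪ B k, fun k => (hA k).union (hB k), (intl_union A B).symm⟩
  sdiff_mem := by
    rintro _ _ ⟨A, hA, rfl⟩ ⟨B, hB, rfl⟩
    exact ⟨fun k => A k \ B k, fun k => (hA k).diff (hB k), (intl_diff A B).symm⟩

theorem isPiSystem_intlSets (m : MeasurableSpace α) : IsPiSystem (intlSets m) := by
  rintro _ ⟨A, hA, rfl⟩ _ ⟨B, hB, rfl⟩ _
  exact ⟨fun k => A k ∩ B k, fun k => (hA k).inter (hB k), (intl_inter A B).symm⟩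

end sigma

section measure

variable {α : Type*} [MeasurableSpace α]

open Classical in
/-- The Loeb content. -/
noncomputable def lbFun (μ : Measure α) (B : Set (Lb α)) : ℝ≥0∞ :=
  if h : B ∈ intlSets ‹MeasurableSpace α› then ulim (fun k => μ (h.choose k)) else 0

theorem lbFun_intl (μ : Measure α) {A : ℕ → Set α} (hA : ∀ k, MeasurableSet (A k)) :
    lbFun μ (intl A) = ulim (fun k => μ (A k)) := by
  classical
  have h : intl A ∈ intlSets ‹MeasurableSpace α› := ⟨A, hA, rfl⟩
  unfold lbFun
  rw [dif_pos h]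
  have h1 := h.choose_spec.2
  rw [intl_eq_iff] at h1
  apply ulim_eq
  refine (tendsto_ulim (fun k => μ (A k))).congr' ?_
  filter_upwards [h1] with k hk
  rw [hk]

theorem lbFun_union (μ : Measure α) {A B : Set (Lb α)}
    (hA : A ∈ intlSets ‹MeasurableSpace α›) (hB : B ∈ intlSets ‹MeasurableSpace α›)
    (hd : Disjoint A B) : lbFun μ (A ∪ B) = lbFun μ A + lbFun μ B := by
  obtain ⟨A, hA, rfl⟩ := hA
  obtain ⟨B, hB, rfl⟩ := hB
  rw [← intl_union, lbFun_intl μ hA, lbFun_intl μ hB, lbFun_intl μ (fun k => (hA k).union (hB k))]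
  apply ulim_eq
  refine ((tendsto_ulim (fun k => μ (A k))).add (tendsto_ulim (fun k => μ (B k)))).congr' ?_
  have h1 : intl (fun k => A k ∩ B k) = intl (fun _ => ∅) := by
    rw [intl_inter, intl_empty]; exact hd.inter_eq
  rw [intl_eq_iff] at h1
  filter_upwards [h1] with k hk
  rw [measure_union (disjoint_iff_inter_eq_empty.2 hk) (hB k)]

/-- The Loeb content as an `AddContent`. -/
noncomputable def lbContent (μ : Measure α) :
    AddContent ℝ≥0∞ (intlSets ‹MeasurableSpace α›) :=
  (isSetRing_intlSets _).addContent_of_union (lbFun μ)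
    (by
      have := lbFun_intl μ (A := fun _ => (∅ : Set α)) (fun _ => MeasurableSet.empty)
      rw [intl_empty] at this
      rw [this]
      apply ulim_eq
      simp)
    (fun {s t} hs ht hd => lbFun_union μ hs ht hd)

theorem lbContent_intl (μ : Measure α) {A : ℕ → Set α} (hA : ∀ k, MeasurableSet (A k)) :
    lbContent μ (intl A) = ulim (fun k => μ (A k)) := lbFun_intl μ hA

theorem lbContent_subadd (μ : Measure α) : (lbContent μ).IsSigmaSubadditive := by
  intro f hf hmem
  choose A hA hfA using hf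
  obtain ⟨B, hB, hBe⟩ := hmem
  have hcov : intl B ⊆ ⋃ n, intl (A n) := by
    rw [← hBe]
    exact iUnion_mono (fun n => (hfA n).le)
  obtain ⟨N, hN⟩ := intl_finite_subcover hcov
  rw [hBe]
  have h1 : (intl B : Set (Lb α)) ∈ intlSets ‹MeasurableSpace α› := ⟨B, hB, rfl⟩
  have h2 : ∀ n, (intl (A n) : Set (Lb α)) ∈ intlSets ‹MeasurableSpace α› :=
    fun n => ⟨A n, hA n, rfl⟩
  have hring := isSetRing_intlSets (‹MeasurableSpace α›)
  calc lbContent μ (intl B) ≤ lbContent μ (⋃ n ∈ Finset.range N, intl (A n)) :=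
        addContent_mono hring.isSetSemiring h1
          (hring.biUnion_mem _ (fun n _ => h2 n)) hN
    _ ≤ ∑ n ∈ Finset.range N, lbContent μ (intl (A n)) :=
        addContent_biUnion_le hring (fun n _ => h2 n)
    _ ≤ ∑' n, lbContent μ (intl (A n)) := ENNReal.sum_le_tsum _
    _ = ∑' n, lbContent μ (f n) := by simp_rw [← hfA]

/-- **The Loeb measure.** -/
noncomputable def lb (μ : Measure α) : Measure (Lb α) :=
  (lbContent μ).measure (isSetRing_intlSets _).isSetSemiring le_rfl (lbContent_subadd μ)

theorem lb_intl (μ : Measure α) {A : ℕ → Set α} (hA : ∀ k, MeasurableSet (A k)) :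
    lb μ (intl A) = ulim (fun k => μ (A k)) := by
  have hmem : intl A ∈ intlSets ‹MeasurableSpace α› := ⟨A, hA, rfl⟩
  have := AddContent.measure_eq (lbContent μ) (isSetRing_intlSets _).isSetSemiring rfl
    (lbContent_subadd μ) hmem
  rw [← lbContent_intl μ hA]
  exact this

theorem tendsto_lb_intl (μ : Measure α) {A : ℕ → Set α} (hA : ∀ k, MeasurableSet (A k)) :
    Tendsto (fun k => μ (A k)) (UU : Filter ℕ) (𝓝 (lb μ (intl A))) := by
  rw [lb_intl μ hA]; exact tendsto_ulim _

instance (μ : Measure α) [IsProbabilityMeasure μ] : IsProbabilityMeasure (lb μ) where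
  measure_univ := by
    have := lb_intl μ (A := fun _ => (univ : Set α)) (fun _ => MeasurableSet.univ)
    rw [intl_univ] at this
    rw [this]
    apply ulim_eq
    simp

end measure

end Crest.Agent.R069
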