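import Crest.Agent.R069.LoebInt

/-!
# Lifting theorems for the Loeb space (row 69)

* every `LL m`-measurable set is a.e. equal to an internal set with `m`-measurable entries;
* every bounded `LL m`-measurable real function is a.e. the standard part of a bounded internal
  function with `m`-measurable entries (same bound).
-/

set_option autoImplicit false

open MeasureTheory Filter Set
open scoped ENNReal Topology

namespace Crest.Agent.R069

/-- `B` is a.e. equal to an internal set with `m`-measurable entries. -/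
def SetLift {α : Type*} (m : MeasurableSpace α) {mα : MeasurableSpace α} (μ : Measure α)
    (B : Set (Lb α)) : Prop :=
  ∃ A : ℕ → Set α, (∀ k, MeasurableSet[m] (A k)) ∧ B =ᵐ[lb μ] intl A

section lift

variable {α : Type*} {m : MeasurableSpace α} {mα : MeasurableSpace α} {μ : Measure α}
  [IsProbabilityMeasure μ]

omit [IsProbabilityMeasure μ] in
theorem setLift_intl {A : ℕ → Set α} (hA : ∀ k, MeasurableSet[m] (A k)) :
    SetLift m μ (intl A) := ⟨A, hA, EventuallyEq.rfl⟩

omit [IsProbabilityMeasure μ] in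
theorem SetLift.compl {B : Set (Lb α)} (h : SetLift m μ B) : SetLift m μ Bᶜ := by
  obtain ⟨A, hA, hB⟩ := h
  refine ⟨fun k => (A k)ᶜ, fun k => (hA k).compl, ?_⟩
  rw [intl_compl]
  exact hB.compl

/-- An increasing union of internal sets is a.e. internal. -/
theorem exists_intl_iUnion (hm : m ≤ mα) {A : ℕ → ℕ → Set α}
    (hA : ∀ n k, MeasurableSet[m] (A n k)) (hmono : ∀ k, Monotone (fun n => A n k)) :
    ∃ D : ℕ → Set α, (∀ k, MeasurableSet[m] (D k)) ∧ (⋃ n, intl (A n)) =ᵐ[lb μ] intl D := by
  classical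
  set p : ℕ → ℝ≥0∞ := fun n => lb μ (intl (A n)) with hp
  have hAm : ∀ n k, MeasurableSet (A n k) := fun n k => hm _ (hA n k)
  -- the good indices
  let P : ℕ → ℕ → Prop := fun k n => ∀ j ≤ n, μ (A j k) ≤ p j + 1 / ((j : ℝ≥0∞) + 1)
  let N : ℕ → ℕ := fun k => Nat.findGreatest (P k) k
  have hgood : ∀ n, ∀ᶠ k in (UU : Filter ℕ), n ≤ k ∧ P k n := by
    intro n
    refine (eventually_UU_of_atTop (eventually_ge_atTop n)).and ?_
    have : ∀ᶠ k in (UU : Filter ℕ), ∀ j ∈ Finset.range (n + 1),
        μ (A j k) ≤ p j + 1 / ((j : ℝ≥0∞) + 1) := by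
      rw [Filter.eventually_all_finset]
      intro j _
      have ht := tendsto_lb_intl μ (hAm j)
      have hlt : lb μ (intl (A j)) < p j + 1 / ((j : ℝ≥0∞) + 1) := by
        apply ENNReal.lt_add_right (measure_ne_top _ _)
        simp
      filter_upwards [ht.eventually (gt_mem_nhds hlt)] with k hk using hk.le
    filter_upwards [this] with k hk j hj
    exact hk j (Finset.mem_range.2 (by omega))
  have hN : ∀ n, ∀ᶠ k in (UU : Filter ℕ), n ≤ N k := by
    intro n
    filter_upwards [hgood n] with k hk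
    exact Nat.le_findGreatest hk.1 hk.2
  have hNP : ∀ᶠ k in (UU : Filter ℕ), P k (N k) := by
    filter_upwards [hgood 0] with k hk
    exact Nat.findGreatest_spec (P := P k) (Nat.zero_le k) hk.2
  refine ⟨fun k => A (N k) k, fun k => hA (N k) k, ?_⟩
  set D : ℕ → Set α := fun k => A (N k) k with hD
  have hDm : ∀ k, MeasurableSet (D k) := fun k => hAm _ _
  have hsub : (⋃ n, intl (A n)) ⊆ intl D := by
    apply iUnion_subset
    intro n
    rw [intl_subset_iff]
    filter_upwards [hN n] with k hk
    exact hmono k hk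
  have hmonoI : Monotone (fun n => intl (A n)) := by
    intro i j hij
    show intl (A i) ⊆ intl (A j)
    rw [intl_subset_iff]
    exact Eventually.of_forall (fun k => hmono k hij)
  have hle : lb μ (intl D) ≤ lb μ (⋃ n, intl (A n)) := by
    have hle1 : ∀ n : ℕ, lb μ (intl D) ≤ lb μ (⋃ n, intl (A n)) + 1 / ((n : ℝ≥0∞) + 1) := by
      intro n
      refine le_of_tendsto (tendsto_lb_intl μ hDm) ?_
      filter_upwards [hNP, hN n] with k h1 h2
      refine (h1 (N k) le_rfl).trans ?_
      gcongr
      · exact measure_mono (subset_iUnion (fun n => intl (A n)) (N k))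
    have ht : Tendsto (fun n : ℕ => lb μ (⋃ n, intl (A n)) + 1 / ((n : ℝ≥0∞) + 1)) atTop
        (𝓝 (lb μ (⋃ n, intl (A n)) + 0)) := by
      refine tendsto_const_nhds.add ?_
      have h1 : Tendsto (fun n : ℕ => ((n + 1 : ℕ) : ℝ≥0∞)⁻¹) atTop (𝓝 0) :=
        (tendsto_add_atTop_iff_nat 1).2 ENNReal.tendsto_inv_nat_nhds_zero
      refine h1.congr (fun n => ?_)
      rw [one_div]; push_cast; rfl
    rw [add_zero] at ht
    exact ge_of_tendsto' ht hle1
  have hmeasU : MeasurableSet (⋃ n, intl (A n)) :=
    MeasurableSet.iUnion (fun n => measurableSet_intl (hAm n))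
  exact (ae_eq_of_subset_of_measure_ge hsub hle hmeasU.nullMeasurableSet (measure_ne_top _ _))

/-- **Set lifting.** -/
theorem setLift_of_measurable (hm : m ≤ mα) {B : Set (Lb α)} (hB : MeasurableSet[LL m] B) :
    SetLift m μ B := by
  induction hB with
  | basic u hu =>
    obtain ⟨A, hA, rfl⟩ := hu
    exact setLift_intl hA
  | empty => exact ⟨fun _ => ∅, fun _ => @MeasurableSet.empty _ m, by simp⟩
  | compl t _ h => exact h.compl
  | iUnion f _ h =>
    choose A hA hfA using h
    obtain ⟨D, hD, hDe⟩ := exists_intl_iUnion (μ := μ) hm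
      (A := fun n k => ⋃ j ∈ Finset.range (n + 1), A j k)
      (fun n k => Finset.measurableSet_biUnion _ (fun j _ => hA j k))
      (fun k n n' hnn' => by
        apply biUnion_subset_biUnion_left
        intro j hj
        simp only [Finset.coe_range, mem_Iio] at hj ⊢
        omega)
    refine ⟨D, hD, ?_⟩
    have h1 : (⋃ n, f n) =ᵐ[lb μ] ⋃ n, intl (A n) := Filter.EventuallyEq.countable_iUnion hfA
    refine h1.trans (EventuallyEq.trans ?_ hDe)
    have h2 : (⋃ n, intl (fun k => ⋃ j ∈ Finset.range (n + 1), A j k)) = ⋃ n, intl (A n) := by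
      apply Subset.antisymm
      · apply iUnion_subset
        intro n x hx
        have hx' : ∀ᶠ k in (UU : Filter ℕ), ∃ j ∈ Finset.range (n + 1), x k ∈ A j k := by
          filter_upwards [hx] with k hk
          simpa using hk
        have hfin : ∃ j ∈ Finset.range (n + 1), ∀ᶠ k in (UU : Filter ℕ), x k ∈ A j k := by
          by_contra hcon
          push Not at hcon
          have h3 : ∀ j ∈ Finset.range (n + 1), ∀ᶠ k in (UU : Filter ℕ), x k ∉ A j k := by
            intro j hj
            exact hcon j hj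
          rw [← Filter.eventually_all_finset] at h3
          obtain ⟨k, hk1, hk2⟩ := (h3.and hx').exists
          obtain ⟨j, hj, hxj⟩ := hk2
          exact hk1 j hj hxj
        obtain ⟨j, _, hj⟩ := hfin
        exact mem_iUnion.2 ⟨j, hj⟩
      · apply iUnion_subset
        intro n
        refine Subset.trans ?_ (subset_iUnion _ n)
        rw [intl_subset_iff]
        refine Eventually.of_forall (fun k => ?_)
        exact subset_biUnion_of_mem (u := fun j => A j k) (x := n)
          (by simp)
    exact Eq.eventuallyEq h2.symm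

/-- truncation of a real number to `[-C, C]` -/
noncomputable def cl (C y : ℝ) : ℝ := max (-C) (min C y)

theorem abs_cl_le {C : ℝ} (hC : 0 ≤ C) (y : ℝ) : |cl C y| ≤ C := by
  unfold cl
  rw [abs_le]
  constructor
  · exact le_max_left _ _
  · exact max_le (by linarith) (min_le_left _ _)

theorem cl_of_abs_le {C y : ℝ} (h : |y| ≤ C) : cl C y = y := by
  unfold cl
  rw [abs_le] at h
  rw [min_eq_right h.2, max_eq_right h.1]

theorem continuous_cl (C : ℝ) : Continuous (cl C) := by
  unfold cl
  exact continuous_const.max (continuous_const.min continuous_id)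

theorem measurable_cl (C : ℝ) : Measurable (cl C) := (continuous_cl C).measurable

/-- `g` is a.e. the standard part of a bounded internal function with `m`-measurable entries. -/
def FunLift {α : Type*} (m : MeasurableSpace α) {mα : MeasurableSpace α} (μ : Measure α)
    (C : ℝ) (g : Lb α → ℝ) : Prop :=
  ∃ f : ℕ → α → ℝ, BM m f C ∧ g =ᵐ[lb μ] st f

omit [IsProbabilityMeasure μ] in
theorem FunLift.clip {C C' : ℝ} (hC : 0 ≤ C) {g : Lb α → ℝ} (h : FunLift m μ C' g)
    (hg : ∀ᵐ x ∂(lb μ), |g x| ≤ C) : FunLift m μ C g := by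
  obtain ⟨f, hf, hgf⟩ := h
  refine ⟨fun k x => cl C (f k x), ⟨fun k => ?_, fun k x => abs_cl_le hC _⟩, ?_⟩
  · exact (measurable_cl C).comp (hf.meas k)
  · rw [st_comp hf.ok (continuous_cl C)]
    filter_upwards [hgf, hg] with x h1 h2
    rw [← h1, cl_of_abs_le h2]

omit [IsProbabilityMeasure μ] in
theorem FunLift.sum {ι : Type*} (s : Finset ι) (c : ι → ℝ) {g : ι → Lb α → ℝ} {C : ι → ℝ}
    (h : ∀ i ∈ s, FunLift m μ (C i) (g i)) :
    FunLift m μ (∑ i ∈ s, |c i| * C i) (fun x => ∑ i ∈ s, c i * g i x) := by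
  classical
  choose! f hf hgf using h
  refine ⟨fun k x => ∑ i ∈ s, c i * f i k x, ⟨fun k => ?_, fun k x => ?_⟩, ?_⟩
  · have hpm : ∀ t : Finset ι, t ⊆ s → Measurable[m] (fun x => ∑ i ∈ t, c i * f i k x) := by
      intro t
      induction t using Finset.induction_on with
      | empty => intro _; simp
      | insert a t ha ih =>
        intro hts
        simp only [Finset.sum_insert ha]
        exact (((hf a (hts (Finset.mem_insert_self _ _))).meas k).const_mul _).add
          (ih (fun i hi => hts (Finset.mem_insert_of_mem hi)))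
    exact hpm s (Finset.Subset.refl _)
  · refine (Finset.abs_sum_le_sum_abs _ _).trans (Finset.sum_le_sum (fun i hi => ?_))
    rw [abs_mul]
    exact mul_le_mul_of_nonneg_left ((hf i hi).bdd k x) (abs_nonneg _)
  · have h1 : st (fun k x => ∑ i ∈ s, c i * f i k x) = fun x => ∑ i ∈ s, c i * st (f i) x := by
      funext x
      exact st_eq (tendsto_finsetSum _ (fun i hi => ((hf i hi).ok x).const_mul (c i)))
    rw [h1]
    have h2 : ∀ᵐ x ∂(lb μ), ∀ i ∈ s, g i x = st (f i) x :=
      (ae_ball_iff s.countable_toSet).2 (fun i hi => hgf i hi)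
    filter_upwards [h2] with x hx
    exact Finset.sum_congr rfl (fun i hi => by rw [hx i hi])

theorem funLift_indicator (hm : m ≤ mα) {B : Set (Lb α)} (hB : MeasurableSet[LL m] B) :
    FunLift m μ 1 (B.indicator (fun _ => (1 : ℝ))) := by
  obtain ⟨A, hA, hBA⟩ := setLift_of_measurable (μ := μ) hm hB
  refine ⟨fun k => (A k).indicator (fun _ => (1 : ℝ)), ⟨fun k => ?_, fun k x => ?_⟩, ?_⟩
  · exact measurable_const.indicator (hA k)
  · by_cases hx : x ∈ A k
    · rw [indicator_of_mem hx]; simp
    · rw [indicator_of_notMem hx]; simp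
  · rw [st_indicator A (f := fun _ _ => (1 : ℝ)) (stOK_of_bdd (C := 1) (by simp)), st_const]
    exact indicator_ae_eq_of_ae_eq_set hBA

/-- Finite valued functions lift. -/
theorem funLift_step (hm : m ≤ mα) (s : Finset ℤ) (c : ℤ → ℝ) {q : Lb α → ℤ}
    (hq : Measurable[LL m] q) (hs : ∀ x, q x ∈ s) :
    ∃ C, FunLift m μ C (fun x => c (q x)) := by
  classical
  refine ⟨∑ i ∈ s, |c i| * 1, ?_⟩
  have h1 : (fun x => c (q x)) = fun x => ∑ j ∈ s, c j * (q ⁻¹' {j}).indicator (fun _ => (1 : ℝ)) x := by
    funext x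
    rw [Finset.sum_eq_single_of_mem _ (hs x)]
    · have : x ∈ q ⁻¹' {q x} := rfl
      rw [indicator_of_mem this, mul_one]
    · intro j _ hj
      have : x ∉ q ⁻¹' {j} := fun hx => hj (by simpa using hx.symm)
      rw [indicator_of_notMem this, mul_zero]
  rw [h1]
  exact FunLift.sum s c (C := fun _ => 1)
    (fun j _ => funLift_indicator hm (hq (measurableSet_singleton j)))

/-- **Function lifting.** Every bounded `LL m`-measurable function is a.e. the standard part of an
internal function with `m`-measurable entries and the same bound. -/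
theorem funLift_of_measurable (hm : m ≤ mα) {g : Lb α → ℝ} (hg : Measurable[LL m] g) {C : ℝ}
    (hb : ∀ x, |g x| ≤ C) : FunLift m μ C g := by
  have hne : Nonempty (Lb α) := by
    have : (lb μ) univ ≠ 0 := by simp
    exact (nonempty_of_measure_ne_zero this).to_type
  have hC : 0 ≤ C := (abs_nonneg _).trans (hb (Classical.arbitrary _))
  -- dyadic approximations
  set q : ℕ → Lb α → ℤ := fun n x => ⌊(2 : ℝ) ^ n * g x⌋ with hq
  have hqm : ∀ n, Measurable[LL m] (q n) := fun n =>
    Int.measurable_floor.comp (hg.const_mul _)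
  set G : ℕ → Lb α → ℝ := fun n x => (q n x : ℝ) / 2 ^ n with hG
  have hGg : ∀ n x, |g x - G n x| ≤ 1 / 2 ^ n := by
    intro n x
    have h2 := Int.floor_le ((2 : ℝ) ^ n * g x)
    have h3 := Int.lt_floor_add_one ((2 : ℝ) ^ n * g x)
    have hpos : (0 : ℝ) < 2 ^ n := by positivity
    have h4 : g x - G n x = ((2 : ℝ) ^ n * g x - ⌊(2 : ℝ) ^ n * g x⌋) / 2 ^ n := by
      simp only [hG, hq]; field_simp
    rw [h4, abs_of_nonneg (div_nonneg (by linarith) hpos.le)]
    gcongr
    linarith
  have hfin : ∀ n, ∃ s : Finset ℤ, ∀ x, q n x ∈ s := by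
    intro n
    obtain ⟨M, hM⟩ := exists_nat_gt ((2 : ℝ) ^ n * C + 1)
    refine ⟨Finset.Icc (-(M : ℤ)) (M : ℤ), fun x => ?_⟩
    have h2 : |(2 : ℝ) ^ n * g x| ≤ (2 : ℝ) ^ n * C := by
      rw [abs_mul, abs_of_pos (by positivity : (0 : ℝ) < 2 ^ n)]
      have := hb x
      gcongr
    rw [abs_le] at h2
    rw [Finset.mem_Icc]
    constructor
    · show -(M : ℤ) ≤ ⌊(2 : ℝ) ^ n * g x⌋
      rw [Int.le_floor]
      push_cast
      linarith [h2.1]
    · have h3 : ((⌊(2 : ℝ) ^ n * g x⌋ : ℤ) : ℝ) ≤ ((M : ℤ) : ℝ) := by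
        have := Int.floor_le ((2 : ℝ) ^ n * g x)
        push_cast
        linarith [h2.2]
      exact Int.cast_le.1 h3
  have hGlift : ∀ n, ∃ C', FunLift m μ C' (G n) := by
    intro n
    obtain ⟨s, hs⟩ := hfin n
    exact funLift_step hm s (fun j => (j : ℝ) / 2 ^ n) (hqm n) hs
  -- the differences
  have hdlift : ∀ n, FunLift m μ (2 / 2 ^ n) (fun x => G (n + 1) x - G n x) := by
    intro n
    obtain ⟨C1, h1⟩ := hGlift (n + 1)
    obtain ⟨C2, h2⟩ := hGlift n
    have h3 : FunLift m μ (C1 + C2) (fun x => G (n + 1) x - G n x) := by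
      obtain ⟨f1, hf1, e1⟩ := h1
      obtain ⟨f2, hf2, e2⟩ := h2
      refine ⟨fun k x => f1 k x - f2 k x, ⟨fun k => (hf1.meas k).sub (hf2.meas k), fun k x => ?_⟩, ?_⟩
      · exact (abs_sub _ _).trans (add_le_add (hf1.bdd k x) (hf2.bdd k x))
      · rw [st_sub hf1.ok hf2.ok]
        filter_upwards [e1, e2] with x h1 h2
        rw [h1, h2]
    refine h3.clip (by positivity) (Eventually.of_forall (fun x => ?_))
    have h4 := hGg (n + 1) x
    have h5 := hGg n x
    have h6 : (1 : ℝ) / 2 ^ (n + 1) ≤ 1 / 2 ^ n := by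
      apply one_div_le_one_div_of_le (by positivity)
      exact pow_le_pow_right₀ (by norm_num) (by omega)
    have h7 : G (n + 1) x - G n x = (g x - G n x) - (g x - G (n + 1) x) := by ring
    rw [h7]
    calc |g x - G n x - (g x - G (n + 1) x)| ≤ |g x - G n x| + |g x - G (n + 1) x| := abs_sub _ _
      _ ≤ 1 / 2 ^ n + 1 / 2 ^ n := add_le_add h5 (h4.trans h6)
      _ = 2 / 2 ^ n := by ring
  obtain ⟨C0, f0, hf0, e0⟩ := hGlift 0
  choose d hd ed using hdlift
  -- the limit of the internal functions
  have hsum : Summable (fun n : ℕ => (2 : ℝ) / 2 ^ n) := by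
    simpa [div_eq_mul_inv] using (summable_geometric_two).mul_left 2
  have hsumk : ∀ k x, Summable (fun n => d n k x) := by
    intro k x
    refine Summable.of_norm_bounded hsum (fun n => ?_)
    rw [Real.norm_eq_abs]; exact (hd n).bdd k x
  set F : ℕ → α → ℝ := fun k x => f0 k x + ∑' n, d n k x with hF
  have hFb : ∀ k x, |F k x| ≤ C0 + ∑' n : ℕ, (2 : ℝ) / 2 ^ n := by
    intro k x
    refine (abs_add_le _ _).trans (add_le_add (hf0.bdd k x) ?_)
    have := tsum_of_norm_bounded hsum.hasSum (f := fun n => d n k x)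
      (fun n => by rw [Real.norm_eq_abs]; exact (hd n).bdd k x)
    rwa [Real.norm_eq_abs] at this
  have hFm : ∀ k, Measurable[m] (F k) := by
    intro k
    refine (hf0.meas k).add ?_
    have hpt : ∀ x, Tendsto (fun N => ∑ n ∈ Finset.range N, d n k x) atTop
        (𝓝 (∑' n, d n k x)) := fun x => (hsumk k x).hasSum.tendsto_sum_nat
    have hpm : ∀ N, Measurable[m] (fun x => ∑ n ∈ Finset.range N, d n k x) := by
      intro N
      induction N with
      | zero => simp
      | succ N ih =>
        simp only [Finset.sum_range_succ]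
        exact ih.add ((hd N).meas k)
    refine @measurable_of_tendsto_metrizable _ _ m _ _ _ _ _ _ hpm ?_
    rw [tendsto_pi_nhds]
    exact hpt
  have hFBM : BM m F (C0 + ∑' n : ℕ, (2 : ℝ) / 2 ^ n) := ⟨hFm, hFb⟩
  have hfinal : FunLift m μ (C0 + ∑' n : ℕ, (2 : ℝ) / 2 ^ n) g := by
    refine ⟨F, hFBM, ?_⟩
    have hall : ∀ᵐ x ∂(lb μ), ∀ n, G (n + 1) x - G n x = st (d n) x :=
      ae_all_iff.2 ed
    filter_upwards [e0, hall] with x h0 hn
    -- partial sums
    have hpart : ∀ N, |st F x - G N x| ≤ ∑' n : ℕ, (2 : ℝ) / 2 ^ (n + N) := by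
      intro N
      have hGN : G N x = st f0 x + ∑ n ∈ Finset.range N, st (d n) x := by
        have : G N x = G 0 x + ∑ n ∈ Finset.range N, (G (n + 1) x - G n x) := by
          rw [Finset.sum_range_sub (fun n => G n x)]; ring
        rw [this, h0]
        congr 1
        exact Finset.sum_congr rfl (fun n _ => hn n)
      have hstN : st (fun k y => f0 k y + ∑ n ∈ Finset.range N, d n k y) x
          = st f0 x + ∑ n ∈ Finset.range N, st (d n) x := by
        exact st_eq ((hf0.ok x).add (tendsto_finsetSum _ (fun n _ => (hd n).ok x)))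
      rw [hGN, ← hstN]
      have hok2 : StOK (fun k y => f0 k y + ∑ n ∈ Finset.range N, d n k y) := by
        intro y
        have : st (fun k y => f0 k y + ∑ n ∈ Finset.range N, d n k y) y
          = st f0 y + ∑ n ∈ Finset.range N, st (d n) y :=
            st_eq ((hf0.ok y).add (tendsto_finsetSum _ (fun n _ => (hd n).ok y)))
        rw [this]
        exact (hf0.ok y).add (tendsto_finsetSum _ (fun n _ => (hd n).ok y))
      have := norm_st_sub_le (ε := ∑' n : ℕ, (2 : ℝ) / 2 ^ (n + N)) hFBM.ok hok2 (x := x)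
        (Eventually.of_forall (fun k => by
          have h1 : F k (x k) - (f0 k (x k) + ∑ n ∈ Finset.range N, d n k (x k))
              = ∑' n, d (n + N) k (x k) := by
            simp only [hF]
            rw [← (hsumk k (x k)).sum_add_tsum_nat_add N]
            ring
          rw [h1]
          exact tsum_of_norm_bounded ((summable_nat_add_iff N).2 hsum).hasSum
            (fun n => by rw [Real.norm_eq_abs]; exact (hd (n + N)).bdd k (x k))))
      rwa [Real.norm_eq_abs] at this
    have htail : Tendsto (fun N => ∑' n : ℕ, (2 : ℝ) / 2 ^ (n + N)) atTop (𝓝 0) :=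
      tendsto_sum_nat_add (fun n : ℕ => (2 : ℝ) / 2 ^ n)
    have hGt : Tendsto (fun N => G N x) atTop (𝓝 (g x)) := by
      rw [tendsto_iff_dist_tendsto_zero]
      refine squeeze_zero (fun _ => dist_nonneg) (fun N => ?_)
        (g := fun N : ℕ => (1 : ℝ) / 2 ^ N) ?_
      · rw [dist_comm, Real.dist_eq]; exact hGg N x
      · have := tendsto_pow_atTop_nhds_zero_of_lt_one (r := (1 / 2 : ℝ)) (by norm_num) (by norm_num)
        refine this.congr (fun N => ?_)
        rw [one_div_pow]
    have h8 : Tendsto (fun N => G N x) atTop (𝓝 (st F x)) := by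
      rw [tendsto_iff_dist_tendsto_zero]
      refine squeeze_zero (fun _ => dist_nonneg) (fun N => ?_) htail
      rw [dist_comm, Real.dist_eq]; exact hpart N
    exact tendsto_nhds_unique hGt h8
  exact hfinal.clip hC (Eventually.of_forall hb)

end lift

end Crest.Agent.R069
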