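import Mathlib

set_option autoImplicit false
open MeasureTheory ProbabilityTheory Filter Topology

namespace Crest.Agent.R069.MCB

/-! ## Row 69: multilinear Claim B (helper318, note 12146). -/

section aux

variable {Ω : Type*} {mX mL mΩ : MeasurableSpace Ω} {μ : Measure Ω} [IsProbabilityMeasure μ]

lemma integrable_bdd {f : Ω → ℝ} (hf : Measurable f) (hb : ∃ C, ∀ x, |f x| ≤ C) :
    Integrable f μ := by
  obtain ⟨C, hC⟩ := hb
  exact Integrable.of_bound hf.aestronglyMeasurable C (Filter.Eventually.of_forall fun x => by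
    simpa [Real.norm_eq_abs] using hC x)

lemma prod_bdd {Λ : Type*} (t : Finset Λ) (f : Λ → Ω → ℝ) (hb : ∀ i, ∃ C, ∀ x, |f i x| ≤ C) :
    ∃ C, ∀ x, |∏ i ∈ t, f i x| ≤ C := by
  classical
  induction t using Finset.induction_on with
  | empty => exact ⟨1, fun x => by simp⟩
  | insert a t ha ih =>
    obtain ⟨C, hC⟩ := ih
    obtain ⟨D, hD⟩ := hb a
    refine ⟨D * C, fun x => ?_⟩
    rw [Finset.prod_insert ha, abs_mul]
    exact mul_le_mul (hD x) (hC x) (abs_nonneg _) ((abs_nonneg _).trans (hD x))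

/-- extreme points: a function of real variables which is affine in each variable is dominated on the cube
by its values at sign vectors. -/
lemma exists_sign {W : Type*} [Fintype W] [DecidableEq W] (F : (W → ℝ) → ℝ)
    (hF : ∀ g w, ∃ A B : ℝ, ∀ x, F (Function.update g w x) = A + B * x)
    (g : W → ℝ) (hg : ∀ w, |g w| ≤ 1) :
    ∃ ε : W → Bool, F g ≤ F (fun w => if ε w then 1 else -1) := by
  classical
  have key : ∀ s : Finset W, ∃ g' : W → ℝ, (∀ w ∈ s, g' w = 1 ∨ g' w = -1) ∧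
      (∀ w, |g' w| ≤ 1) ∧ F g ≤ F g' := by
    intro s
    induction s using Finset.induction_on with
    | empty => exact ⟨g, by simp, hg, le_rfl⟩
    | insert a s ha ih =>
      obtain ⟨g', h1, h2, h3⟩ := ih
      obtain ⟨A, B, hAB⟩ := hF g' a
      have h0 : F g' = A + B * g' a := by
        rw [← hAB (g' a), Function.update_eq_self]
      have hb := abs_le.1 (h2 a)
      rcases le_total 0 B with hB | hB
      · refine ⟨Function.update g' a 1, ?_, ?_, ?_⟩
        · intro w hw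
          by_cases hwa : w = a
          · subst hwa; simp
          · rw [Function.update_of_ne hwa]
            exact h1 w ((Finset.mem_insert.1 hw).resolve_left hwa)
        · intro w
          by_cases hwa : w = a
          · subst hwa; simp
          · rw [Function.update_of_ne hwa]; exact h2 w
        · refine h3.trans ?_
          rw [h0, hAB]
          nlinarith
      · refine ⟨Function.update g' a (-1), ?_, ?_, ?_⟩
        · intro w hw
          by_cases hwa : w = a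
          · subst hwa; simp
          · rw [Function.update_of_ne hwa]
            exact h1 w ((Finset.mem_insert.1 hw).resolve_left hwa)
        · intro w
          by_cases hwa : w = a
          · subst hwa; simp
          · rw [Function.update_of_ne hwa]; exact h2 w
        · refine h3.trans ?_
          rw [h0, hAB]
          nlinarith
  obtain ⟨g', h1, -, h3⟩ := key Finset.univ
  refine ⟨fun w => decide (g' w = 1), h3.trans (le_of_eq ?_)⟩
  congr 1
  funext w
  rcases h1 w (Finset.mem_univ w) with h | h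
  · simp [h]
  · have : g' w ≠ 1 := by rw [h]; norm_num
    simp [h]

/-- convexity of `exp` on the segment `[-h, h]`. -/
lemma exp_mul_le (h β : ℝ) (hβ : |β| ≤ 1) :
    Real.exp (h * β) ≤ (1 + β) / 2 * Real.exp h + (1 - β) / 2 * Real.exp (-h) := by
  have hb := abs_le.1 hβ
  have hc := convexOn_exp.2 (Set.mem_univ h) (Set.mem_univ (-h))
    (show (0:ℝ) ≤ (1 + β) / 2 by linarith) (show (0:ℝ) ≤ (1 - β) / 2 by linarith) (by ring)
  simp only [smul_eq_mul] at hc
  refine le_trans (le_of_eq ?_) hc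
  congr 1; ring

/-- exponential moment: coefficients `β` from an independent sigma-algebra can be replaced by signs. -/
lemma exp_moment_le {Λ : Type*} [Fintype Λ] [DecidableEq Λ] (hX : mX ≤ mΩ)
    (hL : mL ≤ mΩ) (hind : Indep mX mL μ) (h β : Λ → Ω → ℝ) (hh : ∀ i, Measurable[mX] (h i))
    (hhb : ∀ i x, |h i x| ≤ 1) (hβ : ∀ i, Measurable[mL] (β i)) (hβb : ∀ i x, |β i x| ≤ 1)
    (lam B : ℝ) (hB : ∀ η : Λ → Bool,
      ∫ x, ∏ i, Real.exp (lam * (if η i then 1 else -1) * h i x) ∂μ ≤ B) :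
    ∫ x, Real.exp (lam * ∑ i, h i x * β i x) ∂μ ≤ B := by
  classical
  -- notation
  set e : Finset Λ → Ω → ℝ := fun s x =>
    (∏ i ∈ s, Real.exp (lam * h i x)) * ∏ i ∈ Finset.univ \ s, Real.exp (-(lam * h i x)) with he
  set w : Finset Λ → Ω → ℝ := fun s x =>
    (∏ i ∈ s, ((1 + β i x) / 2)) * ∏ i ∈ Finset.univ \ s, ((1 - β i x) / 2) with hw
  have hem : ∀ s, Measurable[mX] (e s) := by
    intro s
    refine Measurable.mul ?_ ?_
    · refine Finset.measurable_prod _ fun i _ => ?_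
      exact Real.measurable_exp.comp ((hh i).const_mul lam)
    · refine Finset.measurable_prod _ fun i _ => ?_
      exact Real.measurable_exp.comp ((hh i).const_mul lam).neg
  have hwm : ∀ s, Measurable[mL] (w s) := by
    intro s
    refine Measurable.mul ?_ ?_
    · refine Finset.measurable_prod _ fun i _ => ?_
      exact ((hβ i).const_add 1).div_const 2
    · refine Finset.measurable_prod _ fun i _ => ?_
      exact ((hβ i).const_sub 1).div_const 2
  have hEb : ∀ i, ∃ C, ∀ x, |Real.exp (lam * h i x)| ≤ C := fun i =>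
    ⟨Real.exp |lam|, fun x => by
      rw [abs_of_pos (Real.exp_pos _)]
      apply Real.exp_le_exp.2
      calc lam * h i x ≤ |lam * h i x| := le_abs_self _
        _ = |lam| * |h i x| := abs_mul _ _
        _ ≤ |lam| * 1 := mul_le_mul_of_nonneg_left (hhb i x) (abs_nonneg _)
        _ = |lam| := mul_one _⟩
  have hEb' : ∀ i, ∃ C, ∀ x, |Real.exp (-(lam * h i x))| ≤ C := fun i =>
    ⟨Real.exp |lam|, fun x => by
      rw [abs_of_pos (Real.exp_pos _)]
      apply Real.exp_le_exp.2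
      calc -(lam * h i x) ≤ |lam * h i x| := neg_le_abs _
        _ = |lam| * |h i x| := abs_mul _ _
        _ ≤ |lam| * 1 := mul_le_mul_of_nonneg_left (hhb i x) (abs_nonneg _)
        _ = |lam| := mul_one _⟩
  have heb : ∀ s, ∃ C, ∀ x, |e s x| ≤ C := by
    intro s
    obtain ⟨C, hC⟩ := prod_bdd s (fun i x => Real.exp (lam * h i x)) hEb
    obtain ⟨D, hD⟩ := prod_bdd (Finset.univ \ s) (fun i x => Real.exp (-(lam * h i x))) hEb'
    refine ⟨C * D, fun x => ?_⟩
    rw [he]; simp only [abs_mul]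
    exact mul_le_mul (hC x) (hD x) (abs_nonneg _) ((abs_nonneg _).trans (hC x))
  have hw0 : ∀ s x, 0 ≤ w s x := by
    intro s x
    refine mul_nonneg (Finset.prod_nonneg fun i _ => ?_) (Finset.prod_nonneg fun i _ => ?_)
    · have := abs_le.1 (hβb i x); linarith
    · have := abs_le.1 (hβb i x); linarith
  have hwsum : ∀ x, ∑ s ∈ (Finset.univ : Finset Λ).powerset, w s x = 1 := by
    intro x
    have := Finset.prod_add (fun i => (1 + β i x) / 2) (fun i => (1 - β i x) / 2)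
      (Finset.univ : Finset Λ)
    rw [hw]
    simp only
    rw [← this]
    refine Finset.prod_eq_one fun i _ => ?_
    ring
  have hw1 : ∀ s x, w s x ≤ 1 := by
    intro s x
    rw [← hwsum x]
    exact Finset.single_le_sum (fun t _ => hw0 t x) (Finset.mem_powerset.2 (Finset.subset_univ s))
  have hwb : ∀ s, ∃ C, ∀ x, |w s x| ≤ C := fun s => ⟨1, fun x => by
    rw [abs_of_nonneg (hw0 s x)]; exact hw1 s x⟩
  have hpt : ∀ x, Real.exp (lam * ∑ i, h i x * β i x) ≤
      ∑ s ∈ (Finset.univ : Finset Λ).powerset, e s x * w s x := by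
    intro x
    have h1 : Real.exp (lam * ∑ i, h i x * β i x) = ∏ i, Real.exp ((lam * h i x) * β i x) := by
      rw [← Real.exp_sum, Finset.mul_sum]
      congr 1
      refine Finset.sum_congr rfl fun i _ => by ring
    rw [h1]
    refine (Finset.prod_le_prod (fun i _ => (Real.exp_pos _).le)
      (fun i _ => exp_mul_le (lam * h i x) (β i x) (hβb i x))).trans (le_of_eq ?_)
    rw [Finset.prod_add]
    refine Finset.sum_congr rfl fun s _ => ?_
    rw [he, hw]
    simp only [Finset.prod_mul_distrib]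
    ring
  have hemΩ : ∀ s, Measurable (e s) := fun s => (hem s).mono hX le_rfl
  have hwmΩ : ∀ s, Measurable (w s) := fun s => (hwm s).mono hL le_rfl
  have hei : ∀ s, Integrable (e s) μ := fun s => integrable_bdd (hemΩ s) (heb s)
  have hwi : ∀ s, Integrable (w s) μ := fun s => integrable_bdd (hwmΩ s) (hwb s)
  have hewi : ∀ s, Integrable (fun x => e s x * w s x) μ := by
    intro s
    refine integrable_bdd ((hemΩ s).mul (hwmΩ s)) ?_
    obtain ⟨C, hC⟩ := heb s
    refine ⟨C * 1, fun x => ?_⟩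
    rw [abs_mul]
    refine mul_le_mul (hC x) ?_ (abs_nonneg _) ((abs_nonneg _).trans (hC x))
    rw [abs_of_nonneg (hw0 s x)]; exact hw1 s x
  have hprod : ∀ s, ∫ x, e s x * w s x ∂μ = (∫ x, e s x ∂μ) * ∫ x, w s x ∂μ := by
    intro s
    have hIF : IndepFun (e s) (w s) μ := by
      rw [IndepFun_iff_Indep]
      exact indep_of_indep_of_le_left (indep_of_indep_of_le_right hind (hwm s).comap_le)
        (hem s).comap_le
    exact hIF.integral_fun_mul_eq_mul_integral (hemΩ s).aestronglyMeasurable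
      (hwmΩ s).aestronglyMeasurable
  have heB : ∀ s, ∫ x, e s x ∂μ ≤ B := by
    intro s
    refine le_trans (le_of_eq ?_) (hB (fun i => decide (i ∈ s)))
    congr 1
    funext x
    rw [he]
    simp only [decide_eq_true_eq]
    rw [← Finset.prod_sdiff (Finset.subset_univ s), mul_comm]
    congr 1
    · refine Finset.prod_congr rfl fun i hi => ?_
      have : i ∉ s := (Finset.mem_sdiff.1 hi).2
      simp [this]
    · refine Finset.prod_congr rfl fun i hi => ?_
      simp [hi]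
  have hmexp : Measurable fun x => Real.exp (lam * ∑ i, h i x * β i x) := by
    refine Real.measurable_exp.comp (Measurable.const_mul ?_ lam)
    exact Finset.measurable_sum _ fun i _ => ((hh i).mono hX le_rfl).mul ((hβ i).mono hL le_rfl)
  have hle : ∫ x, Real.exp (lam * ∑ i, h i x * β i x) ∂μ ≤
      ∫ x, ∑ s ∈ (Finset.univ : Finset Λ).powerset, e s x * w s x ∂μ := by
    refine integral_mono_of_nonneg (Filter.Eventually.of_forall fun x => (Real.exp_pos _).le)
      (integrable_finsetSum _ fun s _ => hewi s) (Filter.Eventually.of_forall hpt)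
  refine hle.trans ?_
  rw [integral_finsetSum _ fun s _ => hewi s]
  calc ∑ s ∈ (Finset.univ : Finset Λ).powerset, ∫ x, e s x * w s x ∂μ
      = ∑ s ∈ (Finset.univ : Finset Λ).powerset, (∫ x, e s x ∂μ) * ∫ x, w s x ∂μ :=
        Finset.sum_congr rfl fun s _ => hprod s
    _ ≤ ∑ s ∈ (Finset.univ : Finset Λ).powerset, B * ∫ x, w s x ∂μ := by
        refine Finset.sum_le_sum fun s _ => ?_
        exact mul_le_mul_of_nonneg_right (heB s) (integral_nonneg (hw0 s))
    _ = B * ∫ x, ∑ s ∈ (Finset.univ : Finset Λ).powerset, w s x ∂μ := by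
        rw [integral_finsetSum _ fun s _ => hwi s, Finset.mul_sum]
    _ = B := by
        simp only [hwsum]
        simp

end aux

section main

variable {Ω : Type*} {mX mL mΩ : MeasurableSpace Ω} {μ : Measure Ω} [IsProbabilityMeasure μ]
variable {A : Type*} [AddCommGroup A] {τ : A → Ω → Ω} {ι : Type*} {l : Filter ι}

lemma fin_min {P : Type*} [Finite P] (R : P → ℝ → Prop)
    (mono : ∀ p δ δ', δ' ≤ δ → R p δ → R p δ') (h : ∀ p, ∃ δ > 0, R p δ) : ∃ δ > 0, ∀ p, R p δ := by
  have h1 : ∀ p, ∀ᶠ δ in 𝓝[>] (0:ℝ), R p δ := by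
    intro p
    obtain ⟨δ, hδ, hR⟩ := h p
    filter_upwards [Ioo_mem_nhdsGT hδ] with δ' hδ'
    exact mono p δ δ' hδ'.2.le hR
  have h0 : ∀ᶠ δ in 𝓝[>] (0:ℝ), 0 < δ := self_mem_nhdsWithin
  obtain ⟨δ, hδ, hR⟩ := (h0.and (Filter.eventually_all.2 h1)).exists
  exact ⟨δ, hδ, hR⟩

lemma prod_cons {N : ℕ} {Q : Type*} [Fintype Q] [DecidableEq Q] (F : (Fin (N + 1) → Q) → ℝ) :
    ∏ σ, F σ = ∏ i, ∏ σ' : Fin N → Q, F (Fin.cons i σ') := by
  rw [← (Fin.consEquiv (fun _ : Fin (N + 1) => Q)).prod_comp F, Fintype.prod_prod_type]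
  rfl

omit [IsProbabilityMeasure μ] in
/-- asymptotic independence along a grid of times. -/
lemma approx (hτ0 : ∀ x, τ 0 x = x) (hτadd : ∀ a b x, τ (a + b) x = τ a (τ b x))
    (hτX : ∀ a, Measurable[mX, mX] (τ a)) {q : ℕ} {s : Fin (q + 1) → ι → A}
    (hmix : ∀ f : Fin (q + 1) → Ω → ℝ, (∀ i, Measurable[mX] (f i)) →
      (∀ i, ∃ C, ∀ x, |f i x| ≤ C) →
      Tendsto (fun k => ∫ x, ∏ i, f i (τ (s i k) x) ∂μ) l (𝓝 (∏ i, ∫ x, f i x ∂μ)))
    {P : Type*} [Finite P] (φ : P → Ω → ℝ) (hφ : ∀ p, Measurable[mX] (φ p))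
    (hφb : ∀ p, ∃ C, ∀ x, |φ p x| ≤ C) {K : Set ι} (hK : ∃ᶠ k in l, k ∈ K) (N : ℕ) :
    ∀ δ : ℝ, 0 < δ → ∃ κ : Fin N → ι, (∀ j, κ j ∈ K) ∧
      ∀ p : (Fin N → Fin (q + 1)) → P,
        |∫ x, ∏ σ, φ (p σ) (τ (∑ j, s (σ j) (κ j)) x) ∂μ - ∏ σ, ∫ x, φ (p σ) x ∂μ| < δ := by
  classical
  induction N with
  | zero =>
    intro δ hδ
    refine ⟨Fin.elim0, fun j => j.elim0, fun p => ?_⟩
    simpa [hτ0] using hδ
  | succ N ih =>
    intro δ hδ
    -- choose the precision for the previous levels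
    have h1 : ∃ δ' > 0, ∀ p : (Fin (N + 1) → Fin (q + 1)) → P, ∀ a : Fin (q + 1) → ℝ,
        (∀ i, |a i - ∏ σ' : Fin N → Fin (q + 1), ∫ x, φ (p (Fin.cons i σ')) x ∂μ| < δ') →
        |∏ i, a i - ∏ i, ∏ σ' : Fin N → Fin (q + 1), ∫ x, φ (p (Fin.cons i σ')) x ∂μ| < δ / 2 := by
      refine fin_min _ ?_ ?_
      · intro p δ₁ δ₂ hle hR a ha
        exact hR a fun i => (ha i).trans_le hle
      · intro p
        have hcont : Continuous fun a : Fin (q + 1) → ℝ => ∏ i, a i :=
          continuous_finsetProd _ fun i _ => continuous_apply i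
        obtain ⟨δ', hδ', hR⟩ := Metric.continuous_iff.1 hcont
          (fun i => ∏ σ' : Fin N → Fin (q + 1), ∫ x, φ (p (Fin.cons i σ')) x ∂μ) (δ / 2)
          (half_pos hδ)
        refine ⟨δ', hδ', fun a ha => ?_⟩
        have := hR a ((dist_pi_lt_iff hδ').2 fun i => by rw [Real.dist_eq]; exact ha i)
        rwa [Real.dist_eq] at this
    obtain ⟨δ', hδ', hR⟩ := h1
    obtain ⟨κ', hκ'K, hκ'⟩ := ih δ' hδ'
    set Φ : ((Fin (N + 1) → Fin (q + 1)) → P) → Fin (q + 1) → Ω → ℝ := fun p i x =>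
      ∏ σ' : Fin N → Fin (q + 1), φ (p (Fin.cons i σ')) (τ (∑ j, s (σ' j) (κ' j)) x) with hΦ
    have hΦm : ∀ p i, Measurable[mX] (Φ p i) := by
      intro p i
      exact Finset.measurable_prod _ fun σ' _ => (hφ _).comp (hτX _)
    have hΦb : ∀ p i, ∃ C, ∀ x, |Φ p i x| ≤ C := by
      intro p i
      refine prod_bdd _ (fun σ' x => φ (p (Fin.cons i σ')) (τ (∑ j, s (σ' j) (κ' j)) x)) ?_
      intro σ'
      obtain ⟨C, hC⟩ := hφb (p (Fin.cons i σ'))
      exact ⟨C, fun x => hC _⟩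
    have h2 : ∀ᶠ k in l, ∀ p, |∫ x, ∏ i, Φ p i (τ (s i k) x) ∂μ - ∏ i, ∫ x, Φ p i x ∂μ| < δ / 2 := by
      refine Filter.eventually_all.2 fun p => ?_
      have := hmix (Φ p) (hΦm p) (hΦb p)
      have := Metric.tendsto_nhds.1 this (δ / 2) (half_pos hδ)
      simpa [Real.dist_eq] using this
    obtain ⟨k, hkK, hk⟩ := (hK.and_eventually h2).exists
    refine ⟨Fin.cons k κ', ?_, ?_⟩
    · intro j
      refine Fin.cases ?_ (fun j => ?_) j
      · simpa using hkK
      · simpa using hκ'K j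
    · intro p
      have h3 : ∀ x, ∏ σ, φ (p σ) (τ (∑ j, s (σ j) ((Fin.cons k κ' : Fin (N + 1) → ι) j)) x)
          = ∏ i, Φ p i (τ (s i k) x) := by
        intro x
        rw [prod_cons]
        refine Finset.prod_congr rfl fun i _ => ?_
        rw [hΦ]
        refine Finset.prod_congr rfl fun σ' _ => ?_
        congr 1
        rw [Fin.sum_univ_succ]
        simp only [Fin.cons_zero, Fin.cons_succ]
        rw [add_comm, hτadd]
      simp only [h3]
      rw [prod_cons]
      have h4 := hk p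
      have h5 := hR p (fun i => ∫ x, Φ p i x ∂μ) fun i => hκ' fun σ' => p (Fin.cons i σ')
      rw [abs_lt] at h4 h5 ⊢
      constructor <;> linarith [h4.1, h4.2, h5.1, h5.2]

/-- the affine form along lines is affine in each variable. -/
lemma line_affine {Λ V : Type*} [Fintype Λ] [DecidableEq V] {q : ℕ} (a : Λ → ℝ) (v : Fin q → Λ → V)
    (γ : Fin q × V → ℝ) (w : Fin q × V) : ∃ C D : ℝ, ∀ y : ℝ,
      ∑ ℓ, a ℓ * ∏ i, (Function.update γ w y) (i, v i ℓ) = C + D * y := by
  classical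
  refine ⟨∑ ℓ, if v w.1 ℓ = w.2 then 0 else a ℓ * ∏ i, γ (i, v i ℓ),
    ∑ ℓ, if v w.1 ℓ = w.2 then a ℓ * ∏ i ∈ Finset.univ.erase w.1, γ (i, v i ℓ) else 0, fun y => ?_⟩
  rw [Finset.sum_mul, ← Finset.sum_add_distrib]
  refine Finset.sum_congr rfl fun ℓ _ => ?_
  split_ifs with h
  · rw [← Finset.mul_prod_erase Finset.univ _ (Finset.mem_univ w.1)]
    have h1 : Function.update γ w y (w.1, v w.1 ℓ) = y := by
      rw [h]; simp
    have h2 : ∏ i ∈ Finset.univ.erase w.1, Function.update γ w y (i, v i ℓ)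
        = ∏ i ∈ Finset.univ.erase w.1, γ (i, v i ℓ) := by
      refine Finset.prod_congr rfl fun i hi => ?_
      rw [Function.update_of_ne]
      intro hcon
      exact (Finset.mem_erase.1 hi).1 (by rw [← hcon])
    rw [h1, h2]; ring
  · have h2 : ∏ i, Function.update γ w y (i, v i ℓ) = ∏ i, γ (i, v i ℓ) := by
      refine Finset.prod_congr rfl fun i hi => ?_
      rw [Function.update_of_ne]
      intro hcon
      apply h
      rw [← hcon]
    rw [h2]; ring

lemma zpt_inj {M q : ℕ} : Function.Injective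
    (fun ℓ : Fin (M + 1) × (Fin M → Fin q) =>
      (ℓ.1.insertNth (0 : Fin (q + 1)) (fun j => (ℓ.2 j).succ) : Fin (M + 1) → Fin (q + 1))) := by
  rintro ⟨j, τ'⟩ ⟨j', τ''⟩ h
  simp only at h
  have hj : j = j' := by
    by_contra hne
    have h1 := congrFun h j
    rw [Fin.insertNth_apply_same] at h1
    obtain ⟨i, hi⟩ := Fin.exists_succAbove_eq hne
    rw [← hi, Fin.insertNth_apply_succAbove] at h1
    exact (Fin.succ_ne_zero _) h1.symm
  subst hj
  congr 1
  funext i
  have h1 := congrFun h (j.succAbove i)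
  rw [Fin.insertNth_apply_succAbove, Fin.insertNth_apply_succAbove] at h1
  exact Fin.succ_injective _ h1

/-- The normalised statement. -/
theorem key (hX : mX ≤ mΩ) (hL : mL ≤ mΩ) (hind : Indep mX mL μ)
    (hτ0 : ∀ x, τ 0 x = x) (hτadd : ∀ a b x, τ (a + b) x = τ a (τ b x))
    (hτμ : ∀ a, MeasurePreserving (τ a) μ μ)
    (hτX : ∀ a, Measurable[mX, mX] (τ a)) (hτL : ∀ a, Measurable[mL, mL] (τ a))
    {q : ℕ} (hq : 0 < q) {s : Fin (q + 1) → ι → A}
    (hmix : ∀ f : Fin (q + 1) → Ω → ℝ, (∀ i, Measurable[mX] (f i)) →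
      (∀ i, ∃ C, ∀ x, |f i x| ≤ C) →
      Tendsto (fun k => ∫ x, ∏ i, f i (τ (s i k) x) ∂μ) l (𝓝 (∏ i, ∫ x, f i x ∂μ)))
    {H : Ω → ℝ} (hH : Measurable[mX] H) (hHb : ∀ x, |H x| ≤ 1) (hH0 : ∫ x, H x ∂μ = 0)
    {G : Fin q → Ω → ℝ} (hG : ∀ i, Measurable[mΩ] (G i)) (hGb : ∀ i x, |G i x| ≤ 1)
    {b : ι → Ω → ℝ} (hb : ∀ k, Measurable[mL] (b k)) (hbb : ∀ k x, |b k x| ≤ 1)
    {c : ℝ} (hc : 0 < c)
    (hfreq : ∃ᶠ k in l, c ≤ ∫ x, H (τ (s 0 k) x) * b k x * ∏ i : Fin q, G i (τ (s i.succ k) x) ∂μ) :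
    False := by
  classical
  -- the product of the `G`s is bounded by one
  have hprod1 : ∀ (n : ℕ) (f : Fin n → ℝ), (∀ i, |f i| ≤ 1) → |∏ i, f i| ≤ 1 := by
    intro n f hf
    rw [Finset.abs_prod]
    exact Finset.prod_le_one (fun i _ => abs_nonneg _) fun i _ => hf i
  have hbd3 : ∀ (y z : ℝ) (f : Fin q → ℝ), |y| ≤ 1 → |z| ≤ 1 → (∀ i, |f i| ≤ 1) →
      |y * z * ∏ i, f i| ≤ 1 := by
    intro y z f hy hz hf
    rw [abs_mul, abs_mul]
    calc |y| * |z| * |∏ i, f i| ≤ (1 * 1) * 1 :=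
          mul_le_mul (mul_le_mul hy hz (abs_nonneg _) zero_le_one) (hprod1 q f hf)
            (abs_nonneg _) (by norm_num)
      _ = 1 := by norm_num
  have hτm : ∀ a, Measurable (τ a) := fun a => (hτμ a).measurable
  have hHm : Measurable H := hH.mono hX le_rfl
  have hbm : ∀ k, Measurable (b k) := fun k => (hb k).mono hL le_rfl
  have hJm : ∀ k, Measurable fun x =>
      H (τ (s 0 k) x) * b k x * ∏ i : Fin q, G i (τ (s i.succ k) x) := fun k =>
    ((hHm.comp (hτm _)).mul (hbm k)).mul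
      (Finset.measurable_prod _ fun i _ => (hG i).comp (hτm _))
  have hJb : ∀ k x, |H (τ (s 0 k) x) * b k x * ∏ i : Fin q, G i (τ (s i.succ k) x)| ≤ 1 :=
    fun k x => hbd3 _ _ _ (hHb _) (hbb _ _) fun i => hGb i _
  have hJi : ∀ k, Integrable (fun x =>
      H (τ (s 0 k) x) * b k x * ∏ i : Fin q, G i (τ (s i.succ k) x)) μ := fun k =>
    integrable_bdd (hJm k) ⟨1, hJb k⟩
  have hc1 : c ≤ 1 := by
    obtain ⟨k, hk⟩ := hfreq.exists
    refine hk.trans ?_
    calc ∫ x, H (τ (s 0 k) x) * b k x * ∏ i : Fin q, G i (τ (s i.succ k) x) ∂μ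
        ≤ ∫ _x, (1:ℝ) ∂μ := integral_mono (hJi k) (integrable_const _)
          fun x => (le_abs_self _).trans (hJb k x)
      _ = 1 := by simp
  -- number of levels
  obtain ⟨M, hM⟩ := exists_nat_gt (8 * (q:ℝ) ^ 2 / c ^ 2)
  set lam : ℝ := c / 2 with hlam
  have hlam0 : 0 < lam := by rw [hlam]; linarith
  have hlam1 : lam ≤ 1 := by rw [hlam]; linarith
  -- the functions of `X` used
  set φ : Option Bool → Ω → ℝ := fun o x => match o with
    | none => 1
    | some η => Real.exp (lam * (if η then 1 else -1) * H x) with hφdef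
  have hexpb : ∀ (η : Bool) x, |Real.exp (lam * (if η then 1 else -1) * H x)| ≤ Real.exp 1 := by
    intro η x
    rw [abs_of_pos (Real.exp_pos _)]
    apply Real.exp_le_exp.2
    refine (le_abs_self _).trans ?_
    rw [abs_mul, abs_mul, abs_of_pos hlam0]
    have h1 : |(if η then (1:ℝ) else -1)| = 1 := by split_ifs <;> simp
    rw [h1, mul_one]
    calc lam * |H x| ≤ 1 * 1 := mul_le_mul hlam1 (hHb x) (abs_nonneg _) zero_le_one
      _ = 1 := by norm_num
  have hφm : ∀ p, Measurable[mX] (φ p) := by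
    intro o
    rcases o with _ | η
    · exact measurable_const
    · exact Real.measurable_exp.comp (hH.const_mul _)
  have hφb : ∀ p, ∃ C, ∀ x, |φ p x| ≤ C := by
    intro o
    rcases o with _ | η
    · exact ⟨1, fun x => by simp [hφdef]⟩
    · exact ⟨Real.exp 1, fun x => hexpb η x⟩
  obtain ⟨κ, hκK, hκ⟩ := approx (μ := μ) hτ0 hτadd hτX hmix φ hφm hφb
    (K := {k | c ≤ ∫ x, H (τ (s 0 k) x) * b k x * ∏ i : Fin q, G i (τ (s i.succ k) x) ∂μ}) hfreq
    (M + 1) 1 one_pos
  -- lines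
  let Λ := Fin (M + 1) × (Fin M → Fin q)
  let V := Fin (M + 1) → Fin q
  let z : Λ → (Fin (M + 1) → Fin (q + 1)) := fun ℓ =>
    (ℓ.1.insertNth (0 : Fin (q + 1)) (fun j => (ℓ.2 j).succ) : Fin (M + 1) → Fin (q + 1))
  let v : Fin q → Λ → V := fun i ℓ => (ℓ.1.insertNth i ℓ.2 : Fin (M + 1) → Fin q)
  let t : (Fin (M + 1) → Fin (q + 1)) → A := fun σ => ∑ j, s (σ j) (κ j)
  let r : Λ → A := fun ℓ => ∑ j, s (ℓ.2 j).succ (κ (ℓ.1.succAbove j))
  have htz : ∀ ℓ, t (z ℓ) = s 0 (κ ℓ.1) + r ℓ := by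
    intro ℓ
    show ∑ j, s (z ℓ j) (κ j) = _
    rw [Fin.sum_univ_succAbove _ ℓ.1]
    simp only [z, r, Fin.insertNth_apply_same, Fin.insertNth_apply_succAbove]
  have htv : ∀ i ℓ, t (fun j => (v i ℓ j).succ) = s i.succ (κ ℓ.1) + r ℓ := by
    intro i ℓ
    show ∑ j, s (v i ℓ j).succ (κ j) = _
    rw [Fin.sum_univ_succAbove _ ℓ.1]
    simp only [v, r, Fin.insertNth_apply_same, Fin.insertNth_apply_succAbove]
  -- the random variables
  let h : Λ → Ω → ℝ := fun ℓ x => H (τ (t (z ℓ)) x)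
  let β : Λ → Ω → ℝ := fun ℓ x => b (κ ℓ.1) (τ (r ℓ) x)
  let g : Ω → Fin q × V → ℝ := fun x w => G w.1 (τ (t (fun j => (w.2 j).succ)) x)
  let S : Ω → ℝ := fun x => ∑ ℓ, h ℓ x * β ℓ x * ∏ i, g x (i, v i ℓ)
  have hterm : ∀ ℓ x, h ℓ x * β ℓ x * ∏ i, g x (i, v i ℓ) =
      H (τ (s 0 (κ ℓ.1)) (τ (r ℓ) x)) * b (κ ℓ.1) (τ (r ℓ) x) *
        ∏ i : Fin q, G i (τ (s i.succ (κ ℓ.1)) (τ (r ℓ) x)) := by
    intro ℓ x
    simp only [h, β, g]
    rw [htz]
    simp only [htv, hτadd]
  have hhm : ∀ ℓ, Measurable[mX] (h ℓ) := fun ℓ => hH.comp (hτX _)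
  have hhb : ∀ ℓ x, |h ℓ x| ≤ 1 := fun ℓ x => hHb _
  have hβm : ∀ ℓ, Measurable[mL] (β ℓ) := fun ℓ => (hb _).comp (hτL _)
  have hβb : ∀ ℓ x, |β ℓ x| ≤ 1 := fun ℓ x => hbb _ _
  have hgb : ∀ x w, |g x w| ≤ 1 := fun x w => hGb _ _
  have hgm : ∀ w, Measurable fun x => g x w := fun w => (hG w.1).comp (hτm _)
  have hStb : ∀ ℓ x, |h ℓ x * β ℓ x * ∏ i, g x (i, v i ℓ)| ≤ 1 := fun ℓ x =>
    hbd3 _ _ _ (hhb ℓ x) (hβb ℓ x) fun i => hgb x _
  have hStm : ∀ ℓ, Measurable fun x => h ℓ x * β ℓ x * ∏ i, g x (i, v i ℓ) := fun ℓ =>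
    (((hhm ℓ).mono hX le_rfl).mul ((hβm ℓ).mono hL le_rfl)).mul
      (Finset.measurable_prod _ fun i _ => hgm _)
  have hSti : ∀ ℓ, Integrable (fun x => h ℓ x * β ℓ x * ∏ i, g x (i, v i ℓ)) μ := fun ℓ =>
    integrable_bdd (hStm ℓ) ⟨1, hStb ℓ⟩
  have hSm : Measurable S := Finset.measurable_sum _ fun ℓ _ => hStm ℓ
  have hSb : ∀ x, |S x| ≤ Fintype.card Λ := by
    intro x
    refine (Finset.abs_sum_le_sum_abs _ _).trans ?_
    refine (Finset.sum_le_sum fun ℓ _ => hStb ℓ x).trans (le_of_eq ?_)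
    simp
  have hSi : Integrable S μ := integrable_bdd hSm ⟨_, hSb⟩
  set n : ℝ := (Fintype.card Λ : ℝ) with hn
  have hSint : n * c ≤ ∫ x, S x ∂μ := by
    show n * c ≤ ∫ x, ∑ ℓ, h ℓ x * β ℓ x * ∏ i, g x (i, v i ℓ) ∂μ
    rw [integral_finsetSum _ fun ℓ _ => hSti ℓ]
    have : n * c = ∑ _ℓ : Λ, c := by simp [hn]
    rw [this]
    refine Finset.sum_le_sum fun ℓ _ => ?_
    have h1 : ∫ x, h ℓ x * β ℓ x * ∏ i, g x (i, v i ℓ) ∂μ =
        ∫ x, H (τ (s 0 (κ ℓ.1)) x) * b (κ ℓ.1) x *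
        ∏ i : Fin q, G i (τ (s i.succ (κ ℓ.1)) x) ∂μ := by
      have h2 := integral_map (μ := μ) (φ := τ (r ℓ)) (hτm _).aemeasurable
        (f := fun x => H (τ (s 0 (κ ℓ.1)) x) * b (κ ℓ.1) x *
          ∏ i : Fin q, G i (τ (s i.succ (κ ℓ.1)) x)) (hJm (κ ℓ.1)).aestronglyMeasurable
      rw [(hτμ (r ℓ)).map_eq] at h2
      simp only [hterm]
      exact h2.symm
    rw [h1]
    exact hκK ℓ.1
  -- Jensen
  have hexpS : Real.exp (lam * (n * c)) ≤ ∫ x, Real.exp (lam * S x) ∂μ := by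
    have hexpi : Integrable (fun x => Real.exp (lam * S x)) μ := by
      refine integrable_bdd (Real.measurable_exp.comp (hSm.const_mul lam))
        ⟨Real.exp (lam * n), fun x => ?_⟩
      rw [abs_of_pos (Real.exp_pos _)]
      exact Real.exp_le_exp.2 (mul_le_mul_of_nonneg_left ((le_abs_self _).trans (hSb x)) hlam0.le)
    have h1 : ∀ x, Real.exp (lam * (n * c)) * (1 + (lam * S x - lam * (n * c))) ≤
        Real.exp (lam * S x) := by
      intro x
      have h2 : Real.exp (lam * S x) = Real.exp (lam * (n * c)) *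
          Real.exp (lam * S x - lam * (n * c)) := by
        rw [← Real.exp_add]; congr 1; ring
      rw [h2]
      refine mul_le_mul_of_nonneg_left ?_ (Real.exp_pos _).le
      have := Real.add_one_le_exp (lam * S x - lam * (n * c))
      linarith
    have hi1 : Integrable (fun x => lam * S x - lam * (n * c)) μ :=
      (hSi.const_mul lam).sub (integrable_const _)
    have h2 : ∫ x, Real.exp (lam * (n * c)) * (1 + (lam * S x - lam * (n * c))) ∂μ ≤
        ∫ x, Real.exp (lam * S x) ∂μ := by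
      refine integral_mono ?_ hexpi h1
      exact ((integrable_const _).add hi1).const_mul _
    refine le_trans ?_ h2
    rw [integral_const_mul, integral_add (integrable_const _) hi1,
      integral_sub (hSi.const_mul lam) (integrable_const _), integral_const_mul]
    simp only [integral_const, probReal_univ, one_smul]
    have h3 : lam * (n * c) ≤ lam * ∫ x, S x ∂μ := mul_le_mul_of_nonneg_left hSint hlam0.le
    have h4 := Real.exp_pos (lam * (n * c))
    nlinarith
  -- extreme points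
  let sg : Bool → ℝ := fun ε => if ε then 1 else -1
  have hsg : ∀ ε, |sg ε| = 1 := by
    intro ε; simp only [sg]; split_ifs <;> simp
  let Sε : (Fin q × V → Bool) → Ω → ℝ := fun ε x =>
    ∑ ℓ, h ℓ x * (β ℓ x * ∏ i, sg (ε (i, v i ℓ)))
  have hpt : ∀ x, Real.exp (lam * S x) ≤ ∑ ε, Real.exp (lam * Sε ε x) := by
    intro x
    obtain ⟨ε, hε⟩ := exists_sign
      (fun γ : Fin q × V → ℝ => ∑ ℓ, (h ℓ x * β ℓ x) * ∏ i, γ (i, v i ℓ))
      (fun γ w => line_affine (fun ℓ => h ℓ x * β ℓ x) v γ w) (g x) (hgb x)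
    have h1 : S x ≤ Sε ε x := by
      refine hε.trans (le_of_eq ?_)
      refine Finset.sum_congr rfl fun ℓ _ => ?_
      simp only [sg]
      ring
    refine (Real.exp_le_exp.2 (mul_le_mul_of_nonneg_left h1 hlam0.le)).trans ?_
    exact Finset.single_le_sum (f := fun ε => Real.exp (lam * Sε ε x))
      (fun ε _ => (Real.exp_pos _).le) (Finset.mem_univ ε)
  -- exponential moments
  have hmom : ∀ ε, ∫ x, Real.exp (lam * Sε ε x) ∂μ ≤ Real.exp (lam ^ 2) ^ (Fintype.card Λ) + 1 := by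
    intro ε
    refine exp_moment_le hX hL hind h (fun ℓ x => β ℓ x * ∏ i, sg (ε (i, v i ℓ))) hhm hhb ?_ ?_
      lam _ ?_
    · intro ℓ
      exact (hβm ℓ).mul_const _
    · intro ℓ x
      rw [abs_mul]
      have := hprod1 q (fun i => sg (ε (i, v i ℓ))) fun i => (hsg _).le
      calc |β ℓ x| * |∏ i, sg (ε (i, v i ℓ))| ≤ 1 * 1 :=
            mul_le_mul (hβb ℓ x) this (abs_nonneg _) zero_le_one
        _ = 1 := by norm_num
    · intro η
      let p : (Fin (M + 1) → Fin (q + 1)) → Option Bool :=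
        Function.extend z (fun ℓ => some (η ℓ)) (fun _ => none)
      have hpz : ∀ ℓ, p (z ℓ) = some (η ℓ) := fun ℓ => zpt_inj.extend_apply _ _ _
      have hpn : ∀ σ, σ ∉ z '' (Finset.univ : Finset Λ) → p σ = none := by
        intro σ hσ
        exact Function.extend_apply' _ _ _ fun ⟨ℓ, hℓ⟩ => hσ ⟨ℓ, by simp, hℓ⟩
      have h1 : ∀ x, ∏ ℓ, Real.exp (lam * (if η ℓ then 1 else -1) * h ℓ x) =
          ∏ σ, φ (p σ) (τ (∑ j, s (σ j) (κ j)) x) := by
        intro x
        refine Finset.prod_of_injOn z zpt_inj.injOn (fun _ _ => by simp) ?_ ?_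
        · intro σ _ hσ
          rw [hpn σ hσ]
        · intro ℓ _
          rw [hpz]
      have h2 : ∏ σ, ∫ x, φ (p σ) x ∂μ = ∏ ℓ, ∫ x, φ (some (η ℓ)) x ∂μ := by
        symm
        refine Finset.prod_of_injOn z zpt_inj.injOn (fun _ _ => by simp) ?_ ?_
        · intro σ _ hσ
          rw [hpn σ hσ]
          simp [hφdef]
        · intro ℓ _
          rw [hpz]
      have h3 : ∀ η' : Bool, 0 ≤ ∫ x, φ (some η') x ∂μ ∧ ∫ x, φ (some η') x ∂μ ≤ Real.exp (lam ^ 2) := by
        intro η'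
        refine ⟨integral_nonneg fun x => (Real.exp_pos _).le, ?_⟩
        set lam' : ℝ := lam * (if η' then 1 else -1) with hlam'
        have hl2 : lam' ^ 2 = lam ^ 2 := by
          rw [hlam', mul_pow]; split_ifs <;> simp
        have h4 : ∀ x, φ (some η') x ≤ 1 + lam' * H x + lam ^ 2 := by
          intro x
          have h5 : |lam' * H x| ≤ 1 := by
            rw [abs_mul]
            have : |lam'| = lam := by
              rw [hlam', abs_mul, abs_of_pos hlam0]; split_ifs <;> simp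
            rw [this]
            calc lam * |H x| ≤ 1 * 1 := mul_le_mul hlam1 (hHb x) (abs_nonneg _) zero_le_one
              _ = 1 := by norm_num
          have h6 := (abs_le.1 (Real.abs_exp_sub_one_sub_id_le h5)).2
          have h7 : (lam' * H x) ^ 2 ≤ lam ^ 2 := by
            rw [mul_pow, hl2]
            have : H x ^ 2 ≤ 1 := by
              have := hHb x
              rw [← sq_abs]; exact pow_le_one₀ (abs_nonneg _) this
            nlinarith [sq_nonneg lam]
          show Real.exp (lam' * H x) ≤ _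
          linarith
        have hHi : Integrable H μ := integrable_bdd hHm ⟨1, hHb⟩
        calc ∫ x, φ (some η') x ∂μ ≤ ∫ x, (1 + lam' * H x + lam ^ 2) ∂μ := by
              refine integral_mono (integrable_bdd ((hφm (some η')).mono hX le_rfl)
                (hφb (some η'))) ?_ h4
              exact ((integrable_const _).add (hHi.const_mul _)).add (integrable_const _)
          _ = 1 + lam ^ 2 := by
              have hi2 : Integrable (fun x => 1 + lam' * H x) μ :=
                (integrable_const _).add (hHi.const_mul _)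
              rw [integral_add hi2 (integrable_const _),
                integral_add (integrable_const _) (hHi.const_mul _), integral_const_mul, hH0]
              simp
          _ ≤ Real.exp (lam ^ 2) := by
              have := Real.add_one_le_exp (lam ^ 2)
              linarith
      simp only [h1]
      have h4 := hκ p
      rw [h2] at h4
      have h5 : ∏ ℓ, ∫ x, φ (some (η ℓ)) x ∂μ ≤ Real.exp (lam ^ 2) ^ (Fintype.card Λ) := by
        refine (Finset.prod_le_prod (fun ℓ _ => (h3 _).1) fun ℓ _ => (h3 _).2).trans (le_of_eq ?_)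
        simp [Finset.prod_const, Finset.card_univ]
      have h6 := (abs_lt.1 h4).2
      linarith
  -- conclusion
  have hSεm : ∀ ε, Measurable (Sε ε) := fun ε =>
    Finset.measurable_sum _ fun ℓ _ => ((hhm ℓ).mono hX le_rfl).mul
      (((hβm ℓ).mono hL le_rfl).mul_const _)
  have hSεb : ∀ ε x, |Sε ε x| ≤ n := by
    intro ε x
    refine (Finset.abs_sum_le_sum_abs _ _).trans ?_
    have : n = ∑ _ℓ : Λ, (1:ℝ) := by simp [hn]
    rw [this]
    refine Finset.sum_le_sum fun ℓ _ => ?_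
    rw [abs_mul, abs_mul]
    have := hprod1 q (fun i => sg (ε (i, v i ℓ))) fun i => (hsg _).le
    calc |h ℓ x| * (|β ℓ x| * |∏ i, sg (ε (i, v i ℓ))|) ≤ 1 * (1 * 1) :=
          mul_le_mul (hhb ℓ x) (mul_le_mul (hβb ℓ x) this (abs_nonneg _) zero_le_one)
            (by positivity) zero_le_one
      _ = 1 := by norm_num
  have hSεi : ∀ ε, Integrable (fun x => Real.exp (lam * Sε ε x)) μ := by
    intro ε
    refine integrable_bdd (Real.measurable_exp.comp ((hSεm ε).const_mul lam))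
      ⟨Real.exp (lam * n), fun x => ?_⟩
    rw [abs_of_pos (Real.exp_pos _)]
    exact Real.exp_le_exp.2 (mul_le_mul_of_nonneg_left ((le_abs_self _).trans (hSεb ε x)) hlam0.le)
  have htotal : Real.exp (lam * (n * c)) ≤
      (2:ℝ) ^ (Fintype.card (Fin q × V)) * (Real.exp (lam ^ 2) ^ (Fintype.card Λ) + 1) := by
    refine hexpS.trans ?_
    have h1 : ∫ x, Real.exp (lam * S x) ∂μ ≤ ∫ x, ∑ ε, Real.exp (lam * Sε ε x) ∂μ := by
      refine integral_mono_of_nonneg (Filter.Eventually.of_forall fun x => (Real.exp_pos _).le)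
        (integrable_finsetSum _ fun ε _ => hSεi ε) (Filter.Eventually.of_forall hpt)
    refine h1.trans ?_
    rw [integral_finsetSum _ fun ε _ => hSεi ε]
    refine (Finset.sum_le_sum fun ε _ => hmom ε).trans (le_of_eq ?_)
    rw [Finset.sum_const, Finset.card_univ, Fintype.card_fun, Fintype.card_bool, nsmul_eq_mul]
    push_cast
    ring
  have hcardΛ : (Fintype.card Λ : ℝ) = ((M:ℝ) + 1) * (q:ℝ) ^ M := by
    simp [Λ]
  have hcardW : (Fintype.card (Fin q × V) : ℝ) = (q:ℝ) * (q:ℝ) ^ (M + 1) := by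
    simp [V]
  have hq1 : (1:ℝ) ≤ q := by exact_mod_cast hq
  have hE : Real.exp (lam ^ 2) ^ (Fintype.card Λ) = Real.exp (lam ^ 2 * n) := by
    rw [← Real.exp_nat_mul]; congr 1; rw [hn]; ring
  have hbig : Real.exp (lam * (n * c)) ≤
      Real.exp ((Fintype.card (Fin q × V) : ℝ) + 1 + lam ^ 2 * n) := by
    refine htotal.trans ?_
    rw [hE]
    have h2 : (2:ℝ) ≤ Real.exp 1 := by
      have := Real.add_one_le_exp (1:ℝ); linarith
    have h3 : (1:ℝ) ≤ Real.exp (lam ^ 2 * n) := Real.one_le_exp (by rw [hn]; positivity)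
    calc (2:ℝ) ^ (Fintype.card (Fin q × V)) * (Real.exp (lam ^ 2 * n) + 1)
        ≤ Real.exp 1 ^ (Fintype.card (Fin q × V)) * (Real.exp 1 * Real.exp (lam ^ 2 * n)) := by
          refine mul_le_mul (pow_le_pow_left₀ (by norm_num) h2 _) ?_ (by positivity) (by positivity)
          nlinarith [Real.exp_pos (lam ^ 2 * n)]
      _ = Real.exp ((Fintype.card (Fin q × V) : ℝ) + 1 + lam ^ 2 * n) := by
          rw [← Real.exp_nat_mul, ← Real.exp_add, ← Real.exp_add]
          congr 1; ring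
  have hfin := Real.exp_le_exp.1 hbig
  rw [hcardW, hn, hcardΛ] at hfin
  have hqM : (0:ℝ) < (q:ℝ) ^ M := by positivity
  have hM' : 8 * (q:ℝ) ^ 2 < c ^ 2 * (M + 1) := by
    have h1 : 8 * (q:ℝ) ^ 2 / c ^ 2 < M + 1 := by linarith
    have h2 : 0 < c ^ 2 := by positivity
    rw [div_lt_iff₀ h2] at h1
    linarith
  have h4 : lam * ((M + 1) * (q:ℝ) ^ M * c) - lam ^ 2 * ((M + 1) * (q:ℝ) ^ M) =
      c ^ 2 * (M + 1) / 4 * (q:ℝ) ^ M := by
    rw [hlam]; ring
  have h5 : (1:ℝ) ≤ (q:ℝ) ^ M := one_le_pow₀ hq1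
  have h6 : (q:ℝ) * (q:ℝ) ^ (M + 1) = (q:ℝ) ^ 2 * (q:ℝ) ^ M := by ring
  have h7 : c ^ 2 * (M + 1) / 4 * (q:ℝ) ^ M ≤ (q:ℝ) ^ 2 * (q:ℝ) ^ M + 1 := by
    rw [← h4, ← h6]; linarith
  have h8 : (q:ℝ) ^ 2 * (q:ℝ) ^ M + 1 ≤ 2 * (q:ℝ) ^ 2 * (q:ℝ) ^ M := by
    have : (1:ℝ) ≤ (q:ℝ) ^ 2 * (q:ℝ) ^ M := by
      have h9 : (1:ℝ) ≤ (q:ℝ) ^ 2 := one_le_pow₀ hq1
      nlinarith
    linarith
  nlinarith

/-- **Multilinear Claim B.**  `X` (= `mX`) is mixing along the `q + 1` sites `s`, `L` (= `mL`) is independent of `X`.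
Then `X` at the site `s 0` is asymptotically independent of (arbitrary functions at the sites `s 1, .., s q`)
together with arbitrary bounded sequences of `L`-functions. -/
theorem mcb (hX : mX ≤ mΩ) (hL : mL ≤ mΩ) (hind : Indep mX mL μ)
    (hτ0 : ∀ x, τ 0 x = x) (hτadd : ∀ a b x, τ (a + b) x = τ a (τ b x))
    (hτμ : ∀ a, MeasurePreserving (τ a) μ μ)
    (hτX : ∀ a, Measurable[mX, mX] (τ a)) (hτL : ∀ a, Measurable[mL, mL] (τ a))
    {q : ℕ} {s : Fin (q + 1) → ι → A}
    (hmix : ∀ f : Fin (q + 1) → Ω → ℝ, (∀ i, Measurable[mX] (f i)) →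
      (∀ i, ∃ C, ∀ x, |f i x| ≤ C) →
      Tendsto (fun k => ∫ x, ∏ i, f i (τ (s i k) x) ∂μ) l (𝓝 (∏ i, ∫ x, f i x ∂μ)))
    {H : Ω → ℝ} (hH : Measurable[mX] H) (hHb : ∃ C, ∀ x, |H x| ≤ C) (hH0 : ∫ x, H x ∂μ = 0)
    {G : Fin q → Ω → ℝ} (hG : ∀ i, Measurable[mΩ] (G i)) (hGb : ∀ i, ∃ C, ∀ x, |G i x| ≤ C)
    {b : ι → Ω → ℝ} (hb : ∀ k, Measurable[mL] (b k)) (hbb : ∃ C, ∀ k x, |b k x| ≤ C) :
    Tendsto (fun k => ∫ x, H (τ (s 0 k) x) * b k x * ∏ i : Fin q, G i (τ (s i.succ k) x) ∂μ) l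
      (𝓝 0) := by
  classical
  -- the case of normalised functions
  have main : ∀ {H : Ω → ℝ} (_ : Measurable[mX] H) (_ : ∀ x, |H x| ≤ 1) (_ : ∫ x, H x ∂μ = 0)
      {G : Fin q → Ω → ℝ} (_ : ∀ i, Measurable[mΩ] (G i)) (_ : ∀ i x, |G i x| ≤ 1)
      {b : ι → Ω → ℝ} (_ : ∀ k, Measurable[mL] (b k)) (_ : ∀ k x, |b k x| ≤ 1),
      Tendsto (fun k => ∫ x, H (τ (s 0 k) x) * b k x * ∏ i : Fin q, G i (τ (s i.succ k) x) ∂μ) l
        (𝓝 0) := by
    intro H hH hHb hH0 G hG hGb b hb hbb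
    rcases Nat.eq_zero_or_pos q with hq | hq
    · subst hq
      have hz : ∀ k, ∫ x, H (τ (s 0 k) x) * b k x *
          ∏ i : Fin 0, G i (τ (s i.succ k) x) ∂μ = 0 := by
        intro k
        have hIF : IndepFun (fun x => H (τ (s 0 k) x)) (b k) μ := by
          rw [IndepFun_iff_Indep]
          exact indep_of_indep_of_le_left (indep_of_indep_of_le_right hind (hb k).comap_le)
            (hH.comp (hτX _)).comap_le
        have h1 := hIF.integral_fun_mul_eq_mul_integral
          ((hH.mono hX le_rfl).comp (hτμ (s 0 k)).measurable).aestronglyMeasurable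
          ((hb k).mono hL le_rfl).aestronglyMeasurable
        have h2 : ∫ x, H (τ (s 0 k) x) ∂μ = 0 := by
          have h3 := integral_map (μ := μ) (φ := τ (s 0 k)) (hτμ (s 0 k)).measurable.aemeasurable
            (f := H) (hH.mono hX le_rfl).aestronglyMeasurable
          rw [(hτμ (s 0 k)).map_eq] at h3
          rw [← h3, hH0]
        simp only [Finset.univ_eq_empty, Finset.prod_empty, mul_one]
        rw [h1, h2, zero_mul]
      simp only [hz]
      exact tendsto_const_nhds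
    · rw [Metric.tendsto_nhds]
      intro c hc
      by_contra hcon
      rw [Filter.not_eventually] at hcon
      have h1 : ∃ᶠ k in l, (c ≤ ∫ x, H (τ (s 0 k) x) * b k x *
            ∏ i : Fin q, G i (τ (s i.succ k) x) ∂μ) ∨
          (c ≤ ∫ x, H (τ (s 0 k) x) * (-b k x) * ∏ i : Fin q, G i (τ (s i.succ k) x) ∂μ) := by
        refine hcon.mono fun k hk => ?_
        rw [Real.dist_eq, sub_zero, not_lt] at hk
        have h2 : ∫ x, H (τ (s 0 k) x) * (-b k x) * ∏ i : Fin q, G i (τ (s i.succ k) x) ∂μ =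
            -∫ x, H (τ (s 0 k) x) * b k x * ∏ i : Fin q, G i (τ (s i.succ k) x) ∂μ := by
          rw [← integral_neg]
          congr 1
          funext x; ring
        rw [h2]
        exact le_abs.1 hk
      rw [Filter.frequently_or_distrib] at h1
      rcases h1 with h1 | h1
      · exact key hX hL hind hτ0 hτadd hτμ hτX hτL hq hmix hH hHb hH0 hG hGb hb hbb hc h1
      · exact key hX hL hind hτ0 hτadd hτμ hτX hτL hq hmix hH hHb hH0 hG hGb
          (b := fun k x => -b k x) (fun k => (hb k).neg)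
          (fun k x => by rw [abs_neg]; exact hbb k x) hc h1
  obtain ⟨C, hC⟩ := hHb
  choose D hD using hGb
  obtain ⟨E, hE⟩ := hbb
  have hpos : ∀ (C : ℝ), 0 < |C| + 1 := fun C => by positivity
  have hscale : ∀ (C y : ℝ), |y| ≤ C → |y / (|C| + 1)| ≤ 1 := by
    intro C y hy
    rw [abs_div, abs_of_pos (hpos C), div_le_one (hpos C)]
    linarith [le_abs_self C]
  have h1 := main (H := fun x => H x / (|C| + 1)) (hH.div_const _)
    (fun x => hscale C _ (hC x)) (by rw [integral_div, hH0, zero_div])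
    (G := fun i x => G i x / (|D i| + 1)) (fun i => (hG i).div_const _)
    (fun i x => hscale (D i) _ (hD i x))
    (b := fun k x => b k x / (|E| + 1)) (fun k => (hb k).div_const _)
    (fun k x => hscale E _ (hE k x))
  have h2 := h1.const_mul ((|C| + 1) * (|E| + 1) * ∏ i, (|D i| + 1))
  rw [mul_zero] at h2
  refine h2.congr fun k => ?_
  rw [← integral_const_mul]
  congr 1
  funext x
  rw [Finset.prod_div_distrib]
  have hC0 := (hpos C).ne'
  have hE0 := (hpos E).ne'
  have hD0 : ∏ i, (|D i| + 1) ≠ 0 := Finset.prod_ne_zero_iff.2 fun i _ => (hpos (D i)).ne'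
  field_simp

end main

end Crest.Agent.R069.MCB
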