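import Crest.Agent.R069.HInd

/-!
# Row 69, node N_CLOSED : `N_IND → N_CLOSED`
-/

set_option autoImplicit false
set_option linter.unusedVariables false

open MeasureTheory Filter Set ProbabilityTheory
open scoped ENNReal Topology

namespace Crest.Agent.R069.Cl

section push

variable {X : Sys} {ι : Type} {s : ι → ℕ → ℤ} {P : Pair X}

theorem visE_eq_vis : visE s P = P.vis s := rfl

/-- **PUSH for sets**, for a sated pair. -/
theorem hpush_of (h1 : S1 P) (h2 : S2 s P) (Q : Pair X) (e : Ext P Q) (G : Set Q.Ω)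
    (hG : MeasurableSet[P.ms.comap e.f ⊔ Q.C] G) (hv : MeasurableSet[visE s Q] G) :
    MeasurableSet[(visE s P).comap e.f ⊔ Q.C] G := by
  have hle : P.ms.comap e.f ≤ Q.ms := e.f_mp.measurable.comap_le
  have hle' : (visE s P).comap e.f ≤ Q.ms := (MeasurableSpace.comap_mono (visE_le s P)).trans hle
  have hGi : BdM (P.ms.comap e.f ⊔ Q.C) (G.indicator (fun _ => (1 : ℝ))) := BdM.indicator hG
  have hvis : ∀ i, AEStronglyMeasurable[rest s i Q]
      (sitef Q.toSys (s i) (G.indicator (fun _ => (1 : ℝ)))) (lb Q.μ) := by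
    intro i
    rw [← Push.atS_eq, Push.atS_indicator]
    exact (stronglyMeasurable_const.indicator (hv.2 i)).aestronglyMeasurable
  obtain ⟨G', hG', hGG'⟩ := Push.push' e (h1 Q e) (h2 Q e) ⟨hGi.meas, hGi.bdd⟩ hvis
  have hm : MeasurableSet[(visE s P).comap e.f ⊔ Q.C] (G' ⁻¹' {1}) :=
    hG'.1 (measurableSet_singleton 1)
  refine measurableSet_of_ae_eq (sup_le hle' Q.C_le) (Q.C_nul.trans le_sup_right) hv.1 hm ?_
  filter_upwards [hGG'] with x hx
  apply propext
  show x ∈ G ↔ G' x = 1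
  rw [← hx]
  by_cases hxG : x ∈ G <;> simp [hxG]

end push

/-- **N_CLOSED**. -/
theorem n_closed (hN : N_IND) : N_CLOSED := by
  classical
  intro X hX P hP ι _ s h3 hXI h1 h2 i
  have : Nonempty P.Ω := P.μ.nonempty_of_neZero
  have hcl := @closed X ι s P hP this _ _ (hpush_of h1 h2)
    (fun r0 j hj => hind_of hN hX P h1 s hXI r0 j hj) i
  have hM : restM s i P.toSys (P.vis s) P.C ≤ LL P.ms :=
    restM_le s i P.toSys (Pair.vis_le s P) P.C_le
  have hn : nul (lb P.μ) ≤ restM s i P.toSys (P.vis s) P.C := le_sup_right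
  unfold siteM
  refine generateFrom_le_of_ae (μ := lb P.μ) hM hn ?_
  rintro _ ⟨A, hA, rfl⟩
  refine ⟨measurableSet_site P.toSys (s i) hA.1, _, ?_, (ptS_preimage_ae P.toSys (s i) hA.1).symm⟩
  have hle : (⨆ j, ⨆ _ : j ≠ i, visS s P j) ⊔ LL P.C ⊔ Cl.nulL P.toSys ≤
      restM s i P.toSys (P.vis s) P.C := by
    refine sup_le (sup_le ?_ (le_sup_right.trans le_sup_left)) hn
    refine iSup₂_le fun j hj => ?_
    refine comap_le_of_ae (μ := lb P.μ) hM hn ?_
    intro B hB
    refine ⟨measurable_ptS P.toSys (s j) hB.1, _, ?_, ptS_preimage_ae P.toSys (s j) hB.1⟩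
    have h4 : siteM P.toSys (s j) (P.vis s) ≤ restM s i P.toSys (P.vis s) P.C :=
      (le_iSup₂_of_le (f := fun j (_ : j ≠ i) => siteM P.toSys (s j) (P.vis s)) j hj le_rfl).trans
        (le_sup_left.trans le_sup_left)
    exact h4 _ (MeasurableSpace.measurableSet_generateFrom ⟨B, hB, rfl⟩)
  exact hle _ (hcl hA)

end Crest.Agent.R069.Cl
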