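import Crest.Agent.R069.Defs

/-!
# Row 69, node RULE: the abstract level system (interface between RuleEq and RuleLev)
-/

set_option autoImplicit false

open MeasureTheory Filter Set ProbabilityTheory
open scoped ENNReal Topology

namespace Crest.Agent.R069.Rule

/-- A level system of the pair `P`: a system `J` with coordinate maps `co j : J → P` (the sites
of `P`), an invariant complete environment algebra `D`, the strong independence
`X_j ⟂ (E_{j'})_{j' ∈ A} ∨ D` whenever `A ∪ {j}` is not everything, and the law of the base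
coordinates is the one of the sites. -/
structure RLev {X : Sys} {ι : Type} [Fintype ι] [DecidableEq ι] (s : ι → ℕ → ℤ) (P : Pair X) :
    Type 1 where
  J : Sys
  co : ι → J.Ω → P.Ω
  co_mp : ∀ j, MeasurePreserving (co j) J.μ P.μ
  co_S : ∀ j n, (fun x => co j (J.S n x)) =ᵐ[J.μ] fun x => P.S n (co j x)
  D : MeasurableSpace J.Ω
  D_le : D ≤ J.ms
  D_nul : @nul _ J.ms J.μ ≤ D
  D_S : ∀ n, Measurable[D, D] (J.S n)
  C_le : ∀ j, P.C.comap (co j) ≤ D
  indep : ∀ (A : Finset ι) (j : ι), j ∉ A → insert j A ≠ Finset.univ →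
    @Indep _ (X.ms.comap (fun z => P.π (co j z))) ((⨆ j' ∈ A, P.ms.comap (co j')) ⊔ D) J.ms J.μ
  tau_eq : ∀ f : ι → X.Ω → ℝ, (∀ i, Bd X.ms (f i)) →
    ∫ z, ∏ i, f i (P.π (co i z)) ∂J.μ = tau X s f

end Crest.Agent.R069.Rule
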