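import Mathlib

/-!
# Row 69: relative products of standard Borel probability spaces over an arbitrary base

`E`, `E'` standard Borel, `B` any measurable space, `π : E → B`, `π' : E' → B` measurable.
-/

open MeasureTheory ProbabilityTheory Filter Set
open scoped ENNReal

namespace Crest.Agent.R069

lemma integral_mcomp {α β F : Type*} {mα : MeasurableSpace α} {mβ : MeasurableSpace β}
    [NormedAddCommGroup F] [NormedSpace ℝ F] {ν : Measure α} {κ : Kernel α β} {f : β → F}
    (hf : Integrable f (κ ∘ₘ ν)) :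
    ∫ x, f x ∂(κ ∘ₘ ν) = ∫ a, ∫ x, f x ∂(κ a) ∂ν := by
  rw [Measure.comp_eq_comp_const_apply] at hf ⊢
  rw [Kernel.integral_comp hf, Kernel.const_apply]

section rker

variable {E B F : Type*} [mE : MeasurableSpace E] [StandardBorelSpace E] [Nonempty E]
  [mB : MeasurableSpace B] [NormedAddCommGroup F] [NormedSpace ℝ F]

/-- The disintegration of `μ` over `π : E → B`. -/
noncomputable def rker (μ : Measure E) [IsFiniteMeasure μ] (π : E → B) : Kernel B E :=
  condDistrib id π μ

instance (μ : Measure E) [IsFiniteMeasure μ] (π : E → B) : IsMarkovKernel (rker μ π) := by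
  unfold rker; infer_instance

/-- Conditional expectation over `π`, as a function on the base `B`. -/
noncomputable def rexp (μ : Measure E) [IsFiniteMeasure μ] (π : E → B) (f : E → F) (b : B) : F :=
  ∫ e, f e ∂(rker μ π b)

variable {μ : Measure E} [IsFiniteMeasure μ] {π : E → B}

lemma compProd_rker : (μ.map π) ⊗ₘ rker μ π = μ.map (fun e => (π e, e)) :=
  compProd_map_condDistrib aemeasurable_id

lemma rker_comp (hπ : Measurable π) : rker μ π ∘ₘ (μ.map π) = μ := by
  have := condDistrib_comp_map (μ := μ) hπ.aemeasurable (aemeasurable_id (α := E) (μ := μ))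
  rw [Measure.map_id] at this
  exact this

lemma rker_ae_eq {κ : Kernel B E} [IsFiniteKernel κ]
    (h : (μ.map π) ⊗ₘ κ = μ.map (fun e => (π e, e))) : rker μ π =ᵐ[μ.map π] κ :=
  condDistrib_ae_eq_of_measure_eq_compProd π aemeasurable_id h.symm

/-- Almost every fibre measure lives on the fibre: sets of the base. -/
lemma ae_rker_mem (hπ : Measurable π) {S : Set B} (hS : MeasurableSet S) :
    ∀ᵐ b ∂(μ.map π), ∀ᵐ e ∂(rker μ π b), (π e ∈ S ↔ b ∈ S) := by
  have h1 : ∀ᵐ p ∂((μ.map π) ⊗ₘ rker μ π), (π p.2 ∈ S ↔ p.1 ∈ S) := by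
    rw [compProd_rker]
    rw [ae_map_iff (by fun_prop)]
    · exact Eventually.of_forall fun e => Iff.rfl
    · have e1 : {p : B × E | π p.2 ∈ S ↔ p.1 ∈ S}
          = ((Prod.snd ⁻¹' (π ⁻¹' S)) ∩ (Prod.fst ⁻¹' S)) ∪
            ((Prod.snd ⁻¹' (π ⁻¹' S))ᶜ ∩ (Prod.fst ⁻¹' S)ᶜ) := by
        ext p; simp only [mem_ofPred_eq, mem_union, mem_inter_iff, mem_preimage, mem_compl_iff]
        tauto
      rw [e1]
      have h3 : MeasurableSet (Prod.snd ⁻¹' (π ⁻¹' S) : Set (B × E)) := measurable_snd (hπ hS)
      have h2 : MeasurableSet (Prod.fst ⁻¹' S : Set (B × E)) := measurable_fst hS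
      exact (h3.inter h2).union (h3.compl.inter h2.compl)
  exact Measure.ae_ae_of_ae_compProd h1

/-- Almost every fibre measure lives on the fibre: functions on the base. -/
lemma ae_rker_eq (hπ : Measurable π) {X : Type*} [MeasurableSpace X] [MeasurableEq X]
    {h : B → X} (hh : Measurable h) :
    ∀ᵐ b ∂(μ.map π), ∀ᵐ e ∂(rker μ π b), h (π e) = h b := by
  have h1 : ∀ᵐ p ∂((μ.map π) ⊗ₘ rker μ π), h (π p.2) = h p.1 := by
    rw [compProd_rker]
    rw [ae_map_iff (by fun_prop)]
    · exact Eventually.of_forall fun e => rfl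
    · exact measurableSet_eq_fun (by fun_prop) (by fun_prop)
  exact Measure.ae_ae_of_ae_compProd h1

lemma rexp_stronglyMeasurable {f : E → F} (hf : StronglyMeasurable f) :
    StronglyMeasurable (rexp μ π f) :=
  hf.integral_kernel

lemma norm_rexp_le {f : E → F} {C : ℝ} (hC : ∀ e, ‖f e‖ ≤ C) (b : B) : ‖rexp μ π f b‖ ≤ C := by
  have := norm_integral_le_of_norm_le_const (μ := rker μ π b) (Eventually.of_forall hC)
  simpa [rexp] using this

lemma condExp_comap_eq [CompleteSpace F] (hπ : Measurable π) {f : E → F} (hf : Integrable f μ) :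
    μ[f | mB.comap π] =ᵐ[μ] fun e => rexp μ π f (π e) :=
  condExp_ae_eq_integral_condDistrib_id hπ hf

lemma integral_map_rexp (hπ : Measurable π) {f : E → F} (hf : Integrable f μ) :
    ∫ b, rexp μ π f b ∂(μ.map π) = ∫ e, f e ∂μ := by
  have h1 := rker_comp (μ := μ) hπ
  conv_rhs => rw [← h1]
  rw [← h1] at hf
  exact (integral_mcomp hf).symm

/-- pull out functions of the base -/
lemma rexp_mul_base {𝕜 : Type*} [RCLike 𝕜] (hπ : Measurable π) {h : B → 𝕜} (hh : Measurable h)
    (f : E → 𝕜) :
    rexp μ π (fun e => h (π e) * f e) =ᵐ[μ.map π] fun b => h b * rexp μ π f b := by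
  filter_upwards [ae_rker_eq (μ := μ) hπ hh] with b hb
  simp only [rexp]
  rw [← integral_const_mul]
  exact integral_congr_ae (hb.mono fun e he => by simp only [he])

lemma rexp_congr {f g : E → F} (hπ : Measurable π) (h : f =ᵐ[μ] g) :
    rexp μ π f =ᵐ[μ.map π] rexp μ π g := by
  have h1 : f =ᵐ[rker μ π ∘ₘ (μ.map π)] g := by rw [rker_comp hπ]; exact h
  filter_upwards [Measure.ae_ae_of_ae_comp h1] with b hb
  exact integral_congr_ae hb

end rker

section relProd

variable {E E' B : Type*} [mE : MeasurableSpace E] [StandardBorelSpace E] [Nonempty E]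
  [mE' : MeasurableSpace E'] [StandardBorelSpace E'] [Nonempty E'] [mB : MeasurableSpace B]

/-- The relative product of `(E, μ)` and `(E', μ')` over the base `B`. -/
noncomputable def relProd (μ : Measure E) [IsFiniteMeasure μ] (π : E → B)
    (μ' : Measure E') [IsFiniteMeasure μ'] (π' : E' → B) : Measure (E × E') :=
  ((rker μ π) ×ₖ (rker μ' π')) ∘ₘ (μ.map π)

variable {μ : Measure E} [IsFiniteMeasure μ] {π : E → B} {μ' : Measure E'} [IsFiniteMeasure μ']
  {π' : E' → B}

instance : IsFiniteMeasure (relProd μ π μ' π') := by unfold relProd; infer_instance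

lemma isProbabilityMeasure_relProd [IsProbabilityMeasure μ] (hπ : Measurable π) :
    IsProbabilityMeasure (relProd μ π μ' π') := by
  have : IsProbabilityMeasure (μ.map π) := Measure.isProbabilityMeasure_map hπ.aemeasurable
  unfold relProd; infer_instance

lemma relProd_map_fst (hπ : Measurable π) : (relProd μ π μ' π').map Prod.fst = μ := by
  rw [relProd, Measure.map_comp _ _ measurable_fst, ← Kernel.fst_eq, Kernel.fst_prod,
    rker_comp hπ]

lemma relProd_map_snd (hπ' : Measurable π') (h : μ.map π = μ'.map π') :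
    (relProd μ π μ' π').map Prod.snd = μ' := by
  rw [relProd, Measure.map_comp _ _ measurable_snd, ← Kernel.snd_eq, Kernel.snd_prod, h,
    rker_comp hπ']

lemma measurePreserving_relProd_fst (hπ : Measurable π) :
    MeasurePreserving Prod.fst (relProd μ π μ' π') μ :=
  ⟨measurable_fst, relProd_map_fst hπ⟩

lemma measurePreserving_relProd_snd (hπ' : Measurable π') (h : μ.map π = μ'.map π') :
    MeasurePreserving Prod.snd (relProd μ π μ' π') μ' :=
  ⟨measurable_snd, relProd_map_snd hπ' h⟩

lemma relProd_swap (h : μ.map π = μ'.map π') :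
    (relProd μ π μ' π').map Prod.swap = relProd μ' π' μ π := by
  rw [relProd, Measure.map_comp _ _ measurable_swap, Kernel.map_prod_swap, relProd, h]

/-- joint law of the base point and the relative product -/
lemma relProd_map_base (hπ : Measurable π) :
    (relProd μ π μ' π').map (fun p => (π p.1, p)) =
      (μ.map π) ⊗ₘ ((rker μ π) ×ₖ (rker μ' π')) := by
  refine Measure.ext_prod fun {S R} hS hR => ?_
  have hm : Measurable (fun p : E × E' => (π p.1, p)) := by fun_prop
  rw [Measure.map_apply hm (hS.prod hR), relProd, Measure.bind_apply (hm (hS.prod hR))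
    (Kernel.aemeasurable _), Measure.compProd_apply_prod hS hR, ← lintegral_indicator hS]
  refine lintegral_congr_ae ?_
  filter_upwards [ae_rker_mem (μ := μ) hπ hS] with b hb
  have h1 : ∀ᵐ p ∂((rker μ π ×ₖ rker μ' π') b), (π p.1 ∈ S ↔ b ∈ S) := by
    rw [Kernel.prod_apply]
    exact (Measure.quasiMeasurePreserving_fst (μ := rker μ π b) (ν := rker μ' π' b)).ae hb
  by_cases hbS : b ∈ S
  · rw [indicator_of_mem hbS]
    refine measure_congr ?_
    filter_upwards [h1] with p hp
    apply propext
    exact ⟨fun h => h.2, fun h => ⟨hp.2 hbS, h⟩⟩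
  · rw [indicator_of_notMem hbS]
    rw [measure_eq_zero_iff_ae_notMem]
    filter_upwards [h1] with p hp h
    exact hbS (hp.1 h.1)

/-- Disintegration of a function of the relative product. -/
lemma integral_relProd {F : Type*} [NormedAddCommGroup F] [NormedSpace ℝ F]
    {f : E × E' → F} (hf : Integrable f (relProd μ π μ' π')) :
    ∫ p, f p ∂(relProd μ π μ' π') =
      ∫ b, ∫ p, f p ∂((rker μ π b).prod (rker μ' π' b)) ∂(μ.map π) := by
  rw [relProd] at hf ⊢
  rw [integral_mcomp hf]
  simp only [Kernel.prod_apply]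

/-- The two base points agree (functions of the base). -/
lemma relProd_base_eq (hπ : Measurable π) (hπ' : Measurable π') (h : μ.map π = μ'.map π')
    {X : Type*} [MeasurableSpace X] [MeasurableEq X] {g : B → X} (hg : Measurable g) :
    ∀ᵐ p ∂(relProd μ π μ' π'), g (π p.1) = g (π' p.2) := by
  refine Measure.ae_comp_of_ae_ae ?_ ?_
  · exact measurableSet_eq_fun (by fun_prop) (by fun_prop)
  · have h2 := ae_rker_eq (μ := μ') hπ' hg
    rw [← h] at h2
    filter_upwards [ae_rker_eq (μ := μ) hπ hg, h2] with b h1 h2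
    rw [Kernel.prod_apply]
    filter_upwards [(Measure.quasiMeasurePreserving_fst (μ := rker μ π b)
      (ν := rker μ' π' b)).ae h1, (Measure.quasiMeasurePreserving_snd (μ := rker μ π b)
      (ν := rker μ' π' b)).ae h2] with p h3 h4
    rw [h3, h4]

/-- The two base points agree (sets of the base). -/
lemma relProd_base_mem (hπ : Measurable π) (hπ' : Measurable π') (h : μ.map π = μ'.map π')
    {S : Set B} (hS : MeasurableSet S) :
    ∀ᵐ p ∂(relProd μ π μ' π'), (π p.1 ∈ S ↔ π' p.2 ∈ S) := by
  have h1 := relProd_base_eq (μ := μ) (μ' := μ') hπ hπ' h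
    (g := S.indicator (fun _ => (1 : ℝ))) (measurable_const.indicator hS)
  filter_upwards [h1] with p hp
  by_cases h2 : π p.1 ∈ S <;> by_cases h3 : π' p.2 ∈ S <;> simp_all

/-- If the base is countably separated, the two base points agree. -/
lemma relProd_base_eq' [MeasurableEq B] (hπ : Measurable π) (hπ' : Measurable π')
    (h : μ.map π = μ'.map π') : ∀ᵐ p ∂(relProd μ π μ' π'), π p.1 = π' p.2 :=
  relProd_base_eq hπ hπ' h measurable_id

/-- THE PRODUCT FORMULA. -/
lemma integral_relProd_mul {𝕜 : Type*} [RCLike 𝕜] (hπ : Measurable π) {h : B → 𝕜}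
    (hh : Measurable h) {f : E → 𝕜} {g : E' → 𝕜}
    (hi : Integrable (fun p : E × E' => h (π p.1) * (f p.1 * g p.2)) (relProd μ π μ' π')) :
    ∫ p, h (π p.1) * (f p.1 * g p.2) ∂(relProd μ π μ' π') =
      ∫ b, h b * (rexp μ π f b * rexp μ' π' g b) ∂(μ.map π) := by
  rw [integral_relProd hi]
  refine integral_congr_ae ?_
  filter_upwards [ae_rker_eq (μ := μ) hπ hh] with b hb
  have h1 : ∀ᵐ p ∂((rker μ π b).prod (rker μ' π' b)), h (π p.1) = h b :=
    (Measure.quasiMeasurePreserving_fst (μ := rker μ π b) (ν := rker μ' π' b)).ae hb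
  have h2 : ∫ p, h (π p.1) * (f p.1 * g p.2) ∂((rker μ π b).prod (rker μ' π' b)) =
      ∫ p, h b * (f p.1 * g p.2) ∂((rker μ π b).prod (rker μ' π' b)) :=
    integral_congr_ae (h1.mono fun p hp => by simp only [hp])
  rw [h2, integral_const_mul, integral_prod_mul]
  rfl

end relProd

end Crest.Agent.R069
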