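import Crest.Agent.R069.Rel
import Crest.Agent.R069.CI

/-!
# Row 69: relative products, part 2: conditional independence, invariance, functoriality
-/

open MeasureTheory ProbabilityTheory Filter Set
open scoped ENNReal

namespace Crest.Agent.R069

section fib

variable {E B E₁ B₁ : Type*} [mE : MeasurableSpace E] [StandardBorelSpace E] [Nonempty E]
  [mB : MeasurableSpace B] [mE₁ : MeasurableSpace E₁] [StandardBorelSpace E₁] [Nonempty E₁]
  [mB₁ : MeasurableSpace B₁]

/-- `φ : E → E₁` over `S : B → B₁` maps fibre measures to fibre measures. -/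
def FibMap (μ : Measure E) [IsFiniteMeasure μ] (π : E → B) (μ₁ : Measure E₁) [IsFiniteMeasure μ₁]
    (π₁ : E₁ → B₁) (φ : E → E₁) (S : B → B₁) : Prop :=
  ∀ A : Set E₁, MeasurableSet A →
    ∀ᵐ b ∂(μ.map π), rker μ π b (φ ⁻¹' A) = rker μ₁ π₁ (S b) A

variable {μ : Measure E} [IsFiniteMeasure μ] {π : E → B} {μ₁ : Measure E₁} [IsFiniteMeasure μ₁]
  {π₁ : E₁ → B₁} {φ : E → E₁}

omit [StandardBorelSpace E] [Nonempty E] [StandardBorelSpace E₁] [Nonempty E₁]
  [IsFiniteMeasure μ] [IsFiniteMeasure μ₁] in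
lemma map_map_base (hφ : MeasurePreserving φ μ μ₁) (hπ : Measurable π) (hπ₁ : Measurable π₁)
    {S : B → B₁} (hS : Measurable S) (h : (fun e => π₁ (φ e)) =ᵐ[μ] fun e => S (π e)) :
    (μ.map π).map S = μ₁.map π₁ := by
  rw [Measure.map_map hS hπ, ← hφ.map_eq, Measure.map_map hπ₁ hφ.measurable]
  exact Measure.map_congr h.symm

/-- an isomorphism of the bases: fibre measures are mapped to fibre measures -/
theorem fibMap_of_equiv (hφ : MeasurePreserving φ μ μ₁) (hπ : Measurable π) (hπ₁ : Measurable π₁)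
    (S : B ≃ᵐ B₁) (h : (fun e => π₁ (φ e)) =ᵐ[μ] fun e => S (π e)) :
    FibMap μ π μ₁ π₁ φ S := by
  have hb := map_map_base hφ hπ hπ₁ S.measurable h
  let κ : Kernel B₁ E₁ := ((rker μ π).map φ).comap S.symm S.symm.measurable
  have hκ : IsMarkovKernel κ := by
    have : IsMarkovKernel ((rker μ π).map φ) := Kernel.IsMarkovKernel.map _ hφ.measurable
    infer_instance
  have key : (μ₁.map π₁) ⊗ₘ κ = μ₁.map (fun e => (π₁ e, e)) := by
    refine Measure.ext_prod fun {A A'} hA hA' => ?_
    rw [Measure.compProd_apply_prod hA hA', ← hb,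
      setLIntegral_map hA (Kernel.measurable_coe _ hA') S.measurable]
    have e1 : ∀ b, κ (S b) A' = rker μ π b (φ ⁻¹' A') := fun b => by
      simp only [κ, Kernel.comap_apply, MeasurableEquiv.symm_apply_apply]
      rw [Kernel.map_apply' _ hφ.measurable _ hA']
    simp only [e1]
    rw [← Measure.compProd_apply_prod (S.measurable hA) (hφ.measurable hA'), compProd_rker,
      Measure.map_apply (by fun_prop) ((S.measurable hA).prod (hφ.measurable hA')),
      ← hφ.map_eq, Measure.map_map (by fun_prop) hφ.measurable,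
      Measure.map_apply ((by fun_prop : Measurable (fun e => (π₁ e, e))).comp hφ.measurable)
        (hA.prod hA')]
    refine measure_congr ?_
    filter_upwards [h] with e he
    apply propext
    change (S (π e) ∈ A ∧ φ e ∈ A') ↔ (π₁ (φ e) ∈ A ∧ φ e ∈ A')
    rw [he]
  have h2 := rker_ae_eq key
  rw [← hb] at h2
  have h3 := S.measurableEmbedding.ae_map_iff.1 h2
  intro A hA
  filter_upwards [h3] with b hb3
  rw [hb3]
  simp only [κ, Kernel.comap_apply, MeasurableEquiv.symm_apply_apply]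
  rw [Kernel.map_apply' _ hφ.measurable _ hA]

/-- condition in terms of conditional expectations -/
theorem fibMap_of_condExp (hφ : MeasurePreserving φ μ μ₁) (hπ : Measurable π)
    (hπ₁ : Measurable π₁) {S : B → B₁} (hS : Measurable S)
    (h : (fun e => π₁ (φ e)) =ᵐ[μ] fun e => S (π e))
    (hc : ∀ A : Set E₁, MeasurableSet A →
      μ[(φ ⁻¹' A).indicator (fun _ => (1 : ℝ)) | mB.comap π] =ᵐ[μ]
        fun e => (μ₁[A.indicator (fun _ => (1 : ℝ)) | mB₁.comap π₁]) (φ e)) :
    FibMap μ π μ₁ π₁ φ S := by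
  intro A hA
  have h1 := hc A hA
  have h2 := condExp_comap_eq (μ := μ) hπ
    (f := (φ ⁻¹' A).indicator (fun _ => (1 : ℝ)))
    ((integrable_const _).indicator (hφ.measurable hA))
  have h3 := hφ.quasiMeasurePreserving.ae_eq (condExp_comap_eq (μ := μ₁) hπ₁
    (f := A.indicator (fun _ => (1 : ℝ))) ((integrable_const _).indicator hA))
  have h4 : ∀ᵐ e ∂μ, rexp μ π ((φ ⁻¹' A).indicator (fun _ => (1 : ℝ))) (π e) =
      rexp μ₁ π₁ (A.indicator (fun _ => (1 : ℝ))) (S (π e)) := by
    filter_upwards [h1, h2, h3, h] with e h1 h2 h3 h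
    rw [← h2, h1]
    simp only [Function.comp_apply] at h3
    rw [h3, h]
  have e1 : ∀ b, rexp μ π ((φ ⁻¹' A).indicator (fun _ => (1 : ℝ))) b =
      (rker μ π b (φ ⁻¹' A)).toReal := fun b => by
    rw [rexp, integral_indicator (hφ.measurable hA)]; simp [Measure.real]
  have e2 : ∀ b, rexp μ₁ π₁ (A.indicator (fun _ => (1 : ℝ))) b =
      (rker μ₁ π₁ b A).toReal := fun b => by
    rw [rexp, integral_indicator hA]; simp [Measure.real]
  rw [ae_map_iff hπ.aemeasurable]
  · filter_upwards [h4] with e he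
    rw [e1, e2] at he
    exact (ENNReal.toReal_eq_toReal_iff' (measure_ne_top _ _) (measure_ne_top _ _)).1 he
  · exact measurableSet_eq_fun (Kernel.measurable_coe _ (hφ.measurable hA))
      ((Kernel.measurable_coe _ hA).comp hS)

end fib

section map

variable {E E' B E₁ E₁' B₁ : Type*} [mE : MeasurableSpace E] [StandardBorelSpace E] [Nonempty E]
  [mE' : MeasurableSpace E'] [StandardBorelSpace E'] [Nonempty E']
  [mB : MeasurableSpace B] [mE₁ : MeasurableSpace E₁] [StandardBorelSpace E₁] [Nonempty E₁]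
  [mE₁' : MeasurableSpace E₁'] [StandardBorelSpace E₁'] [Nonempty E₁']
  [mB₁ : MeasurableSpace B₁]
  {μ : Measure E} [IsFiniteMeasure μ] {π : E → B} {μ₁ : Measure E₁} [IsFiniteMeasure μ₁]
  {π₁ : E₁ → B₁} {φ : E → E₁}
  {μ' : Measure E'} [IsFiniteMeasure μ'] {π' : E' → B} {μ₁' : Measure E₁'} [IsFiniteMeasure μ₁']
  {π₁' : E₁' → B₁} {φ' : E' → E₁'}

/-- the relative product of rectangles -/
lemma relProd_prod {A : Set E} {A' : Set E'} (hA : MeasurableSet A) (hA' : MeasurableSet A') :
    relProd μ π μ' π' (A ×ˢ A') = ∫⁻ b, rker μ π b A * rker μ' π' b A' ∂(μ.map π) := by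
  rw [relProd, Measure.bind_apply (hA.prod hA') (Kernel.aemeasurable _)]
  simp only [Kernel.prod_apply, Measure.prod_prod]

theorem relProd_map (hφ : Measurable φ) (hφ' : Measurable φ') {S : B → B₁} (hS : Measurable S)
    (hb : (μ.map π).map S = μ₁.map π₁) (hbb : μ.map π = μ'.map π')
    (h : FibMap μ π μ₁ π₁ φ S) (h' : FibMap μ' π' μ₁' π₁' φ' S) :
    (relProd μ π μ' π').map (Prod.map φ φ') = relProd μ₁ π₁ μ₁' π₁' := by
  refine Measure.ext_prod fun {A A'} hA hA' => ?_
  rw [Measure.map_apply (hφ.prodMap hφ') (hA.prod hA'), relProd_prod hA hA', ← hb,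
    lintegral_map (f := fun b => rker μ₁ π₁ b A * rker μ₁' π₁' b A')
      ((Kernel.measurable_coe _ hA).mul (Kernel.measurable_coe _ hA')) hS]
  have e : Prod.map φ φ' ⁻¹' (A ×ˢ A') = (φ ⁻¹' A) ×ˢ (φ' ⁻¹' A') := rfl
  rw [e, relProd_prod (hφ hA) (hφ' hA')]
  have h2 := h' A' hA'
  rw [← hbb] at h2
  refine lintegral_congr_ae ?_
  filter_upwards [h A hA, h2] with b h1 h2
  rw [h1, h2]

/-- Functoriality over an isomorphism of the bases. -/
theorem measurePreserving_relProd_map (hπ : Measurable π) (hπ' : Measurable π')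
    (hπ₁ : Measurable π₁) (hπ₁' : Measurable π₁') (hbb : μ.map π = μ'.map π')
    (hφ : MeasurePreserving φ μ μ₁) (hφ' : MeasurePreserving φ' μ' μ₁') (S : B ≃ᵐ B₁)
    (h : (fun e => π₁ (φ e)) =ᵐ[μ] fun e => S (π e))
    (h' : (fun e => π₁' (φ' e)) =ᵐ[μ'] fun e => S (π' e)) :
    MeasurePreserving (Prod.map φ φ') (relProd μ π μ' π') (relProd μ₁ π₁ μ₁' π₁') :=
  ⟨hφ.measurable.prodMap hφ'.measurable,
    relProd_map hφ.measurable hφ'.measurable S.measurable
      (map_map_base hφ hπ hπ₁ S.measurable h) hbb (fibMap_of_equiv hφ hπ hπ₁ S h)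
      (fibMap_of_equiv hφ' hπ' hπ₁' S h')⟩

/-- `T × T'` preserves the relative product. -/
theorem measurePreserving_relProd_prodMap {T : E → E} {T' : E' → E'} (hπ : Measurable π)
    (hπ' : Measurable π') (hbb : μ.map π = μ'.map π')
    (hT : MeasurePreserving T μ μ) (hT' : MeasurePreserving T' μ' μ') (S : B ≃ᵐ B)
    (h : (fun e => π (T e)) =ᵐ[μ] fun e => S (π e))
    (h' : (fun e => π' (T' e)) =ᵐ[μ'] fun e => S (π' e)) :
    MeasurePreserving (Prod.map T T') (relProd μ π μ' π') (relProd μ π μ' π') :=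
  measurePreserving_relProd_map hπ hπ' hπ hπ' hbb hT hT' S h h'

end map

section ci

variable {E E' B : Type*} {C : MeasurableSpace E} {C' : MeasurableSpace E'}
  [mE : MeasurableSpace E] [StandardBorelSpace E] [Nonempty E]
  [mE' : MeasurableSpace E'] [StandardBorelSpace E'] [Nonempty E'] [mB : MeasurableSpace B]
  {μ : Measure E} [IsProbabilityMeasure μ] {π : E → B} {μ' : Measure E'}
  [IsProbabilityMeasure μ'] {π' : E' → B}

/-- THE PRODUCT FORMULA for bounded functions. -/
theorem integral_relProd_bdd (hπ : Measurable π) {h : B → ℝ} (hh : BdM mB h) {f : E → ℝ}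
    (hf : BdM mE f) {g : E' → ℝ} (hg : BdM mE' g) :
    ∫ p, h (π p.1) * (f p.1 * g p.2) ∂(relProd μ π μ' π') =
      ∫ b, h b * (rexp μ π f b * rexp μ' π' g b) ∂(μ.map π) := by
  have := isProbabilityMeasure_relProd (μ := μ) (μ' := μ') (π' := π') hπ
  refine integral_relProd_mul hπ hh.meas ?_
  have h1 : BdM (inferInstance : MeasurableSpace (E × E')) (fun p : E × E' => h (π p.1)) :=
    ⟨hh.meas.comp (hπ.comp measurable_fst), let ⟨C, hC⟩ := hh.bdd; ⟨C, fun p => hC _⟩⟩
  have h2 : BdM (inferInstance : MeasurableSpace (E × E')) (fun p : E × E' => f p.1) :=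
    ⟨hf.meas.comp measurable_fst, let ⟨C, hC⟩ := hf.bdd; ⟨C, fun p => hC _⟩⟩
  have h3 : BdM (inferInstance : MeasurableSpace (E × E')) (fun p : E × E' => g p.2) :=
    ⟨hg.meas.comp measurable_snd, let ⟨C, hC⟩ := hg.bdd; ⟨C, fun p => hC _⟩⟩
  exact (h1.mul (h2.mul h3)).integrable le_rfl

lemma BdM.rexp {f : E → ℝ} (hf : BdM mE f) : BdM mB (R069.rexp μ π f) := by
  obtain ⟨C, hC⟩ := hf.bdd
  exact ⟨(rexp_stronglyMeasurable hf.meas.stronglyMeasurable).measurable, C,
    fun b => norm_rexp_le (f := f) hC b⟩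

/-- integral over the base of `h · rexp f` -/
theorem integral_base_mul (hπ : Measurable π) {h : B → ℝ} (hh : BdM mB h) {f : E → ℝ}
    (hf : BdM mE f) :
    ∫ b, h b * rexp μ π f b ∂(μ.map π) = ∫ e, h (π e) * f e ∂μ := by
  have h1 : BdM mE (fun e => h (π e) * f e) := by
    refine BdM.mul ⟨hh.meas.comp hπ, let ⟨C, hC⟩ := hh.bdd; ⟨C, fun p => hC _⟩⟩ hf
  rw [← integral_map_rexp (μ := μ) hπ (h1.integrable le_rfl)]
  exact integral_congr_ae ((rexp_mul_base (μ := μ) hπ hh.meas f).mono fun b hb => hb.symm)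

lemma rexp_one (b : B) : rexp μ π (fun _ => (1 : ℝ)) b = 1 := by simp [rexp]

/-- given the second coordinate -/
theorem relProd_condExp_fst (hπ : Measurable π) (hπ' : Measurable π') (hbb : μ.map π = μ'.map π')
    {f : E → ℝ} (hf : BdM mE f) :
    (relProd μ π μ' π')[fun p => f p.1 | mE'.comap Prod.snd]
      =ᵐ[relProd μ π μ' π'] fun p => rexp μ π f (π' p.2) := by
  have hP := isProbabilityMeasure_relProd (μ := μ) (μ' := μ') (π' := π') hπ
  have hf1 : BdM (inferInstance : MeasurableSpace (E × E')) (fun p : E × E' => f p.1) :=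
    ⟨hf.meas.comp measurable_fst, let ⟨C, hC⟩ := hf.bdd; ⟨C, fun p => hC _⟩⟩
  have hr : BdM mE' (fun e => rexp μ π f (π' e)) :=
    ⟨(hf.rexp (μ := μ) (π := π)).meas.comp hπ',
      let ⟨C, hC⟩ := (hf.rexp (μ := μ) (π := π)).bdd; ⟨C, fun p => hC _⟩⟩
  have hr1 : BdM (mE'.comap Prod.snd) (fun p : E × E' => rexp μ π f (π' p.2)) := hr.comp
  refine condExp_eq_of_integral_mul measurable_snd.comap_le (hf1.integrable le_rfl)
    (hr1.integrable measurable_snd.comap_le) hr1.aesm ?_
  intro k hk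
  obtain ⟨g, hg, rfl⟩ := hk.factors
  have e1 := integral_relProd_bdd (μ := μ) (μ' := μ') (π' := π') hπ
    (BdM.one (m := mB)) hf hg
  simp only [one_mul] at e1
  have e2 : ∫ p, rexp μ π f (π' p.2) * (g ∘ Prod.snd) p ∂(relProd μ π μ' π') =
      ∫ e, rexp μ π f (π' e) * g e ∂μ' := by
    have := integral_map (μ := relProd μ π μ' π') (φ := Prod.snd) measurable_snd.aemeasurable
      (f := fun e => rexp μ π f (π' e) * g e) (hr.mul hg).meas.aestronglyMeasurable
    rw [relProd_map_snd hπ' hbb] at this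
    exact this.symm
  rw [e2, ← integral_base_mul (μ := μ') hπ' (hf.rexp (μ := μ) (π := π)) hg, ← hbb, ← e1]
  rfl

/-- given the base point -/
theorem relProd_condExp_base (hπ : Measurable π) {f : E → ℝ} (hf : BdM mE f) :
    (relProd μ π μ' π')[fun p => f p.1 | mB.comap (fun p => π p.1)]
      =ᵐ[relProd μ π μ' π'] fun p => rexp μ π f (π p.1) := by
  have hP := isProbabilityMeasure_relProd (μ := μ) (μ' := μ') (π' := π') hπ
  have h1 := measurePreserving_relProd_fst (μ := μ) (μ' := μ') (π' := π') hπ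
  have h2 := condExp_comp_mp h1 hπ.comap_le (hf.integrable le_rfl)
  have h3 := h1.quasiMeasurePreserving.ae_eq
    (condExp_comap_eq (μ := μ) hπ (hf.integrable le_rfl))
  rw [MeasurableSpace.comap_comp] at h2
  exact h2.trans h3

/-- The two coordinates are conditionally independent given the base point. -/
theorem relProd_ci (hπ : Measurable π) :
    CI (relProd μ π μ' π') (mE.comap Prod.fst) (mE'.comap Prod.snd)
      (mB.comap (fun p => π p.1)) := by
  have hP := isProbabilityMeasure_relProd (μ := μ) (μ' := μ') (π' := π') hπ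
  have hm : mB.comap (fun p : E × E' => π p.1) ≤ Prod.instMeasurableSpace :=
    (hπ.comp measurable_fst).comap_le
  refine ci_of_integral measurable_fst.comap_le measurable_snd.comap_le hm ?_
  intro f g k hf hg hk
  obtain ⟨f, hf', rfl⟩ := hf.factors
  obtain ⟨g, hg', rfl⟩ := hg.factors
  obtain ⟨k, hk', rfl⟩ := hk.factors
  clear hf hg hk
  rename' hf' => hf, hg' => hg, hk' => hk
  have e1 := integral_relProd_bdd (μ := μ) (μ' := μ') (π' := π') hπ hk hf hg
  have hr : BdM mE (fun e => rexp μ π f (π e)) :=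
    ⟨(hf.rexp (μ := μ) (π := π)).meas.comp hπ,
      let ⟨C, hC⟩ := (hf.rexp (μ := μ) (π := π)).bdd; ⟨C, fun p => hC _⟩⟩
  have e2 := integral_relProd_bdd (μ := μ) (μ' := μ') (π' := π') hπ hk hr hg
  have e3 : rexp μ π (fun e => rexp μ π f (π e)) =ᵐ[μ.map π] rexp μ π f := by
    have := rexp_mul_base (μ := μ) hπ (hf.rexp (μ := μ) (π := π)).meas (fun _ => (1 : ℝ))
    simp only [mul_one, rexp_one] at this
    exact this
  have e4 : ∫ b, k b * (rexp μ π (fun e => rexp μ π f (π e)) b * rexp μ' π' g b) ∂(μ.map π) =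
      ∫ b, k b * (rexp μ π f b * rexp μ' π' g b) ∂(μ.map π) :=
    integral_congr_ae (e3.mono fun b hb => by simp only [hb])
  calc ∫ p, (f ∘ Prod.fst) p * (g ∘ Prod.snd) p * (k ∘ fun p => π p.1) p ∂(relProd μ π μ' π')
      = ∫ p, k (π p.1) * (f p.1 * g p.2) ∂(relProd μ π μ' π') := by
        refine integral_congr_ae (Eventually.of_forall fun p => ?_)
        simp only [Function.comp_apply]; ring
    _ = ∫ p, k (π p.1) * (rexp μ π f (π p.1) * g p.2) ∂(relProd μ π μ' π') := by
        rw [e1, e2, e4]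
    _ = _ := by
        refine integral_congr_ae ?_
        filter_upwards [relProd_condExp_base (μ := μ) (μ' := μ') (π' := π') hπ hf] with p hp
        have hp' : (relProd μ π μ' π')[f ∘ Prod.fst | mB.comap (fun p => π p.1)] p =
          rexp μ π f (π p.1) := hp
        rw [hp']
        simp only [Function.comp_apply]; ring

/-- given the first coordinate -/
theorem relProd_condExp_snd (hπ : Measurable π) {g : E' → ℝ} (hg : BdM mE' g) :
    (relProd μ π μ' π')[fun p => g p.2 | mE.comap Prod.fst]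
      =ᵐ[relProd μ π μ' π'] fun p => rexp μ' π' g (π p.1) := by
  have hP := isProbabilityMeasure_relProd (μ := μ) (μ' := μ') (π' := π') hπ
  have hg1 : BdM (inferInstance : MeasurableSpace (E × E')) (fun p : E × E' => g p.2) :=
    ⟨hg.meas.comp measurable_snd, let ⟨C, hC⟩ := hg.bdd; ⟨C, fun p => hC _⟩⟩
  have hr : BdM mE (fun e => rexp μ' π' g (π e)) :=
    ⟨(hg.rexp (μ := μ') (π := π')).meas.comp hπ,
      let ⟨C, hC⟩ := (hg.rexp (μ := μ') (π := π')).bdd; ⟨C, fun p => hC _⟩⟩
  have hr1 : BdM (mE.comap Prod.fst) (fun p : E × E' => rexp μ' π' g (π p.1)) := hr.comp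
  refine condExp_eq_of_integral_mul measurable_fst.comap_le (hg1.integrable le_rfl)
    (hr1.integrable measurable_fst.comap_le) hr1.aesm ?_
  intro k hk
  obtain ⟨f, hf, rfl⟩ := hk.factors
  have e1 := integral_relProd_bdd (μ := μ) (μ' := μ') (π' := π') hπ
    (BdM.one (m := mB)) hf hg
  simp only [one_mul] at e1
  have e2 : ∫ p, rexp μ' π' g (π p.1) * (f ∘ Prod.fst) p ∂(relProd μ π μ' π') =
      ∫ e, rexp μ' π' g (π e) * f e ∂μ := by
    have := integral_map (μ := relProd μ π μ' π') (φ := Prod.fst) measurable_fst.aemeasurable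
      (f := fun e => rexp μ' π' g (π e) * f e) (hr.mul hf).meas.aestronglyMeasurable
    rw [relProd_map_fst hπ] at this
    exact this.symm
  rw [e2, ← integral_base_mul (μ := μ) hπ (hg.rexp (μ := μ') (π := π')) hf]
  have e3 : ∫ p, g p.2 * (f ∘ Prod.fst) p ∂(relProd μ π μ' π') =
      ∫ p, f p.1 * g p.2 ∂(relProd μ π μ' π') :=
    integral_congr_ae (Eventually.of_forall fun p => mul_comm _ _)
  rw [e3, e1]
  exact integral_congr_ae (Eventually.of_forall fun b => mul_comm _ _)

/-- functions independent of the base have constant conditional expectation -/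
theorem rexp_const_of_indep (hπ : Measurable π) (hC : C ≤ mE)
    (hi : Indep (mB.comap π) C μ) {f : E → ℝ} (hf : BdM C f) :
    ∀ᵐ b ∂(μ.map π), rexp μ π f b = ∫ e, f e ∂μ := by
  have h1 := (indep_iff_condExp hC hπ.comap_le).1 hi.symm f hf
  have h2 := condExp_comap_eq (μ := μ) hπ (f := f) (hf.integrable hC)
  have h3 : ∀ᵐ e ∂μ, rexp μ π f (π e) = ∫ e, f e ∂μ := h2.symm.trans h1
  rw [ae_map_iff hπ.aemeasurable]
  · exact h3
  · exact measurableSet_eq_fun ((hf.mono hC).rexp (μ := μ) (π := π)).meas measurable_const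

theorem relProd_indep_fst (hπ : Measurable π) (hπ' : Measurable π') (hbb : μ.map π = μ'.map π')
    (hC' : C' ≤ mE') (hi' : Indep (mB.comap π') C' μ') :
    Indep (mE.comap Prod.fst) (C'.comap Prod.snd) (relProd μ π μ' π') := by
  have hP := isProbabilityMeasure_relProd (μ := μ) (μ' := μ') (π' := π') hπ
  have hC2 : C'.comap Prod.snd ≤ Prod.instMeasurableSpace :=
    (MeasurableSpace.comap_mono hC').trans (measurable_snd (α := E) (β := E')).comap_le
  refine Indep.symm ?_
  rw [indep_iff_condExp hC2 measurable_fst.comap_le]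
  intro f hf
  obtain ⟨g, hg, rfl⟩ := hf.factors
  have h1 := relProd_condExp_snd (μ := μ) (μ' := μ') (π' := π') hπ (hg.mono hC')
  have h2 := rexp_const_of_indep (μ := μ') hπ' hC' hi' hg
  rw [← hbb] at h2
  have h3 := ae_of_ae_map hπ.aemeasurable h2
  have h4 := (measurePreserving_relProd_fst (μ := μ) (μ' := μ') (π' := π')
    hπ).quasiMeasurePreserving.ae h3
  have h5 : ∫ p, (g ∘ Prod.snd) p ∂(relProd μ π μ' π') = ∫ e, g e ∂μ' := by
    have := integral_map (μ := relProd μ π μ' π') (φ := Prod.snd) measurable_snd.aemeasurable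
      (f := g) (hg.mono hC').meas.aestronglyMeasurable
    rw [relProd_map_snd hπ' hbb] at this
    exact this.symm
  filter_upwards [h1, h4] with p h1 h4
  rw [h5, ← h4]
  exact h1

theorem relProd_indep_both (hπ : Measurable π) (hπ' : Measurable π') (hbb : μ.map π = μ'.map π')
    (hC : C ≤ mE) (hC' : C' ≤ mE') (hi' : Indep (mB.comap π') C' μ') :
    Indep (C.comap Prod.fst) (C'.comap Prod.snd) (relProd μ π μ' π') :=
  indep_of_indep_of_le_left (relProd_indep_fst (μ := μ) (μ' := μ') hπ hπ' hbb hC' hi')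
    (MeasurableSpace.comap_mono hC)

/-- INDEPENDENCE: if `C` and `C'` are independent of the base, then in the relative product the
base is independent of `C ∨ C'`. -/
theorem relProd_indep (hπ : Measurable π) (hπ' : Measurable π') (hbb : μ.map π = μ'.map π')
    (hC : C ≤ mE) (hC' : C' ≤ mE') (hi : Indep (mB.comap π) C μ)
    (hi' : Indep (mB.comap π') C' μ') :
    Indep (mB.comap (fun p : E × E' => π p.1)) (C.comap Prod.fst ⊔ C'.comap Prod.snd)
      (relProd μ π μ' π') := by
  have hP := isProbabilityMeasure_relProd (μ := μ) (μ' := μ') (π' := π') hπ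
  have hC1 : C.comap Prod.fst ≤ Prod.instMeasurableSpace :=
    (MeasurableSpace.comap_mono hC).trans (measurable_fst (α := E) (β := E')).comap_le
  have hC2 : C'.comap Prod.snd ≤ Prod.instMeasurableSpace :=
    (MeasurableSpace.comap_mono hC').trans (measurable_snd (α := E) (β := E')).comap_le
  have hX : mB.comap (fun p : E × E' => π p.1) ≤ Prod.instMeasurableSpace :=
    (hπ.comp measurable_fst).comap_le
  have hX1 : mB.comap (fun p : E × E' => π p.1) ≤ mE.comap Prod.fst := by
    rw [show (fun p : E × E' => π p.1) = π ∘ Prod.fst from rfl, ← MeasurableSpace.comap_comp]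
    exact MeasurableSpace.comap_mono hπ.comap_le
  have h1 := relProd_indep_fst (μ := μ) (μ' := μ') hπ hπ' hbb hC' hi'
  have h2 : Indep (C.comap Prod.fst ⊔ mB.comap (fun p : E × E' => π p.1)) (C'.comap Prod.snd)
      (relProd μ π μ' π') :=
    indep_of_indep_of_le_left h1 (sup_le (MeasurableSpace.comap_mono hC) hX1)
  have h3 : CI (relProd μ π μ' π') (mB.comap (fun p : E × E' => π p.1)) (C'.comap Prod.snd)
      (C.comap Prod.fst) :=
    (Indep.ci hC2 hC1 hX h2.symm).symm hC2 hX hC1
  have h4 : Indep (mB.comap (fun p : E × E' => π p.1)) (C.comap Prod.fst)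
      (relProd μ π μ' π') := by
    have := (indep_comap_iff (measurePreserving_relProd_fst (μ := μ) (μ' := μ') (π' := π') hπ)
      hπ.comap_le hC).2 hi
    rw [MeasurableSpace.comap_comp] at this
    exact this
  exact Indep.contraction hX hC1 hC2 h4 h3

end ci

end Crest.Agent.R069
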