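import Crest.Agent.R069.ArrFib

/-!
# Row 69, N-LEV (S3) "RICH": countably many environment functions suffice

`(L, P)` any probability space, `mC ≤ mL`, `Z` standard Borel, `e : L → Z` measurable.
`richG mC P e b : ℕ → L → ℝ` is a countable family of bounded `mC`-measurable functions
(the numbers `P(e ∈ A_n | mC)` together with a given family `b`) such that EVERY sub-sigma-algebra
`m ≤ mC` for which all `richG q` are measurable satisfies `e ⟂ mC | m` (`rich_ci`); consequences:
`rich_aele` (`n₁ ≤ n₂ ⊔ mC` mod null, `n₁, n₂ ≤ σ(e)` ⟹ `n₁ ≤ n₂ ⊔ m` mod null),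
`rich_aele_self` (`n₁ ≤ σ(e)`, `n₁ ≤ mC` mod null ⟹ `n₁ ≤ m` mod null), and the conditional
expectations given `mC` and given `m` agree on functions of `e`.
`exists_countable_gen` : on a standard Borel space every sub-sigma-algebra is, mod null sets,
generated by countably many `[0,1]`-valued functions of its own.
-/

set_option autoImplicit false
set_option linter.unusedSectionVars false

open MeasureTheory Filter Set ProbabilityTheory
open scoped ENNReal Topology

namespace Crest.Agent.R069.Arr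

variable {L : Type*} {m mC n₁ n₂ : MeasurableSpace L} {mL : MeasurableSpace L} {P : Measure L}
  [IsProbabilityMeasure P]
  {Z : Type*} [mZ : MeasurableSpace Z] [StandardBorelSpace Z] [Nonempty Z]

/-- core: if the conditional probabilities `P(e ∈ A_n | mC)` of a countable generating π-system are
`m`-measurable, then `e ⟂ mC | m`. -/
theorem ci_of_cK_meas (hC : mC ≤ mL) {e : L → Z} (he : Measurable e) (hm : m ≤ mC)
    (hg : ∀ n, Measurable[m] (fun x => (cK mC P e x).real (piA Z n))) :
    CI P (mZ.comap e) mC m := by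
  have hK : @Measurable L (Measure Z) m _ (fun x => cK mC P e x) := by
    have hpr : ∀ x, IsProbabilityMeasure (cK mC P e x) := fun x => isProb_cK e x
    refine @Measurable.measure_of_isPiSystem_of_isProbabilityMeasure L Z m mZ
      (fun x => cK mC P e x) hpr (range (piA Z)) piA_gen piA_pi ?_
    rintro _ ⟨n, rfl⟩
    have h1 := (hg n).ennreal_ofReal
    have h2 : (fun x => cK mC P e x (piA Z n)) =
        fun x => ENNReal.ofReal ((cK mC P e x).real (piA Z n)) := by
      funext x
      have := hpr x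
      exact (ofReal_measureReal (measure_ne_top _ _)).symm
    rw [h2]
    exact h1
  let κ : @Kernel L Z m mZ := @Kernel.mk L Z m mZ (fun x => cK mC P e x) hK
  have hκ : @IsMarkovKernel L Z m mZ κ := ⟨fun x => isProb_cK e x⟩
  intro f hf
  obtain ⟨g, hg', rfl⟩ := hf.factors
  have hsup : mC ⊔ m = mC := sup_eq_left.2 hm
  rw [hsup]
  have hint : Integrable (fun x => g (e x)) P := hg'.comp.integrable (he.comap_le)
  have h1 := condExp_eq_cK (P := P) hC he hg'.meas.stronglyMeasurable hint
  have h2 : P[P[fun x => g (e x) | mC] | m] =ᵐ[P] P[fun x => g (e x) | m] :=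
    R069.condExp_condExp hm hC
  have h3 : P[P[fun x => g (e x) | mC] | m] =ᵐ[P] P[fun x => g (e x) | mC] := by
    refine (condExp_congr_ae h1).trans ?_
    have hsm : StronglyMeasurable[m] (fun x => ∫ z, g z ∂(cK mC P e x)) :=
      StronglyMeasurable.integral_kernel (κ := κ) hg'.meas.stronglyMeasurable
    rw [condExp_of_stronglyMeasurable (hm.trans hC) hsm]
    · exact h1.symm
    · exact integrable_condExp.congr h1
  exact h3.symm.trans h2

/-- The rich countable family: conditional probabilities of `e` and a given family `b`. -/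
noncomputable def richG (mC : MeasurableSpace L) {mL : MeasurableSpace L} (P : Measure L)
    [IsProbabilityMeasure P] (e : L → Z) (b : ℕ → L → ℝ) (q : ℕ) (x : L) : ℝ :=
  if q % 2 = 0 then b (q / 2) x else (cK mC P e x).real (piA Z (q / 2))

theorem richG_even (e : L → Z) (b : ℕ → L → ℝ) (j : ℕ) : richG mC P e b (2 * j) = b j := by
  funext x; simp [richG]

theorem richG_odd (e : L → Z) (b : ℕ → L → ℝ) (j : ℕ) :
    richG mC P e b (2 * j + 1) = fun x => (cK mC P e x).real (piA Z j) := by
  funext x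
  have h1 : (2 * j + 1) % 2 = 1 := by omega
  have h2 : (2 * j + 1) / 2 = j := by omega
  simp [richG, h1, h2]

theorem measurable_richG (e : L → Z) {b : ℕ → L → ℝ} (hb : ∀ j, Measurable[mC] (b j)) (q : ℕ) :
    Measurable[mC] (richG mC P e b q) := by
  rcases Nat.even_or_odd' q with ⟨j, rfl | rfl⟩
  · rw [richG_even]; exact hb j
  · rw [richG_odd]; exact measurable_cK_real e (piA_meas j)

theorem richG_bdd (e : L → Z) {b : ℕ → L → ℝ} {C : ℝ} (hC : 1 ≤ C) (hb : ∀ j x, |b j x| ≤ C)
    (q : ℕ) (x : L) : |richG mC P e b q x| ≤ C := by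
  rcases Nat.even_or_odd' q with ⟨j, rfl | rfl⟩
  · rw [richG_even]; exact hb j x
  · rw [richG_odd]
    have hpr := isProb_cK (mC := mC) (P := P) e x
    rw [abs_of_nonneg measureReal_nonneg]
    exact measureReal_le_one.trans hC

section main

variable {e : L → Z} {b : ℕ → L → ℝ}

/-- **RICH**: `e ⟂ mC | m` for every `m` between the rich family and `mC`. -/
theorem rich_ci (hC : mC ≤ mL) (he : Measurable e) (hm : m ≤ mC)
    (hg : ∀ q, Measurable[m] (richG mC P e b q)) : CI P (mZ.comap e) mC m :=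
  ci_of_cK_meas hC he hm fun n => by
    have := hg (2 * n + 1)
    rwa [richG_odd] at this

theorem rich_b (hg : ∀ q, Measurable[m] (richG mC P e b q)) (j : ℕ) : Measurable[m] (b j) := by
  have := hg (2 * j)
  rwa [richG_even] at this

end main

/-- removing the big environment from an inclusion mod null sets. -/
theorem CI.aele_sup {mE : MeasurableSpace L} (hE : mE ≤ mL) (hC : mC ≤ mL) (hm : m ≤ mC)
    (h : CI P mE mC m) (h1 : n₁ ≤ mE) (h2 : n₂ ≤ mE) (ha : AELe P n₁ (n₂ ⊔ mC)) :
    AELe P n₁ (n₂ ⊔ m) := by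
  have hmL : m ≤ mL := hm.trans hC
  have hn1 : n₁ ≤ mL := h1.trans hE
  have hn2 : n₂ ≤ mL := h2.trans hE
  have c1 : CI P mC mE m := h.symm hE hC hmL
  have c2 : CI P mC (n₂ ⊔ mE) m := by rw [sup_eq_right.2 h2]; exact c1
  have c3 := c2.weak_union hn2 hE hmL
  have c4 : CI P mE mC (n₂ ⊔ m) := c3.symm hC hE (sup_le hn2 hmL)
  refine aele_of_condExp hn1 (sup_le hn2 hmL) fun f hb => ?_
  have h3 := c4 _ (hb.mono h1)
  have hsup : mC ⊔ (n₂ ⊔ m) = n₂ ⊔ mC := by
    rw [← sup_assoc, sup_comm mC, sup_assoc, sup_eq_left.2 hm]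
  rw [hsup] at h3
  exact h3.symm.trans (ha.condExp_eq hn1 (sup_le hn2 hC) hb)

/-- a part of `e` inside the big environment is inside the small one. -/
theorem CI.aele_self {mE : MeasurableSpace L} (hE : mE ≤ mL) (hC : mC ≤ mL) (hm : m ≤ mC)
    (h : CI P mE mC m) (h1 : n₁ ≤ mE) (ha : AELe P n₁ mC) : AELe P n₁ m := by
  have := CI.aele_sup hE hC hm h h1 (bot_le : (⊥ : MeasurableSpace L) ≤ mE)
    (by rwa [bot_sup_eq])
  rwa [bot_sup_eq] at this

section main

variable {e : L → Z} {b : ℕ → L → ℝ}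

theorem rich_aele (hC : mC ≤ mL) (he : Measurable e) (hm : m ≤ mC)
    (hg : ∀ q, Measurable[m] (richG mC P e b q)) (h1 : n₁ ≤ mZ.comap e) (h2 : n₂ ≤ mZ.comap e)
    (ha : AELe P n₁ (n₂ ⊔ mC)) : AELe P n₁ (n₂ ⊔ m) :=
  CI.aele_sup he.comap_le hC hm (rich_ci hC he hm hg) h1 h2 ha

theorem rich_aele_self (hC : mC ≤ mL) (he : Measurable e) (hm : m ≤ mC)
    (hg : ∀ q, Measurable[m] (richG mC P e b q)) (h1 : n₁ ≤ mZ.comap e)
    (ha : AELe P n₁ mC) : AELe P n₁ m :=
  CI.aele_self he.comap_le hC hm (rich_ci hC he hm hg) h1 ha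

theorem rich_condExp (hC : mC ≤ mL) (he : Measurable e) (hm : m ≤ mC)
    (hg : ∀ q, Measurable[m] (richG mC P e b q)) {f : L → ℝ} (hf : BdM (mZ.comap e) f) :
    P[f | mC] =ᵐ[P] P[f | m] := by
  have := rich_ci hC he hm hg f hf
  rwa [sup_eq_left.2 hm] at this

end main

/-- On a standard Borel probability space every sub-sigma-algebra is generated, mod null sets, by
countably many of its own `[0,1]`-valued functions. -/
theorem exists_countable_gen {Ω : Type*} {C : MeasurableSpace Ω} [mΩ : MeasurableSpace Ω]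
    [StandardBorelSpace Ω] {μ : Measure Ω} [IsProbabilityMeasure μ] (hC : C ≤ mΩ) :
    ∃ b : ℕ → Ω → ℝ, (∀ n, Measurable[C] (b n)) ∧ (∀ n x, 0 ≤ b n x ∧ b n x ≤ 1) ∧
      ∀ m : MeasurableSpace Ω, (∀ n, @Measurable Ω ℝ m _ (b n)) → m ≤ C →
        @AELe Ω mΩ μ C m := by
  have hne : Nonempty Ω := by
    by_contra h
    rw [not_nonempty_iff] at h
    have : μ univ = 0 := by rw [univ_eq_empty_iff.2 h, measure_empty]
    simp at this
  refine ⟨fun n x => (cK C μ (id : Ω → Ω) x).real (piA Ω n), fun n =>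
    measurable_cK_real _ (piA_meas n), fun n x => ?_, fun m hm hmC => ?_⟩
  · have hpr := isProb_cK (mC := C) (P := μ) (id : Ω → Ω) x
    exact ⟨measureReal_nonneg, measureReal_le_one⟩
  · have h := @ci_of_cK_meas Ω m C mΩ μ _ Ω mΩ _ _ hC id (@measurable_id Ω mΩ) hmC hm
    rw [MeasurableSpace.comap_id] at h
    exact CI.aele_self (mL := mΩ) le_rfl hC hmC h hC AELe.refl

/-- Version for a joint variable: the sub-sigma-algebra `m` may be any sigma-algebra between the
sigma-algebra generated by `b` and `C`; in particular the one generated by `b`. -/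
theorem exists_countable_gen' {Ω : Type*} {C : MeasurableSpace Ω} [mΩ : MeasurableSpace Ω]
    [StandardBorelSpace Ω] {μ : Measure Ω} [IsProbabilityMeasure μ] (hC : C ≤ mΩ) :
    ∃ b : ℕ → Ω → ℝ, (∀ n, Measurable[C] (b n)) ∧ (∀ n x, 0 ≤ b n x ∧ b n x ≤ 1) ∧
      (⨆ n, (inferInstance : MeasurableSpace ℝ).comap (b n)) ≤ C ∧
      AELe μ C (⨆ n, (inferInstance : MeasurableSpace ℝ).comap (b n)) := by
  obtain ⟨b, h1, h2, h3⟩ := exists_countable_gen (μ := μ) hC
  have hle : (⨆ n, (inferInstance : MeasurableSpace ℝ).comap (b n)) ≤ C :=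
    iSup_le fun n => (h1 n).comap_le
  refine ⟨b, h1, h2, hle, h3 _ (fun n => ?_) hle⟩
  exact Measurable.mono (comap_measurable (b n)) (le_iSup (fun n =>
    (inferInstance : MeasurableSpace ℝ).comap (b n)) n) le_rfl

/-- **RICH, packaged.** `e : L → Z` measurable; countably many sigma-algebras `D k` of `L`, each
generated mod null by countably many bounded functions `d k n` which are a.e. equal to
`mC`-measurable ones. There is ONE countable family `g` of bounded `mC`-measurable functions such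
that for every `m ≤ mC` making all `g q` measurable: `e ⟂ mC | m` and every `d k n` is a.e.
`m`-measurable. -/
theorem exists_rich (hC : mC ≤ mL) {e : L → Z} (he : Measurable e) {ι : Type*} [Countable ι]
    (d : ι → L → ℝ) (hd : ∀ i, AEStronglyMeasurable[mC] (d i) P) (hdb : ∀ i x, |d i x| ≤ 1) :
    ∃ g : ℕ → L → ℝ, (∀ q, Measurable[mC] (g q)) ∧ (∀ q x, |g q x| ≤ 1) ∧
      (∀ i, ∃ q, d i =ᵐ[P] g q) ∧
      ∀ m : MeasurableSpace L, m ≤ mC → (∀ q, Measurable[m] (g q)) →
        CI P (mZ.comap e) mC m ∧ ∀ i, AEStronglyMeasurable[m] (d i) P := by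
  classical
  -- bounded `mC`-measurable versions
  have hv : ∀ i, ∃ f : L → ℝ, Measurable[mC] f ∧ (∀ x, |f x| ≤ 1) ∧ d i =ᵐ[P] f := by
    intro i
    obtain ⟨f, hf, hfe⟩ := hd i
    refine ⟨fun x => max (-1) (min 1 (f x)), ?_, fun x => ?_, ?_⟩
    · exact measurable_const.max (measurable_const.min hf.measurable)
    · rw [abs_le]
      exact ⟨le_max_left _ _, max_le (by norm_num) (min_le_left _ _)⟩
    · filter_upwards [hfe] with x hx
      rw [← hx]
      have := abs_le.1 (hdb i x)
      rw [min_eq_right this.2, max_eq_right this.1]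
  choose f hf hfb hfe using hv
  rcases isEmpty_or_nonempty ι with hι | hι
  · refine ⟨richG mC P e (fun _ _ => 0), measurable_richG e (fun _ => measurable_const),
      richG_bdd e le_rfl (fun _ _ => by simp), fun i => isEmptyElim i, fun m hm hg =>
      ⟨rich_ci hC he hm hg, fun i => isEmptyElim i⟩⟩
  · obtain ⟨φ, hφ⟩ := exists_surjective_nat ι
    refine ⟨richG mC P e (fun n => f (φ n)), measurable_richG e (fun n => hf _),
      richG_bdd e le_rfl (fun n x => hfb _ x), fun i => ?_, fun m hm hg =>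
      ⟨rich_ci hC he hm hg, fun i => ?_⟩⟩
    · obtain ⟨n, rfl⟩ := hφ i
      exact ⟨2 * n, by rw [richG_even]; exact hfe _⟩
    · obtain ⟨n, rfl⟩ := hφ i
      exact ⟨f (φ n), (rich_b hg n).stronglyMeasurable, hfe _⟩

end Crest.Agent.R069.Arr
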