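import Crest.Agent.R069.CI
import Crest.Agent.R069.LoebMap
import Crest.Agent.R069.LoebCE
import Crest.Agent.R069.Defs

/-!
# Row 69, node RULE, R1: `P_i F` is `LL (comap π X)`-measurable for `F` a function on `X`

`P_i F = E[F(π ·)_{s_i} | rest_i]`.  By (S2) for the two legs of a pair `Q` above two copies of `P`
(conditionally independent over `X`), `P_i F` is the same function of both copies, hence a
function of `XX`.
-/

set_option autoImplicit false

open MeasureTheory Filter Set ProbabilityTheory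
open scoped ENNReal Topology

namespace Crest.Agent.R069.RuleA

open Crest.Agent.R069

/-! ### small facts -/

theorem rest_le {X : Sys} {ι : Type} (s : ι → ℕ → ℤ) (i : ι) (P : Pair X) :
    rest s i P ≤ LL P.ms := restM_le s i P.toSys le_rfl P.C_le

theorem sitef_BM (M : Sys) (s : ℕ → ℤ) {f : M.Ω → ℝ} (hf : Measurable f) {C : ℝ}
    (hC : ∀ x, |f x| ≤ C) : BM M.ms (fun k x => f (M.S (s k) x)) C :=
  ⟨fun k => hf.comp (M.S_mp (s k)).measurable, fun _ _ => hC _⟩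

theorem sitef_BdM (M : Sys) (s : ℕ → ℤ) {f : M.Ω → ℝ} (hf : Bd M.ms f) :
    BdM (LL M.ms) (sitef M s f) := by
  obtain ⟨hm, C, hC⟩ := hf
  have h := sitef_BM M s hm hC
  exact ⟨h.meas_st, C, h.st_le⟩

/-- standard parts of a.e. equal sequences of bounded functions are a.e. equal. -/
theorem st_congr_ae {α : Type*} [MeasurableSpace α] {μ : Measure α} {f g : ℕ → α → ℝ}
    (h : ∀ k, f k =ᵐ[μ] g k) : st f =ᵐ[lb μ] st g := by
  have := ae_lb_of_forall_ae (μ := μ) (p := fun k x => f k x = g k x) h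
  filter_upwards [this] with x hx
  show ulim (fun k => f k (x k)) = ulim (fun k => g k (x k))
  unfold ulim
  congr 1
  exact congrArg _ (Ultrafilter.coe_injective (Filter.map_congr hx))

/-- The map of Loeb spaces of an extension. -/
theorem mp_ext {X : Sys} {P Q : Pair X} (e : Ext P Q) :
    MeasurePreserving (lbmap (fun _ => e.f)) (lb Q.μ) (lb P.μ) :=
  measurePreserving_lbmap fun _ => e.f_mp

/-- **R1**, core: two extension maps `e₁ e₂ : Ext P Q`, conditionally independent over `X`. -/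
theorem R1_core {X : Sys} {ι : Type} (s : ι → ℕ → ℤ) (i : ι) {P Q : Pair X} (e₁ e₂ : Ext P Q)
    (hCI : CI Q.μ (P.ms.comap e₁.f) (P.ms.comap e₂.f) (X.ms.comap (P.π ∘ e₁.f)))
    {F : X.Ω → ℝ} (hF : Bd X.ms F) (h₁ : S2At s P Q e₁) (h₂ : S2At s P Q e₂) :
    (lb P.μ)[(lb P.μ)[sitef P.toSys (s i) (F ∘ P.π) | rest s i P] | LL (X.ms.comap P.π)]
      =ᵐ[lb P.μ] (lb P.μ)[sitef P.toSys (s i) (F ∘ P.π) | rest s i P] := by
  set g := (lb P.μ)[sitef P.toSys (s i) (F ∘ P.π) | rest s i P] with hg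
  have hFπ : Bd P.ms (F ∘ P.π) := by
    obtain ⟨hm, C, hC⟩ := hF
    exact ⟨hm.comp P.π_mp.measurable, C, fun x => hC _⟩
  -- a bounded version of `g`
  obtain ⟨G, hG, hgG⟩ := BdM.condExp_bm (μ := lb P.μ) (rest_le s i P) (sitef_BdM P.toSys (s i) hFπ)
  have hGL : BdM (LL P.ms) G := hG.mono (rest_le s i P)
  -- the two legs give the same function
  have hsame : sitef Q.toSys (s i) ((F ∘ P.π) ∘ e₁.f) =ᵐ[lb Q.μ]
      sitef Q.toSys (s i) ((F ∘ P.π) ∘ e₂.f) := by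
    refine st_congr_ae fun k => ?_
    have h3 : P.π ∘ e₁.f =ᵐ[Q.μ] P.π ∘ e₂.f := e₁.f_π.symm.trans e₂.f_π
    have h4 := (Q.S_mp (s i k)).quasiMeasurePreserving.ae h3
    filter_upwards [h4] with x hx
    show F (P.π (e₁.f (Q.S (s i k) x))) = F (P.π (e₂.f (Q.S (s i k) x)))
    exact congrArg F hx
  have hleg : G ∘ lbmap (fun _ => e₁.f) =ᵐ[lb Q.μ] G ∘ lbmap (fun _ => e₂.f) := by
    have a1 := (mp_ext e₁).quasiMeasurePreserving.ae_eq_comp hgG
    have a2 := (mp_ext e₂).quasiMeasurePreserving.ae_eq_comp hgG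
    have a3 : (lb Q.μ)[sitef Q.toSys (s i) ((F ∘ P.π) ∘ e₁.f) | rest s i Q] =ᵐ[lb Q.μ]
        (lb Q.μ)[sitef Q.toSys (s i) ((F ∘ P.π) ∘ e₂.f) | rest s i Q] := condExp_congr_ae hsame
    exact a1.symm.trans (((h₁ i _ hFπ).symm.trans (a3.trans (h₂ i _ hFπ))).trans a2)
  -- sigma-algebras
  have hm₁le : P.ms.comap e₁.f ≤ Q.ms := e₁.f_mp.measurable.comap_le
  have hm₂le : P.ms.comap e₂.f ≤ Q.ms := e₂.f_mp.measurable.comap_le
  have hmle : X.ms.comap (P.π ∘ e₁.f) ≤ Q.ms :=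
    (P.π_mp.measurable.comp e₁.f_mp.measurable).comap_le
  have hE₁ : BdM (LL (P.ms.comap e₁.f)) (G ∘ lbmap (fun _ => e₁.f)) := by
    have := hGL.comp (φ := lbmap (fun _ => e₁.f))
    rwa [comap_lbmap_LL] at this
  have hE₂ : BdM (LL (P.ms.comap e₂.f)) (G ∘ lbmap (fun _ => e₂.f)) := by
    have := hGL.comp (φ := lbmap (fun _ => e₂.f))
    rwa [comap_lbmap_LL] at this
  obtain ⟨C, hC⟩ := hE₁.bdd
  have key : (lb Q.μ)[G ∘ lbmap (fun _ => e₁.f) |
        LL (P.ms.comap e₂.f ⊔ X.ms.comap (P.π ∘ e₁.f))] =ᵐ[lb Q.μ]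
      (lb Q.μ)[G ∘ lbmap (fun _ => e₁.f) | LL (X.ms.comap (P.π ∘ e₁.f))] :=
    condExp_LL_eq hm₁le (sup_le hm₂le hmle) hmle
      (fun f hf hb => hCI f ⟨hf, hb⟩) hE₁.meas hC
  have key2 : (lb Q.μ)[G ∘ lbmap (fun _ => e₁.f) |
        LL (P.ms.comap e₂.f ⊔ X.ms.comap (P.π ∘ e₁.f))] =ᵐ[lb Q.μ]
      G ∘ lbmap (fun _ => e₁.f) := by
    refine (condExp_congr_ae hleg).trans ?_
    rw [condExp_of_bm (LL_mono (sup_le hm₂le hmle)) (hE₂.mono (LL_mono le_sup_left))]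
    exact hleg.symm
  have key3 : G ∘ lbmap (fun _ => e₁.f) =ᵐ[lb Q.μ]
      ((lb P.μ)[G | LL (X.ms.comap P.π)]) ∘ lbmap (fun _ => e₁.f) := by
    refine key2.symm.trans (key.trans ?_)
    have hmm : LL (X.ms.comap (P.π ∘ e₁.f))
        = (LL (X.ms.comap P.π)).comap (lbmap (fun _ => e₁.f)) := by
      rw [comap_lbmap_LL, MeasurableSpace.comap_comp]
    rw [hmm]
    exact condExp_comp_mp (mp_ext e₁) (LL_mono P.π_mp.measurable.comap_le)
      (hGL.integrable le_rfl)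
  have key4 : G =ᵐ[lb P.μ] (lb P.μ)[G | LL (X.ms.comap P.π)] :=
    (ae_comp_iff (mp_ext e₁) hGL.meas
      ((stronglyMeasurable_condExp).measurable.mono
        (LL_mono P.π_mp.measurable.comap_le) le_rfl)).1 key3
  exact (condExp_congr_ae hgG).trans (key4.symm.trans hgG.symm)

end Crest.Agent.R069.RuleA
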