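import Crest.Agent.R069.SatDefs
import Crest.Agent.R069.CI
import Crest.Agent.R069.Rel2

/-!
# Row 69, node TWO: the relative product of two pairs over the base system
-/

set_option autoImplicit false

open MeasureTheory Filter Set ProbabilityTheory
open scoped ENNReal Topology

namespace Crest.Agent.R069

theorem two_nul_le {α : Type*} [m : MeasurableSpace α] (μ : Measure α) : nul μ ≤ m :=
  fun _ hA => hA.1

/-- null sets are almost everywhere trivial -/
theorem two_aele_nul {α : Type*} {m : MeasurableSpace α} [mα : MeasurableSpace α] (μ : Measure α) :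
    AELe μ (nul μ) m := by
  rintro A ⟨_, h | h⟩
  · exact ⟨∅, @MeasurableSet.empty _ m, ae_eq_empty.2 h⟩
  · exact ⟨univ, @MeasurableSet.univ _ m, (ae_eq_univ.2 h)⟩

/-- preimages of trivial sets -/
theorem two_measurable_nul {α β : Type*} [MeasurableSpace α] [MeasurableSpace β] {μ : Measure α}
    {ν : Measure β} {f : α → β} (hf : MeasurePreserving f μ ν) :
    Measurable[nul μ, nul ν] f := by
  rintro A ⟨hA, h | h⟩
  · exact ⟨hf.measurable hA, Or.inl (by rw [hf.measure_preimage hA.nullMeasurableSet, h])⟩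
  · refine ⟨hf.measurable hA, Or.inr ?_⟩
    rw [← preimage_compl, hf.measure_preimage hA.compl.nullMeasurableSet, h]

/-- the automorphism `S n` of a system -/
def Sys.twoEquiv (M : Sys) (n : ℤ) : M.Ω ≃ᵐ M.Ω where
  toFun := M.S n
  invFun := M.S (-n)
  left_inv x := by rw [← M.S_add, neg_add_cancel, M.S_zero]
  right_inv x := by rw [← M.S_add, add_neg_cancel, M.S_zero]
  measurable_toFun := (M.S_mp n).measurable
  measurable_invFun := (M.S_mp (-n)).measurable

@[simp] theorem Sys.twoEquiv_apply (M : Sys) (n : ℤ) (x : M.Ω) : M.twoEquiv n x = M.S n x := rfl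

section two

variable {X : Sys} (P P' : Pair X) [StandardBorelSpace P.Ω] [Nonempty P.Ω]
  [StandardBorelSpace P'.Ω] [Nonempty P'.Ω]

omit [StandardBorelSpace P.Ω] [Nonempty P.Ω] [StandardBorelSpace P'.Ω] [Nonempty P'.Ω] in
theorem two_map_eq : P.μ.map P.π = P'.μ.map P'.π := by
  rw [P.π_mp.map_eq, P'.π_mp.map_eq]

/-- the measure of the two copies -/
noncomputable def twoμ : Measure (P.Ω × P'.Ω) := relProd P.μ P.π P'.μ P'.π

instance : IsProbabilityMeasure (twoμ P P') :=
  isProbabilityMeasure_relProd P.π_mp.measurable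

theorem two_fst : MeasurePreserving Prod.fst (twoμ P P') P.μ :=
  measurePreserving_relProd_fst P.π_mp.measurable

theorem two_snd : MeasurePreserving Prod.snd (twoμ P P') P'.μ :=
  measurePreserving_relProd_snd P'.π_mp.measurable (two_map_eq P P')

theorem two_S (n : ℤ) :
    MeasurePreserving (Prod.map (P.S n) (P'.S n)) (twoμ P P') (twoμ P P') :=
  measurePreserving_relProd_prodMap P.π_mp.measurable P'.π_mp.measurable (two_map_eq P P')
    (P.S_mp n) (P'.S_mp n) (X.twoEquiv n) (P.π_S n) (P'.π_S n)

/-- the environment of the two copies -/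
@[implicit_reducible]
noncomputable def twoC : MeasurableSpace (P.Ω × P'.Ω) :=
  (P.C.comap Prod.fst ⊔ P'.C.comap Prod.snd) ⊔ nul (twoμ P P')

theorem twoC_le : twoC P P' ≤ Prod.instMeasurableSpace := by
  refine sup_le (sup_le ?_ ?_) (two_nul_le _)
  · exact (MeasurableSpace.comap_mono P.C_le).trans (measurable_fst).comap_le
  · exact (MeasurableSpace.comap_mono P'.C_le).trans (measurable_snd).comap_le

theorem two_indep_C :
    Indep (P.C.comap (Prod.fst : P.Ω × P'.Ω → P.Ω)) (P'.C.comap Prod.snd) (twoμ P P') :=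
  relProd_indep_both P.π_mp.measurable P'.π_mp.measurable (two_map_eq P P') P.C_le P'.C_le
    P'.indep

theorem two_indep :
    Indep (X.ms.comap (fun p : P.Ω × P'.Ω => P.π p.1)) (twoC P P') (twoμ P P') := by
  have h := relProd_indep (μ := P.μ) (μ' := P'.μ) P.π_mp.measurable P'.π_mp.measurable
    (two_map_eq P P') P.C_le P'.C_le P.indep P'.indep
  have h1 : X.ms.comap (fun p : P.Ω × P'.Ω => P.π p.1) ≤ Prod.instMeasurableSpace :=
    (P.π_mp.measurable.comp measurable_fst).comap_le
  have h2 : P.C.comap (Prod.fst : P.Ω × P'.Ω → P.Ω) ⊔ P'.C.comap Prod.snd ≤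
      Prod.instMeasurableSpace :=
    sup_le ((MeasurableSpace.comap_mono P.C_le).trans (measurable_fst).comap_le)
      ((MeasurableSpace.comap_mono P'.C_le).trans (measurable_snd).comap_le)
  exact Indep.mono_ae h1 h1 h2 (twoC_le P P') AELe.refl (AELe.sup AELe.refl (two_aele_nul _)) h

theorem two_C_S (n : ℤ) :
    Measurable[twoC P P', twoC P P'] (Prod.map (P.S n) (P'.S n)) := by
  rw [measurable_iff_comap_le, twoC, MeasurableSpace.comap_sup, MeasurableSpace.comap_sup,
    MeasurableSpace.comap_comp, MeasurableSpace.comap_comp]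
  refine sup_le_sup (sup_le_sup ?_ ?_) ?_
  · have e : (Prod.fst ∘ Prod.map (P.S n) (P'.S n) : P.Ω × P'.Ω → P.Ω) = P.S n ∘ Prod.fst := rfl
    rw [e, ← MeasurableSpace.comap_comp]
    exact MeasurableSpace.comap_mono (measurable_iff_comap_le.1 (P.C_S n))
  · have e : (Prod.snd ∘ Prod.map (P.S n) (P'.S n) : P.Ω × P'.Ω → P'.Ω) = P'.S n ∘ Prod.snd := rfl
    rw [e, ← MeasurableSpace.comap_comp]
    exact MeasurableSpace.comap_mono (measurable_iff_comap_le.1 (P'.C_S n))
  · exact measurable_iff_comap_le.1 (two_measurable_nul (two_S P P' n))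

theorem two_π_S (n : ℤ) :
    (fun p : P.Ω × P'.Ω => P.π (Prod.map (P.S n) (P'.S n) p).1) =ᵐ[twoμ P P']
      fun p => X.S n (P.π p.1) := by
  have h := (two_fst P P').quasiMeasurePreserving.ae_eq_comp (P.π_S n)
  filter_upwards [h] with p hp
  exact hp

/-- **The relative product of two pairs over the base system.** -/
noncomputable def twoPair : Pair X where
  Ω := P.Ω × P'.Ω
  ms := Prod.instMeasurableSpace
  μ := twoμ P P'
  pr := inferInstance
  S n := Prod.map (P.S n) (P'.S n)
  S_zero p := by simp [Prod.map, P.S_zero, P'.S_zero]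
  S_add a b p := by simp [Prod.map, P.S_add, P'.S_add]
  S_mp n := two_S P P' n
  π p := P.π p.1
  π_mp := P.π_mp.comp (two_fst P P')
  π_S n := two_π_S P P' n
  C := twoC P P'
  C_le := twoC_le P P'
  C_nul := le_sup_right
  C_S n := two_C_S P P' n
  indep := two_indep P P'

/-- the first copy -/
noncomputable def twoExt1 : Ext P (twoPair P P') where
  f := Prod.fst
  f_mp := two_fst P P'
  f_S _ := EventuallyEq.rfl
  f_π := EventuallyEq.rfl
  f_C := le_sup_left.trans le_sup_left

/-- the second copy -/
noncomputable def twoExt2 [MeasurableEq X.Ω] : Ext P' (twoPair P P') where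
  f := Prod.snd
  f_mp := two_snd P P'
  f_S _ := EventuallyEq.rfl
  f_π := relProd_base_eq' P.π_mp.measurable P'.π_mp.measurable (two_map_eq P P')
  f_C := le_sup_right.trans le_sup_left

/-- the two copies are conditionally independent given the base -/
theorem two_ci : CI (twoPair P P').μ (P.ms.comap (twoExt1 P P').f)
    (P'.ms.comap (Prod.snd : P.Ω × P'.Ω → P'.Ω)) (X.ms.comap (twoPair P P').π) :=
  relProd_ci P.π_mp.measurable

end two

end Crest.Agent.R069
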