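import Crest.Agent.R069.RuleA
import Crest.Agent.R069.TwoPair

/-!
# Row 69, node RULE, R1 (final form): `P_i F` is `LL (comap π X)`-measurable
-/

set_option autoImplicit false

open MeasureTheory Filter Set ProbabilityTheory
open scoped ENNReal Topology

namespace Crest.Agent.R069.RuleA

open Crest.Agent.R069

/-- **R1** -/
theorem R1 {X : Sys} [StandardBorelSpace X.Ω] {P : Pair X} [StandardBorelSpace P.Ω]
    [Nonempty P.Ω] {ι : Type} {s : ι → ℕ → ℤ} (h2 : S2 s P) (i : ι)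
    {F : X.Ω → ℝ} (hF : Bd X.ms F) :
    (lb P.μ)[(lb P.μ)[sitef P.toSys (s i) (F ∘ P.π) | rest s i P] | LL (X.ms.comap P.π)]
      =ᵐ[lb P.μ] (lb P.μ)[sitef P.toSys (s i) (F ∘ P.π) | rest s i P] :=
  R1_core s i (twoExt1 P P) (twoExt2 P P) (two_ci P P) hF (h2 _ _) (h2 _ _)

end Crest.Agent.R069.RuleA
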