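import Crest.Agent.R069.CI

/-!
# The rule `a` in one slot = `a` in all the other slots (row 69, node N-RULE, abstract core)

helper212.  No Loeb spaces, no systems: two probability spaces, finitely many coordinates.
-/

set_option autoImplicit false
set_option linter.unusedSectionVars false
set_option linter.unusedVariables false

open MeasureTheory Filter Set ProbabilityTheory
open scoped ENNReal Topology

namespace Crest.Agent.R069

namespace RuleCore

/-! ### Abstract peeling -/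

section peel

variable {Ω : Type*} {mΩ : MeasurableSpace Ω} {P : Measure Ω} [IsProbabilityMeasure P]
  {ι : Type*} [DecidableEq ι]

/-- **Peeling**: if `E[U j | R A'] = V j` for all `A' ∌ j`, where `R A' ⊇ R` makes the `U j'`,
`j' ∈ A'`, measurable, then `E[∏ U j | R] = ∏ V j`. -/
theorem peel {R : MeasurableSpace Ω} (hR : R ≤ mΩ) {U V : ι → Ω → ℝ} {A : Finset ι}
    (hU : ∀ j ∈ A, BdM mΩ (U j)) (hV : ∀ j ∈ A, ∃ V', BdM R V' ∧ V j =ᵐ[P] V')
    (h : ∀ j ∈ A, ∀ A' ⊆ A, j ∉ A' → ∃ m : MeasurableSpace Ω, R ≤ m ∧ m ≤ mΩ ∧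
      (∀ j' ∈ A', ∃ U', BdM m U' ∧ U j' =ᵐ[P] U') ∧ P[U j | m] =ᵐ[P] V j) :
    P[fun ω => ∏ j ∈ A, U j ω | R] =ᵐ[P] fun ω => ∏ j ∈ A, V j ω := by
  classical
  induction A using Finset.induction_on with
  | empty =>
    simp only [Finset.prod_empty]
    exact (condExp_of_bm hR BdM.one).eventuallyEq
  | insert a s ha ih =>
    have ih' := ih (fun j hj => hU j (Finset.mem_insert_of_mem hj))
      (fun j hj => hV j (Finset.mem_insert_of_mem hj))
      (fun j hj A' hA' hjA' => h j (Finset.mem_insert_of_mem hj) A'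
        (hA'.trans (Finset.subset_insert a s)) hjA')
    obtain ⟨m, hRm, hm, hUm, hce⟩ := h a (Finset.mem_insert_self a s) s (Finset.subset_insert a s) ha
    obtain ⟨V', hV', hVV'⟩ := hV a (Finset.mem_insert_self a s)
    -- bounded versions of the factors in `s`
    choose! W hW hUW using hUm
    have hprodU : (fun ω => ∏ j ∈ s, U j ω) =ᵐ[P] fun ω => ∏ j ∈ s, W j ω := by
      have : ∀ᵐ ω ∂P, ∀ j ∈ s, U j ω = W j ω := by
        rw [Filter.eventually_all_finset]
        exact fun j hj => hUW j hj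
      filter_upwards [this] with ω hω
      exact Finset.prod_congr rfl hω
    have hWs : BdM m (fun ω => ∏ j ∈ s, W j ω) := BdM.prod hW
    have hUa := hU a (Finset.mem_insert_self a s)
    have hUai := hUa.integrable (μ := P) le_rfl
    have e0 : (fun ω => ∏ j ∈ insert a s, U j ω) =ᵐ[P]
        (fun ω => U a ω) * (fun ω => ∏ j ∈ s, W j ω) := by
      filter_upwards [hprodU] with ω hω
      simp only [Pi.mul_apply]
      rw [Finset.prod_insert ha, hω]
    have hint : Integrable ((fun ω => U a ω) * (fun ω => ∏ j ∈ s, W j ω)) P := by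
      have := (hUa.mul (hWs.mono hm)).integrable (μ := P) le_rfl
      exact this
    have e1 : P[(fun ω => U a ω) * (fun ω => ∏ j ∈ s, W j ω) | m] =ᵐ[P]
        P[fun ω => U a ω | m] * (fun ω => ∏ j ∈ s, W j ω) :=
      condExp_mul_of_stronglyMeasurable_right hWs.meas.stronglyMeasurable hint hUai
    have e2 : P[(fun ω => U a ω) * (fun ω => ∏ j ∈ s, W j ω) | m] =ᵐ[P]
        (fun ω => ∏ j ∈ s, U j ω) * V' := by
      filter_upwards [e1, hce, hVV', hprodU] with ω h1 h2 h3 h4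
      rw [h1]
      simp only [Pi.mul_apply]
      rw [h2, h3, ← h4, mul_comm]
    have hUs : BdM mΩ (fun ω => ∏ j ∈ s, U j ω) :=
      BdM.prod (fun j hj => hU j (Finset.mem_insert_of_mem hj))
    have hint2 : Integrable ((fun ω => ∏ j ∈ s, U j ω) * V') P :=
      (hUs.mul (hV'.mono hR)).integrable (μ := P) le_rfl
    calc P[fun ω => ∏ j ∈ insert a s, U j ω | R]
        =ᵐ[P] P[(fun ω => U a ω) * (fun ω => ∏ j ∈ s, W j ω) | R] := condExp_congr_ae e0
      _ =ᵐ[P] P[P[(fun ω => U a ω) * (fun ω => ∏ j ∈ s, W j ω) | m] | R] :=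
          (condExp_condExp hRm hm).symm
      _ =ᵐ[P] P[(fun ω => ∏ j ∈ s, U j ω) * V' | R] := condExp_congr_ae e2
      _ =ᵐ[P] P[fun ω => ∏ j ∈ s, U j ω | R] * V' :=
          condExp_mul_of_stronglyMeasurable_right hV'.meas.stronglyMeasurable hint2
            (hUs.integrable le_rfl)
      _ =ᵐ[P] fun ω => ∏ j ∈ insert a s, V j ω := by
          filter_upwards [ih', hVV'] with ω h1 h2
          simp only [Pi.mul_apply]
          rw [h1, ← h2, Finset.prod_insert ha, mul_comm]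

end peel

/-! ### The core -/

section core

variable {X : Type*} [mX : MeasurableSpace X] {μX : Measure X} [IsProbabilityMeasure μX]
  {ι : Type*} [Fintype ι] [DecidableEq ι]
  {Ω : Type*} {L : ι → MeasurableSpace Ω} {LA L0 R : MeasurableSpace Ω}
  {mΩ : MeasurableSpace Ω} {P : Measure Ω} [IsProbabilityMeasure P]

/-- The sigma-algebra of the coordinates in `A`. -/
@[implicit_reducible]
def cor (X : Type*) [mX : MeasurableSpace X] {ι : Type*} (A : Finset ι) :
    MeasurableSpace (ι → X) := ⨆ j ∈ A, mX.comap (fun x => x j)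

theorem cor_le (A : Finset ι) : cor X A ≤ (inferInstance : MeasurableSpace (ι → X)) :=
  iSup₂_le fun j _ => (measurable_pi_apply j).comap_le

theorem bdM_cor {A : Finset ι} {j : ι} (hj : j ∈ A) {f : X → ℝ} (hf : BdM mX f) :
    BdM (cor X A) (fun x : ι → X => f (x j)) :=
  (hf.comp (φ := fun x : ι → X => x j)).mono (le_iSup₂_of_le j hj le_rfl)

/-- Independence in functional form. -/
def Ind (P : Measure Ω) (L : ι → MeasurableSpace Ω) (A : Finset ι) : Prop :=
  ∀ h : ι → Ω → ℝ, (∀ j ∈ A, BdM (L j) (h j)) →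
    ∫ ω, ∏ j ∈ A, h j ω ∂P = ∏ j ∈ A, ∫ ω, h j ω ∂P

/-- Versions: the same with a.e. versions. -/
theorem Ind.ae {A : Finset ι} (hI : Ind P L A) {h : ι → Ω → ℝ}
    (hh : ∀ j ∈ A, ∃ h', BdM (L j) h' ∧ h j =ᵐ[P] h') :
    ∫ ω, ∏ j ∈ A, h j ω ∂P = ∏ j ∈ A, ∫ ω, h j ω ∂P := by
  choose! W hW hhW using hh
  have e1 : (fun ω => ∏ j ∈ A, h j ω) =ᵐ[P] fun ω => ∏ j ∈ A, W j ω := by
    have : ∀ᵐ ω ∂P, ∀ j ∈ A, h j ω = W j ω := by
      rw [Filter.eventually_all_finset]
      exact fun j hj => hhW j hj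
    filter_upwards [this] with ω hω
    exact Finset.prod_congr rfl hω
  rw [integral_congr_ae e1, hI W hW]
  exact Finset.prod_congr rfl fun j hj => (integral_congr_ae (hhW j hj)).symm

theorem prod_ind (A : Finset ι) (v : ι → Ω → ℝ) (B : ι → Set Ω) (ω : Ω) :
    (⋂ j ∈ A, B j).indicator (fun ω => ∏ j ∈ A, v j ω) ω =
      ∏ j ∈ A, (v j ω * (B j).indicator (fun _ => (1 : ℝ)) ω) := by
  classical
  rw [Finset.prod_mul_distrib]
  by_cases h : ω ∈ ⋂ j ∈ A, B j
  · rw [indicator_of_mem h]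
    have : ∏ j ∈ A, (B j).indicator (fun _ => (1 : ℝ)) ω = 1 := by
      apply Finset.prod_eq_one
      intro j hj
      have : ω ∈ B j := by simp only [mem_iInter] at h; exact h j hj
      rw [indicator_of_mem this]
    rw [this, mul_one]
  · rw [indicator_of_notMem h]
    simp only [mem_iInter, not_forall] at h
    obtain ⟨j, hj, hjB⟩ := h
    have : ∏ j ∈ A, (B j).indicator (fun _ => (1 : ℝ)) ω = 0 :=
      Finset.prod_eq_zero hj (indicator_of_notMem hjB _)
    rw [this, mul_zero]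

variable {lam : Measure (ι → X)} [IsProbabilityMeasure lam] {y : Ω → ι → X}

/-- The product formula. -/
theorem integral_prodV (hy : MeasurePreserving y P lam) {A : Finset ι}
    (hLA : LA ≤ mΩ)
    (hL : ∀ j ∈ A, L j ≤ LA) (hI : Ind P L A)
    (hlam : ∀ f : ι → X → ℝ, (∀ j ∈ A, BdM mX (f j)) →
      ∫ x, ∏ j ∈ A, f j (x j) ∂lam = ∏ j ∈ A, ∫ x, f j x ∂μX)
    (hyL : ∀ j ∈ A, ∀ f : X → ℝ, BdM mX f → ∃ f', BdM (L j) f' ∧ (fun ω => f (y ω j)) =ᵐ[P] f')
    {V : ι → Ω → ℝ} (hV : ∀ j ∈ A, BdM mΩ (V j)) (hVL : ∀ j ∈ A, ∃ V', BdM (L j) V' ∧ V j =ᵐ[P] V')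
    {g : ι → X → ℝ} (hg : ∀ j ∈ A, BdM mX (g j))
    (hVg : ∀ j ∈ A, ∀ f : X → ℝ, BdM mX f →
      ∫ ω, V j ω * f (y ω j) ∂P = ∫ x, g j x * f x ∂μX)
    {G : (ι → X) → ℝ} (hG : BdM MeasurableSpace.pi G)
    (hce : P[G ∘ y | LA] =ᵐ[P] (lam[G | cor X A]) ∘ y) :
    ∫ ω, (∏ j ∈ A, V j ω) * G (y ω) ∂P = ∫ x, (∏ j ∈ A, g j (x j)) * G x ∂lam := by
  classical
  have hcor : cor X A ≤ (inferInstance : MeasurableSpace (ι → X)) := cor_le A
  obtain ⟨K, hK, hGK⟩ := hG.condExp_bm (μ := lam) hcor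
  have hGy : BdM mΩ (G ∘ y) := by
    obtain ⟨C, hC⟩ := hG.bdd
    exact ⟨hG.meas.comp hy.measurable, C, fun ω => hC _⟩
  have hgA : BdM (cor X A) (fun x : ι → X => ∏ j ∈ A, g j (x j)) :=
    BdM.prod fun j hj => bdM_cor hj (hg j hj)
  -- versions
  choose! V' hV' hVV' using hVL
  have hprodV : (fun ω => ∏ j ∈ A, V j ω) =ᵐ[P] fun ω => ∏ j ∈ A, V' j ω := by
    have : ∀ᵐ ω ∂P, ∀ j ∈ A, V j ω = V' j ω := by
      rw [Filter.eventually_all_finset]
      exact fun j hj => hVV' j hj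
    filter_upwards [this] with ω hω
    exact Finset.prod_congr rfl hω
  have hV'A : BdM LA (fun ω => ∏ j ∈ A, V' j ω) := BdM.prod fun j hj => (hV' j hj).mono (hL j hj)
  have hKy : ((lam[G | cor X A]) ∘ y) =ᵐ[P] K ∘ y := hy.quasiMeasurePreserving.ae_eq_comp hGK
  -- step 1
  have s1 : ∫ ω, (∏ j ∈ A, V j ω) * G (y ω) ∂P = ∫ ω, (∏ j ∈ A, V j ω) * K (y ω) ∂P := by
    calc ∫ ω, (∏ j ∈ A, V j ω) * G (y ω) ∂P = ∫ ω, (∏ j ∈ A, V' j ω) * (G ∘ y) ω ∂P :=
          integral_congr_ae (by filter_upwards [hprodV] with ω hω; simp only [Function.comp, hω])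
      _ = ∫ ω, (∏ j ∈ A, V' j ω) * (P[G ∘ y | LA]) ω ∂P :=
          (integral_mul_condExp hLA (hGy.integrable le_rfl) hV'A).symm
      _ = ∫ ω, (∏ j ∈ A, V j ω) * K (y ω) ∂P :=
          integral_congr_ae (by
            filter_upwards [hprodV, hce, hKy] with ω h1 h2 h3
            simp only [Function.comp] at h2 h3 ⊢
            rw [h2, h3, h1])
  -- step 2 : the conditional expectation of `∏ V j` on the coordinates
  have hycor : (⨆ j ∈ A, mX.comap (fun ω => y ω j)) ≤ mΩ :=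
    iSup₂_le fun j _ => ((measurable_pi_apply j).comp hy.measurable).comap_le
  have hgy : ∀ j ∈ A, BdM mΩ (fun ω => g j (y ω j)) := fun j hj => by
    obtain ⟨C, hC⟩ := (hg j hj).bdd
    exact ⟨(hg j hj).meas.comp ((measurable_pi_apply j).comp hy.measurable), C, fun ω => hC _⟩
  have hgyA : BdM (⨆ j ∈ A, mX.comap (fun ω => y ω j)) (fun ω => ∏ j ∈ A, g j (y ω j)) :=
    BdM.prod fun j hj => ((hg j hj).comp (φ := fun ω => y ω j)).mono (le_iSup₂_of_le j hj le_rfl)
  have hprod_int : ∀ B : ι → Set X, (∀ j ∈ A, MeasurableSet (B j)) →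
      ∫ ω in ⋂ j ∈ A, (fun ω => y ω j) ⁻¹' (B j), ∏ j ∈ A, g j (y ω j) ∂P =
        ∫ ω in ⋂ j ∈ A, (fun ω => y ω j) ⁻¹' (B j), ∏ j ∈ A, V j ω ∂P := by
    intro B hB
    have hms : MeasurableSet (⋂ j ∈ A, (fun ω => y ω j) ⁻¹' (B j)) :=
      Finset.measurableSet_biInter A fun j hj =>
        ((measurable_pi_apply j).comp hy.measurable) (hB j hj)
    rw [← integral_indicator hms, ← integral_indicator hms]
    have hb : ∀ j ∈ A, BdM mX ((B j).indicator (fun _ => (1 : ℝ))) :=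
      fun j hj => BdM.indicator (hB j hj)
    have e1 : ∀ v : ι → Ω → ℝ, ∀ ω, (⋂ j ∈ A, (fun ω => y ω j) ⁻¹' (B j)).indicator
        (fun ω => ∏ j ∈ A, v j ω) ω = ∏ j ∈ A, (v j ω * (B j).indicator (fun _ => (1 : ℝ)) (y ω j)) := by
      intro v ω
      rw [prod_ind A v (fun j => (fun ω => y ω j) ⁻¹' (B j)) ω]
      rfl
    simp_rw [e1]
    have e2 : ∫ ω, ∏ j ∈ A, (V j ω * (B j).indicator (fun _ => (1 : ℝ)) (y ω j)) ∂P =
        ∏ j ∈ A, ∫ ω, V j ω * (B j).indicator (fun _ => (1 : ℝ)) (y ω j) ∂P := by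
      refine hI.ae (h := fun j ω => V j ω * (B j).indicator (fun _ => (1 : ℝ)) (y ω j)) ?_
      intro j hj
      obtain ⟨f', hf', hff'⟩ := hyL j hj _ (hb j hj)
      refine ⟨fun ω => V' j ω * f' ω, (hV' j hj).mul hf', ?_⟩
      filter_upwards [hVV' j hj, hff'] with ω h1 h2
      rw [h1, h2]
    have e3 : ∫ ω, ∏ j ∈ A, (g j (y ω j) * (B j).indicator (fun _ => (1 : ℝ)) (y ω j)) ∂P =
        ∏ j ∈ A, ∫ x, g j x * (B j).indicator (fun _ => (1 : ℝ)) x ∂μX := by
      have h1 := hlam (fun j x => g j x * (B j).indicator (fun _ => (1 : ℝ)) x)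
        (fun j hj => (hg j hj).mul (hb j hj))
      rw [← h1]
      have h2 : BdM MeasurableSpace.pi (fun x : ι → X =>
          ∏ j ∈ A, (g j (x j) * (B j).indicator (fun _ => (1 : ℝ)) (x j))) :=
        BdM.prod fun j hj => ((bdM_cor hj (hg j hj)).mul (bdM_cor hj (hb j hj))).mono hcor
      exact integral_comp_mp hy (F := fun x : ι → X =>
          ∏ j ∈ A, (g j (x j) * (B j).indicator (fun _ => (1 : ℝ)) (x j))) (h2.aemeas le_rfl)
    rw [e2, e3]
    exact Finset.prod_congr rfl fun j hj => (hVg j hj _ (hb j hj)).symm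
  have s2 : P[fun ω => ∏ j ∈ A, V j ω | ⨆ j ∈ A, mX.comap (fun ω => y ω j)] =ᵐ[P]
      fun ω => ∏ j ∈ A, g j (y ω j) := by
    have hgen := generateFrom_piiUnionInter_measurableSet
      (fun j => mX.comap (fun ω => y ω j)) (↑A : Set ι)
    have hpi : IsPiSystem (piiUnionInter
        (fun j => {s | MeasurableSet[mX.comap (fun ω => y ω j)] s}) (↑A : Set ι)) :=
      isPiSystem_piiUnionInter _ (fun j => @MeasurableSpace.isPiSystem_measurableSet Ω (mX.comap (fun ω => y ω j))) _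
    refine condExp_eq_of_piSystem hycor (S := piiUnionInter
        (fun j => {s | MeasurableSet[mX.comap (fun ω => y ω j)] s}) (↑A : Set ι))
        (by rw [hgen]; simp) hpi
        ((BdM.prod hV).integrable le_rfl) ((BdM.prod hgy).integrable le_rfl) hgyA.aesm ?_ ?_
    · have := hprod_int (fun _ => univ) (fun _ _ => MeasurableSet.univ)
      simpa using this
    · rintro s ⟨t, htA, f, hf, rfl⟩
      have hf' : ∀ j : ι, ∃ B : Set X, MeasurableSet B ∧ (j ∈ t → (fun ω => y ω j) ⁻¹' B = f j) ∧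
          (j ∉ t → B = univ) := by
        intro j
        by_cases hj : j ∈ t
        · obtain ⟨B, hB, hBf⟩ := hf j hj
          exact ⟨B, hB, fun _ => hBf, fun h => absurd hj h⟩
        · exact ⟨univ, MeasurableSet.univ, fun h => absurd h hj, fun _ => rfl⟩
      choose B hB hBf hBu using hf'
      have e : (⋂ x ∈ t, f x) = ⋂ j ∈ A, (fun ω => y ω j) ⁻¹' (B j) := by
        ext ω
        simp only [mem_iInter]
        constructor
        · intro h j hj
          by_cases hjt : j ∈ t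
          · rw [hBf j hjt]; exact h j hjt
          · rw [hBu j hjt]; exact mem_univ _
        · intro h j hj
          rw [← hBf j hj]
          exact h j (htA hj)
      rw [e]
      exact hprod_int B fun j _ => hB j
  -- step 3
  have hKyA : BdM (⨆ j ∈ A, mX.comap (fun ω => y ω j)) (fun ω => K (y ω)) := by
    have h1 := hK.comp (φ := y)
    have h2 : (cor X A).comap y = ⨆ j ∈ A, mX.comap (fun ω => y ω j) := by
      simp only [cor, MeasurableSpace.comap_iSup, MeasurableSpace.comap_comp]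
      rfl
    rw [h2] at h1
    exact h1
  have s3 : ∫ ω, (∏ j ∈ A, V j ω) * K (y ω) ∂P = ∫ ω, (∏ j ∈ A, g j (y ω j)) * K (y ω) ∂P := by
    rw [← integral_condExp_mul hycor ((BdM.prod hV).integrable le_rfl) hKyA]
    exact integral_congr_ae (by filter_upwards [s2] with ω hω; rw [hω])
  have s4 : ∫ ω, (∏ j ∈ A, g j (y ω j)) * K (y ω) ∂P = ∫ x, (∏ j ∈ A, g j (x j)) * K x ∂lam :=
    integral_comp_mp hy (F := fun x : ι → X => (∏ j ∈ A, g j (x j)) * K x)
      ((hgA.mul hK).aemeas hcor)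
  have s5 : ∫ x, (∏ j ∈ A, g j (x j)) * K x ∂lam = ∫ x, (∏ j ∈ A, g j (x j)) * G x ∂lam := by
    rw [← integral_mul_condExp hcor (hG.integrable le_rfl) hgA]
    exact integral_congr_ae (by filter_upwards [hGK] with x hx; rw [hx])
  rw [s1, s3, s4, s5]

/-- **THE RULE** (804's (A)): `a` in slot `j0` = `a` in all the other slots.

`P` is the second level (`Lb (Lb E)`), `lam` the law of `(x_j)_j`, `y j` = the coordinate `x_j` at
site `i`, `V j = (P_i F_j) ∘ Lb e_j`, `R = S_i(M, D)`, `g j` = a version of `a F_j`. -/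
theorem rule (hy : MeasurePreserving y P lam) (j0 : ι)
    (hLA : LA ≤ mΩ) (hL0 : L0 ≤ mΩ) (hL : ∀ j ∈ Finset.univ.erase j0, L j ≤ LA)
    (hL' : L j0 ≤ L0)
    (hI : Ind P L (Finset.univ.erase j0))
    (hlam : ∀ f : ι → X → ℝ, (∀ j, BdM mX (f j)) →
      ∫ x, ∏ j ∈ Finset.univ.erase j0, f j (x j) ∂lam =
        ∏ j ∈ Finset.univ.erase j0, ∫ x, f j x ∂μX)
    (hlam1 : ∀ f : X → ℝ, BdM mX f → ∫ x, f (x j0) ∂lam = ∫ x, f x ∂μX)
    (hyL : ∀ j, ∀ f : X → ℝ, BdM mX f → ∃ f', BdM (L j) f' ∧ (fun ω => f (y ω j)) =ᵐ[P] f')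
    (hce : ∀ G : (ι → X) → ℝ, BdM MeasurableSpace.pi G →
      P[G ∘ y | LA] =ᵐ[P] (lam[G | cor X (Finset.univ.erase j0)]) ∘ y)
    (hce0 : ∀ G : (ι → X) → ℝ, BdM MeasurableSpace.pi G →
      P[G ∘ y | L0] =ᵐ[P] (lam[G | cor X {j0}]) ∘ y)
    {V : ι → Ω → ℝ} (hV : ∀ j, BdM mΩ (V j)) (hVL : ∀ j, ∃ V', BdM (L j) V' ∧ V j =ᵐ[P] V')
    (hR : R ≤ mΩ) (hVR : ∀ j, ∃ V', BdM R V' ∧ V j =ᵐ[P] V')
    {g F : ι → X → ℝ} (hg : ∀ j, BdM mX (g j)) (hF : ∀ j, BdM mX (F j))
    (hVg : ∀ j, ∀ f : X → ℝ, BdM mX f → ∫ ω, V j ω * f (y ω j) ∂P = ∫ x, g j x * f x ∂μX)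
    (hpeel : P[fun ω => ∏ j ∈ Finset.univ.erase j0, F j (y ω j) | R] =ᵐ[P]
      fun ω => ∏ j ∈ Finset.univ.erase j0, V j ω)
    (hpeel0 : P[fun ω => F j0 (y ω j0) | R] =ᵐ[P] V j0) :
    ∫ x, (∏ j ∈ Finset.univ.erase j0, F j (x j)) * g j0 (x j0) ∂lam =
      ∫ x, (∏ j ∈ Finset.univ.erase j0, g j (x j)) * F j0 (x j0) ∂lam := by
  classical
  have hbd : ∀ (A : Finset ι) (f : ι → X → ℝ), (∀ j, BdM mX (f j)) →
      BdM MeasurableSpace.pi (fun x : ι → X => ∏ j ∈ A, f j (x j)) := fun A f hf =>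
    BdM.prod fun j hj => (bdM_cor hj (hf j)).mono (cor_le A)
  have hbd1 : ∀ (f : X → ℝ), BdM mX f →
      BdM MeasurableSpace.pi (fun x : ι → X => f (x j0)) := fun f hf =>
    (bdM_cor (A := {j0}) (Finset.mem_singleton_self j0) hf).mono (cor_le {j0})
  -- `A = erase j0`
  have k1 := integral_prodV (L := L) (A := Finset.univ.erase j0) hy hLA hL hI
    (fun f hf => by
      have h1 := hlam (fun j => if j ∈ Finset.univ.erase j0 then f j else fun _ => 0)
        (fun j => by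
          by_cases hj : j ∈ Finset.univ.erase j0
          · simp only [hj, if_true]; exact hf j hj
          · simp only [hj, if_false]; exact BdM.const 0)
      have e1 : ∀ x : ι → X, ∏ j ∈ Finset.univ.erase j0,
          (if j ∈ Finset.univ.erase j0 then f j else fun _ => (0 : ℝ)) (x j) =
            ∏ j ∈ Finset.univ.erase j0, f j (x j) := fun x =>
        Finset.prod_congr rfl fun j hj => by rw [if_pos hj]
      have e2 : ∏ j ∈ Finset.univ.erase j0, ∫ x,
          (if j ∈ Finset.univ.erase j0 then f j else fun _ => (0 : ℝ)) x ∂μX =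
            ∏ j ∈ Finset.univ.erase j0, ∫ x, f j x ∂μX :=
        Finset.prod_congr rfl fun j hj => by rw [if_pos hj]
      simp only [e1] at h1
      rw [h1, e2])
    (fun j _ => hyL j) (fun j _ => hV j) (fun j _ => hVL j) (fun j _ => hg j)
    (fun j _ => hVg j) (hbd1 _ (hF j0)) (hce _ (hbd1 _ (hF j0)))
  -- `A = {j0}`
  have k2 := integral_prodV (L := L) (A := {j0}) hy hL0
    (fun j hj => by rw [Finset.mem_singleton.1 hj]; exact hL')
    (fun h _ => by simp) (fun f hf => by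
      simpa using hlam1 (f j0) (hf j0 (Finset.mem_singleton_self j0)))
    (fun j _ => hyL j) (fun j _ => hV j) (fun j _ => hVL j) (fun j _ => hg j)
    (fun j _ => hVg j) (hbd _ F hF) (hce0 _ (hbd (Finset.univ.erase j0) F hF))
  simp only [Finset.prod_singleton] at k2
  -- the middle term
  obtain ⟨V0', hV0', hVV0'⟩ := hVR j0
  have hVRe : ∃ W, BdM R W ∧ (fun ω => ∏ j ∈ Finset.univ.erase j0, V j ω) =ᵐ[P] W := by
    choose W hW hVW using hVR
    refine ⟨fun ω => ∏ j ∈ Finset.univ.erase j0, W j ω, BdM.prod fun j _ => hW j, ?_⟩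
    have : ∀ᵐ ω ∂P, ∀ j ∈ Finset.univ.erase j0, V j ω = W j ω := by
      rw [Filter.eventually_all_finset]
      exact fun j hj => hVW j
    filter_upwards [this] with ω hω
    exact Finset.prod_congr rfl hω
  obtain ⟨W, hW, hVW⟩ := hVRe
  have hFy : ∀ j, BdM mΩ (fun ω => F j (y ω j)) := fun j => by
    obtain ⟨C, hC⟩ := (hF j).bdd
    exact ⟨(hF j).meas.comp ((measurable_pi_apply j).comp hy.measurable), C, fun ω => hC _⟩
  have m1 : ∫ ω, V j0 ω * ∏ j ∈ Finset.univ.erase j0, F j (y ω j) ∂P =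
      ∫ ω, V j0 ω * ∏ j ∈ Finset.univ.erase j0, V j ω ∂P := by
    have h1 := integral_mul_condExp (μ := P) hR
      ((BdM.prod (s := Finset.univ.erase j0) fun j _ => hFy j).integrable le_rfl) hV0'
    calc ∫ ω, V j0 ω * ∏ j ∈ Finset.univ.erase j0, F j (y ω j) ∂P
        = ∫ ω, V0' ω * ∏ j ∈ Finset.univ.erase j0, F j (y ω j) ∂P :=
          integral_congr_ae (by filter_upwards [hVV0'] with ω hω; rw [hω])
      _ = _ := h1.symm
      _ = _ := integral_congr_ae (by
          filter_upwards [hVV0', hpeel] with ω h1 h2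
          rw [h1, h2])
  have m2 : ∫ ω, (∏ j ∈ Finset.univ.erase j0, V j ω) * F j0 (y ω j0) ∂P =
      ∫ ω, V j0 ω * ∏ j ∈ Finset.univ.erase j0, V j ω ∂P := by
    have h1 := integral_mul_condExp (μ := P) hR ((hFy j0).integrable le_rfl) hW
    calc ∫ ω, (∏ j ∈ Finset.univ.erase j0, V j ω) * F j0 (y ω j0) ∂P
        = ∫ ω, W ω * F j0 (y ω j0) ∂P :=
          integral_congr_ae (by filter_upwards [hVW] with ω hω; rw [hω])
      _ = _ := h1.symm
      _ = _ := integral_congr_ae (by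
          filter_upwards [hVW, hpeel0] with ω h1 h2
          rw [h1, h2, mul_comm])
  rw [← k1, m2, ← m1, k2]
  exact integral_congr_ae (Eventually.of_forall fun x => mul_comm _ _)

end core

end RuleCore

end Crest.Agent.R069
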