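import Crest.Agent.R069.RuleLev

/-!
# Row 69, node RULE: dictionary between the abstract spectral step (334's `SpecX`) and `N_RULE`

`φ i := P.π ∘ co s P i : Lb P.Ω → X.Ω`, `SS i := rest s i P`, `mY = P.visX s`.
-/

set_option autoImplicit false
set_option linter.unusedSectionVars false

open MeasureTheory Filter Set ProbabilityTheory
open scoped ENNReal Topology

namespace Crest.Agent.R069.RuleDic

open Crest.Agent.R069 Crest.Agent.R069.RuleLev

variable {X : Sys} {ι : Type} [Fintype ι] [DecidableEq ι] (s : ι → ℕ → ℤ) (P : Pair X)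
  [StandardBorelSpace P.Ω] [Nonempty P.Ω]

/-- the base coordinate at the site `i` -/
noncomputable def φ (i : ι) : Lb P.Ω → X.Ω := fun y => P.π (co s P i y)

theorem φ_mp (i : ι) : MeasurePreserving (φ s P i) (lb P.μ) X.μ :=
  P.π_mp.comp (co_mp s P i)

theorem restLe (i : ι) : rest s i P ≤ LL P.ms := restM_le s i P.toSys le_rfl P.C_le

theorem nulL_le_rest (i : ι) : nulL P.toSys ≤ rest s i P := le_sup_right

theorem siteA_le_rest {i j : ι} (h : j ≠ i) : siteA P.toSys (s j) ≤ rest s i P :=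
  ((le_iSup₂ (f := fun j (_ : j ≠ i) => siteA P.toSys (s j)) j h).trans le_sup_left).trans
    le_sup_left

/-- `co j` is `rest i`-measurable for `j ≠ i` -/
theorem co_measurable {i j : ι} (h : j ≠ i) : Measurable[rest s i P, P.ms] (co s P j) := by
  intro A hA
  refine measurableSet_of_ae_nul (mα := LL P.ms) (restLe s P i) (nulL_le_rest s P i)
    ((co_mp s P j).measurable hA) ?_ (co_preimage_ae s P j hA)
  exact siteA_le_rest s P h _ (MeasurableSpace.measurableSet_generateFrom ⟨A, hA, rfl⟩)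

theorem φ_measurable {i j : ι} (h : j ≠ i) : Measurable[rest s i P, X.ms] (φ s P j) :=
  P.π_mp.measurable.comp (co_measurable s P h)

/-- functions of the base coordinate -/
theorem comp_φ (i : ι) {G : X.Ω → ℝ} (hG : Measurable G) :
    G ∘ φ s P i =ᵐ[lb P.μ] sitef P.toSys (s i) (G ∘ P.π) :=
  comp_co_ae s P i (f := G ∘ P.π) (hG.comp P.π_mp.measurable)

/-- `tau` on `Lb P.Ω` -/
theorem tau_eq {f : ι → X.Ω → ℝ} (hf : ∀ i, Bd X.ms (f i)) :
    tau X s f = ∫ y, ∏ i, f i (φ s P i y) ∂(lb P.μ) :=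
  (integral_prod_co s P Finset.univ hf).symm

theorem φ_preimage_ae (i : ι) {A : Set X.Ω} (hA : MeasurableSet A) :
    φ s P i ⁻¹' A =ᵐ[lb P.μ] intl (fun k => P.S (s i k) ⁻¹' (P.π ⁻¹' A)) :=
  have h : φ s P i ⁻¹' A = co s P i ⁻¹' (P.π ⁻¹' A) := rfl
  h ▸ co_preimage_ae s P i (A := P.π ⁻¹' A) (P.π_mp.measurable hA)

/-- **`mY = visX`** -/
theorem visX_iff {A : Set X.Ω} : MeasurableSet[P.visX s] A ↔
    MeasurableSet[X.ms] A ∧ ∀ i, ∃ B, MeasurableSet[rest s i P] B ∧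
      φ s P i ⁻¹' A =ᵐ[lb P.μ] B := by
  constructor
  · rintro ⟨hA, -, h⟩
    exact ⟨hA, fun i => ⟨_, h i, φ_preimage_ae s P i hA⟩⟩
  · rintro ⟨hA, h⟩
    refine ⟨hA, P.π_mp.measurable hA, fun i => ?_⟩
    obtain ⟨B, hB, hAB⟩ := h i
    exact measurableSet_of_ae_nul (mα := LL P.ms) (restLe s P i) (nulL_le_rest s P i)
      (P.toSys.measurableSet_site (s i) (P.π_mp.measurable hA)) hB
      ((φ_preimage_ae s P i hA).symm.trans hAB)

/-- the final step of `N_RULE` from the spectral theorem (`specX`). -/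
theorem tau_eq_zero {f : ι → X.Ω → ℝ} (hf : ∀ i, Bd X.ms (f i))
    (hspec : ∫ y, ∏ i, f i (φ s P i y) ∂(lb P.μ) =
      ∫ y, ∏ i, (X.μ[f i | P.visX s]) (φ s P i y) ∂(lb P.μ))
    (h0 : ∃ i0, X.μ[f i0 | P.visX s] =ᵐ[X.μ] 0) : tau X s f = 0 := by
  obtain ⟨i0, hi0⟩ := h0
  rw [tau_eq s P hf, hspec]
  have h1 : (fun y => ∏ i, (X.μ[f i | P.visX s]) (φ s P i y)) =ᵐ[lb P.μ] fun _ => 0 := by
    have h2 := (φ_mp s P i0).quasiMeasurePreserving.ae_eq_comp hi0
    filter_upwards [h2] with y hy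
    exact Finset.prod_eq_zero (Finset.mem_univ i0) hy
  rw [integral_congr_ae h1, integral_zero]

end Crest.Agent.R069.RuleDic
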