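import Crest.Agent.R069.CI

/-!
# Row 69, node RULE: weak convergence tested on a π-system
-/

set_option autoImplicit false

open MeasureTheory Filter Set
open scoped ENNReal Topology

namespace Crest.Agent.R069.Rule

variable {Ω : Type*} {mΩ : MeasurableSpace Ω} {μ : Measure Ω} [IsFiniteMeasure μ]
  {m : MeasurableSpace Ω} {l : Filter ℕ} {w : ℕ → Ω → ℝ} {C : ℝ}

theorem weak_sets (hm : m ≤ mΩ) {S : Set (Set Ω)} (hS : m = MeasurableSpace.generateFrom S)
    (hpi : IsPiSystem S) (hw : ∀ k, Measurable[mΩ] (w k)) (hb : ∀ k x, |w k x| ≤ C)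
    (huniv : Tendsto (fun k => ∫ x, w k x ∂μ) l (𝓝 0))
    (hA : ∀ A ∈ S, Tendsto (fun k => ∫ x in A, w k x ∂μ) l (𝓝 0)) :
    ∀ A, MeasurableSet[m] A → Tendsto (fun k => ∫ x in A, w k x ∂μ) l (𝓝 0) := by
  have hi : ∀ k, Integrable (w k) μ := fun k =>
    (BdM.mk (hw k) ⟨C, hb k⟩ : BdM mΩ (w k)).integrable le_rfl
  intro A hAm
  induction A, hAm using MeasurableSpace.induction_on_inter hS hpi with
  | empty => simpa using tendsto_const_nhds
  | basic A hAS => exact hA A hAS
  | compl A hAm ih =>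
    have e : (fun k => ∫ x in Aᶜ, w k x ∂μ) =
        fun k => ∫ x, w k x ∂μ - ∫ x in A, w k x ∂μ := by
      funext k
      exact setIntegral_compl (hm A hAm) (hi k)
    rw [e]
    simpa using huniv.sub ih
  | iUnion F hd hF ih =>
    have e : (fun k => ∫ x in ⋃ i, F i, w k x ∂μ) = fun k => ∑' i, ∫ x in F i, w k x ∂μ := by
      funext k
      exact integral_iUnion (fun i => hm _ (hF i)) hd (hi k).integrableOn
    rw [e]
    have hs : Summable fun i => C * μ.real (F i) := by
      refine Summable.mul_left _ ?_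
      have h1 : ∑' i, μ (F i) ≠ ∞ := by
        rw [← measure_iUnion hd (fun i => hm _ (hF i))]
        exact measure_ne_top _ _
      exact ENNReal.summable_toReal h1
    have h2 : Tendsto (fun k => ∑' i, ∫ x in F i, w k x ∂μ) l (𝓝 (∑' _ : ℕ, (0 : ℝ))) := by
      refine tendsto_tsum_of_dominated_convergence hs (fun i => ih i) ?_
      refine Eventually.of_forall fun k i => ?_
      have := norm_setIntegral_le_of_norm_le_const (μ := μ) (s := F i) (f := w k) (C := C)
        (measure_lt_top μ (F i)) (fun x _ => by simpa [Real.norm_eq_abs] using hb k x)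
      simpa [measureReal_def] using this
    simpa using h2

theorem weak_bdd (hm : m ≤ mΩ) (hC : 0 ≤ C) (hw : ∀ k, Measurable[m] (w k))
    (hb : ∀ k x, |w k x| ≤ C)
    (hA : ∀ A, MeasurableSet[m] A → Tendsto (fun k => ∫ x in A, w k x ∂μ) l (𝓝 0))
    {U : Ω → ℝ} (hU : BdM mΩ U) : Tendsto (fun k => ∫ x, U x * w k x ∂μ) l (𝓝 0) := by
  have hwb : ∀ k, BdM m (w k) := fun k => ⟨hw k, C, hb k⟩
  obtain ⟨F, hF, hFe⟩ := hU.condExp_bm (μ := μ) hm
  have e1 : (fun k => ∫ x, U x * w k x ∂μ) = fun k => ∫ x, F x * w k x ∂μ := by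
    funext k
    rw [← integral_condExp_mul hm (hU.integrable le_rfl) (hwb k)]
    exact integral_congr_ae (hFe.mono fun x hx => by simp only [hx])
  rw [e1]
  obtain ⟨K, hK⟩ := hF.bdd
  have hFs : StronglyMeasurable[m] F := hF.meas.stronglyMeasurable
  -- simple functions
  have hsimple : ∀ g : @SimpleFunc Ω m ℝ, Tendsto (fun k => ∫ x, g x * w k x ∂μ) l (𝓝 0) := by
    intro g
    have hgsum : ∀ k, ∫ x, g x * w k x ∂μ =
        ∑ c ∈ (@SimpleFunc.range Ω ℝ m g), c * ∫ x in g ⁻¹' {c}, w k x ∂μ := by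
      intro k
      have h1 : ∀ x, g x * w k x = ∑ c ∈ (@SimpleFunc.range Ω ℝ m g),
          c * (g ⁻¹' {c}).indicator (w k) x := by
        intro x
        rw [Finset.sum_eq_single (g x)]
        · simp
        · intro c _ hc
          have : x ∉ g ⁻¹' {c} := fun h => hc (by simpa using h.symm)
          simp [this]
        · intro h
          exact absurd (@SimpleFunc.mem_range_self Ω ℝ m g x) h
      have hms : ∀ c : ℝ, MeasurableSet[mΩ] (g ⁻¹' {c}) := fun c =>
        hm _ (@SimpleFunc.measurableSet_fiber Ω ℝ m g c)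
      simp only [h1]
      rw [integral_finsetSum]
      · refine Finset.sum_congr rfl fun c _ => ?_
        rw [integral_const_mul, integral_indicator (hms c)]
      · intro c _
        exact (((hwb k).integrable hm).indicator (hms c)).const_mul c
    simp only [hgsum]
    have : Tendsto (fun k => ∑ c ∈ (@SimpleFunc.range Ω ℝ m g), c * ∫ x in g ⁻¹' {c}, w k x ∂μ) l
        (𝓝 (∑ c ∈ (@SimpleFunc.range Ω ℝ m g), c * 0)) :=
      tendsto_finsetSum _ fun c _ =>
        (hA _ (@SimpleFunc.measurableSet_fiber Ω ℝ m g c)).const_mul c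
    simpa using this
  set g : ℕ → @SimpleFunc Ω m ℝ := fun n => hFs.approxBounded K n with hg
  have hK0 : ∀ x : Ω, 0 ≤ K := fun x => (abs_nonneg _).trans (hK x)
  rcases isEmpty_or_nonempty Ω with hemp | ⟨⟨x0⟩⟩
  · have : μ = 0 := Measure.eq_zero_of_isEmpty μ
    simpa [this] using tendsto_const_nhds
  have hlim : Tendsto (fun n => ∫ x, |F x - g n x| ∂μ) atTop (𝓝 0) := by
    have h0 : Tendsto (fun n => ∫ x, |F x - g n x| ∂μ) atTop (𝓝 (∫ _, (0 : ℝ) ∂μ)) := by
      refine tendsto_integral_of_dominated_convergence (fun _ => 2 * K) ?_ (integrable_const _) ?_ ?_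
      · intro n
        have hgm : Measurable[m] (g n) := @SimpleFunc.measurable Ω ℝ m _ (g n)
        have h1 : Measurable[mΩ] (fun x => F x - g n x) :=
          (hF.meas.mono hm le_rfl).sub (hgm.mono hm le_rfl)
        exact (measurable_norm.comp h1).aestronglyMeasurable
      · intro n
        refine Eventually.of_forall fun x => ?_
        have h1 : ‖g n x‖ ≤ K := hFs.norm_approxBounded_le (hK0 x0) n x
        have h2 := hK x
        rw [Real.norm_eq_abs, abs_abs]
        rw [Real.norm_eq_abs] at h1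
        calc |F x - g n x| ≤ |F x| + |g n x| := abs_sub _ _
          _ ≤ 2 * K := by linarith
      · refine Eventually.of_forall fun x => ?_
        have h1 : Tendsto (fun n => g n x) atTop (𝓝 (F x)) :=
          hFs.tendsto_approxBounded_of_norm_le (by simpa [Real.norm_eq_abs] using hK x)
        have h2 : Tendsto (fun n => |F x - g n x|) atTop (𝓝 |F x - F x|) :=
          (tendsto_const_nhds.sub h1).abs
        simpa using h2
    simpa using h0
  rw [Metric.tendsto_nhds]
  intro ε hε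
  have h2 : ∀ᶠ n in atTop, ∫ x, |F x - g n x| ∂μ < ε / (2 * (C + 1)) :=
    hlim.eventually (gt_mem_nhds (by positivity))
  obtain ⟨n, hn⟩ := h2.exists
  have h3 := (Metric.tendsto_nhds.1 (hsimple (g n))) (ε / 2) (by positivity)
  filter_upwards [h3] with k hk
  rw [Real.dist_eq, sub_zero] at hk ⊢
  have hgB : BdM m (g n) := ⟨@SimpleFunc.measurable Ω ℝ m _ (g n), K, fun x => by
    simpa [Real.norm_eq_abs] using hFs.norm_approxBounded_le (hK0 x0) n x⟩
  have h4 : ∫ x, F x * w k x ∂μ = ∫ x, g n x * w k x ∂μ + ∫ x, (F x - g n x) * w k x ∂μ := by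
    rw [← integral_add ((hgB.mul (hwb k)).integrable hm) (((hF.sub hgB).mul (hwb k)).integrable hm)]
    congr 1
    funext x
    ring
  have h5 : |∫ x, (F x - g n x) * w k x ∂μ| ≤ C * ∫ x, |F x - g n x| ∂μ := by
    calc |∫ x, (F x - g n x) * w k x ∂μ| ≤ ∫ x, |(F x - g n x) * w k x| ∂μ :=
          abs_integral_le_integral_abs
      _ ≤ ∫ x, C * |F x - g n x| ∂μ := by
          refine integral_mono ?_ ?_ fun x => ?_
          · exact (((hF.sub hgB).mul (hwb k)).integrable hm).abs
          · exact ((hF.sub hgB).integrable hm).abs.const_mul C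
          · simp only [abs_mul]
            rw [mul_comm]
            exact mul_le_mul_of_nonneg_right (hb k x) (abs_nonneg _)
      _ = C * ∫ x, |F x - g n x| ∂μ := integral_const_mul _ _
  have h6 : C * ∫ x, |F x - g n x| ∂μ ≤ ε / 2 := by
    have h7 : 0 ≤ ∫ x, |F x - g n x| ∂μ := integral_nonneg fun _ => abs_nonneg _
    calc C * ∫ x, |F x - g n x| ∂μ ≤ (C + 1) * ∫ x, |F x - g n x| ∂μ :=
          mul_le_mul_of_nonneg_right (by linarith) h7
      _ ≤ (C + 1) * (ε / (2 * (C + 1))) := mul_le_mul_of_nonneg_left hn.le (by linarith)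
      _ = ε / 2 := by field_simp
  rw [h4]
  calc |∫ x, g n x * w k x ∂μ + ∫ x, (F x - g n x) * w k x ∂μ|
      ≤ |∫ x, g n x * w k x ∂μ| + |∫ x, (F x - g n x) * w k x ∂μ| := abs_add_le _ _
    _ < ε / 2 + ε / 2 := by linarith
    _ = ε := by ring

/-- The form used in the rule: `∫ U u_k → ∫ U u`. -/
theorem weak_tendsto (hm : m ≤ mΩ) {S : Set (Set Ω)} (hS : m = MeasurableSpace.generateFrom S)
    (hpi : IsPiSystem S) {u : ℕ → Ω → ℝ} {v : Ω → ℝ} {K : ℝ} (hK : 0 ≤ K)
    (hu : ∀ k, Measurable[m] (u k)) (hub : ∀ k x, |u k x| ≤ K) (hv : Measurable[m] v)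
    (hvb : ∀ x, |v x| ≤ K)
    (huniv : Tendsto (fun k => ∫ x, u k x ∂μ) l (𝓝 (∫ x, v x ∂μ)))
    (hA : ∀ A ∈ S, Tendsto (fun k => ∫ x in A, u k x ∂μ) l (𝓝 (∫ x in A, v x ∂μ)))
    {U : Ω → ℝ} (hU : BdM mΩ U) :
    Tendsto (fun k => ∫ x, U x * u k x ∂μ) l (𝓝 (∫ x, U x * v x ∂μ)) := by
  have hub' : ∀ k, BdM m (u k) := fun k => ⟨hu k, K, hub k⟩
  have hvb' : BdM m v := ⟨hv, K, hvb⟩
  have hui : ∀ k, Integrable (u k) μ := fun k => (hub' k).integrable hm
  have hvi : Integrable v μ := hvb'.integrable hm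
  have hw : ∀ k, Measurable[m] (fun x => u k x - v x) := fun k => (hu k).sub hv
  have hwb : ∀ k x, |(fun x => u k x - v x) x| ≤ 2 * K := fun k x => by
    calc |u k x - v x| ≤ |u k x| + |v x| := abs_sub _ _
      _ ≤ 2 * K := by linarith [hub k x, hvb x]
  have h1 := weak_sets (μ := μ) (l := l) hm hS hpi (w := fun k x => u k x - v x)
    (fun k => (hw k).mono hm le_rfl) hwb
    (by
      have e : (fun k => ∫ x, (u k x - v x) ∂μ) = fun k => ∫ x, u k x ∂μ - ∫ x, v x ∂μ := by
        funext k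
        exact integral_sub (hui k) hvi
      rw [e]
      simpa using huniv.sub_const (∫ x, v x ∂μ))
    (by
      intro A hAS
      have e : (fun k => ∫ x in A, (u k x - v x) ∂μ) =
          fun k => ∫ x in A, u k x ∂μ - ∫ x in A, v x ∂μ := by
        funext k
        exact integral_sub (hui k).integrableOn hvi.integrableOn
      rw [e]
      simpa using (hA A hAS).sub_const (∫ x in A, v x ∂μ))
  have h2 := weak_bdd (μ := μ) (l := l) hm (by linarith : (0 : ℝ) ≤ 2 * K) hw hwb h1 hU
  have e : (fun k => ∫ x, U x * u k x ∂μ) =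
      fun k => ∫ x, U x * (u k x - v x) ∂μ + ∫ x, U x * v x ∂μ := by
    funext k
    rw [← integral_add]
    · congr 1
      funext x
      ring
    · exact (hU.mul (((hub' k).sub hvb').mono hm)).integrable le_rfl
    · exact (hU.mul (hvb'.mono hm)).integrable le_rfl
  rw [e]
  simpa using h2.add_const (∫ x, U x * v x ∂μ)

end Crest.Agent.R069.Rule
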