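import Crest.Agent.R069.RulePeel
import Crest.Agent.R069.RuleWeak

/-!
# Row 69, node RULE, R4: the rule `a` in slot `j0` = `a` in all the other slots

Both sides of `RLev.star` are limits of integrals on the level system `J`.
-/

set_option autoImplicit false
set_option linter.unusedSectionVars false

open MeasureTheory Filter Set ProbabilityTheory
open scoped ENNReal Topology

namespace Crest.Agent.R069.Rule

open Crest.Agent.R069

section
variable {X : Sys} {ι : Type} [Fintype ι] [DecidableEq ι] {s : ι → ℕ → ℤ} {P : Pair X}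

/-- internal description of `P_i (f ∘ π)` -/
theorem PF_internal (i : ι) {f : X.Ω → ℝ} (hf : Bd X.ms f)
    (hR1 : (lb P.μ)[PF s i P (f ∘ P.π) | LL (X.ms.comap P.π)] =ᵐ[lb P.μ] PF s i P (f ∘ P.π)) :
    ∃ (q : ℕ → X.Ω → ℝ) (K : ℝ), BM X.ms q K ∧
      PF s i P (f ∘ P.π) =ᵐ[lb P.μ] fun y => st q (Lb.mp P.π y) := by
  have hfπ : Bd P.ms (f ∘ P.π) := bd_comp hf P.π_mp.measurable
  obtain ⟨G, hG, hGe⟩ := PF_version (s := s) i P hfπ
  have hGL : BdM (LL P.ms) G := hG.mono (rest_le' i P)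
  have hle : LL (X.ms.comap P.π) ≤ LL P.ms := LL_mono P.π_mp.measurable.comap_le
  obtain ⟨H, hH, hHe⟩ := hGL.condExp_bm (μ := lb P.μ) hle
  have h1 : PF s i P (f ∘ P.π) =ᵐ[lb P.μ] H :=
    hR1.symm.trans ((condExp_congr_ae hGe).trans hHe)
  rw [← comap_lbmap_LL] at hH
  obtain ⟨h, hh, rfl⟩ := hH.factors
  obtain ⟨C, hC⟩ := hh.bdd
  obtain ⟨q, hq, hhq⟩ := funLift_of_measurable (μ := X.μ) le_rfl hh.meas hC
  have h2 : (h ∘ Lb.mp P.π) =ᵐ[lb P.μ] (st q ∘ Lb.mp P.π) :=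
    (mp_of (M := P.toSys) (N := X) P.π_mp).quasiMeasurePreserving.ae_eq_comp hhq
  exact ⟨q, C, hq, h1.trans h2⟩

/-- weak convergence on the base -/
theorem weakX (i : ι) {f g : X.Ω → ℝ} {q : ℕ → X.Ω → ℝ} {K : ℝ} (hq : BM X.ms q K)
    (hPF : PF s i P (f ∘ P.π) =ᵐ[lb P.μ] fun y => st q (Lb.mp P.π y))
    (hfg : ∀ G, Bd X.ms G → ∫ x, g x * G x ∂X.μ =
      ∫ y, PF s i P (f ∘ P.π) y * sitef P.toSys (s i) (G ∘ P.π) y ∂(lb P.μ))
    {h : X.Ω → ℝ} (hh : Bd X.ms h) :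
    Tendsto (fun k => ∫ x, h x * q k (X.S (-(s i k)) x) ∂X.μ) (UU : Filter ℕ)
      (𝓝 (∫ x, g x * h x ∂X.μ)) := by
  obtain ⟨hhm, C, hC⟩ := hh
  have e1 : ∀ k, ∫ x, h x * q k (X.S (-(s i k)) x) ∂X.μ =
      ∫ x, h (X.S (s i k) x) * q k x ∂X.μ := by
    intro k
    have h1 := integral_comp_mp (μ := X.μ) (μ' := X.μ) (X.S_mp (s i k))
      (F := fun x => h x * q k (X.S (-(s i k)) x))
      ((hhm.mul ((hq.meas k).comp (X.S_mp (-(s i k))).measurable)).aestronglyMeasurable)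
    simp only [S_neg] at h1
    exact h1.symm
  have hb : ∀ k x, |h (X.S (s i k) x) * q k x| ≤ C * K := by
    intro k x
    rw [abs_mul]
    exact mul_le_mul (hC _) (hq.bdd k x) (abs_nonneg _) ((abs_nonneg _).trans (hC x))
  have hBM : BM X.ms (fun k x => h (X.S (s i k) x) * q k x) (C * K) :=
    ⟨fun k => (hhm.comp (X.S_mp (s i k)).measurable).mul (hq.meas k), hb⟩
  have h2 := tendsto_integral_st (μ := X.μ) hBM
  have hokh : StOK (fun k x => h (X.S (s i k) x)) :=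
    (BM.ok (m := X.ms) (C := C) ⟨fun k => hhm.comp (X.S_mp (s i k)).measurable, fun k x => hC _⟩)
  have e2 : st (fun k x => h (X.S (s i k) x) * q k x) = fun x => sitef X (s i) h x * st q x :=
    st_mul hokh hq.ok
  have e3 : ∫ x, st (fun k x => h (X.S (s i k) x) * q k x) x ∂(lb X.μ) = ∫ x, g x * h x ∂X.μ := by
    rw [e2, hfg h ⟨hhm, C, hC⟩]
    have hm1 : Measurable[LL X.ms] (fun x => sitef X (s i) h x * st q x) := by
      have := (RuleA.sitef_BdM X (s i) (f := h) ⟨hhm, C, hC⟩).meas.mul hq.meas_st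
      exact this
    have h3 := integral_comp_mp (μ := lb X.μ) (μ' := lb P.μ)
      (mp_of (M := P.toSys) (N := X) P.π_mp) (F := fun x => sitef X (s i) h x * st q x)
      hm1.aestronglyMeasurable
    rw [← h3]
    refine integral_congr_ae ?_
    filter_upwards [hPF, sitef_comp (M := P.toSys) (N := X) P.π_S (s i) h] with y h4 h5
    have h5' : sitef P.toSys (s i) (h ∘ P.π) y = sitef X (s i) h (Lb.mp P.π y) := h5
    rw [h4, h5', mul_comm]
  rw [e3] at h2
  refine h2.congr fun k => ?_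
  rw [e1 k]

namespace RLev

variable (L : RLev s P)

/-- independence of all but one base coordinate -/
theorem ind_prod (hX : XIndP X s) (j0 : ι) {f : ι → X.Ω → ℝ} (hf : ∀ j, Bd X.ms (f j)) :
    ∫ z, ∏ j ∈ Finset.univ.erase j0, f j (L.xc j z) ∂L.J.μ =
      ∏ j ∈ Finset.univ.erase j0, ∫ x, f j x ∂X.μ := by
  have hne : (Finset.univ.erase j0 : Finset ι) ≠ Finset.univ := by
    intro h
    have h3 := Finset.mem_univ j0
    rw [← h] at h3
    exact Finset.notMem_erase j0 _ h3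
  set f' : ι → X.Ω → ℝ := fun j => if j = j0 then fun _ => 1 else f j with hf'
  have hf'b : ∀ j, Bd X.ms (f' j) := by
    intro j
    by_cases hj : j = j0
    · simp only [hf', hj, if_true]; exact ⟨measurable_const, 1, by simp⟩
    · simp only [hf', hj, if_false]; exact hf j
  have hf'e : ∀ j ∈ (Finset.univ.erase j0 : Finset ι), f' j = f j := by
    intro j hj
    simp only [hf', Finset.ne_of_mem_erase hj, if_false]
  have hf'0 : f' j0 = fun _ => 1 := by simp [hf']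
  have h1 := L.tau_eq f' hf'b
  have h2 := hX _ hne f' hf'b
  have e1 : ∀ z : L.J.Ω, ∏ i, f' i (P.π (L.co i z)) =
      ∏ j ∈ Finset.univ.erase j0, f j (L.xc j z) := by
    intro z
    rw [← Finset.mul_prod_erase Finset.univ _ (Finset.mem_univ j0), hf'0, one_mul]
    exact Finset.prod_congr rfl fun j hj => by rw [hf'e j hj]; rfl
  have e2 : tau X s f' = ∫ x, ∏ i ∈ Finset.univ.erase j0, sitef X (s i) (f' i) x ∂(lb X.μ) := by
    unfold tau
    congr 1
    funext x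
    rw [← Finset.mul_prod_erase Finset.univ _ (Finset.mem_univ j0), hf'0]
    have : sitef X (s j0) (fun _ => (1 : ℝ)) x = 1 := st_eq (by exact tendsto_const_nhds)
    rw [this, one_mul]
  simp only [e1] at h1
  rw [h1, e2, h2]
  exact Finset.prod_congr rfl fun j hj => by rw [hf'e j hj]

/-- representation of a bounded function on the base coordinate `j0` -/
theorem exists_rep (j0 : ι) {Φ : L.J.Ω → ℝ} (hΦ : BdM L.J.ms Φ) :
    ∃ v : X.Ω → ℝ, Bd X.ms v ∧ ∀ h : X.Ω → ℝ, Bd X.ms h →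
      ∫ z, Φ z * h (L.xc j0 z) ∂L.J.μ = ∫ x, v x * h x ∂X.μ := by
  have hle : X.ms.comap (L.xc j0) ≤ L.J.ms := (L.xc_mp j0).measurable.comap_le
  obtain ⟨G, hG, hGe⟩ := hΦ.condExp_bm (μ := L.J.μ) hle
  obtain ⟨v, hv, rfl⟩ := hG.factors
  refine ⟨v, ⟨hv.meas, hv.bdd⟩, fun h hh => ?_⟩
  have hh' : BdM X.ms h := ⟨hh.1, hh.2⟩
  have h1 := integral_condExp_mul (μ := L.J.μ) hle (hΦ.integrable le_rfl)
    (hh'.comp (φ := L.xc j0))
  have h2 := integral_comp_mp (μ := X.μ) (μ' := L.J.μ) (L.xc_mp j0)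
    (F := fun x => v x * h x) ((hv.mul hh').aemeas le_rfl)
  rw [← h2]
  refine Eq.trans h1.symm ?_
  exact integral_congr_ae (hGe.mono fun z hz => by simp only [hz, Function.comp])

theorem V_internal (i j : ι) {f : X.Ω → ℝ} {q : ℕ → X.Ω → ℝ}
    (hPF : PF s i P (f ∘ P.π) =ᵐ[lb P.μ] fun y => st q (Lb.mp P.π y)) :
    L.V i j (f ∘ P.π) =ᵐ[lb L.J.μ] st (fun k z => q k (L.xc j z)) := by
  have h2 := (mp_of (M := L.J) (N := P.toSys) (L.co_mp j)).quasiMeasurePreserving.ae_eq_comp hPF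
  filter_upwards [h2] with z hz
  exact hz

/-- moving the shift on the level system -/
theorem shift_int (n : ℤ) {Φ Ψ : L.J.Ω → ℝ} (hΦ : Measurable Φ) (hΨ : Measurable Ψ) :
    ∫ z, Φ (L.J.S n z) * Ψ z ∂L.J.μ = ∫ z, Φ z * Ψ (L.J.S (-n) z) ∂L.J.μ := by
  have h1 := integral_comp_mp (μ := L.J.μ) (μ' := L.J.μ) (L.J.S_mp n)
    (F := fun z => Φ z * Ψ (L.J.S (-n) z))
    ((hΦ.mul (hΨ.comp (L.J.S_mp (-n)).measurable)).aestronglyMeasurable)
  simp only [S_neg] at h1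
  exact h1

theorem lhs (i j0 : ι) {F g : ι → X.Ω → ℝ}
    (hF : ∀ j, Bd X.ms (F j)) (hg : ∀ j, Bd X.ms (g j)) {q : ℕ → X.Ω → ℝ} {K : ℝ}
    (hq : BM X.ms q K)
    (hPF : PF s i P (F j0 ∘ P.π) =ᵐ[lb P.μ] fun y => st q (Lb.mp P.π y))
    (hFg : ∀ G, Bd X.ms G → ∫ x, g j0 x * G x ∂X.μ =
      ∫ y, PF s i P (F j0 ∘ P.π) y * sitef P.toSys (s i) (G ∘ P.π) y ∂(lb P.μ)) :
    ∫ z, (∏ j ∈ Finset.univ.erase j0, L.U i j (F j ∘ P.π) z) * L.V i j0 (F j0 ∘ P.π) z
        ∂(lb L.J.μ) =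
      ∫ z, (∏ j ∈ Finset.univ.erase j0, F j (L.xc j z)) * g j0 (L.xc j0 z) ∂L.J.μ := by
  classical
  set Φ : L.J.Ω → ℝ := fun z => ∏ j ∈ Finset.univ.erase j0, F j (L.xc j z) with hΦdef
  have hΦj : ∀ j, BdM L.J.ms (fun z => F j (L.xc j z)) := fun j =>
    ⟨(hF j).1.comp (L.xc_mp j).measurable, (hF j).2.imp fun C hC z => hC _⟩
  have hΦ : BdM L.J.ms Φ := BdM.prod fun j _ => hΦj j
  obtain ⟨v, hv, hvr⟩ := L.exists_rep j0 hΦ
  obtain ⟨C, hC⟩ := hΦ.bdd
  have hBM : BM L.J.ms (fun k z => Φ (L.J.S (s i k) z) * q k (L.xc j0 z)) (C * K) := by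
    refine ⟨fun k => (hΦ.meas.comp (L.J.S_mp (s i k)).measurable).mul
      ((hq.meas k).comp (L.xc_mp j0).measurable), fun k z => ?_⟩
    rw [abs_mul]
    exact mul_le_mul (hC _) (hq.bdd k _) (abs_nonneg _) ((abs_nonneg _).trans (hC z))
  have h1 := tendsto_integral_st (μ := L.J.μ) hBM
  have hokΦ : StOK (fun k z => Φ (L.J.S (s i k) z)) :=
    BM.ok (m := L.J.ms) (C := C) ⟨fun k => hΦ.meas.comp (L.J.S_mp (s i k)).measurable,
      fun k z => hC _⟩
  have hokq : StOK (fun k z => q k (L.xc j0 z)) :=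
    BM.ok (m := L.J.ms) (C := K) ⟨fun k => (hq.meas k).comp (L.xc_mp j0).measurable,
      fun k z => hq.bdd k _⟩
  have e1 : st (fun k z => Φ (L.J.S (s i k) z) * q k (L.xc j0 z)) = fun z =>
      (∏ j ∈ Finset.univ.erase j0, L.U i j (F j ∘ P.π) z) * st (fun k z => q k (L.xc j0 z)) z := by
    have e2 : st (fun k z => Φ (L.J.S (s i k) z)) = fun z =>
        ∏ j ∈ Finset.univ.erase j0, L.U i j (F j ∘ P.π) z := by
      refine st_prod (Finset.univ.erase j0) (f := fun j k z => F j (L.xc j (L.J.S (s i k) z))) ?_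
      intro j _
      obtain ⟨hm, D, hD⟩ := hF j
      exact BM.ok (m := L.J.ms) (C := D) ⟨fun k => (hm.comp (L.xc_mp j).measurable).comp
        (L.J.S_mp (s i k)).measurable, fun k z => hD _⟩
    rw [st_mul hokΦ hokq, e2]
  have e3 : ∫ z, st (fun k z => Φ (L.J.S (s i k) z) * q k (L.xc j0 z)) z ∂(lb L.J.μ) =
      ∫ z, (∏ j ∈ Finset.univ.erase j0, L.U i j (F j ∘ P.π) z) * L.V i j0 (F j0 ∘ P.π) z
        ∂(lb L.J.μ) := by
    rw [e1]
    exact integral_congr_ae ((L.V_internal i j0 hPF).mono fun z hz => by simp only [hz])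
  have h2 := weakX (P := P) i hq hPF hFg hv
  have e4 : ∀ k, ∫ z, Φ (L.J.S (s i k) z) * q k (L.xc j0 z) ∂L.J.μ =
      ∫ x, v x * q k (X.S (-(s i k)) x) ∂X.μ := by
    intro k
    have h5 := L.shift_int (s i k) hΦ.meas (Ψ := fun z => q k (L.xc j0 z))
      ((hq.meas k).comp (L.xc_mp j0).measurable)
    rw [h5, ← hvr (fun x => q k (X.S (-(s i k)) x)) ⟨(hq.meas k).comp (X.S_mp _).measurable, K,
      fun x => hq.bdd k _⟩]
    refine integral_congr_ae ?_
    filter_upwards [L.xc_S j0 (-(s i k))] with z hz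
    have hz' : L.xc j0 (L.J.S (-(s i k)) z) = X.S (-(s i k)) (L.xc j0 z) := hz
    simp only [hz']
  have h3 : Tendsto (fun k => ∫ x, v x * q k (X.S (-(s i k)) x) ∂X.μ) (UU : Filter ℕ)
      (𝓝 (∫ z, (∏ j ∈ Finset.univ.erase j0, L.U i j (F j ∘ P.π) z) *
        L.V i j0 (F j0 ∘ P.π) z ∂(lb L.J.μ))) := by
    rw [← e3]
    exact h1.congr e4
  rw [tendsto_nhds_unique h3 h2, hvr (g j0) (hg j0)]
  congr 1
  funext x
  ring

/-- the sigma-algebra of the base coordinates different from `j0` -/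
@[implicit_reducible]
def mW (j0 : ι) : MeasurableSpace L.J.Ω :=
  ⨆ j ∈ (Finset.univ.erase j0 : Finset ι), X.ms.comap (L.xc j)

theorem rhs (hX : XIndP X s) (i j0 : ι) {F g : ι → X.Ω → ℝ}
    (hF : ∀ j, Bd X.ms (F j)) (hg : ∀ j, Bd X.ms (g j)) {q : ι → ℕ → X.Ω → ℝ} {K : ι → ℝ}
    (hq : ∀ j, BM X.ms (q j) (K j))
    (hPF : ∀ j, PF s i P (F j ∘ P.π) =ᵐ[lb P.μ] fun y => st (q j) (Lb.mp P.π y))
    (hFg : ∀ j, ∀ G, Bd X.ms G → ∫ x, g j x * G x ∂X.μ =
      ∫ y, PF s i P (F j ∘ P.π) y * sitef P.toSys (s i) (G ∘ P.π) y ∂(lb P.μ)) :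
    ∫ z, (∏ j ∈ Finset.univ.erase j0, L.V i j (F j ∘ P.π) z) * L.U i j0 (F j0 ∘ P.π) z
        ∂(lb L.J.μ) =
      ∫ z, (∏ j ∈ Finset.univ.erase j0, g j (L.xc j z)) * F j0 (L.xc j0 z) ∂L.J.μ := by
  classical
  -- bounds
  obtain ⟨hF0m, C, hC⟩ := hF j0
  choose hgm D hD using hg
  have hne : Nonempty L.J.Ω := by
    have : L.J.μ univ ≠ 0 := by simp
    exact (nonempty_of_measure_ne_zero this).to_type
  obtain ⟨z0⟩ := hne
  have hK0 : ∀ j, 0 ≤ K j := fun j => (abs_nonneg _).trans ((hq j).bdd 0 (L.xc j z0))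
  have hD0 : ∀ j, 0 ≤ D j := fun j => (abs_nonneg _).trans (hD j (L.xc j z0))
  have hC0 : 0 ≤ C := (abs_nonneg _).trans (hC (L.xc j0 z0))
  set Ψ : L.J.Ω → ℝ := fun z => F j0 (L.xc j0 z) with hΨdef
  have hΨ : BdM L.J.ms Ψ := ⟨hF0m.comp (L.xc_mp j0).measurable, C, fun z => hC _⟩
  set Θ : ℕ → L.J.Ω → ℝ := fun k z => ∏ j ∈ Finset.univ.erase j0, q j k (L.xc j z) with hΘdef
  have hΘm : ∀ k, Measurable (Θ k) := fun k =>
    Finset.measurable_prod _ fun j _ => ((hq j).meas k).comp (L.xc_mp j).measurable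
  have hΘb : ∀ k z, |Θ k z| ≤ ∏ j ∈ Finset.univ.erase j0, K j := by
    intro k z
    rw [hΘdef]
    simp only [Finset.abs_prod]
    exact Finset.prod_le_prod (fun j _ => abs_nonneg _) (fun j _ => (hq j).bdd k _)
  have hBM : BM L.J.ms (fun k z => Θ k z * Ψ (L.J.S (s i k) z))
      ((∏ j ∈ Finset.univ.erase j0, K j) * C) := by
    refine ⟨fun k => (hΘm k).mul (hΨ.meas.comp (L.J.S_mp (s i k)).measurable), fun k z => ?_⟩
    rw [abs_mul]
    exact mul_le_mul (hΘb k z) (hC _) (abs_nonneg _)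
      (Finset.prod_nonneg fun j _ => hK0 j)
  have h1 := tendsto_integral_st (μ := L.J.μ) hBM
  have hokΘ : StOK Θ := BM.ok (m := L.J.ms) (C := ∏ j ∈ Finset.univ.erase j0, K j) ⟨hΘm, hΘb⟩
  have hokΨ : StOK (fun k z => Ψ (L.J.S (s i k) z)) :=
    BM.ok (m := L.J.ms) (C := C) ⟨fun k => hΨ.meas.comp (L.J.S_mp (s i k)).measurable,
      fun k z => hC _⟩
  have e1 : st (fun k z => Θ k z * Ψ (L.J.S (s i k) z)) = fun z =>
      (∏ j ∈ Finset.univ.erase j0, st (fun k z => q j k (L.xc j z)) z) *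
        L.U i j0 (F j0 ∘ P.π) z := by
    have e2 : st Θ = fun z => ∏ j ∈ Finset.univ.erase j0, st (fun k z => q j k (L.xc j z)) z := by
      refine st_prod (Finset.univ.erase j0) (f := fun j k z => q j k (L.xc j z)) ?_
      intro j _
      exact BM.ok (m := L.J.ms) (C := K j) ⟨fun k => ((hq j).meas k).comp (L.xc_mp j).measurable,
        fun k z => (hq j).bdd k _⟩
    rw [st_mul hokΘ hokΨ, e2]
    rfl
  have e3 : ∫ z, st (fun k z => Θ k z * Ψ (L.J.S (s i k) z)) z ∂(lb L.J.μ) =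
      ∫ z, (∏ j ∈ Finset.univ.erase j0, L.V i j (F j ∘ P.π) z) * L.U i j0 (F j0 ∘ P.π) z
        ∂(lb L.J.μ) := by
    rw [e1]
    have hall : ∀ᵐ z ∂(lb L.J.μ), ∀ j ∈ (Finset.univ.erase j0 : Finset ι),
        L.V i j (F j ∘ P.π) z = st (fun k z => q j k (L.xc j z)) z := by
      rw [Filter.eventually_all_finset]
      exact fun j _ => L.V_internal i j (hPF j)
    refine integral_congr_ae (hall.mono fun z hz => ?_)
    have : ∏ j ∈ Finset.univ.erase j0, L.V i j (F j ∘ P.π) z =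
        ∏ j ∈ Finset.univ.erase j0, st (fun k z => q j k (L.xc j z)) z :=
      Finset.prod_congr rfl hz
    simp only [this]
  -- the finite level integrals
  set u : ℕ → L.J.Ω → ℝ := fun k z =>
    ∏ j ∈ Finset.univ.erase j0, q j k (X.S (-(s i k)) (L.xc j z)) with hudef
  have e4 : ∀ k, ∫ z, Θ k z * Ψ (L.J.S (s i k) z) ∂L.J.μ = ∫ z, Ψ z * u k z ∂L.J.μ := by
    intro k
    have h5 := L.shift_int (s i k) hΨ.meas (hΘm k)
    have e5 : ∫ z, Θ k z * Ψ (L.J.S (s i k) z) ∂L.J.μ =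
        ∫ z, Ψ (L.J.S (s i k) z) * Θ k z ∂L.J.μ := by
      congr 1; funext z; ring
    rw [e5, h5]
    refine integral_congr_ae ?_
    have hall : ∀ᵐ z ∂L.J.μ, ∀ j ∈ (Finset.univ.erase j0 : Finset ι),
        L.xc j (L.J.S (-(s i k)) z) = X.S (-(s i k)) (L.xc j z) := by
      rw [Filter.eventually_all_finset]
      exact fun j _ => L.xc_S j (-(s i k))
    refine hall.mono fun z hz => ?_
    have : Θ k (L.J.S (-(s i k)) z) = u k z :=
      Finset.prod_congr rfl fun j hj => by rw [hz j hj]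
    simp only [this]
  -- weak convergence
  have hm : L.mW j0 ≤ L.J.ms := iSup₂_le fun j _ => (L.xc_mp j).measurable.comap_le
  have hmj : ∀ j ∈ (Finset.univ.erase j0 : Finset ι), X.ms.comap (L.xc j) ≤ L.mW j0 := fun j hj =>
    le_iSup₂_of_le j hj le_rfl
  have hgen : L.mW j0 = MeasurableSpace.generateFrom
      (piiUnionInter (fun j => {A | MeasurableSet[X.ms.comap (L.xc j)] A})
        ((Finset.univ.erase j0 : Finset ι) : Set ι)) := by
    have := generateFrom_piiUnionInter_measurableSet (fun j => X.ms.comap (L.xc j))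
      ((Finset.univ.erase j0 : Finset ι) : Set ι)
    rw [this]
    rfl
  have hpi : IsPiSystem (piiUnionInter (fun j => {A | MeasurableSet[X.ms.comap (L.xc j)] A})
        ((Finset.univ.erase j0 : Finset ι) : Set ι)) :=
    isPiSystem_piiUnionInter _
      (fun j => @MeasurableSpace.isPiSystem_measurableSet L.J.Ω (X.ms.comap (L.xc j))) _
  have hum : ∀ k, Measurable[L.mW j0] (u k) := fun k =>
    (BdM.prod (m := L.mW j0) (s := (Finset.univ.erase j0 : Finset ι))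
      (F := fun j z => q j k (X.S (-(s i k)) (L.xc j z))) fun j hj =>
      ((BdM.comp (m := X.ms) (φ := L.xc j) (f := fun x => q j k (X.S (-(s i k)) x))
        ⟨((hq j).meas k).comp (X.S_mp _).measurable, K j, fun x => (hq j).bdd k _⟩).mono
        (hmj j hj))).meas
  have hub : ∀ k z, |u k z| ≤ ∏ j ∈ Finset.univ.erase j0, K j := by
    intro k z
    rw [hudef]
    simp only [Finset.abs_prod]
    exact Finset.prod_le_prod (fun j _ => abs_nonneg _) (fun j _ => (hq j).bdd k _)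
  set w : L.J.Ω → ℝ := fun z => ∏ j ∈ Finset.univ.erase j0, g j (L.xc j z) with hwdef
  have hwm : Measurable[L.mW j0] w :=
    (BdM.prod (m := L.mW j0) (s := (Finset.univ.erase j0 : Finset ι))
      (F := fun j z => g j (L.xc j z)) fun j hj =>
      ((BdM.comp (m := X.ms) (φ := L.xc j) (f := g j) ⟨hgm j, D j, hD j⟩).mono
        (hmj j hj))).meas
  have hwb : ∀ z, |w z| ≤ ∏ j ∈ Finset.univ.erase j0, D j := by
    intro z
    rw [hwdef]
    simp only [Finset.abs_prod]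
    exact Finset.prod_le_prod (fun j _ => abs_nonneg _) (fun j _ => hD j _)
  -- rectangles
  have hrect : ∀ B : ι → Set X.Ω, (∀ j, MeasurableSet (B j)) →
      Tendsto (fun k => ∫ z in ⋂ j ∈ (Finset.univ.erase j0 : Finset ι), L.xc j ⁻¹' (B j),
        u k z ∂L.J.μ) (UU : Filter ℕ)
        (𝓝 (∫ z in ⋂ j ∈ (Finset.univ.erase j0 : Finset ι), L.xc j ⁻¹' (B j), w z ∂L.J.μ)) := by
    intro B hB
    have hms : MeasurableSet (⋂ j ∈ (Finset.univ.erase j0 : Finset ι), L.xc j ⁻¹' (B j)) :=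
      Finset.measurableSet_biInter _ fun j _ => (L.xc_mp j).measurable (hB j)
    have hb : ∀ j, Bd X.ms ((B j).indicator (fun _ => (1 : ℝ))) := fun j =>
      bd_of_M (BdM.indicator (hB j))
    have eG : ∀ h : ι → X.Ω → ℝ, (∀ j, Bd X.ms (h j)) →
        ∫ z in ⋂ j ∈ (Finset.univ.erase j0 : Finset ι), L.xc j ⁻¹' (B j),
          ∏ j ∈ Finset.univ.erase j0, h j (L.xc j z) ∂L.J.μ =
        ∏ j ∈ Finset.univ.erase j0, ∫ x, h j x * (B j).indicator (fun _ => (1 : ℝ)) x ∂X.μ := by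
      intro h hh
      rw [← integral_indicator hms]
      have e6 : ∀ z, (⋂ j ∈ (Finset.univ.erase j0 : Finset ι), L.xc j ⁻¹' (B j)).indicator
          (fun z => ∏ j ∈ Finset.univ.erase j0, h j (L.xc j z)) z =
          ∏ j ∈ Finset.univ.erase j0,
            (fun x => h j x * (B j).indicator (fun _ => (1 : ℝ)) x) (L.xc j z) := by
        intro z
        rw [RuleCore.prod_ind (Finset.univ.erase j0) (fun j z => h j (L.xc j z))
          (fun j => L.xc j ⁻¹' (B j)) z]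
        rfl
      simp only [e6]
      exact L.ind_prod hX j0 (f := fun j x => h j x * (B j).indicator (fun _ => (1 : ℝ)) x)
        fun j => bd_of_M ((Bd.toM (hh j)).mul (BdM.indicator (hB j)))
    have e7 : ∀ k, ∫ z in ⋂ j ∈ (Finset.univ.erase j0 : Finset ι), L.xc j ⁻¹' (B j),
        u k z ∂L.J.μ = ∏ j ∈ Finset.univ.erase j0,
          ∫ x, q j k (X.S (-(s i k)) x) * (B j).indicator (fun _ => (1 : ℝ)) x ∂X.μ := fun k =>
      eG (fun j x => q j k (X.S (-(s i k)) x)) fun j =>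
        ⟨((hq j).meas k).comp (X.S_mp _).measurable, K j, fun x => (hq j).bdd k _⟩
    have e8 : ∫ z in ⋂ j ∈ (Finset.univ.erase j0 : Finset ι), L.xc j ⁻¹' (B j), w z ∂L.J.μ =
        ∏ j ∈ Finset.univ.erase j0,
          ∫ x, g j x * (B j).indicator (fun _ => (1 : ℝ)) x ∂X.μ :=
      eG g fun j => ⟨hgm j, D j, hD j⟩
    rw [e8]
    refine Tendsto.congr (fun k => (e7 k).symm) ?_
    refine tendsto_finsetProd _ fun j _ => ?_
    have h9 := weakX (P := P) i (hq j) (hPF j) (hFg j) (hb j)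
    refine h9.congr fun k => ?_
    congr 1
    funext x
    ring
  have huniv : Tendsto (fun k => ∫ z, u k z ∂L.J.μ) (UU : Filter ℕ) (𝓝 (∫ z, w z ∂L.J.μ)) := by
    have := hrect (fun _ => univ) fun _ => MeasurableSet.univ
    simpa using this
  have hA : ∀ A ∈ piiUnionInter (fun j => {A | MeasurableSet[X.ms.comap (L.xc j)] A})
        ((Finset.univ.erase j0 : Finset ι) : Set ι),
      Tendsto (fun k => ∫ z in A, u k z ∂L.J.μ) (UU : Filter ℕ) (𝓝 (∫ z in A, w z ∂L.J.μ)) := by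
    rintro A ⟨t, htA, f, hf, rfl⟩
    have hf' : ∀ j : ι, ∃ B : Set X.Ω, MeasurableSet B ∧ (j ∈ t → L.xc j ⁻¹' B = f j) ∧
        (j ∉ t → B = univ) := by
      intro j
      by_cases hj : j ∈ t
      · obtain ⟨B, hB, hBf⟩ := hf j hj
        exact ⟨B, hB, fun _ => hBf, fun h => absurd hj h⟩
      · exact ⟨univ, MeasurableSet.univ, fun h => absurd h hj, fun _ => rfl⟩
    choose B hB hBf hBu using hf'
    have e : (⋂ x ∈ t, f x) = ⋂ j ∈ (Finset.univ.erase j0 : Finset ι), L.xc j ⁻¹' (B j) := by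
      ext z
      simp only [mem_iInter]
      constructor
      · intro h j hj
        by_cases hjt : j ∈ t
        · rw [hBf j hjt]; exact h j hjt
        · rw [hBu j hjt]; exact mem_univ _
      · intro h j hj
        rw [← hBf j hj]
        exact h j (htA hj)
    rw [e]
    exact hrect B hB
  have hKK : 0 ≤ ∏ j ∈ Finset.univ.erase j0, K j := Finset.prod_nonneg fun j _ => hK0 j
  have hDD : 0 ≤ ∏ j ∈ Finset.univ.erase j0, D j := Finset.prod_nonneg fun j _ => hD0 j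
  have h2 := weak_tendsto (μ := L.J.μ) (l := (UU : Filter ℕ)) hm hgen hpi (u := u) (v := w)
    (K := (∏ j ∈ Finset.univ.erase j0, K j) + ∏ j ∈ Finset.univ.erase j0, D j)
    (by linarith) hum (fun k z => (hub k z).trans (by linarith)) hwm
    (fun z => (hwb z).trans (by linarith)) huniv hA hΨ
  have h3 : Tendsto (fun k => ∫ z, Ψ z * u k z ∂L.J.μ) (UU : Filter ℕ)
      (𝓝 (∫ z, (∏ j ∈ Finset.univ.erase j0, L.V i j (F j ∘ P.π) z) * L.U i j0 (F j0 ∘ P.π) z
        ∂(lb L.J.μ))) := by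
    rw [← e3]
    exact h1.congr e4
  rw [tendsto_nhds_unique h3 h2]
  congr 1
  funext z
  ring

end RLev

/-- **THE RULE** (R4): `a` in slot `j0` = `a` in all the other slots. -/
theorem rule_eq (L : RLev s P) (hS2 : S2 s P) (hX : XIndP X s) (hc : 2 ≤ Fintype.card ι)
    (hR1 : ∀ (i : ι) (f : X.Ω → ℝ), Bd X.ms f →
      (lb P.μ)[PF s i P (f ∘ P.π) | LL (X.ms.comap P.π)] =ᵐ[lb P.μ] PF s i P (f ∘ P.π))
    (i j0 : ι) {F g : ι → X.Ω → ℝ} (hF : ∀ j, Bd X.ms (F j)) (hg : ∀ j, Bd X.ms (g j))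
    (hFg : ∀ j, ∀ G, Bd X.ms G → ∫ x, g j x * G x ∂X.μ =
      ∫ y, PF s i P (F j ∘ P.π) y * sitef P.toSys (s i) (G ∘ P.π) y ∂(lb P.μ)) :
    ∫ z, (∏ j ∈ Finset.univ.erase j0, F j (L.xc j z)) * g j0 (L.xc j0 z) ∂L.J.μ =
      ∫ z, (∏ j ∈ Finset.univ.erase j0, g j (L.xc j z)) * F j0 (L.xc j0 z) ∂L.J.μ := by
  choose q K hq hPF using fun j => PF_internal (s := s) (P := P) i (hF j) (hR1 i (F j) (hF j))
  have h1 := L.star hS2 i j0 hc (F := fun j => F j ∘ P.π)
    (fun j => bd_comp (hF j) P.π_mp.measurable)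
  rw [L.lhs i j0 hF hg (hq j0) (hPF j0) (hFg j0), L.rhs hX i j0 hF hg hq hPF hFg] at h1
  exact h1

end

end Crest.Agent.R069.Rule
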