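import Crest.Agent.R069.RLevDefs
import Crest.Agent.R069.RuleA
import Crest.Agent.R069.RuleCore
import Crest.Agent.R069.LoebCE

/-!
# Row 69, node RULE, R2: peeling on the Loeb space of the level system
-/

set_option autoImplicit false
set_option linter.unusedSectionVars false

open MeasureTheory Filter Set ProbabilityTheory
open scoped ENNReal Topology

namespace Crest.Agent.R069.Rule

open Crest.Agent.R069

/-! ### small facts -/

theorem Bd.toM {α : Type*} {m : MeasurableSpace α} {f : α → ℝ} (h : Bd m f) : BdM m f :=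
  ⟨h.1, h.2⟩

theorem bd_of_M {α : Type*} {m : MeasurableSpace α} {f : α → ℝ} (h : BdM m f) : Bd m f :=
  ⟨h.meas, h.bdd⟩

theorem bd_comp {α β : Type*} {m : MeasurableSpace α} {m' : MeasurableSpace β} {f : α → ℝ}
    (h : Bd m f) {φ : β → α} (hφ : Measurable[m', m] φ) : Bd m' (f ∘ φ) :=
  ⟨h.1.comp hφ, h.2.imp fun _ hC x => hC (φ x)⟩

theorem S_neg (M : Sys) (n : ℤ) (x : M.Ω) : M.S (-n) (M.S n x) = x := by
  rw [← M.S_add, neg_add_cancel, M.S_zero]

theorem S_neg' (M : Sys) (n : ℤ) (x : M.Ω) : M.S n (M.S (-n) x) = x := by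
  rw [← M.S_add, add_neg_cancel, M.S_zero]

/-- functions at a site and equivariant maps. -/
theorem sitef_comp {M N : Sys} {f : M.Ω → N.Ω}
    (hf_S : ∀ n, (fun x => f (M.S n x)) =ᵐ[M.μ] fun x => N.S n (f x)) (t : ℕ → ℤ)
    (g : N.Ω → ℝ) : sitef M t (g ∘ f) =ᵐ[lb M.μ] sitef N t g ∘ Lb.mp f := by
  have h1 : sitef M t (g ∘ f) =ᵐ[lb M.μ] st (fun k x => g (N.S (t k) (f x))) := by
    refine RuleA.st_congr_ae fun k => ?_
    filter_upwards [hf_S (t k)] with x hx
    exact congrArg g hx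
  exact h1

theorem mp_of {M N : Sys} {f : M.Ω → N.Ω} (hf_mp : MeasurePreserving f M.μ N.μ) :
    MeasurePreserving (Lb.mp f) (lb M.μ) (lb N.μ) :=
  measurePreserving_lbmap (f := fun _ => f) (fun _ => hf_mp)

theorem mp_site_ae {M N : Sys} {f : M.Ω → N.Ω}
    (hf_S : ∀ n, (fun x => f (M.S n x)) =ᵐ[M.μ] fun x => N.S n (f x)) (t : ℕ → ℤ)
    (A : Set N.Ω) : Lb.mp f ⁻¹' (intl (fun k => N.S (t k) ⁻¹' A)) =ᵐ[lb M.μ]
      intl (fun k => M.S (t k) ⁻¹' (f ⁻¹' A)) := by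
  have h1 : Lb.mp f ⁻¹' (intl (fun k => N.S (t k) ⁻¹' A)) =
      intl (fun k => f ⁻¹' (N.S (t k) ⁻¹' A)) := rfl
  rw [h1]
  refine intl_ae_eq fun k => ?_
  filter_upwards [hf_S (t k)] with x hx
  show (N.S (t k) (f x) ∈ A) = (f (M.S (t k) x) ∈ A)
  have hx' : f (M.S (t k) x) = N.S (t k) (f x) := hx
  rw [hx']

theorem nul_comap_le {α β : Type*} {mα : MeasurableSpace α} {mβ : MeasurableSpace β}
    {μ : Measure α} {ν : Measure β} {f : α → β} (hf : MeasurePreserving f μ ν) :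
    (nul ν).comap f ≤ nul μ := by
  rintro _ ⟨B, hB, rfl⟩
  refine ⟨hf.measurable hB.1, ?_⟩
  rcases hB.2 with h | h
  · left; rw [hf.measure_preimage hB.1.nullMeasurableSet, h]
  · right; rw [← preimage_compl, hf.measure_preimage hB.1.compl.nullMeasurableSet, h]

section
variable {X : Sys} {ι : Type} {s : ι → ℕ → ℤ} {P : Pair X}

theorem preimage_site_meas {M : Sys} {f : M.Ω → P.Ω} (hf_mp : MeasurePreserving f M.μ P.μ)
    (t : ℕ → ℤ) {A : Set P.Ω} (hA : MeasurableSet A) :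
    MeasurableSet[LL M.ms] (Lb.mp f ⁻¹' (intl (fun k => P.S (t k) ⁻¹' A))) :=
  (mp_of (M := M) (N := P.toSys) hf_mp).measurable (P.toSys.measurableSet_site t hA)

theorem meas_of_mp {M : Sys} {f : M.Ω → P.Ω} (hf_mp : MeasurePreserving f M.μ P.μ) :
    Measurable[M.ms, P.ms] f := hf_mp.measurable

theorem site_mem {M : Sys} {f : M.Ω → P.Ω} (hf_mp : MeasurePreserving f M.μ P.μ)
    (hf_S : ∀ n, (fun x => f (M.S n x)) =ᵐ[M.μ] fun x => P.S n (f x)) (t : ℕ → ℤ) {A : Set P.Ω}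
    (hA : MeasurableSet A) (m : MeasurableSpace (Lb M.Ω)) (hm : m ≤ LL M.ms) (hn : nulL M ≤ m)
    (h : MeasurableSet[m] (intl (fun k => M.S (t k) ⁻¹' (f ⁻¹' A)))) :
    MeasurableSet[m] (Lb.mp f ⁻¹' (intl (fun k => P.S (t k) ⁻¹' A))) :=
  @measurableSet_of_ae_nul _ m (LL M.ms) (@lb _ M.ms M.μ) hm hn _ _
    (preimage_site_meas hf_mp t hA) h (mp_site_ae (M := M) (N := P.toSys) hf_S t A)

theorem nul_mp_le {M : Sys} {f : M.Ω → P.Ω} (hf_mp : MeasurePreserving f M.μ P.μ) :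
    (nul (lb P.μ)).comap (Lb.mp f) ≤ nulL M :=
  nul_comap_le (mp_of (M := M) (N := P.toSys) hf_mp)

/-- `rest` pulled back along an equivariant map. -/
theorem comap_rest_le {M : Sys} {f : M.Ω → P.Ω} (hf_mp : MeasurePreserving f M.μ P.μ)
    (hf_S : ∀ n, (fun x => f (M.S n x)) =ᵐ[M.μ] fun x => P.S n (f x))
    (C : MeasurableSpace M.Ω) (hC : C ≤ M.ms) (hf_C : P.C.comap f ≤ C) (i : ι) :
    (rest s i P).comap (Lb.mp f) ≤ restM s i M M.ms C := by
  unfold rest
  rw [MeasurableSpace.comap_sup, MeasurableSpace.comap_sup, MeasurableSpace.comap_iSup]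
  refine sup_le (sup_le (iSup_le fun j => ?_) ?_) ?_
  · rw [MeasurableSpace.comap_iSup]
    refine iSup_le fun hj => ?_
    unfold siteA
    rw [MeasurableSpace.comap_generateFrom]
    refine MeasurableSpace.generateFrom_le ?_
    rintro _ ⟨_, ⟨A, hA, rfl⟩, rfl⟩
    refine site_mem hf_mp hf_S (s j) hA _ (restM_le s i M le_rfl hC) le_sup_right ?_
    have h2 : siteM M (s j) M.ms ≤ restM s i M M.ms C :=
      le_sup_of_le_left (le_sup_of_le_left (le_iSup₂_of_le j hj le_rfl))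
    exact h2 _ (MeasurableSpace.measurableSet_generateFrom
      ⟨f ⁻¹' A, meas_of_mp hf_mp hA, rfl⟩)
  · refine le_trans ?_ (le_sup_right.trans le_sup_left : LL C ≤ restM s i M M.ms C)
    have : (LL P.C).comap (Lb.mp f) = LL (P.C.comap f) := comap_lbmap_LL f
    rw [this]
    exact LL_mono hf_C
  · exact (nul_mp_le hf_mp).trans le_sup_right

end

section
variable {X : Sys} {ι : Type} [Fintype ι] [DecidableEq ι] {s : ι → ℕ → ℤ} {P : Pair X}

namespace RLev

variable (L : RLev s P)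

/-- the environment algebra enlarged by the coordinates in `A` -/
@[implicit_reducible]
def DA (A : Finset ι) : MeasurableSpace L.J.Ω := (⨆ j' ∈ A, P.ms.comap (L.co j')) ⊔ L.D

theorem DA_le (A : Finset ι) : L.DA A ≤ L.J.ms :=
  sup_le (iSup₂_le fun j _ => (L.co_mp j).measurable.comap_le) L.D_le

theorem D_le_DA (A : Finset ι) : L.D ≤ L.DA A := le_sup_right

theorem nul_le_DA (A : Finset ι) : @nul _ L.J.ms L.J.μ ≤ L.DA A := L.D_nul.trans (L.D_le_DA A)

theorem comap_le_DA {A : Finset ι} {j : ι} (hj : j ∈ A) : P.ms.comap (L.co j) ≤ L.DA A :=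
  le_sup_of_le_left (le_iSup₂_of_le j hj le_rfl)

theorem DA_S (A : Finset ι) (n : ℤ) : Measurable[L.DA A, L.DA A] (L.J.S n) := by
  rw [measurable_iff_comap_le]
  unfold DA
  rw [MeasurableSpace.comap_sup]
  refine sup_le ?_ ((measurable_iff_comap_le.1 (L.D_S n)).trans le_sup_right)
  simp only [MeasurableSpace.comap_iSup]
  refine iSup₂_le fun j hj => ?_
  rintro _ ⟨_, ⟨B, hB, rfl⟩, rfl⟩
  have h1 : MeasurableSet[L.DA A] (L.co j ⁻¹' (P.S n ⁻¹' B)) :=
    L.comap_le_DA hj _ ⟨_, (P.S_mp n).measurable hB, rfl⟩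
  refine measurableSet_of_ae_nul (L.DA_le A) (L.nul_le_DA A)
    ((L.J.S_mp n).measurable ((L.co_mp j).measurable hB)) h1 ?_
  filter_upwards [L.co_S j n] with x hx
  show (L.co j (L.J.S n x) ∈ B) = (P.S n (L.co j x) ∈ B)
  have hx' : L.co j (L.J.S n x) = P.S n (L.co j x) := hx
  rw [hx']

/-- the base coordinate -/
def xc (j : ι) (z : L.J.Ω) : X.Ω := P.π (L.co j z)

theorem xc_mp (j : ι) : MeasurePreserving (L.xc j) L.J.μ X.μ := P.π_mp.comp (L.co_mp j)

theorem xc_S (j : ι) (n : ℤ) :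
    (fun z => L.xc j (L.J.S n z)) =ᵐ[L.J.μ] fun z => X.S n (L.xc j z) := by
  filter_upwards [L.co_S j n, (L.co_mp j).quasiMeasurePreserving.ae (P.π_S n)] with z h1 h2
  have h1' : L.co j (L.J.S n z) = P.S n (L.co j z) := h1
  show P.π (L.co j (L.J.S n z)) = X.S n (P.π (L.co j z))
  rw [h1']
  exact h2

/-- the pair `(J, D_A)` through the coordinate `j` -/
def pair (A : Finset ι) (j : ι) (hj : j ∉ A) (hA : insert j A ≠ Finset.univ) : Pair X where
  toSys := L.J
  π := L.xc j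
  π_mp := L.xc_mp j
  π_S := L.xc_S j
  C := L.DA A
  C_le := L.DA_le A
  C_nul := L.nul_le_DA A
  C_S := L.DA_S A
  indep := L.indep A j hj hA

/-- the coordinate `j` as an extension -/
def ext (A : Finset ι) (j : ι) (hj : j ∉ A) (hA : insert j A ≠ Finset.univ) :
    Ext P (L.pair A j hj hA) where
  f := L.co j
  f_mp := L.co_mp j
  f_S := L.co_S j
  f_π := EventuallyEq.rfl
  f_C := (L.C_le j).trans (L.D_le_DA A)

end RLev

/-- `P_i f`. -/
noncomputable def PF (s : ι → ℕ → ℤ) (i : ι) (P : Pair X) (f : P.Ω → ℝ) : Lb P.Ω → ℝ :=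
  (lb P.μ)[sitef P.toSys (s i) f | rest s i P]

theorem rest_le' (i : ι) (P : Pair X) : rest s i P ≤ LL P.ms := RuleA.rest_le s i P

theorem PF_version (i : ι) (P : Pair X) {f : P.Ω → ℝ} (hf : Bd P.ms f) :
    ∃ G, BdM (rest s i P) G ∧ PF s i P f =ᵐ[lb P.μ] G :=
  BdM.condExp_bm (μ := lb P.μ) (rest_le' i P) (RuleA.sitef_BdM P.toSys (s i) hf)

namespace RLev
variable (L : RLev s P)

/-- the sigma-algebra `S_i(J, D)` on the Loeb space of `J`. -/
@[implicit_reducible]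
noncomputable def R0 (i : ι) : MeasurableSpace (Lb L.J.Ω) := restM s i L.J L.J.ms L.D

theorem R0_le (i : ι) : L.R0 i ≤ LL L.J.ms := restM_le s i L.J le_rfl L.D_le

theorem R0_le_DA (i : ι) (A : Finset ι) : L.R0 i ≤ restM s i L.J L.J.ms (L.DA A) :=
  sup_le_sup_right (sup_le_sup_left (LL_mono (L.D_le_DA A)) _) _

/-- the function `f` on `P` in coordinate `j` at the site `i`. -/
noncomputable def U (i : ι) (j : ι) (f : P.Ω → ℝ) : Lb L.J.Ω → ℝ :=
  sitef L.J (s i) (f ∘ L.co j)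

/-- `P_i f` in coordinate `j`. -/
noncomputable def V (i : ι) (j : ι) (f : P.Ω → ℝ) : Lb L.J.Ω → ℝ :=
  fun z => PF s i P f (Lb.mp (L.co j) z)

theorem U_BdM (i j : ι) {f : P.Ω → ℝ} (hf : Bd P.ms f) : BdM (LL L.J.ms) (L.U i j f) :=
  RuleA.sitef_BdM L.J (s i) (bd_comp hf (L.co_mp j).measurable)

theorem V_version (i j : ι) {f : P.Ω → ℝ} (hf : Bd P.ms f) :
    ∃ G, BdM (L.R0 i) G ∧ L.V i j f =ᵐ[lb L.J.μ] G := by
  obtain ⟨G, hG, hGe⟩ := PF_version (s := s) i P hf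
  refine ⟨G ∘ Lb.mp (L.co j), ?_, ?_⟩
  · have h1 := hG.comp (φ := Lb.mp (L.co j))
    exact h1.mono (comap_rest_le (L.co_mp j) (L.co_S j) L.D L.D_le (L.C_le j) i)
  · exact (mp_of (M := L.J) (N := P.toSys) (L.co_mp j)).quasiMeasurePreserving.ae_eq_comp hGe

theorem U_LL (i : ι) {A : Finset ι} {j : ι} (hj : j ∈ A) {f : P.Ω → ℝ} (hf : Bd P.ms f) :
    BdM (LL (L.DA A)) (L.U i j f) := by
  obtain ⟨hm, C, hC⟩ := hf
  have h : BM (L.DA A) (fun k x => (f ∘ L.co j) (L.J.S (s i k) x)) C := by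
    refine ⟨fun k => ?_, fun k x => hC _⟩
    have h1 : Measurable[L.DA A] (f ∘ L.co j) :=
      (hm.comp (comap_measurable (L.co j))).mono (L.comap_le_DA hj) le_rfl
    exact h1.comp (L.DA_S A (s i k))
  exact ⟨h.meas_st, C, h.st_le⟩

/-- **R2 (peeling).** -/
theorem peel (hS2 : S2 s P) (i : ι) {A : Finset ι} (hA : A ≠ Finset.univ) {F : ι → P.Ω → ℝ}
    (hF : ∀ j, Bd P.ms (F j)) :
    (lb L.J.μ)[fun z => ∏ j ∈ A, L.U i j (F j) z | L.R0 i] =ᵐ[lb L.J.μ]
      fun z => ∏ j ∈ A, L.V i j (F j) z := by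
  refine RuleCore.peel (P := lb L.J.μ) (L.R0_le i) (U := fun j => L.U i j (F j))
    (V := fun j => L.V i j (F j)) (A := A) (fun j _ => L.U_BdM i j (hF j))
    (fun j _ => L.V_version i j (hF j)) ?_
  intro j hj A' hA' hjA'
  have hins : insert j A' ≠ Finset.univ := by
    intro h
    apply hA
    refine Finset.eq_univ_iff_forall.2 fun x => ?_
    have : x ∈ insert j A' := by rw [h]; exact Finset.mem_univ x
    rcases Finset.mem_insert.1 this with rfl | hx
    · exact hj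
    · exact hA' hx
  refine ⟨restM s i L.J L.J.ms (L.DA A'), L.R0_le_DA i A', restM_le s i L.J le_rfl (L.DA_le A'),
    ?_, ?_⟩
  · intro j' hj'
    refine ⟨L.U i j' (F j'), (L.U_LL i hj' (hF j')).mono ?_, EventuallyEq.rfl⟩
    exact le_sup_right.trans le_sup_left
  · exact hS2 (L.pair A' j hjA' hins) (L.ext A' j hjA' hins) i (F j) (hF j)

/-- the two sides of the rule, on the Loeb space of the level system. -/
theorem star (hS2 : S2 s P) (i j0 : ι) (hc : 2 ≤ Fintype.card ι) {F : ι → P.Ω → ℝ}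
    (hF : ∀ j, Bd P.ms (F j)) :
    ∫ z, (∏ j ∈ Finset.univ.erase j0, L.U i j (F j) z) * L.V i j0 (F j0) z ∂(lb L.J.μ) =
      ∫ z, (∏ j ∈ Finset.univ.erase j0, L.V i j (F j) z) * L.U i j0 (F j0) z ∂(lb L.J.μ) := by
  classical
  have h1 : (Finset.univ.erase j0 : Finset ι) ≠ Finset.univ := by
    intro h
    have h3 := Finset.mem_univ j0
    rw [← h] at h3
    exact Finset.notMem_erase j0 _ h3
  have h2 : ({j0} : Finset ι) ≠ Finset.univ := by
    intro h
    have := congrArg Finset.card h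
    rw [Finset.card_singleton, Finset.card_univ] at this
    omega
  have p1 := L.peel hS2 i h1 hF
  have p2 := L.peel hS2 i h2 hF
  simp only [Finset.prod_singleton] at p2
  have hR := L.R0_le i
  obtain ⟨G0, hG0, hG0e⟩ := L.V_version i j0 (hF j0)
  choose G hG hGe using fun j => L.V_version i j (hF j)
  have hprod : (fun z => ∏ j ∈ Finset.univ.erase j0, L.V i j (F j) z) =ᵐ[lb L.J.μ]
      fun z => ∏ j ∈ Finset.univ.erase j0, G j z := by
    have : ∀ᵐ z ∂(lb L.J.μ), ∀ j ∈ (Finset.univ.erase j0 : Finset ι), L.V i j (F j) z = G j z := by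
      rw [Filter.eventually_all_finset]
      exact fun j _ => hGe j
    filter_upwards [this] with z hz
    exact Finset.prod_congr rfl hz
  have hGp : BdM (L.R0 i) (fun z => ∏ j ∈ Finset.univ.erase j0, G j z) :=
    BdM.prod fun j _ => hG j
  have hUp : BdM (LL L.J.ms) (fun z => ∏ j ∈ Finset.univ.erase j0, L.U i j (F j) z) :=
    BdM.prod fun j _ => L.U_BdM i j (hF j)
  have e1 : ∫ z, (∏ j ∈ Finset.univ.erase j0, L.U i j (F j) z) * L.V i j0 (F j0) z ∂(lb L.J.μ) =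
      ∫ z, (∏ j ∈ Finset.univ.erase j0, L.V i j (F j) z) * L.V i j0 (F j0) z ∂(lb L.J.μ) := by
    calc ∫ z, (∏ j ∈ Finset.univ.erase j0, L.U i j (F j) z) * L.V i j0 (F j0) z ∂(lb L.J.μ)
        = ∫ z, (∏ j ∈ Finset.univ.erase j0, L.U i j (F j) z) * G0 z ∂(lb L.J.μ) :=
          integral_congr_ae (hG0e.mono fun z hz => by simp only [hz])
      _ = ∫ z, ((lb L.J.μ)[fun z => ∏ j ∈ Finset.univ.erase j0, L.U i j (F j) z | L.R0 i]) z *
            G0 z ∂(lb L.J.μ) :=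
          (integral_condExp_mul hR (hUp.integrable le_rfl) hG0).symm
      _ = ∫ z, (∏ j ∈ Finset.univ.erase j0, L.V i j (F j) z) * L.V i j0 (F j0) z ∂(lb L.J.μ) :=
          integral_congr_ae (by
            filter_upwards [p1, hG0e] with z hz1 hz2
            rw [hz1, hz2])
  have e2 : ∫ z, (∏ j ∈ Finset.univ.erase j0, L.V i j (F j) z) * L.U i j0 (F j0) z ∂(lb L.J.μ) =
      ∫ z, (∏ j ∈ Finset.univ.erase j0, L.V i j (F j) z) * L.V i j0 (F j0) z ∂(lb L.J.μ) := by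
    calc ∫ z, (∏ j ∈ Finset.univ.erase j0, L.V i j (F j) z) * L.U i j0 (F j0) z ∂(lb L.J.μ)
        = ∫ z, (∏ j ∈ Finset.univ.erase j0, G j z) * L.U i j0 (F j0) z ∂(lb L.J.μ) :=
          integral_congr_ae (hprod.mono fun z hz => by
            have hz' : ∏ j ∈ Finset.univ.erase j0, L.V i j (F j) z =
              ∏ j ∈ Finset.univ.erase j0, G j z := hz
            simp only [hz'])
      _ = ∫ z, (∏ j ∈ Finset.univ.erase j0, G j z) *
            ((lb L.J.μ)[L.U i j0 (F j0) | L.R0 i]) z ∂(lb L.J.μ) :=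
          (integral_mul_condExp hR ((L.U_BdM i j0 (hF j0)).integrable le_rfl) hGp).symm
      _ = ∫ z, (∏ j ∈ Finset.univ.erase j0, L.V i j (F j) z) * L.V i j0 (F j0) z ∂(lb L.J.μ) :=
          integral_congr_ae (by
            filter_upwards [p2, hprod] with z hz1 hz2
            have hz1' : ((lb L.J.μ)[L.U i j0 (F j0) | L.R0 i]) z = L.V i j0 (F j0) z := hz1
            rw [hz1', hz2])
  rw [e1, e2]

end RLev

end

end Crest.Agent.R069.Rule
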