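import Crest.Agent.R069.RuleInst
import Crest.Agent.R069.RulePeel

/-!
# The rule on the Loeb level system (row 69, node N-RULE; helper212)

`rule_loeb`: `a` in one slot = `a` in all the other slots, from (S1), (S2), `XIndP` and R1.
-/

set_option autoImplicit false
set_option linter.unusedSectionVars false
set_option linter.unusedVariables false

open MeasureTheory Filter Set ProbabilityTheory
open scoped ENNReal Topology

namespace Crest.Agent.R069

namespace RuleFin

open RuleLev RuleCore RuleInst Rule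

variable {X : Sys} {ι : Type} [Fintype ι] [DecidableEq ι] {s : ι → ℕ → ℤ} {P : Pair X}
  [StandardBorelSpace P.Ω] [Nonempty P.Ω] [StandardBorelSpace X.Ω] [Nonempty X.Ω]

/-- a function of the coordinate `j` at the site `i` -/
theorem comp_yy_ae (i j : ι) {f : X.Ω → ℝ} (hf : Measurable f) :
    (fun z => f (yy s P i z j)) =ᵐ[lb (lb P.μ)]
      sitef P.toSys.loeb (s i) ((f ∘ P.π) ∘ co s P j) :=
  comp_sv_ae_eq_st (yg_mp s P i) (f := fun v : ι → X.Ω => f (v j))
    (hf.comp (measurable_pi_apply j))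

theorem rule_loeb (hS1 : S1 P) (hS2 : S2 s P) (hX : XIndP X s) (hc : 2 ≤ Fintype.card ι)
    (i j0 : ι)
    (hR1 : ∀ f : X.Ω → ℝ, Bd X.ms f →
      (lb P.μ)[PF s i P (f ∘ P.π) | LL (X.ms.comap P.π)] =ᵐ[lb P.μ] PF s i P (f ∘ P.π))
    {F g : ι → X.Ω → ℝ} (hF : ∀ j, Bd X.ms (F j)) (hg : ∀ j, Bd X.ms (g j))
    (hFg : ∀ j, ∀ G : X.Ω → ℝ, Bd X.ms G → ∫ x, g j x * G x ∂X.μ =
      ∫ y, PF s i P (F j ∘ P.π) y * sitef P.toSys (s i) (G ∘ P.π) y ∂(lb P.μ)) :
    ∫ z, (∏ j ∈ Finset.univ.erase j0, F j (P.π (co s P j z))) * g j0 (P.π (co s P j0 z))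
        ∂(lb P.μ) =
      ∫ z, (∏ j ∈ Finset.univ.erase j0, g j (P.π (co s P j z))) * F j0 (P.π (co s P j0 z))
        ∂(lb P.μ) := by
  classical
  set Lv : RLev s P := rlev hS1 hX with hLv
  have hFP : ∀ j, Bd P.ms (F j ∘ P.π) := fun j => bd_comp (hF j) P.π_mp.measurable
  -- bounded versions of `V`
  choose V hVR hVe using fun j => Lv.V_version i j (hFP j)
  have hVm : ∀ j, BdM (LL (LL P.ms)) (V j) := fun j => (hVR j).mono (Lv.R0_le i)
  -- `V j = PF ∘ Lb.mp (co j)`
  have hVe' : ∀ j, (fun z => PF s i P (F j ∘ P.π) (lbmap (fun _ => co s P j) z))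
      =ᵐ[lb (lb P.μ)] V j := hVe
  have hψ : ∀ j, MeasurePreserving (lbmap (fun _ : ℕ => co s P j)) (lb (lb P.μ)) (lb P.μ) :=
    fun j => measurePreserving_lbmap fun _ => co_mp s P j
  -- (H2)
  have hVL : ∀ j, ∃ V', BdM (LL (XJ s P j)) V' ∧ V j =ᵐ[lb (lb P.μ)] V' := by
    intro j
    obtain ⟨G, hG, hGe⟩ := PF_version (s := s) i P (hFP j)
    have h0 : (lb P.μ)[G | LL (X.ms.comap P.π)] =ᵐ[lb P.μ] PF s i P (F j ∘ P.π) :=
      (condExp_congr_ae hGe.symm).trans (hR1 (F j) (hF j))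
    obtain ⟨G', hG', hGG'⟩ := (hG.mono (rest_le' i P)).condExp_bm (μ := lb P.μ)
      (LL_mono P.π_mp.measurable.comap_le)
    refine ⟨G' ∘ lbmap (fun _ => co s P j), ?_, ?_⟩
    · have h1 := hG'.comp (φ := lbmap (fun _ => co s P j))
      rw [comap_lbmap_LL, MeasurableSpace.comap_comp] at h1
      exact h1
    · have h2 := (hψ j).quasiMeasurePreserving.ae_eq_comp (h0.symm.trans hGG')
      exact (hVe' j).symm.trans h2
  -- the pairing
  have hVg : ∀ j, ∀ f : X.Ω → ℝ, BdM X.ms f →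
      ∫ z, V j z * f (yy s P i z j) ∂(lb (lb P.μ)) = ∫ x, g j x * f x ∂X.μ := by
    intro j f hf
    have hfP : BdM P.ms (f ∘ P.π) := by
      obtain ⟨C, hC⟩ := hf.bdd
      exact ⟨hf.meas.comp P.π_mp.measurable, C, fun _ => hC _⟩
    obtain ⟨G, hG, hGe⟩ := PF_version (s := s) i P (hFP j)
    have hGm : BdM (LL P.ms) G := hG.mono (rest_le' i P)
    have hfc : BdM (LL P.ms) (fun y => f (P.π (co s P i y))) := by
      obtain ⟨C, hC⟩ := hf.bdd
      exact ⟨hf.meas.comp (π_co_mp s P i).measurable, C, fun _ => hC _⟩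
    have e1 : (fun z => V j z * f (yy s P i z j)) =ᵐ[lb (lb P.μ)]
        fun z => (fun y => G y * f (P.π (co s P i y))) (lbmap (fun _ => co s P j) z) := by
      have h1 := (hψ j).quasiMeasurePreserving.ae_eq_comp hGe
      filter_upwards [hVe' j, h1, yy_ae s P i j] with z hz1 hz2 hz3
      simp only [Function.comp] at hz2
      show V j z * f (yy s P i z j) = _
      rw [← hz1, hz2, hz3]
    rw [integral_congr_ae e1]
    have e2 := R069.integral_comp_mp (hψ j) (F := fun y => G y * f (P.π (co s P i y)))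
      ((hGm.mul hfc).aemeas le_rfl)
    rw [e2]
    have e3 := hFg j f ⟨hf.meas, hf.bdd⟩
    rw [e3]
    refine integral_congr_ae ?_
    filter_upwards [hGe, comp_co_ae s P i (f := f ∘ P.π) hfP.meas] with y h1 h2
    rw [h1, ← h2]
    rfl
  -- peeling
  have hU : ∀ j, (fun z => F j (yy s P i z j)) =ᵐ[lb (lb P.μ)] Lv.U i j (F j ∘ P.π) := fun j =>
    comp_yy_ae i j (hF j).1
  have hpeelA : ∀ A : Finset ι, A ≠ Finset.univ →
      (lb (lb P.μ))[fun z => ∏ j ∈ A, F j (yy s P i z j) | Lv.R0 i] =ᵐ[lb (lb P.μ)]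
        fun z => ∏ j ∈ A, V j z := by
    intro A hA
    have h1 := Lv.peel hS2 i hA hFP
    have h2 : (fun z => ∏ j ∈ A, F j (yy s P i z j)) =ᵐ[lb (lb P.μ)]
        fun z => ∏ j ∈ A, Lv.U i j (F j ∘ P.π) z := by
      have : ∀ᵐ z ∂(lb (lb P.μ)), ∀ j ∈ A, F j (yy s P i z j) = Lv.U i j (F j ∘ P.π) z := by
        rw [Filter.eventually_all_finset]
        exact fun j _ => hU j
      filter_upwards [this] with z hz
      exact Finset.prod_congr rfl hz
    have h3 : (fun z => ∏ j ∈ A, Lv.V i j (F j ∘ P.π) z) =ᵐ[lb (lb P.μ)]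
        fun z => ∏ j ∈ A, V j z := by
      have : ∀ᵐ z ∂(lb (lb P.μ)), ∀ j ∈ A, Lv.V i j (F j ∘ P.π) z = V j z := by
        rw [Filter.eventually_all_finset]
        exact fun j _ => hVe j
      filter_upwards [this] with z hz
      exact Finset.prod_congr rfl hz
    exact (condExp_congr_ae h2).trans (h1.trans h3)
  have hne1 : (Finset.univ.erase j0 : Finset ι) ≠ Finset.univ := by
    intro h
    have h3 := Finset.mem_univ j0
    rw [← h] at h3
    exact Finset.notMem_erase j0 _ h3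
  have hne2 : ({j0} : Finset ι) ≠ Finset.univ := by
    intro h
    have := congrArg Finset.card h
    rw [Finset.card_singleton, Finset.card_univ] at this
    omega
  have hp0 := hpeelA {j0} hne2
  simp only [Finset.prod_singleton] at hp0
  -- the rule
  have key := RuleCore.rule (μX := X.μ) (lam := lam s P) (P := lb (lb P.μ)) (y := yy s P i)
    (L := fun j => LL (XJ s P j)) (LA := LL (mA s P (Finset.univ.erase j0)))
    (L0 := LL (mA s P {j0})) (R := Lv.R0 i) (yy_mp s P i) j0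
    (LL_mono (mA_le s P _)) (LL_mono (mA_le s P _))
    (fun j hj => LL_mono (XJ_le_mA s P hj))
    (LL_mono (XJ_le_mA s P (Finset.mem_singleton_self j0)))
    (ind_L hX j0) (lam_ind hX j0)
    (fun f hf => integral_comp_mp (eval_mp s P j0) (F := f) (hf.aemeas le_rfl))
    (fun j f hf => yy_L s P i j hf)
    (fun G hG => ce_yy s P i _ hG) (fun G hG => ce_yy s P i _ hG)
    (V := V) hVm hVL (Lv.R0_le i) (fun j => ⟨V j, hVR j, EventuallyEq.rfl⟩)
    (g := g) (F := F) (fun j => (Rule.Bd.toM (hg j))) (fun j => (Rule.Bd.toM (hF j))) hVg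
    (hpeelA _ hne1) hp0
  -- back to `Lb P.Ω`
  have hprod : ∀ (A : Finset ι) (f : ι → X.Ω → ℝ) (h : X.Ω → ℝ), (∀ j, Bd X.ms (f j)) →
      Bd X.ms h → ∫ x, (∏ j ∈ A, f j (x j)) * h (x j0) ∂(lam s P) =
        ∫ z, (∏ j ∈ A, f j (P.π (co s P j z))) * h (P.π (co s P j0 z)) ∂(lb P.μ) := by
    intro A f h hf hh
    have hb : BdM MeasurableSpace.pi (fun x : ι → X.Ω => (∏ j ∈ A, f j (x j)) * h (x j0)) := by
      refine BdM.mul (BdM.prod fun j hj => (bdM_cor hj (Rule.Bd.toM (hf j))).mono (cor_le A)) ?_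
      exact (bdM_cor (A := {j0}) (Finset.mem_singleton_self j0) (Rule.Bd.toM hh)).mono (cor_le {j0})
    exact (R069.integral_comp_mp (xx_mp s P)
      (F := fun x : ι → X.Ω => (∏ j ∈ A, f j (x j)) * h (x j0)) (hb.aemeas le_rfl)).symm
  rw [hprod _ F (g j0) hF (hg j0), hprod _ g (F j0) hg (hF j0)] at key
  exact key

end RuleFin

end Crest.Agent.R069
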