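import Crest.Agent.R069.Defs
import Crest.Agent.R069.RLevDefs
import Crest.Agent.R069.Sites
import Crest.Agent.R069.Site
import Crest.Agent.R069.CI

/-!
# The level system `J = Sys.loeb P` over a sated pair (row 69, node N-RULE; helper212)

`J = Lb P.Ω`, coordinates `co j = sv (fun k => P.S (s j k))`, environment `D = LL P.C ⊔ nul`.
-/

set_option autoImplicit false
set_option linter.unusedSectionVars false
set_option linter.unusedVariables false

open MeasureTheory Filter Set ProbabilityTheory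
open scoped ENNReal Topology

namespace Crest.Agent.R069

namespace RuleLev

/-! ### general facts -/

section general

variable {α : Type*} {m m₁ m₂ n : MeasurableSpace α} [mα : MeasurableSpace α] {μ : Measure α}

theorem nulLe (μ : Measure α) : nul μ ≤ mα := fun _ h => h.1

theorem aele_nul' (μ : Measure α) : AELe μ (nul μ) m := by
  rintro A ⟨_, h | h⟩
  · exact ⟨∅, @MeasurableSet.empty _ m, ae_eq_empty.2 h⟩
  · exact ⟨univ, @MeasurableSet.univ _ m, (ae_eq_univ.2 h)⟩

theorem measurable_nul' {β : Type*} [MeasurableSpace β] {ν : Measure β} {f : α → β}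
    (hf : MeasurePreserving f μ ν) : Measurable[nul μ, nul ν] f := by
  rintro A ⟨hA, h | h⟩
  · exact ⟨hf.measurable hA, Or.inl (by rw [hf.measure_preimage hA.nullMeasurableSet, h])⟩
  · refine ⟨hf.measurable hA, Or.inr ?_⟩
    rw [← preimage_compl, hf.measure_preimage hA.compl.nullMeasurableSet, h]

/-- `m₁ ≤ m₂` up to null sets implies `m₁ ≤ m₂` if `m₂` is complete. -/
theorem le_of_aele (h₁ : m₁ ≤ mα) (h₂ : m₂ ≤ mα) (hn : nul μ ≤ m₂) (h : AELe μ m₁ m₂) : m₁ ≤ m₂ := by
  intro A hA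
  obtain ⟨B, hB, hAB⟩ := h A hA
  exact measurableSet_of_ae_nul h₂ hn (h₁ A hA) hB hAB

/-- preimages of a.e. equal maps -/
theorem comap_le_of_ae {β : Type*} {mβ : MeasurableSpace β} {f g : α → β}
    (hf : Measurable[mα, mβ] f) (hn : n ≤ mα) (hnul : nul μ ≤ n) (hg : Measurable[n, mβ] g)
    (h : f =ᵐ[μ] g) : mβ.comap f ≤ n := by
  rintro _ ⟨B, hB, rfl⟩
  refine measurableSet_of_ae_nul hn hnul (hf hB) (hg hB) ?_
  filter_upwards [h] with x hx
  exact congrArg (· ∈ B) hx

end general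

end RuleLev

namespace RuleLev

/-! ### the coordinates of the Loeb system -/

section co

variable {X : Sys} {ι : Type} (s : ι → ℕ → ℤ) (P : Pair X) [StandardBorelSpace P.Ω]
  [Nonempty P.Ω]

/-- the coordinate `j` of the Loeb space -/
noncomputable def co (j : ι) : Lb P.Ω → P.Ω := sv (fun k => P.S (s j k))

theorem co_mp (j : ι) : MeasurePreserving (co s P j) (lb P.μ) P.μ :=
  measurePreserving_sv (fun k => P.S_mp (s j k))

theorem co_S (j : ι) (n : ℤ) :
    (fun x => co s P j (Lb.mp (P.S n) x)) =ᵐ[lb P.μ] fun x => P.S n (co s P j x) := by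
  have h1 := sv_comp_ae (μ := P.μ) (ν := P.μ) (g := fun k => P.S (s j k))
    (fun k => P.S_mp (s j k)) (f := P.S n) (P.S_mp n).measurable
  filter_upwards [h1] with x hx
  rw [co, ← hx]
  show sv (fun k => P.S (s j k)) (lbmap (fun _ => P.S n) x) = _
  rw [sv_lbmap]
  congr 1
  funext k y
  show P.S (s j k) (P.S n y) = P.S n (P.S (s j k) y)
  rw [← P.S_add, ← P.S_add, add_comm]

theorem co_preimage_ae (j : ι) {A : Set P.Ω} (hA : MeasurableSet A) :
    co s P j ⁻¹' A =ᵐ[lb P.μ] intl (fun k => P.S (s j k) ⁻¹' A) :=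
  sv_preimage_ae (fun k => P.S_mp (s j k)) hA

theorem comp_co_ae (j : ι) {f : P.Ω → ℝ} (hf : Measurable f) :
    (fun x => f (co s P j x)) =ᵐ[lb P.μ] sitef P.toSys (s j) f :=
  comp_sv_ae_eq_st (fun k => P.S_mp (s j k)) hf

/-- the environment `LL C ⊔ nul` -/
@[implicit_reducible]
noncomputable def DD : MeasurableSpace (Lb P.Ω) := LL P.C ⊔ nulL P.toSys

theorem nulL_le' : nulL P.toSys ≤ LL P.ms := nulLe _

theorem DD_le : DD P ≤ LL P.ms := sup_le (LL_mono P.C_le) (nulL_le' P)

theorem DD_nul : nulL P.toSys ≤ DD P := le_sup_right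

theorem mp_S (n : ℤ) : MeasurePreserving (Lb.mp (P.S n)) (lb P.μ) (lb P.μ) :=
  measurePreserving_lbmap fun _ => P.S_mp n

theorem DD_S (n : ℤ) : Measurable[DD P, DD P] (Lb.mp (P.S n)) := by
  rw [measurable_iff_comap_le, DD, MeasurableSpace.comap_sup]
  refine sup_le_sup ?_ ?_
  · exact measurable_iff_comap_le.1 (measurable_lbmap' (mα := P.C) (mβ := P.C)
      (f := fun _ => P.S n) fun _ => P.C_S n)
  · exact measurable_iff_comap_le.1 (measurable_nul' (mp_S P n))

theorem co_C_le (j : ι) : P.C.comap (co s P j) ≤ DD P := by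
  have h1 : P.C.comap (co s P j) ≤ LL P.ms :=
    (MeasurableSpace.comap_mono P.C_le).trans (co_mp s P j).measurable.comap_le
  refine le_of_aele h1 (DD_le P) (DD_nul P) ?_
  rintro _ ⟨A, hA, rfl⟩
  exact ⟨_, (le_sup_left : LL P.C ≤ DD P) _ (measurableSet_intl fun k => P.C_S (s j k) hA),
    co_preimage_ae s P j (P.C_le _ hA)⟩

/-- the sites of `X` on the Loeb space of `P` -/
theorem sitef_comp_ae (j : ι) {f : X.Ω → ℝ} (hf : Measurable f) :
    (fun x => f (P.π (co s P j x))) =ᵐ[lb P.μ]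
      fun x => sitef X (s j) f (lbmap (fun _ => P.π) x) := by
  have h1 := comp_co_ae s P j (f := fun x => f (P.π x)) (hf.comp P.π_mp.measurable)
  refine h1.trans ?_
  have h2 := ae_lb_of_forall_ae (μ := P.μ)
    (p := fun k x => f (P.π (P.S (s j k) x)) = f (X.S (s j k) (P.π x)))
    (fun k => by
      filter_upwards [P.π_S (s j k)] with x hx
      rw [hx])
  filter_upwards [h2] with x hx
  show ulim (fun k => f (P.π (P.S (s j k) (x k)))) = ulim (fun k => f (X.S (s j k) (P.π (x k))))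
  unfold ulim
  congr 1
  exact congrArg _ (Ultrafilter.coe_injective (Filter.map_congr hx))

theorem mp_π : MeasurePreserving (lbmap (fun _ : ℕ => P.π)) (lb P.μ) (lb X.μ) :=
  measurePreserving_lbmap fun _ => P.π_mp

theorem sitef_bdM (M : Sys) (t : ℕ → ℤ) {f : M.Ω → ℝ} (hf : Bd M.ms f) :
    BdM (LL M.ms) (sitef M t f) := by
  obtain ⟨hm, C, hC⟩ := hf
  have h : BM M.ms (fun k x => f (M.S (t k) x)) C :=
    ⟨fun k => hm.comp (M.S_mp (t k)).measurable, fun _ _ => hC _⟩
  exact ⟨h.meas_st, C, h.st_le⟩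

theorem integral_prod_co [Fintype ι] (J : Finset ι) {f : ι → X.Ω → ℝ} (hf : ∀ i, Bd X.ms (f i)) :
    ∫ y, ∏ i ∈ J, f i (P.π (co s P i y)) ∂(lb P.μ) =
      ∫ x, ∏ i ∈ J, sitef X (s i) (f i) x ∂(lb X.μ) := by
  have h1 : (fun y => ∏ i ∈ J, f i (P.π (co s P i y))) =ᵐ[lb P.μ]
      fun y => ∏ i ∈ J, sitef X (s i) (f i) (lbmap (fun _ => P.π) y) := by
    have : ∀ᵐ y ∂(lb P.μ), ∀ i ∈ J, f i (P.π (co s P i y)) =
        sitef X (s i) (f i) (lbmap (fun _ => P.π) y) := by
      rw [Filter.eventually_all_finset]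
      exact fun i _ => sitef_comp_ae s P i (hf i).1
    filter_upwards [this] with y hy
    exact Finset.prod_congr rfl hy
  rw [integral_congr_ae h1]
  have hb : BdM (LL X.ms) (fun x => ∏ i ∈ J, sitef X (s i) (f i) x) :=
    BdM.prod fun i _ => sitef_bdM X (s i) (hf i)
  exact R069.integral_comp_mp (mp_π P) (F := fun x => ∏ i ∈ J, sitef X (s i) (f i) x)
    (hb.aemeas le_rfl)

end co

/-! ### the site theorem -/

section ind

variable {X : Sys} {ι : Type} [Fintype ι] [DecidableEq ι] (s : ι → ℕ → ℤ) (P : Pair X)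
  [StandardBorelSpace P.Ω] [Nonempty P.Ω]

/-- invariance of a sub-sigma-algebra modulo null sets -/
def Inv (m : MeasurableSpace (Lb P.Ω)) : Prop :=
  ∀ n : ℤ, Measurable[m ⊔ nulL P.toSys, m] (Lb.mp (P.S n))

theorem inv_sup {a b : MeasurableSpace (Lb P.Ω)} (ha : Inv P a) (hb : Inv P b) :
    Inv P (a ⊔ b) := by
  intro n
  rw [measurable_iff_comap_le, MeasurableSpace.comap_sup]
  refine sup_le ((measurable_iff_comap_le.1 (ha n)).trans ?_)
    ((measurable_iff_comap_le.1 (hb n)).trans ?_)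
  · exact sup_le_sup le_sup_left le_rfl
  · exact sup_le_sup le_sup_right le_rfl

theorem inv_iSup {κ : Sort*} {a : κ → MeasurableSpace (Lb P.Ω)} (ha : ∀ i, Inv P (a i)) :
    Inv P (⨆ i, a i) := by
  intro n
  rw [measurable_iff_comap_le, MeasurableSpace.comap_iSup]
  refine iSup_le fun i => (measurable_iff_comap_le.1 (ha i n)).trans ?_
  exact sup_le_sup (le_iSup a i) le_rfl

theorem inv_comap_co {Z : Type*} {mZ : MeasurableSpace Z} (j : ι) {φ : P.Ω → Z}
    (hφ : Measurable[P.ms, mZ] φ)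
    (h : ∀ n : ℤ, ∃ ψ : Z → Z, Measurable[mZ, mZ] ψ ∧ (fun x => φ (P.S n x)) =ᵐ[P.μ] fun x => ψ (φ x)) :
    Inv P (mZ.comap (φ ∘ co s P j)) := by
  intro n
  obtain ⟨ψ, hψ, hψe⟩ := h n
  rw [measurable_iff_comap_le, MeasurableSpace.comap_comp]
  have hco := (co_mp s P j)
  have h0 : mZ.comap (φ ∘ co s P j) ≤ LL P.ms := (hφ.comp hco.measurable).comap_le
  refine comap_le_of_ae (μ := lb P.μ) (g := fun x => ψ (φ (co s P j x))) ?_
    (sup_le h0 (nulL_le' P)) le_sup_right ?_ ?_
  · exact (hφ.comp hco.measurable).comp (mp_S P n).measurable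
  · refine Measurable.mono (hψ.comp (comap_measurable (φ ∘ co s P j))) le_sup_left le_rfl
  · have e1 := co_S s P j n
    have e2 := hco.quasiMeasurePreserving.ae_eq_comp hψe
    filter_upwards [e1, e2] with x h1 h2
    show φ (co s P j (Lb.mp (P.S n) x)) = _
    rw [h1]
    exact h2

/-- the sigma-algebra of the coordinate `j` -/
@[reducible] noncomputable def EJ (j : ι) : MeasurableSpace (Lb P.Ω) := P.ms.comap (co s P j)

/-- the sigma-algebra of `X` at the coordinate `j` -/
@[reducible] noncomputable def XJ (j : ι) : MeasurableSpace (Lb P.Ω) :=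
  X.ms.comap (P.π ∘ co s P j)

theorem EJ_le (j : ι) : EJ s P j ≤ LL P.ms := (co_mp s P j).measurable.comap_le

theorem XJ_le (j : ι) : XJ s P j ≤ LL P.ms :=
  (P.π_mp.measurable.comp (co_mp s P j).measurable).comap_le

theorem inv_EJ (j : ι) : Inv P (EJ s P j) :=
  inv_comap_co s P j (φ := id) measurable_id
    (fun n => ⟨P.S n, (P.S_mp n).measurable, EventuallyEq.rfl⟩)

theorem inv_XJ (j : ι) : Inv P (XJ s P j) :=
  inv_comap_co s P j (φ := P.π) P.π_mp.measurable
    (fun n => ⟨X.S n, (X.S_mp n).measurable, P.π_S n⟩)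

theorem XJ_aele (j : ι) : AELe (lb P.μ) (XJ s P j) (LL (X.ms.comap P.π)) := by
  rintro _ ⟨A, hA, rfl⟩
  refine ⟨intl (fun k => P.π ⁻¹' (X.S (s j k) ⁻¹' A)), ?_, ?_⟩
  · exact measurableSet_intl fun k => ⟨_, (X.S_mp (s j k)).measurable hA, rfl⟩
  · refine (co_preimage_ae s P j (P.π_mp.measurable hA)).trans (intl_ae_eq fun k => ?_)
    filter_upwards [P.π_S (s j k)] with x hx
    show (P.π (P.S (s j k) x) ∈ A) = (X.S (s j k) (P.π x) ∈ A)
    rw [hx]

theorem π_co_mp (j : ι) : MeasurePreserving (P.π ∘ co s P j) (lb P.μ) X.μ :=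
  P.π_mp.comp (co_mp s P j)

theorem π_co_S (j : ι) (n : ℤ) :
    (fun x => (P.π ∘ co s P j) (Lb.mp (P.S n) x)) =ᵐ[lb P.μ]
      fun x => X.S n ((P.π ∘ co s P j) x) := by
  have e1 := co_S s P j n
  have e2 := (co_mp s P j).quasiMeasurePreserving.ae_eq_comp (P.π_S n)
  filter_upwards [e1, e2] with x h1 h2
  show P.π (co s P j (Lb.mp (P.S n) x)) = _
  rw [h1]
  exact h2

/-- (S1) applied to the coordinate `j`. -/
theorem S1_co (hS1 : S1 P) (j : ι) {D : MeasurableSpace (Lb P.Ω)} (hCD : DD P ≤ D)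
    (hD : D ≤ LL P.ms) (hInv : Inv P D) (hind : Indep (XJ s P j) D (lb P.μ))
    {f : P.Ω → ℝ} (hf : Bd P.ms f) :
    (lb P.μ)[f ∘ co s P j | D] =ᵐ[lb P.μ] (P.μ[f | P.C]) ∘ co s P j := by
  have hn : nulL P.toSys ≤ D := (DD_nul P).trans hCD
  let Q : Pair X :=
    { toSys := P.toSys.loeb
      π := P.π ∘ co s P j
      π_mp := π_co_mp s P j
      π_S := π_co_S s P j
      C := D
      C_le := hD
      C_nul := hn
      C_S := fun n => (hInv n).mono (sup_le le_rfl hn) le_rfl
      indep := hind }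
  let e : Ext P Q :=
    { f := co s P j
      f_mp := co_mp s P j
      f_S := co_S s P j
      f_π := EventuallyEq.rfl
      f_C := (co_C_le s P j).trans hCD }
  exact hS1 Q e f hf

variable {s P}

theorem indep_X (hX : XIndP X s) (i0 : ι) :
    iIndep (fun j : {j // j ≠ i0} => XJ s P j) (lb P.μ) := by
  rw [iIndep_iff]
  intro J f hf
  have hf' : ∀ j : {j // j ≠ i0}, ∃ A : Set X.Ω, MeasurableSet A ∧
      (j ∈ J → f j = (P.π ∘ co s P j) ⁻¹' A) := by
    intro j
    by_cases hj : j ∈ J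
    · obtain ⟨A, hA, hAf⟩ := hf j hj
      exact ⟨A, hA, fun _ => hAf.symm⟩
    · exact ⟨univ, MeasurableSet.univ, fun h => absurd h hj⟩
  choose A hA hAf using hf'
  -- the family on `ι`
  set J' : Finset ι := J.map (Function.Embedding.subtype _) with hJ'
  have hJ'ne : J' ≠ Finset.univ := by
    intro h
    have : i0 ∈ J' := by rw [h]; exact Finset.mem_univ _
    rw [hJ', Finset.mem_map] at this
    obtain ⟨⟨a, ha⟩, _, hb⟩ := this
    exact ha hb
  let F : ι → X.Ω → ℝ := fun i =>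
    if h : i ≠ i0 then (A ⟨i, h⟩).indicator (fun _ => (1 : ℝ)) else fun _ => 0
  have hF : ∀ i, Bd X.ms (F i) := by
    intro i
    by_cases h : i ≠ i0
    · simp only [F, dif_pos h]
      have := BdM.indicator (hA ⟨i, h⟩)
      exact ⟨this.meas, this.bdd⟩
    · simp only [F, dif_neg h]
      exact ⟨measurable_const, 0, fun _ => by simp⟩
  have h1 := hX J' hJ'ne F hF
  rw [← integral_prod_co s P J' hF] at h1
  have e1 : ∀ y, ∏ i ∈ J', F i (P.π (co s P i y)) =
      (⋂ j ∈ J, f j).indicator (fun _ => (1 : ℝ)) y := by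
    intro y
    rw [hJ', Finset.prod_map]
    have : ∀ j ∈ J, F (Function.Embedding.subtype _ j) (P.π (co s P (Function.Embedding.subtype _ j) y))
        = (f j).indicator (fun _ => (1 : ℝ)) y := by
      intro j hj
      have h2 : F (Function.Embedding.subtype _ j) = (A j).indicator (fun _ => (1 : ℝ)) := by
        simp only [F, Function.Embedding.subtype_apply]
        rw [dif_pos j.2]
      rw [h2, hAf j hj]
      rfl
    rw [Finset.prod_congr rfl this]
    by_cases hy : y ∈ ⋂ j ∈ J, f j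
    · rw [indicator_of_mem hy]
      refine Finset.prod_eq_one fun j hj => ?_
      simp only [mem_iInter] at hy
      rw [indicator_of_mem (hy j hj)]
    · rw [indicator_of_notMem hy]
      simp only [mem_iInter, not_forall] at hy
      obtain ⟨j, hj, hjy⟩ := hy
      exact Finset.prod_eq_zero hj (indicator_of_notMem hjy _)
  have hfm : ∀ j ∈ J, MeasurableSet[LL P.ms] (f j) := fun j hj => XJ_le s P j _ (hf j hj)
  have e2 : ∀ j ∈ J, ∫ x, F (Function.Embedding.subtype _ j) x ∂X.μ = (lb P.μ).real (f j) := by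
    intro j hj
    have h2 : F (Function.Embedding.subtype _ j) = (A j).indicator (fun _ => (1 : ℝ)) := by
      simp only [F, Function.Embedding.subtype_apply]
      rw [dif_pos j.2]
    rw [h2, integral_indicator (hA j), setIntegral_const, smul_eq_mul, mul_one, hAf j hj]
    have h3 := (P.π_mp.comp (co_mp s P j)).measure_preimage (hA j).nullMeasurableSet
    simp only [Measure.real]
    rw [h3]
  simp only [e1] at h1
  rw [integral_indicator (Finset.measurableSet_biInter J hfm), setIntegral_const, smul_eq_mul,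
    mul_one, hJ', Finset.prod_map, Finset.prod_congr rfl e2] at h1
  simp only [Measure.real] at h1
  rw [← ENNReal.toReal_prod] at h1
  exact (ENNReal.toReal_eq_toReal_iff' (measure_ne_top _ _)
    (ENNReal.prod_ne_top fun j _ => measure_ne_top _ _)).1 h1

theorem indep_XC (i0 : ι) :
    Indep (⨆ j : {j // j ≠ i0}, XJ s P j) (DD P) (lb P.μ) := by
  have h1 : Indep (LL (X.ms.comap P.π)) (LL P.C) (lb P.μ) :=
    indep_LL P.π_mp.measurable.comap_le P.C_le P.indep
  refine Indep.mono_ae (LL_mono P.π_mp.measurable.comap_le) (iSup_le fun j => XJ_le s P j)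
    (LL_mono P.C_le) (DD_le P) (AELe.iSup fun j => XJ_aele s P j)
    (AELe.sup AELe.refl (aele_nul' _)) h1

/-- the instance of the site theorem -/
theorem hyp (hS1 : S1 P) (hX : XIndP X s) (i0 : ι) :
    Site.Hyp (lb P.μ) (fun j : {j // j ≠ i0} => EJ s P j) (fun j : {j // j ≠ i0} => XJ s P j)
      (DD P) (Inv P) := by
  refine Site.Hyp.of_sites (Cs := fun j => P.C.comap (co s P j)) (fun a b => inv_sup P) ?_ ?_ ?_
    (fun j => EJ_le s P j) (fun j => XJ_le s P j) (DD_le P) (indep_X hX i0) (indep_XC i0) ?_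
  · exact fun n => (DD_S P n).mono le_sup_left le_rfl
  · exact fun S => inv_iSup P fun j => inv_iSup P fun _ => inv_EJ s P j
  · exact fun S => inv_iSup P fun j => inv_iSup P fun _ => inv_XJ s P j
  · intro j D hCD hD hInv hind F hF hb
    obtain ⟨f, hf, rfl⟩ := BdM.factors (m := P.ms) (φ := co s P j) ⟨hF.measurable, hb⟩
    have h1 := S1_co s P hS1 j hCD hD hInv hind (f := f) ⟨hf.meas, hf.bdd⟩
    refine h1.trans ?_
    exact (condExp_comp_mp (co_mp s P j) P.C_le (hf.integrable le_rfl)).symm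

/-- `X_j ⟂ E_A ∨ D` -/
theorem indep_co (hS1 : S1 P) (hX : XIndP X s) (A : Finset ι) (j : ι) (hj : j ∉ A)
    (hA : insert j A ≠ Finset.univ) :
    Indep (XJ s P j) ((⨆ j' ∈ A, EJ s P j') ⊔ DD P) (lb P.μ) := by
  obtain ⟨i0, hi0⟩ : ∃ i0, i0 ∉ insert j A := by
    by_contra h
    push Not at h
    exact hA (Finset.eq_univ_iff_forall.2 h)
  have hji : j ≠ i0 := fun h => hi0 (h ▸ Finset.mem_insert_self j A)
  have hAi : ∀ a ∈ A, a ≠ i0 := fun a ha h => hi0 (h ▸ Finset.mem_insert_of_mem ha)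
  have H := hyp hS1 hX i0
  have h1 := H.strong (S := A.subtype (fun j => j ≠ i0)) (j := ⟨j, hji⟩) (by
    rw [Finset.mem_subtype]; exact hj)
  refine indep_of_indep_of_le_right h1 ?_
  rw [sup_comm]
  refine sup_le_sup le_rfl (iSup₂_le fun a ha => ?_)
  exact le_iSup₂_of_le (f := fun (a : {j // j ≠ i0}) (_ : a ∈ A.subtype (fun j => j ≠ i0)) =>
    EJ s P a) ⟨a, hAi a ha⟩ (by rw [Finset.mem_subtype]; exact ha) le_rfl

/-- **The level system.** -/
noncomputable def rlev (hS1 : S1 P) (hX : XIndP X s) : Rule.RLev s P where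
  J := P.toSys.loeb
  co := co s P
  co_mp := co_mp s P
  co_S := co_S s P
  D := DD P
  D_le := DD_le P
  D_nul := DD_nul P
  D_S := DD_S P
  C_le := co_C_le s P
  indep := fun A j hj hA => indep_co hS1 hX A j hj hA
  tau_eq := fun f hf => integral_prod_co s P Finset.univ hf

end ind

end RuleLev

end Crest.Agent.R069
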