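import Crest.Agent.R069.Defs

/-!
# The visible algebra of a pair (row 69, node YE)

`sc M s A` is the copy of the set `A` at the site `s` on the Loeb space of `M`.
`vis s P` is the sigma-algebra of the sets all of whose site copies are measurable with respect to
the other sites and the environment.
-/

set_option autoImplicit false

open MeasureTheory Filter Set ProbabilityTheory
open scoped ENNReal Topology

namespace Crest.Agent.R069.YEVis

/-- The copy of the set `A` at the site `s`. -/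
def sc (M : Sys) (s : ℕ → ℤ) (A : Set M.Ω) : Set (Lb M.Ω) := intl (fun k => M.S (s k) ⁻¹' A)

section sc

variable {M : Sys} {s : ℕ → ℤ}

theorem sc_compl (A : Set M.Ω) : sc M s Aᶜ = (sc M s A)ᶜ := intl_compl _

theorem sc_inter (A B : Set M.Ω) : sc M s (A ∩ B) = sc M s A ∩ sc M s B := intl_inter _ _

theorem sc_union (A B : Set M.Ω) : sc M s (A ∪ B) = sc M s A ∪ sc M s B := intl_union _ _

@[simp] theorem sc_empty : sc M s ∅ = ∅ := intl_empty

@[simp] theorem sc_univ : sc M s univ = univ := intl_univ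

theorem sc_mono {A B : Set M.Ω} (h : A ⊆ B) : sc M s A ⊆ sc M s B := by
  intro x hx
  have hx' : ∀ᶠ k in (UU : Filter ℕ), M.S (s k) (x k) ∈ A := hx
  show ∀ᶠ k in (UU : Filter ℕ), M.S (s k) (x k) ∈ B
  filter_upwards [hx'] with k hk using h hk

theorem measurableSet_sc {A : Set M.Ω} (hA : MeasurableSet A) : MeasurableSet (sc M s A) :=
  measurableSet_intl fun k => (M.S_mp (s k)).measurable hA

theorem lb_sc {A : Set M.Ω} (hA : MeasurableSet A) : lb M.μ (sc M s A) = M.μ A := by
  rw [sc, lb_intl M.μ fun k => (M.S_mp (s k)).measurable hA]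
  apply ulim_eq
  simp_rw [(M.S_mp _).measure_preimage hA.nullMeasurableSet]
  exact tendsto_const_nhds

theorem sc_accumulate (A : ℕ → Set M.Ω) (n : ℕ) :
    sc M s (Set.accumulate A n) ⊆ ⋃ n, sc M s (A n) := by
  induction n with
  | zero =>
    have h0 : Set.accumulate A 0 = A 0 := by
      ext x; simp [Set.accumulate]
    rw [h0]
    exact subset_iUnion (fun n => sc M s (A n)) 0
  | succ n ih =>
    rw [Set.accumulate_succ, sc_union]
    exact union_subset ih (subset_iUnion (fun n => sc M s (A n)) (n + 1))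

theorem sc_iUnion_ae {A : ℕ → Set M.Ω} (hA : ∀ n, MeasurableSet (A n)) :
    (⋃ n, sc M s (A n) : Set (Lb M.Ω)) =ᵐ[lb M.μ] sc M s (⋃ n, A n) := by
  refine ae_eq_of_subset_of_measure_ge
    (iUnion_subset fun n => sc_mono (subset_iUnion A n)) ?_
    (MeasurableSet.iUnion fun n => measurableSet_sc (hA n)).nullMeasurableSet
    (measure_ne_top _ _)
  rw [lb_sc (MeasurableSet.iUnion hA), measure_iUnion_eq_iSup_accumulate]
  refine iSup_le fun n => ?_
  have h1 : MeasurableSet (Set.accumulate A n) := by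
    rw [Set.accumulate_def]
    exact MeasurableSet.biUnion (Set.to_countable _) fun i _ => hA i
  rw [← lb_sc (s := s) h1]
  exact measure_mono (sc_accumulate A n)

theorem S_comm (M : Sys) (a b : ℤ) (x : M.Ω) : M.S a (M.S b x) = M.S b (M.S a x) := by
  rw [← M.S_add, ← M.S_add, add_comm]

theorem lbmap_preimage_sc (n : ℤ) (A : Set M.Ω) :
    (lbmap fun _ => M.S n) ⁻¹' (sc M s A) = sc M s (M.S n ⁻¹' A) := by
  rw [sc, lbmap_preimage, sc]
  congr 1
  funext k
  ext x
  simp only [mem_preimage, S_comm M n (s k)]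

theorem sc_ae_eq {A B : Set M.Ω} (h : A =ᵐ[M.μ] B) : sc M s A =ᵐ[lb M.μ] sc M s B :=
  intl_ae_eq fun k => (M.S_mp (s k)).quasiMeasurePreserving.preimage_ae_eq h

end sc

/-! ### null sets -/

section nul

variable {α β : Type*} {m mα : MeasurableSpace α} {mβ : MeasurableSpace β} {μ : Measure α}

theorem mem_nul_of_null {A : Set α} (hA : MeasurableSet A) (h : μ A = 0) :
    MeasurableSet[nul μ] A := ⟨hA, Or.inl h⟩

/-- a sigma-algebra containing the null sets is closed under a.e. equality. -/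
theorem measurableSet_of_ae_eq (hm : nul μ ≤ m) {A B : Set α}
    (hA : MeasurableSet[m] A) (hA' : MeasurableSet[mα] A) (hB : MeasurableSet[mα] B)
    (h : A =ᵐ[μ] B) : MeasurableSet[m] B := by
  have h1 : MeasurableSet[m] (A \ B) := by
    refine hm _ (mem_nul_of_null (hA'.diff hB) ?_)
    exact (ae_le_set.1 h.le)
  have h2 : MeasurableSet[m] (B \ A) := by
    refine hm _ (mem_nul_of_null (hB.diff hA') ?_)
    exact (ae_le_set.1 h.symm.le)
  have h3 : B = (A \ (A \ B)) ∪ (B \ A) := by
    ext x; by_cases hx : x ∈ A <;> by_cases hy : x ∈ B <;> simp [hx, hy]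
  rw [h3]
  exact MeasurableSet.union (MeasurableSet.diff hA h1) h2

theorem nul_comap {ν : Measure β} {f : α → β} (hf : MeasurePreserving f μ ν) {B : Set β}
    (hB : MeasurableSet[nul ν] B) : MeasurableSet[nul μ] (f ⁻¹' B) := by
  refine ⟨hf.measurable hB.1, ?_⟩
  rcases hB.2 with h | h
  · left; rwa [hf.measure_preimage hB.1.nullMeasurableSet]
  · right; rwa [← preimage_compl, hf.measure_preimage hB.1.compl.nullMeasurableSet]

end nul

/-! ### `rest` -/

section rest

variable {X : Sys} {ι : Type} {s : ι → ℕ → ℤ}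

theorem siteA_le (M : Sys) (t : ℕ → ℤ) : siteA M t ≤ LL M.ms := by
  refine MeasurableSpace.generateFrom_le ?_
  rintro _ ⟨A, hA, rfl⟩
  exact measurableSet_sc hA

theorem sc_mem_siteA {M : Sys} {t : ℕ → ℤ} {A : Set M.Ω} (hA : MeasurableSet A) :
    MeasurableSet[siteA M t] (sc M t A) :=
  MeasurableSpace.measurableSet_generateFrom ⟨A, hA, rfl⟩

theorem rest_le (i : ι) (P : Pair X) : rest s i P ≤ LL P.ms := by
  refine sup_le (sup_le (iSup_le fun j => iSup_le fun _ => siteA_le _ _) (LL_mono P.C_le)) ?_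
  exact nul_le_ms _

theorem nul_le_rest (i : ι) (P : Pair X) : nul (lb P.μ) ≤ rest s i P := le_sup_right

theorem LL_le_rest (i : ι) (P : Pair X) : LL P.C ≤ rest s i P :=
  le_sup_right.trans le_sup_left

theorem siteA_le_rest {i j : ι} (h : j ≠ i) (P : Pair X) :
    siteA P.toSys (s j) ≤ rest s i P :=
  ((le_iSup_of_le (f := fun j => ⨆ _ : j ≠ i, siteA P.toSys (s j)) j
    (le_iSup (fun _ : j ≠ i => siteA P.toSys (s j)) h)).trans le_sup_left).trans le_sup_left

theorem sc_mem_rest {i j : ι} (h : j ≠ i) (P : Pair X) {A : Set P.Ω} (hA : MeasurableSet A) :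
    MeasurableSet[rest s i P] (sc P.toSys (s j) A) :=
  siteA_le_rest h P _ (sc_mem_siteA hA)

/-- measurability criterion for maps into `rest`. -/
theorem measurable_rest {α : Type*} {m : MeasurableSpace α} {P : Pair X} {i : ι}
    {φ : α → Lb P.Ω}
    (h1 : ∀ j, j ≠ i → ∀ A : Set P.Ω, MeasurableSet A →
      MeasurableSet[m] (φ ⁻¹' (sc P.toSys (s j) A)))
    (h2 : ∀ A : ℕ → Set P.Ω, (∀ k, MeasurableSet[P.C] (A k)) → MeasurableSet[m] (φ ⁻¹' (intl A)))
    (h3 : ∀ B, MeasurableSet[nul (lb P.μ)] B → MeasurableSet[m] (φ ⁻¹' B)) :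
    Measurable[m, rest s i P] φ := by
  rw [measurable_iff_comap_le, rest, MeasurableSpace.comap_sup, MeasurableSpace.comap_sup,
    MeasurableSpace.comap_iSup]
  refine sup_le (sup_le (iSup_le fun j => ?_) ?_) ?_
  · rw [MeasurableSpace.comap_iSup]
    refine iSup_le fun hj => ?_
    rw [← measurable_iff_comap_le]
    refine measurable_generateFrom ?_
    rintro _ ⟨A, hA, rfl⟩
    exact h1 j hj A hA
  · rw [← measurable_iff_comap_le]
    refine measurable_generateFrom ?_
    rintro _ ⟨A, hA, rfl⟩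
    exact h2 A hA
  · rw [← measurable_iff_comap_le]
    intro B hB
    exact h3 B hB

/-- `rest` is invariant under the internal shift. -/
theorem rest_S (i : ι) (P : Pair X) (n : ℤ) :
    Measurable[rest s i P, rest s i P] (lbmap fun _ => P.S n) := by
  refine measurable_rest (fun j hj A hA => ?_) (fun A hA => ?_) (fun B hB => ?_)
  · rw [lbmap_preimage_sc]
    exact sc_mem_rest hj P ((P.S_mp n).measurable hA)
  · rw [lbmap_preimage]
    exact LL_le_rest i P _ (measurableSet_intl fun k => P.C_S n (hA k))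
  · exact nul_le_rest i P _ (nul_comap (measurePreserving_lbmap fun _ => P.S_mp n) hB)

theorem mp_lbmap_ext {P Q : Pair X} (e : Ext P Q) :
    MeasurePreserving (lbmap fun _ => e.f) (lb Q.μ) (lb P.μ) :=
  measurePreserving_lbmap fun _ => e.f_mp

theorem lbmap_preimage_sc_ext {P Q : Pair X} (e : Ext P Q) (t : ℕ → ℤ) (A : Set P.Ω) :
    (lbmap fun _ => e.f) ⁻¹' (sc P.toSys t A) =ᵐ[lb Q.μ] sc Q.toSys t (e.f ⁻¹' A) := by
  rw [sc, lbmap_preimage, sc]
  refine intl_ae_eq fun k => ?_
  filter_upwards [e.f_S (t k)] with x hx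
  apply propext
  show P.S (t k) (e.f x) ∈ A ↔ e.f (Q.S (t k) x) ∈ A
  rw [hx]

/-- `rest` is monotone under extensions. -/
theorem rest_ext {P Q : Pair X} (e : Ext P Q) (i : ι) :
    Measurable[rest s i Q, rest s i P] (lbmap fun _ => e.f) := by
  refine measurable_rest (fun j hj A hA => ?_) (fun A hA => ?_) (fun B hB => ?_)
  · refine measurableSet_of_ae_eq (nul_le_rest i Q)
      (sc_mem_rest hj Q (e.f_mp.measurable hA)) (measurableSet_sc (e.f_mp.measurable hA))
      ((mp_lbmap_ext e).measurable (measurableSet_sc hA)) ?_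
    exact (lbmap_preimage_sc_ext e (s j) A).symm
  · rw [lbmap_preimage]
    exact LL_le_rest i Q _ (measurableSet_intl fun k => e.f_C _ ⟨A k, hA k, rfl⟩)
  · exact nul_le_rest i Q _ (nul_comap (mp_lbmap_ext e) hB)

end rest

/-! ### the visible algebra -/

section vis

variable {X : Sys} {ι : Type}

/-- **The visible algebra** of a pair: sets all of whose site copies are functions of the other
sites and the environment. -/
@[implicit_reducible]
def vis (s : ι → ℕ → ℤ) (P : Pair X) : MeasurableSpace P.Ω where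
  MeasurableSet' A := MeasurableSet A ∧ ∀ i, MeasurableSet[rest s i P] (sc P.toSys (s i) A)
  measurableSet_empty := ⟨MeasurableSet.empty, fun i => by
    rw [sc_empty]; exact @MeasurableSet.empty _ (rest s i P)⟩
  measurableSet_compl A hA := ⟨hA.1.compl, fun i => by
    rw [sc_compl]; exact @MeasurableSet.compl _ _ (rest s i P) (hA.2 i)⟩
  measurableSet_iUnion A hA := by
    refine ⟨MeasurableSet.iUnion fun n => (hA n).1, fun i => ?_⟩
    exact measurableSet_of_ae_eq (nul_le_rest i P) (MeasurableSet.iUnion fun n => (hA n).2 i)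
      (MeasurableSet.iUnion fun n => measurableSet_sc (hA n).1)
      (measurableSet_sc (MeasurableSet.iUnion fun n => (hA n).1))
      (sc_iUnion_ae fun n => (hA n).1)

variable {s : ι → ℕ → ℤ}

theorem measurableSet_vis {P : Pair X} {A : Set P.Ω} :
    MeasurableSet[vis s P] A ↔
      MeasurableSet A ∧ ∀ i, MeasurableSet[rest s i P] (sc P.toSys (s i) A) := Iff.rfl

theorem vis_le (s : ι → ℕ → ℤ) (P : Pair X) : vis s P ≤ P.ms := fun _ h => h.1

theorem C_le_vis (s : ι → ℕ → ℤ) (P : Pair X) : P.C ≤ vis s P := fun A hA =>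
  ⟨P.C_le A hA, fun i => LL_le_rest i P _ (measurableSet_intl fun k => P.C_S (s i k) hA)⟩

theorem nul_le_vis (s : ι → ℕ → ℤ) (P : Pair X) : nul P.μ ≤ vis s P :=
  P.C_nul.trans (C_le_vis s P)

/-- the visible algebra is invariant. -/
theorem vis_S (s : ι → ℕ → ℤ) (P : Pair X) (n : ℤ) :
    Measurable[vis s P, vis s P] (P.S n) := by
  rintro A ⟨hA, hA2⟩
  refine ⟨(P.S_mp n).measurable hA, fun i => ?_⟩
  rw [← lbmap_preimage_sc]
  exact rest_S i P n (hA2 i)

/-- visible stays visible in extensions. -/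
theorem vis_ext {P Q : Pair X} (e : Ext P Q) : Measurable[vis s Q, vis s P] e.f := by
  rintro A ⟨hA, hA2⟩
  refine ⟨e.f_mp.measurable hA, fun i => ?_⟩
  exact measurableSet_of_ae_eq (nul_le_rest i Q) (rest_ext e i (hA2 i))
    ((mp_lbmap_ext e).measurable (measurableSet_sc hA))
    (measurableSet_sc (e.f_mp.measurable hA)) (lbmap_preimage_sc_ext e (s i) A)

theorem comap_vis_le {P Q : Pair X} (e : Ext P Q) : (vis s P).comap e.f ≤ vis s Q :=
  measurable_iff_comap_le.1 (vis_ext e)

/-! the same statements for `Pair.vis`, `Pair.visX` of `Defs` -/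

theorem vis_eq (s : ι → ℕ → ℤ) (P : Pair X) : vis s P = P.vis s := rfl

theorem C_le_pvis (s : ι → ℕ → ℤ) (P : Pair X) : P.C ≤ P.vis s := C_le_vis s P

theorem nul_le_pvis (s : ι → ℕ → ℤ) (P : Pair X) : nul P.μ ≤ P.vis s := nul_le_vis s P

theorem pvis_S (s : ι → ℕ → ℤ) (P : Pair X) (n : ℤ) :
    Measurable[P.vis s, P.vis s] (P.S n) := vis_S s P n

theorem pvis_ext {P Q : Pair X} (e : Ext P Q) : Measurable[Q.vis s, P.vis s] e.f :=
  vis_ext e

theorem comap_pvis_le {P Q : Pair X} (e : Ext P Q) : (P.vis s).comap e.f ≤ Q.vis s :=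
  comap_vis_le e

theorem visX_le (s : ι → ℕ → ℤ) (P : Pair X) : P.visX s ≤ X.ms := fun _ h => h.1

theorem nul_le_visX (s : ι → ℕ → ℤ) (P : Pair X) : nul X.μ ≤ P.visX s := fun A hA =>
  ⟨hA.1, nul_le_pvis s P _ (nul_comap P.π_mp hA)⟩

theorem π_visX (s : ι → ℕ → ℤ) (P : Pair X) : Measurable[P.vis s, P.visX s] P.π :=
  fun _ h => h.2

theorem visX_S (s : ι → ℕ → ℤ) (P : Pair X) (n : ℤ) :
    Measurable[P.visX s, P.visX s] (X.S n) := by
  rintro A ⟨hA, hA2⟩
  refine ⟨(X.S_mp n).measurable hA, ?_⟩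
  refine measurableSet_of_ae_eq (nul_le_pvis s P) (pvis_S s P n hA2)
    ((P.S_mp n).measurable (P.π_mp.measurable hA))
    (P.π_mp.measurable ((X.S_mp n).measurable hA)) ?_
  filter_upwards [P.π_S n] with x hx
  apply propext
  show P.π (P.S n x) ∈ A ↔ X.S n (P.π x) ∈ A
  rw [hx]

end vis

end Crest.Agent.R069.YEVis
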