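import Crest.Agent.R069.RuleCore
import Crest.Agent.R069.RuleLev
import Crest.Agent.R069.RuleA
import Crest.Agent.R069.YEVis
import Crest.Agent.R069.LoebCE

/-!
# The second level: sites of the Loeb system (row 69, node N-RULE; helper212)

`Lb (Lb P.Ω)` with the site `i` of the coordinates `x_j = π (co j)` of `Lb P.Ω`.
-/

set_option autoImplicit false
set_option linter.unusedSectionVars false
set_option linter.unusedVariables false

open MeasureTheory Filter Set ProbabilityTheory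
open scoped ENNReal Topology

namespace Crest.Agent.R069

namespace RuleInst

open RuleLev RuleCore

/-! ### independence in functional form -/

section indep

variable {Ω : Type*} {mΩ : MeasurableSpace Ω} {P : Measure Ω} [IsProbabilityMeasure P]
  {ι : Type*} [Fintype ι] [DecidableEq ι]

theorem ind_of_iIndep (j0 : ι) {L : ι → MeasurableSpace Ω} (hL : ∀ j, L j ≤ mΩ)
    (h : iIndep (fun j : {j // j ≠ j0} => L j) P) : Ind P L (Finset.univ.erase j0) := by
  intro f hf
  have hmem : ∀ j : ι, j ∈ Finset.univ.erase j0 ↔ j ≠ j0 := by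
    intro j; simp
  have e1 : ∀ ω, ∏ j ∈ Finset.univ.erase j0, f j ω = ∏ j : {j // j ≠ j0}, f j ω := fun ω =>
    Finset.prod_subtype _ hmem _
  have e2 : ∏ j ∈ Finset.univ.erase j0, ∫ ω, f j ω ∂P = ∏ j : {j // j ≠ j0}, ∫ ω, f j ω ∂P :=
    Finset.prod_subtype _ hmem _
  simp_rw [e1]
  rw [e2]
  have hfun : iIndepFun (fun j : {j // j ≠ j0} => f j) P := by
    rw [iIndepFun_iff_iIndep]
    refine iIndep_of_iIndep_of_le h fun j => ?_
    exact measurable_iff_comap_le.1 (hf j ((hmem j).2 j.2)).meas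
  exact hfun.integral_fun_prod_eq_prod_integral
    (fun j => (hf j ((hmem j).2 j.2)).aemeas (hL j))

end indep

/-! ### the variables of the second level -/

section second

variable {X : Sys} {ι : Type} [Fintype ι] [DecidableEq ι] (s : ι → ℕ → ℤ) (P : Pair X)
  [StandardBorelSpace P.Ω] [Nonempty P.Ω] [StandardBorelSpace X.Ω] [Nonempty X.Ω]

/-- the coordinates of `X` on the Loeb space of `P` -/
noncomputable def xx : Lb P.Ω → ι → X.Ω := fun ω j => P.π (co s P j ω)

theorem measurable_xx : Measurable (xx s P) :=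
  measurable_pi_iff.2 fun j => (π_co_mp s P j).measurable

/-- their law -/
noncomputable def lam : Measure (ι → X.Ω) := (lb P.μ).map (xx s P)

theorem xx_mp : MeasurePreserving (xx s P) (lb P.μ) (lam s P) := ⟨measurable_xx s P, rfl⟩

instance : IsProbabilityMeasure (lam s P) :=
  Measure.isProbabilityMeasure_map (measurable_xx s P).aemeasurable

/-- the coordinates, shifted -/
noncomputable def yg (i : ι) (l : ℕ) : Lb P.Ω → ι → X.Ω :=
  fun ω => xx s P (Lb.mp (P.S (s i l)) ω)

theorem yg_mp (i : ι) (l : ℕ) : MeasurePreserving (yg s P i l) (lb P.μ) (lam s P) :=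
  (xx_mp s P).comp (mp_S P (s i l))

/-- the coordinates at the site `i` of the second level -/
noncomputable def yy (i : ι) : Lb (Lb P.Ω) → ι → X.Ω := sv (yg s P i)

theorem yy_mp (i : ι) : MeasurePreserving (yy s P i) (lb (lb P.μ)) (lam s P) :=
  measurePreserving_sv (yg_mp s P i)

theorem eval_mp (j : ι) : MeasurePreserving (fun v : ι → X.Ω => v j) (lam s P) X.μ := by
  refine ⟨measurable_pi_apply j, ?_⟩
  rw [lam, Measure.map_map (measurable_pi_apply j) (measurable_xx s P)]
  exact (π_co_mp s P j).map_eq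

theorem yg_ae (i j : ι) (l : ℕ) :
    (fun ω => yg s P i l ω j) =ᵐ[lb P.μ] fun ω => P.π (P.S (s i l) (co s P j ω)) := by
  filter_upwards [co_S s P j (s i l)] with ω hω
  show P.π (co s P j (Lb.mp (P.S (s i l)) ω)) = _
  rw [hω]

theorem yg_ae' (i j : ι) (l : ℕ) :
    (fun ω => yg s P i l ω j) =ᵐ[lb P.μ] fun ω => X.S (s i l) (xx s P ω j) := by
  have h := (co_mp s P j).quasiMeasurePreserving.ae_eq_comp (P.π_S (s i l))
  filter_upwards [yg_ae s P i j l, h] with ω h1 h2
  rw [h1]
  exact h2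

theorem co_shift_mp (i j : ι) (l : ℕ) :
    MeasurePreserving (fun ω => P.S (s i l) (co s P j ω)) (lb P.μ) P.μ :=
  (P.S_mp (s i l)).comp (co_mp s P j)

/-- the coordinate `j` at the site `i`: the site `i` of `X` composed with `Lb (co j)` -/
theorem yy_ae (i j : ι) :
    (fun z => yy s P i z j) =ᵐ[lb (lb P.μ)]
      fun z => P.π (co s P i (lbmap (fun _ => co s P j) z)) := by
  have a := sv_comp_ae (yg_mp s P i) (f := fun v : ι → X.Ω => v j) (measurable_pi_apply j)
  have b : sv (fun l => (fun v : ι → X.Ω => v j) ∘ yg s P i l) =ᵐ[lb (lb P.μ)]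
      sv (fun l ω => P.π (P.S (s i l) (co s P j ω))) :=
    sv_congr_ae (fun l => yg_ae s P i j l)
  have c := sv_comp_ae (co_shift_mp s P i j) (f := P.π) P.π_mp.measurable
  filter_upwards [a, b, c] with z ha hb hc
  exact ha.symm.trans (hb.trans hc)

/-- the coordinate `j` at the site `i`: version measurable with respect to `LL (XJ j)` -/
theorem yy_ae' (i j : ι) :
    (fun z => yy s P i z j) =ᵐ[lb (lb P.μ)] sv (fun l ω => X.S (s i l) (xx s P ω j)) := by
  have a := sv_comp_ae (yg_mp s P i) (f := fun v : ι → X.Ω => v j) (measurable_pi_apply j)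
  have b : sv (fun l => (fun v : ι → X.Ω => v j) ∘ yg s P i l) =ᵐ[lb (lb P.μ)]
      sv (fun l ω => X.S (s i l) (xx s P ω j)) :=
    sv_congr_ae (fun l => yg_ae' s P i j l)
  filter_upwards [a, b] with z ha hb
  exact ha.symm.trans hb

/-- the sigma-algebra of the coordinates in `A` on `Lb P.Ω` -/
@[implicit_reducible]
noncomputable def mA (A : Finset ι) : MeasurableSpace (Lb P.Ω) := ⨆ j ∈ A, XJ s P j

theorem mA_le (A : Finset ι) : mA s P A ≤ LL P.ms := iSup₂_le fun j _ => XJ_le s P j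

theorem XJ_le_mA {A : Finset ι} {j : ι} (hj : j ∈ A) : XJ s P j ≤ mA s P A :=
  le_iSup₂_of_le (f := fun j (_ : j ∈ A) => XJ s P j) j hj le_rfl

theorem comap_cor (A : Finset ι) : (cor X.Ω A).comap (xx s P) = mA s P A := by
  simp only [cor, MeasurableSpace.comap_iSup, MeasurableSpace.comap_comp]
  rfl

theorem mA_singleton (j : ι) : mA s P {j} = XJ s P j := by simp [mA]

/-- the diagonal action on `X^ι` -/
def TX (X : Sys) (ι : Type) (n : ℤ) : (ι → X.Ω) → ι → X.Ω := fun v j => X.S n (v j)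

theorem measurable_TX (n : ℤ) : Measurable (TX X ι n) :=
  measurable_pi_iff.2 fun j => (X.S_mp n).measurable.comp (measurable_pi_apply j)

theorem TX_xx (n : ℤ) :
    (fun ω => xx s P (Lb.mp (P.S n) ω)) =ᵐ[lb P.μ] fun ω => TX X ι n (xx s P ω) := by
  have h : ∀ᵐ ω ∂(lb P.μ), ∀ j : ι, (P.π ∘ co s P j) (Lb.mp (P.S n) ω) =
      X.S n ((P.π ∘ co s P j) ω) := ae_all_iff.2 fun j => π_co_S s P j n
  filter_upwards [h] with ω hω
  funext j
  exact hω j

theorem TX_mp (n : ℤ) : MeasurePreserving (TX X ι n) (lam s P) (lam s P) := by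
  refine ⟨measurable_TX n, ?_⟩
  have h1 := (xx_mp s P).comp (mp_S P n)
  have h2 : (lb P.μ).map (TX X ι n ∘ xx s P) = lam s P := by
    rw [← h1.map_eq]
    exact Measure.map_congr (TX_xx s P n).symm
  have h3 : (lam s P).map (TX X ι n) = (lb P.μ).map (TX X ι n ∘ xx s P) :=
    Measure.map_map (measurable_TX n) (measurable_xx s P)
  rw [h3, h2]

theorem comap_TX (A : Finset ι) (n : ℤ) : (cor X.Ω A).comap (TX X ι n) = cor X.Ω A := by
  have hX : X.ms.comap (X.S n) = X.ms := by
    apply le_antisymm (X.S_mp n).measurable.comap_le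
    intro B hB
    refine ⟨X.S (-n) ⁻¹' B, (X.S_mp (-n)).measurable hB, ?_⟩
    rw [← preimage_comp]
    have : X.S (-n) ∘ X.S n = id := by
      funext x
      show X.S (-n) (X.S n x) = x
      rw [← X.S_add, neg_add_cancel, X.S_zero]
    rw [this, preimage_id]
  simp only [cor, MeasurableSpace.comap_iSup, MeasurableSpace.comap_comp]
  have : ∀ j : ι, X.ms.comap ((fun x : ι → X.Ω => x j) ∘ TX X ι n) =
      X.ms.comap (fun x : ι → X.Ω => x j) := by
    intro j
    have e : (fun x : ι → X.Ω => x j) ∘ TX X ι n = X.S n ∘ (fun x : ι → X.Ω => x j) := rfl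
    rw [e, ← MeasurableSpace.comap_comp, hX]
  simp only [this]

/-- (H1): conditional expectations of functions of the coordinates at the site `i`. -/
theorem ce_yy (i : ι) (A : Finset ι) {G : (ι → X.Ω) → ℝ} (hG : BdM MeasurableSpace.pi G) :
    (lb (lb P.μ))[G ∘ yy s P i | LL (mA s P A)] =ᵐ[lb (lb P.μ)]
      ((lam s P)[G | cor X.Ω A]) ∘ yy s P i := by
  obtain ⟨C, hC⟩ := hG.bdd
  obtain ⟨K, hKm, hKC, hGK⟩ := BdM.exists_condExp (μ := lam s P) (cor_le (X := X.Ω) A) hG.meas hC
  have hK : BdM (cor X.Ω A) K := ⟨hKm, C, hKC⟩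
  -- the lift of `G ∘ yy`
  have e1 : G ∘ yy s P i =ᵐ[lb (lb P.μ)] st (fun l ω => G (yg s P i l ω)) :=
    comp_sv_ae_eq_st (yg_mp s P i) hG.meas
  have hf : BM (LL P.ms) (fun l ω => G (yg s P i l ω)) C :=
    ⟨fun l => hG.meas.comp (yg_mp s P i l).measurable, fun l ω => hC _⟩
  -- the candidate
  have hTK : ∀ n : ℤ, BdM (cor X.Ω A) (fun v => K (TX X ι n v)) := by
    intro n
    have h1 := hK.comp (φ := TX X ι n)
    rw [comap_TX A n] at h1
    exact h1
  have hg : BM (mA s P A) (fun l ω => K (TX X ι (s i l) (xx s P ω))) C := by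
    refine ⟨fun l => ?_, fun l ω => hKC _⟩
    have h1 := (hTK (s i l)).comp (φ := xx s P)
    rw [comap_cor s P A] at h1
    exact h1.meas
  have hfg : ∀ l, (fun ω => K (TX X ι (s i l) (xx s P ω))) =ᵐ[lb P.μ]
      (lb P.μ)[fun ω => G (yg s P i l ω) | mA s P A] := by
    intro l
    have hGT : BdM MeasurableSpace.pi (fun v => G (TX X ι (s i l) v)) := by
      obtain ⟨C, hC⟩ := hG.bdd
      exact ⟨hG.meas.comp (measurable_TX _), C, fun _ => hC _⟩
    have a1 : (fun ω => G (yg s P i l ω)) =ᵐ[lb P.μ]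
        (fun v => G (TX X ι (s i l) v)) ∘ xx s P := by
      filter_upwards [TX_xx s P (s i l)] with ω hω
      show G (xx s P (Lb.mp (P.S (s i l)) ω)) = G (TX X ι (s i l) (xx s P ω))
      rw [hω]
    have a2 : (lb P.μ)[(fun v => G (TX X ι (s i l) v)) ∘ xx s P | (cor X.Ω A).comap (xx s P)]
        =ᵐ[lb P.μ] ((lam s P)[fun v => G (TX X ι (s i l) v) | cor X.Ω A]) ∘ xx s P :=
      condExp_comp_mp (xx_mp s P) (cor_le A) (hGT.integrable le_rfl)
    have a3 : (lam s P)[fun v => G (TX X ι (s i l) v) | cor X.Ω A] =ᵐ[lam s P]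
        fun v => K (TX X ι (s i l) v) := by
      have b1 : (lam s P)[G ∘ TX X ι (s i l) | (cor X.Ω A).comap (TX X ι (s i l))]
          =ᵐ[lam s P] ((lam s P)[G | cor X.Ω A]) ∘ TX X ι (s i l) :=
        condExp_comp_mp (TX_mp s P (s i l)) (cor_le A) (hG.integrable le_rfl)
      rw [comap_TX] at b1
      exact b1.trans ((TX_mp s P (s i l)).quasiMeasurePreserving.ae_eq_comp hGK)
    rw [comap_cor s P A] at a2
    have a4 := (xx_mp s P).quasiMeasurePreserving.ae_eq_comp a3
    exact ((condExp_congr_ae a1).trans (a2.trans a4)).symm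
  have e2 : (lb (lb P.μ))[st (fun l ω => G (yg s P i l ω)) | LL (mA s P A)] =ᵐ[lb (lb P.μ)]
      st (fun l ω => K (TX X ι (s i l) (xx s P ω))) :=
    condExp_st (mA_le s P A) hf hg hfg
  -- back to `K ∘ yy`
  have e3 : st (fun l ω => K (TX X ι (s i l) (xx s P ω))) =ᵐ[lb (lb P.μ)]
      st (fun l ω => K (yg s P i l ω)) := by
    refine RuleA.st_congr_ae fun l => ?_
    filter_upwards [TX_xx s P (s i l)] with ω hω
    show K (TX X ι (s i l) (xx s P ω)) = K (xx s P (Lb.mp (P.S (s i l)) ω))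
    rw [hω]
  have e4 : K ∘ yy s P i =ᵐ[lb (lb P.μ)] st (fun l ω => K (yg s P i l ω)) :=
    comp_sv_ae_eq_st (yg_mp s P i) (hKm.mono (cor_le A) le_rfl)
  have e5 := (yy_mp s P i).quasiMeasurePreserving.ae_eq_comp hGK
  exact (condExp_congr_ae e1).trans (e2.trans (e3.trans (e4.symm.trans e5.symm)))

/-- functions of `yy j` are `LL (XJ j)`-measurable -/
theorem yy_L (i j : ι) {f : X.Ω → ℝ} (hf : BdM X.ms f) :
    ∃ f', BdM (LL (XJ s P j)) f' ∧ (fun z => f (yy s P i z j)) =ᵐ[lb (lb P.μ)] f' := by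
  obtain ⟨C, hC⟩ := hf.bdd
  refine ⟨fun z => f (sv (fun l ω => X.S (s i l) (xx s P ω j)) z), ⟨?_, C, fun z => hC _⟩, ?_⟩
  · refine hf.meas.comp (measurable_sv' fun l => ?_)
    exact (X.S_mp (s i l)).measurable.comp (comap_measurable (P.π ∘ co s P j))
  · filter_upwards [yy_ae' s P i j] with z hz
    rw [hz]

variable {s P}

/-- (H3) -/
theorem ind_L (hX : XIndP X s) (j0 : ι) :
    Ind (lb (lb P.μ)) (fun j => LL (XJ s P j)) (Finset.univ.erase j0) := by
  refine ind_of_iIndep j0 (fun j => LL_mono (XJ_le s P j)) ?_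
  exact iIndep_LL (fun j : {j // j ≠ j0} => XJ_le s P j) (indep_X hX j0)

theorem lam_ind (hX : XIndP X s) (j0 : ι) (f : ι → X.Ω → ℝ) (hf : ∀ j, BdM X.ms (f j)) :
    ∫ x, ∏ j ∈ Finset.univ.erase j0, f j (x j) ∂(lam s P) =
      ∏ j ∈ Finset.univ.erase j0, ∫ x, f j x ∂X.μ := by
  have hne : Finset.univ.erase j0 ≠ Finset.univ := by
    intro h
    have := Finset.mem_univ j0
    rw [← h] at this
    exact (Finset.notMem_erase j0 _) this
  have hf' : ∀ i, Bd X.ms (f i) := fun i => ⟨(hf i).meas, (hf i).bdd⟩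
  have h1 := hX _ hne f hf'
  rw [← integral_prod_co s P _ hf'] at h1
  rw [← h1]
  have hb : BdM MeasurableSpace.pi (fun x : ι → X.Ω => ∏ j ∈ Finset.univ.erase j0, f j (x j)) :=
    BdM.prod fun j hj => (bdM_cor hj (hf j)).mono (cor_le _)
  exact (R069.integral_comp_mp (xx_mp s P)
    (F := fun x : ι → X.Ω => ∏ j ∈ Finset.univ.erase j0, f j (x j)) (hb.aemeas le_rfl)).symm

end second

end RuleInst

end Crest.Agent.R069
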