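import Mathlib

/-!
# Row 69, node RULE: the elementary multilinear spectral step

`V` an additive group of "bounded functions" with a semi-inner product `B`, `a : V → V` a symmetric
positive contraction (only `B (a x) y = B x (a y)` and `B (a x) (a x) ≤ B (a x) x` are used),
`τ : (ι → V) → ℝ` additive and bounded in each slot, at least three slots.  If "`a` in slot `j` = `a`
in all other slots" and `τ` is dominated in one slot `i` by `B (a x) x`, then
`τ (…, x - a x, …) = 0` in every slot.  No completeness and no projections are used.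
-/

set_option autoImplicit false

open Filter Topology Function

namespace Crest.Agent.R069.Rule

variable {V ι : Type*} [AddGroup V] [Fintype ι] [DecidableEq ι]

/-- a semi-inner product together with a symmetric positive contraction. -/
structure SpecOp (B : V → V → ℝ) (a : V → V) : Prop where
  symm : ∀ x y, B x y = B y x
  nonneg : ∀ x, 0 ≤ B x x
  sub_sub : ∀ x y, B (x - y) (x - y) = B x x - 2 * B x y + B y y
  sa : ∀ x y, B (a x) y = B x (a y)
  contr : ∀ x, B (a x) (a x) ≤ B (a x) x

namespace SpecOp

variable {B : V → V → ℝ} {a : V → V}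

theorem inner_le (h : SpecOp B a) (x : V) : B (a x) x ≤ B x x := by
  have h1 := h.nonneg (x - a x)
  rw [h.sub_sub, h.symm x (a x)] at h1
  have h2 := h.contr x
  linarith

theorem norm_le (h : SpecOp B a) (x : V) : B (a x) (a x) ≤ B x x :=
  (h.contr x).trans (h.inner_le x)

theorem inner_nonneg (h : SpecOp B a) (x : V) : 0 ≤ B (a x) x :=
  (h.nonneg (a x)).trans (h.contr x)

theorem iter_le (h : SpecOp B a) (n : ℕ) (x : V) : B (a^[n] x) (a^[n] x) ≤ B x x := by
  induction n with
  | zero => exact le_rfl
  | succ n ih =>
    rw [iterate_succ_apply']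
    exact (h.norm_le _).trans ih

/-- a sequence that decreases and is bounded below has differences tending to zero -/
theorem _root_.Crest.Agent.R069.Rule.tendsto_diff {d : ℕ → ℝ} (h0 : ∀ n, 0 ≤ d n)
    (h1 : ∀ n, d (n + 1) ≤ d n) : Tendsto (fun n => d n - d (n + 1)) atTop (𝓝 0) := by
  have ha : Antitone d := antitone_nat_of_succ_le h1
  have hb : BddBelow (Set.range d) := ⟨0, by rintro _ ⟨n, rfl⟩; exact h0 n⟩
  have hc := tendsto_atTop_ciInf ha hb
  have hd := hc.sub (hc.comp (tendsto_add_atTop_nat 1))
  simpa using hd

theorem tendsto_iter_sub (h : SpecOp B a) (x : V) :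
    Tendsto (fun n => B (a^[n] x - a^[n + 1] x) (a^[n] x - a^[n + 1] x)) atTop (𝓝 0) := by
  have h1 : ∀ n, B (a^[n + 1] x) (a^[n + 1] x) ≤ B (a^[n] x) (a^[n] x) := by
    intro n
    rw [iterate_succ_apply']
    exact h.norm_le _
  have h2 := tendsto_diff (fun n => h.nonneg (a^[n] x)) h1
  refine squeeze_zero (fun n => h.nonneg _) ?_ h2
  intro n
  rw [h.sub_sub, iterate_succ_apply', h.symm (a^[n] x) (a (a^[n] x))]
  have := h.contr (a^[n] x)
  linarith

/-- the sequence `x, x - a x, …` -/
def dn (a : V → V) (x : V) : ℕ → V
  | 0 => x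
  | n + 1 => dn a x n - a (dn a x n)

theorem tendsto_dn (h : SpecOp B a) (x : V) :
    Tendsto (fun n => B (a (dn a x n)) (dn a x n)) atTop (𝓝 0) := by
  have h1 : ∀ n, B (dn a x (n + 1)) (dn a x (n + 1)) ≤
      B (dn a x n) (dn a x n) - B (a (dn a x n)) (dn a x n) := by
    intro n
    simp only [dn]
    rw [h.sub_sub, h.symm (dn a x n) (a (dn a x n))]
    have := h.contr (dn a x n)
    linarith
  have h2 := tendsto_diff (fun n => h.nonneg (dn a x n))
    (fun n => (h1 n).trans (by have := h.inner_nonneg (dn a x n); linarith))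
  refine squeeze_zero (fun n => h.inner_nonneg _) ?_ h2
  intro n
  have := h1 n
  linarith

end SpecOp

/-- the assumptions on the form. -/
structure SpecForm (B : V → V → ℝ) (a : V → V) (τ : (ι → V) → ℝ) : Prop where
  sub : ∀ f i x y, τ (update f i (x - y)) = τ (update f i x) - τ (update f i y)
  bound : ∀ f, (τ f) ^ 2 ≤ ∏ i, B (f i) (f i)
  rule : ∀ j f, τ (update f j (a (f j))) = τ (fun l => if l = j then f l else a (f l))

section
variable {B : V → V → ℝ} {a : V → V} {τ : (ι → V) → ℝ}

theorem rule_twice (hF : SpecForm B a τ) {p t : ι} (hpt : p ≠ t) (f : ι → V) :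
    τ (update f p (a (f p))) =
      τ (fun l => if l = t then f l else if l = p then a (f l) else a (a (f l))) := by
  rw [hF.rule p f]
  have e1 : (fun l => if l = p then f l else a (f l)) =
      update (fun l => if l = p then f l else if l = t then f l else a (f l)) t
        (a ((fun l => if l = p then f l else if l = t then f l else a (f l)) t)) := by
    funext l
    by_cases hlt : l = t
    · subst hlt
      rw [update_self]
      simp [hpt.symm]
    · rw [update_of_ne hlt]
      simp [hlt]
  rw [e1, hF.rule t]
  congr 1
  funext l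
  by_cases hlt : l = t
  · subst hlt
    simp
  · by_cases hlp : l = p
    · subst hlp
      simp [hlt]
    · simp [hlt, hlp]

theorem rule_iter (hF : SpecForm B a τ) {p t : ι} (hpt : p ≠ t) (n : ℕ) (f : ι → V) :
    τ (update f p (a (f p))) =
      τ (fun l => if l = t then f l else if l = p then a (f l) else a^[2 * n] (f l)) := by
  induction n generalizing f with
  | zero =>
    congr 1
    funext l
    by_cases hlp : l = p
    · subst hlp
      simp [hpt]
    · rw [update_of_ne hlp]
      simp [hlp]
  | succ n ih =>
    rw [rule_twice hF hpt f]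
    have e1 : (fun l => if l = t then f l else if l = p then a (f l) else a (a (f l))) =
        update (fun l => if l = t then f l else if l = p then f l else a (a (f l))) p
        (a ((fun l => if l = t then f l else if l = p then f l else a (a (f l))) p)) := by
      funext l
      by_cases hlp : l = p
      · subst hlp
        rw [update_self]
        simp [hpt]
      · rw [update_of_ne hlp]
        simp [hlp]
    rw [e1, ih]
    congr 1
    funext l
    by_cases hlt : l = t
    · simp [hlt]
    · by_cases hlp : l = p
      · subst hlp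
        simp [hlt]
      · simp only [hlt, hlp, if_false]
        rw [show 2 * (n + 1) = 2 * n + 1 + 1 by ring, iterate_succ_apply, iterate_succ_apply]

theorem alpha (hO : SpecOp B a) (hF : SpecForm B a τ) (hc : 3 ≤ Fintype.card ι) {p q : ι}
    (hpq : p ≠ q) (f : ι → V) (x : V) :
    τ (update (update f p (a (f p))) q (x - a x)) = 0 := by
  obtain ⟨t, ht⟩ : ∃ t, t ∉ ({p, q} : Finset ι) := by
    by_contra hcon
    push Not at hcon
    have h1 : (Finset.univ : Finset ι) ⊆ {p, q} := fun t _ => hcon t
    have h2 := Finset.card_le_card h1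
    rw [Finset.card_univ, Finset.card_pair hpq] at h2
    omega
  have htp : t ≠ p := fun h => ht (by simp [h])
  have htq : t ≠ q := fun h => ht (by simp [h])
  have key : ∀ n : ℕ, (τ (update (update f p (a (f p))) q (x - a x))) ^ 2 ≤
      (∏ l ∈ Finset.univ.erase q, B (f l) (f l)) *
      B (a^[2 * n] x - a^[2 * n + 1] x) (a^[2 * n] x - a^[2 * n + 1] x) := by
    intro n
    set h : ι → V := fun l => if l = t then f l else if l = p then a (f l) else a^[2 * n] (f l)
      with hh
    have e1 : ∀ y : V, τ (update (update f p (a (f p))) q y) = τ (update h q (a^[2 * n] y)) := by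
      intro y
      have e2 : update (update f p (a (f p))) q y =
          update (update f q y) p (a ((update f q y) p)) := by
        rw [update_of_ne hpq]
        exact update_comm hpq _ _ _
      rw [e2, rule_iter hF htp.symm n]
      congr 1
      funext l
      by_cases hlq : l = q
      · subst hlq
        simp [htq.symm, hpq.symm]
      · simp [hlq, hh]
    rw [hF.sub, e1, e1, ← iterate_succ_apply, ← hF.sub]
    refine (hF.bound _).trans ?_
    rw [← Finset.mul_prod_erase Finset.univ _ (Finset.mem_univ q), mul_comm]
    rw [update_self]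
    refine mul_le_mul_of_nonneg_right ?_ (hO.nonneg _)
    refine Finset.prod_le_prod (fun l _ => hO.nonneg _) ?_
    intro l hl
    have hlq : l ≠ q := Finset.ne_of_mem_erase hl
    rw [update_of_ne hlq, hh]
    by_cases hlt : l = t
    · simp [hlt]
    · by_cases hlp : l = p
      · subst hlp
        simpa [hlt] using hO.norm_le (f l)
      · simpa [hlt, hlp] using hO.iter_le (2 * n) (f l)
  have h0 : Tendsto (fun n => (∏ l ∈ Finset.univ.erase q, B (f l) (f l)) *
      B (a^[2 * n] x - a^[2 * n + 1] x) (a^[2 * n] x - a^[2 * n + 1] x)) atTop (𝓝 0) := by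
    have h1 := (hO.tendsto_iter_sub x).comp
      (tendsto_id.const_mul_atTop' (r := 2) (by norm_num) : Tendsto (fun n : ℕ => 2 * n) atTop atTop)
    simpa using h1.const_mul (∏ l ∈ Finset.univ.erase q, B (f l) (f l))
  have h2 := ge_of_tendsto' h0 key
  have h3 : (τ (update (update f p (a (f p))) q (x - a x))) ^ 2 = 0 :=
    le_antisymm h2 (sq_nonneg _)
  exact pow_eq_zero_iff (two_ne_zero) |>.1 h3

theorem beta (hO : SpecOp B a) (hF : SpecForm B a τ) (hc : 3 ≤ Fintype.card ι) (j : ι)
    (f : ι → V) (x : V) : τ (update f j (a (x - a x))) = 0 := by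
  obtain ⟨p, hp⟩ : ∃ p, p ≠ j := by
    by_contra hcon
    push Not at hcon
    have h1 : (Finset.univ : Finset ι) ⊆ {j} := fun t _ => by simp [hcon t]
    have h2 := Finset.card_le_card h1
    rw [Finset.card_univ, Finset.card_singleton] at h2
    omega
  have e1 := hF.rule j (update f j (x - a x))
  rw [update_self, update_idem] at e1
  rw [e1]
  have e2 : (fun l => if l = j then (update f j (x - a x)) l else a ((update f j (x - a x)) l)) =
      update (update (fun l => if l = p then f l else a (f l)) p
        (a ((fun l => if l = p then f l else a (f l)) p))) j (x - a x) := by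
    funext l
    by_cases hlj : l = j
    · subst hlj
      simp
    · by_cases hlp : l = p
      · subst hlp
        simp [hlj]
      · simp [hlj, hlp]
  rw [e2]
  exact alpha hO hF hc hp _ x

theorem gamma (hO : SpecOp B a) (hF : SpecForm B a τ) (hc : 3 ≤ Fintype.card ι) {i : ι}
    (hdom : ∀ f : ι → V, ∃ K : ℝ, ∀ x, (τ (update f i x)) ^ 2 ≤ K * B (a x) x)
    (f : ι → V) (x : V) : τ (update f i (x - a x)) = 0 := by
  obtain ⟨K, hK⟩ := hdom f
  have h1 : ∀ n, τ (update f i (SpecOp.dn a (x - a x) n)) = τ (update f i (x - a x)) := by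
    have h2 : ∀ n, ∃ y, SpecOp.dn a (x - a x) n = y - a y := by
      intro n
      cases n with
      | zero => exact ⟨x, rfl⟩
      | succ n => exact ⟨_, rfl⟩
    intro n
    induction n with
    | zero => rfl
    | succ n ih =>
      obtain ⟨y, hy⟩ := h2 n
      have e3 : SpecOp.dn a (x - a x) (n + 1) =
          SpecOp.dn a (x - a x) n - a (SpecOp.dn a (x - a x) n) := rfl
      rw [e3, hF.sub, ih, hy, beta hO hF hc i f y, sub_zero]
  have h3 : Tendsto (fun n => K * B (a (SpecOp.dn a (x - a x) n)) (SpecOp.dn a (x - a x) n))
      atTop (𝓝 0) := by simpa using (hO.tendsto_dn (x - a x)).const_mul K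
  have h4 : (τ (update f i (x - a x))) ^ 2 ≤ 0 := by
    refine ge_of_tendsto' h3 fun n => ?_
    rw [← h1 n]
    exact hK _
  exact pow_eq_zero_iff (two_ne_zero) |>.1 (le_antisymm h4 (sq_nonneg _))

/-- **The spectral step.** -/
theorem spectral (hO : SpecOp B a) (hF : SpecForm B a τ) (hc : 3 ≤ Fintype.card ι) {i : ι}
    (hdom : ∀ f : ι → V, ∃ K : ℝ, ∀ x, (τ (update f i x)) ^ 2 ≤ K * B (a x) x)
    (f : ι → V) (m : ι) (x : V) : τ (update f m (x - a x)) = 0 := by
  by_cases hmi : m = i
  · subst hmi
    exact gamma hO hF hc hdom f x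
  · have h1 := gamma hO hF hc hdom (update f m (x - a x)) (f i)
    rw [hF.sub] at h1
    have e1 : update (update f m (x - a x)) i (f i) = update f m (x - a x) := by
      have : f i = (update f m (x - a x)) i := by rw [update_of_ne (Ne.symm hmi)]
      rw [this, update_eq_self]
    have e2 : update (update f m (x - a x)) i (a (f i)) =
        update (update f i (a (f i))) m (x - a x) := update_comm hmi _ _ _
    rw [e1, e2, alpha hO hF hc (Ne.symm hmi) f x, sub_zero] at h1
    exact h1

end

end Crest.Agent.R069.Rule
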