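import Crest.Agent.R069.Spec

/-!
# Row 69, node R5 = RULE ⟹ visible sub-sigma-algebra (abstract part)

`(X, μ)`, `(Λ, P)` probability spaces, `J i` = "the function at the site `i`" (a homomorphism from
bounded functions on `X` to bounded functions on `Λ`), `SS i` sub-sigma-algebras of `Λ`.
-/

set_option autoImplicit false
set_option linter.unusedSectionVars false

open MeasureTheory Filter Topology Function Set
open scoped InnerProductSpace ENNReal

namespace Crest.Agent.R069.SpecX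

open Crest.Agent.R069.Spec

variable {X Λ : Type*} {mY mX : MeasurableSpace X} {m mΛ : MeasurableSpace Λ} {μ : Measure X}
  {P : Measure Λ}

/-! ### one site -/

section one

variable (I : Lp ℝ 2 μ →ₗᵢ[ℝ] Lp ℝ 2 P) (hm : m ≤ mΛ)

/-- conditional expectation on `L²` -/
noncomputable def EE (hm : m ≤ mΛ) : Lp ℝ 2 P →L[ℝ] Lp ℝ 2 P :=
  (lpMeas ℝ ℝ m 2 P).subtypeL ∘L (condExpL2 ℝ ℝ hm)

/-- the operator `a = I* E I` -/
noncomputable def op : Lp ℝ 2 μ →L[ℝ] Lp ℝ 2 μ :=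
  ContinuousLinearMap.adjoint I.toContinuousLinearMap ∘L EE (P := P) hm ∘L
    I.toContinuousLinearMap

lemma EE_symm (f g : Lp ℝ 2 P) : ⟪EE hm f, g⟫_ℝ = ⟪f, EE hm g⟫_ℝ :=
  inner_condExpL2_left_eq_right hm

lemma EE_meas (f : Lp ℝ 2 P) : AEStronglyMeasurable[m] (EE hm f) P :=
  aestronglyMeasurable_condExpL2 hm f

lemma EE_of_meas {f : Lp ℝ 2 P} (hf : AEStronglyMeasurable[m] f P) : EE hm f = f := by
  have : Fact (m ≤ mΛ) := ⟨hm⟩
  have h1 : f ∈ lpMeas ℝ ℝ m 2 P := mem_lpMeas_iff_aestronglyMeasurable.mpr hf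
  exact Submodule.starProjection_eq_self_iff.mpr h1

lemma inner_EE_EE (f g : Lp ℝ 2 P) : ⟪EE hm f, EE hm g⟫_ℝ = ⟪EE hm f, g⟫_ℝ := by
  rw [← EE_symm, EE_of_meas hm (EE_meas hm f)]

lemma norm_EE_le (f : Lp ℝ 2 P) : ‖EE hm f‖ ≤ ‖f‖ := norm_condExpL2_coe_le hm f

lemma EE_ae [IsFiniteMeasure P] {f : Λ → ℝ} (hf : MemLp f 2 P) :
    EE hm (hf.toLp f) =ᵐ[P] P[f|m] := hf.condExpL2_ae_eq_condExp hm

lemma EE_ae' [IsFiniteMeasure P] (f : Lp ℝ 2 P) : EE hm f =ᵐ[P] P[f|m] := by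
  have h := EE_ae hm (Lp.memLp f)
  rwa [Lp.toLp_coeFn] at h

lemma inner_op (x y : Lp ℝ 2 μ) : ⟪op I hm x, y⟫_ℝ = ⟪EE hm (I x), I y⟫_ℝ := by
  unfold op
  rw [ContinuousLinearMap.comp_apply, ContinuousLinearMap.comp_apply,
    ContinuousLinearMap.adjoint_inner_left]
  rfl

lemma op_symm (x y : Lp ℝ 2 μ) : ⟪op I hm x, y⟫_ℝ = ⟪x, op I hm y⟫_ℝ := by
  rw [inner_op, EE_symm, real_inner_comm, ← inner_op, real_inner_comm]

lemma op_selfAdjoint : IsSelfAdjoint (op I hm) := by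
  rw [ContinuousLinearMap.isSelfAdjoint_iff_isSymmetric]
  exact fun x y => op_symm I hm x y

lemma inner_op_self (x : Lp ℝ 2 μ) : ⟪op I hm x, x⟫_ℝ = ‖EE hm (I x)‖ ^ 2 := by
  rw [inner_op, ← inner_EE_EE, real_inner_self_eq_norm_sq]

lemma op_nonneg (x : Lp ℝ 2 μ) : 0 ≤ RCLike.re ⟪op I hm x, x⟫_ℝ := by
  rw [inner_op_self]; simp

lemma norm_op_le : ‖op I hm‖ ≤ 1 := by
  refine (op I hm).opNorm_le_bound zero_le_one fun x => ?_
  rw [one_mul]
  have h1 : ‖op I hm x‖ ^ 2 ≤ ‖op I hm x‖ * ‖x‖ := by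
    calc ‖op I hm x‖ ^ 2 = ⟪op I hm x, op I hm x⟫_ℝ := (real_inner_self_eq_norm_sq _).symm
      _ = ⟪EE hm (I x), I (op I hm x)⟫_ℝ := inner_op I hm _ _
      _ ≤ ‖EE hm (I x)‖ * ‖I (op I hm x)‖ := real_inner_le_norm _ _
      _ ≤ ‖x‖ * ‖op I hm x‖ := by
          rw [I.norm_map]
          gcongr
          exact (norm_EE_le hm _).trans (I.norm_map x).le
      _ = ‖op I hm x‖ * ‖x‖ := mul_comm _ _
  by_cases h0 : ‖op I hm x‖ = 0
  · rw [h0]; exact norm_nonneg _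
  · have h2 : 0 < ‖op I hm x‖ := lt_of_le_of_ne (norm_nonneg _) (Ne.symm h0)
    nlinarith

/-- fixed vectors of `a`: `x` at the site is `m`-measurable -/
lemma op_fix_iff (x : Lp ℝ 2 μ) : op I hm x = x ↔ AEStronglyMeasurable[m] (I x) P := by
  constructor
  · intro h
    have h1 : ‖EE hm (I x)‖ ^ 2 = ‖I x‖ ^ 2 := by
      rw [← inner_op_self, h, I.norm_map, real_inner_self_eq_norm_sq]
    have h2 : EE hm (I x) = I x := by
      have h3 := @norm_sub_sq_real _ _ _ (I x) (EE hm (I x))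
      have h4 : ⟪I x, EE hm (I x)⟫_ℝ = ‖EE hm (I x)‖ ^ 2 := by
        rw [real_inner_comm, ← inner_EE_EE, real_inner_self_eq_norm_sq]
      have h5 : ‖I x - EE hm (I x)‖ ^ 2 = 0 := by rw [h3, h4, h1]; ring
      have h6 : I x - EE hm (I x) = 0 := by simpa using h5
      exact (sub_eq_zero.mp h6).symm
    rw [← h2]; exact EE_meas hm _
  · intro h
    refine ext_inner_right ℝ fun y => ?_
    rw [inner_op, EE_of_meas hm h, I.inner_map_map]

end one

lemma inner_Lp (x y : Lp ℝ 2 μ) : ⟪x, y⟫_ℝ = ∫ a, x a * y a ∂μ := by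
  rw [L2.inner_def]
  refine integral_congr_ae (Eventually.of_forall fun a => ?_)
  simp [mul_comm]

/-! ### the bounded functions -/

section bounded

/-- The set of (classes of) functions bounded by one. -/
def Ball (μ : Measure X) [IsFiniteMeasure μ] : Set (Lp ℝ 2 μ) :=
  Set.Icc (-(Lp.const 2 μ (1 : ℝ))) (Lp.const 2 μ (1 : ℝ))

variable [IsFiniteMeasure μ]

lemma isClosed_Ball : IsClosed (Ball μ) := isClosed_Icc

lemma mem_Ball_iff {f : Lp ℝ 2 μ} : f ∈ Ball μ ↔ ∀ᵐ x ∂μ, |f x| ≤ 1 := by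
  unfold Ball
  rw [Set.mem_Icc, ← Lp.coeFn_le, ← Lp.coeFn_le]
  have h1 := Lp.coeFn_const (p := 2) (μ := μ) (1 : ℝ)
  have h2 := Lp.coeFn_neg (Lp.const 2 μ (1 : ℝ))
  constructor
  · rintro ⟨h3, h4⟩
    filter_upwards [h1, h2, h3, h4] with x h1 h2 h3 h4
    rw [h2] at h3
    simp only [Pi.neg_apply] at h3
    rw [h1] at h3 h4
    exact abs_le.mpr ⟨h3, h4⟩
  · intro h
    constructor
    · filter_upwards [h1, h2, h] with x h1 h2 h
      rw [h2]
      simp only [Pi.neg_apply]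
      rw [h1]
      exact (abs_le.mp h).1
    · filter_upwards [h1, h] with x h1 h
      rw [h1]
      exact (abs_le.mp h).2

lemma toLp_mem_Ball {f : X → ℝ} (hf : MemLp f 2 μ) (hb : ∀ᵐ x ∂μ, |f x| ≤ 1) :
    hf.toLp f ∈ Ball μ := by
  rw [mem_Ball_iff]
  filter_upwards [hf.coeFn_toLp, hb] with x h1 h2
  rwa [h1]

lemma Ball_avg {ι : Type*} [Fintype ι] [Nonempty ι] (f : ι → Lp ℝ 2 μ)
    (hf : ∀ i, f i ∈ Ball μ) : ((Fintype.card ι : ℝ)⁻¹) • ∑ i, f i ∈ Ball μ := by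
  rw [mem_Ball_iff]
  have h1 : ∀ᵐ x ∂μ, ∀ i, |f i x| ≤ 1 := ae_all_iff.mpr fun i => mem_Ball_iff.mp (hf i)
  filter_upwards [h1, Lp.coeFn_smul ((Fintype.card ι : ℝ)⁻¹) (∑ i, f i),
    Lp.coeFn_finsetSum Finset.univ f] with x h1 h2 h3
  rw [h2, Pi.smul_apply, h3, Finset.sum_apply, smul_eq_mul, abs_mul, abs_of_nonneg (by positivity)]
  have h4 : |∑ i, (f i : X → ℝ) x| ≤ ∑ _i : ι, (1 : ℝ) :=
    (Finset.abs_sum_le_sum_abs _ _).trans (Finset.sum_le_sum fun i _ => h1 i)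
  rw [Finset.sum_const, Finset.card_univ, nsmul_eq_mul, mul_one] at h4
  calc (Fintype.card ι : ℝ)⁻¹ * |∑ i, (f i : X → ℝ) x| ≤ (Fintype.card ι : ℝ)⁻¹ * Fintype.card ι := by
        gcongr
    _ = 1 := inv_mul_cancel₀ card_ne

/-- a bounded measurable representative -/
lemma exists_rep {f : Lp ℝ 2 μ} (hf : f ∈ Ball μ) :
    ∃ g : X → ℝ, Measurable g ∧ (∀ x, |g x| ≤ 1) ∧ f =ᵐ[μ] g := by
  rw [mem_Ball_iff] at hf
  set g₀ := (Lp.aestronglyMeasurable f).mk f with hg₀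
  have hg₀m : Measurable g₀ := (Lp.aestronglyMeasurable f).stronglyMeasurable_mk.measurable
  have hg₀e : f =ᵐ[μ] g₀ := (Lp.aestronglyMeasurable f).ae_eq_mk
  refine ⟨fun x => max (-1) (min 1 (g₀ x)), measurable_const.max (measurable_const.min hg₀m),
    fun x => abs_le.mpr ⟨le_max_left _ _, max_le (by norm_num) (min_le_left _ _)⟩, ?_⟩
  filter_upwards [hf, hg₀e] with x h1 h2
  rw [← h2, min_eq_right (abs_le.mp h1).2, max_eq_right (abs_le.mp h1).1]

lemma dense_span_Ball : Dense (Submodule.span ℝ (Ball μ) : Set (Lp ℝ 2 μ)) := by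
  rw [Submodule.dense_iff_topologicalClosure_eq_top, eq_top_iff]
  rintro f -
  refine Lp.induction (by norm_num) (fun f => f ∈ (Submodule.span ℝ (Ball μ)).topologicalClosure)
    ?_ ?_ ?_ f
  · intro c s hs hμs
    refine Submodule.le_topologicalClosure _ ?_
    have h1 : ((Lp.simpleFunc.indicatorConst 2 hs hμs.ne c : Lp.simpleFunc ℝ 2 μ) : Lp ℝ 2 μ)
        = c • indicatorConstLp 2 hs hμs.ne (1 : ℝ) := by
      rw [Lp.simpleFunc.coe_indicatorConst]
      refine Lp.ext ?_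
      filter_upwards [indicatorConstLp_coeFn (p := 2) (hs := hs) (hμs := hμs.ne) (c := (1:ℝ)),
        indicatorConstLp_coeFn (p := 2) (hs := hs) (hμs := hμs.ne) (c := c),
        Lp.coeFn_smul c (indicatorConstLp 2 hs hμs.ne (1 : ℝ))] with x h1 h2 h3
      rw [h2, h3, Pi.smul_apply, h1]
      by_cases hxs : x ∈ s
      · simp [hxs]
      · simp [hxs]
    rw [h1]
    refine Submodule.smul_mem _ _ (Submodule.subset_span ?_)
    rw [mem_Ball_iff]
    filter_upwards [indicatorConstLp_coeFn (p := 2) (hs := hs) (hμs := hμs.ne) (c := (1:ℝ))]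
      with x hx
    rw [hx]
    by_cases hxs : x ∈ s
    · simp [hxs]
    · simp [hxs]
  · intro f g hf hg _ h1 h2
    exact Submodule.add_mem _ h1 h2
  · exact (Submodule.span ℝ (Ball μ)).isClosed_topologicalClosure

end bounded

/-! ### site homomorphisms -/

/-- bounded measurable -/
def bdf {Y : Type*} [MeasurableSpace Y] (f : Y → ℝ) : Prop := Measurable f ∧ ∃ K : ℝ, ∀ x, |f x| ≤ K

section bdf
variable {f g : X → ℝ}

lemma bdf.add (hf : bdf f) (hg : bdf g) : bdf (f + g) := by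
  obtain ⟨hf1, K, hK⟩ := hf
  obtain ⟨hg1, L, hL⟩ := hg
  exact ⟨hf1.add hg1, K + L, fun x => (abs_add_le _ _).trans (add_le_add (hK x) (hL x))⟩

lemma bdf.smul (c : ℝ) (hf : bdf f) : bdf (c • f) := by
  obtain ⟨hf1, K, hK⟩ := hf
  refine ⟨hf1.const_smul c, |c| * K, fun x => ?_⟩
  rw [Pi.smul_apply, smul_eq_mul, abs_mul]
  exact mul_le_mul_of_nonneg_left (hK x) (abs_nonneg _)

lemma bdf.mul (hf : bdf f) (hg : bdf g) : bdf (f * g) := by
  obtain ⟨hf1, K, hK⟩ := hf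
  obtain ⟨hg1, L, hL⟩ := hg
  refine ⟨hf1.mul hg1, |K| * |L|, fun x => ?_⟩
  rw [Pi.mul_apply, abs_mul]
  exact mul_le_mul ((hK x).trans (le_abs_self _)) ((hL x).trans (le_abs_self _)) (abs_nonneg _)
    (abs_nonneg _)

lemma bdf.comp (hf : bdf f) {h : ℝ → ℝ} (hh : Continuous h) : bdf (fun x => h (f x)) := by
  obtain ⟨hf1, K, hK⟩ := hf
  obtain ⟨L, hL⟩ := (isCompact_Icc (a := -K) (b := K)).exists_bound_of_continuousOn hh.continuousOn
  exact ⟨hh.measurable.comp hf1, L, fun x => hL _ (abs_le.mp (hK x))⟩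

lemma bdf.sub (hf : bdf f) (hg : bdf g) : bdf (f - g) := by
  rw [sub_eq_add_neg, ← neg_one_smul ℝ g]
  exact hf.add (hg.smul _)

lemma bdf_const (c : ℝ) : bdf (fun _ : X => c) := ⟨measurable_const, |c|, fun _ => le_rfl⟩

lemma bdf.memLp [IsFiniteMeasure μ] (hf : bdf f) (p : ℝ≥0∞) : MemLp f p μ := by
  obtain ⟨hf1, K, hK⟩ := hf
  exact MemLp.of_bound hf1.aestronglyMeasurable K (Eventually.of_forall hK)

lemma bdf.integrable [IsFiniteMeasure μ] (hf : bdf f) : Integrable f μ :=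
  memLp_one_iff_integrable.mp (hf.memLp 1)

end bdf

/-- `J` is the "function at the site" homomorphism. -/
structure Hom (μ : Measure X) (P : Measure Λ) (J : (X → ℝ) → (Λ → ℝ)) : Prop where
  meas : ∀ f, bdf f → Measurable (J f)
  bdd : ∀ f C, Measurable f → (∀ x, |f x| ≤ C) → ∀ y, |J f y| ≤ C
  add : ∀ f g, bdf f → bdf g → J (f + g) =ᵐ[P] J f + J g
  smul : ∀ (c : ℝ) f, bdf f → J (c • f) =ᵐ[P] c • J f
  mul : ∀ f g, bdf f → bdf g → J (f * g) =ᵐ[P] J f * J g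
  comp : ∀ f, bdf f → ∀ h : ℝ → ℝ, Continuous h → J (fun x => h (f x)) =ᵐ[P] fun y => h (J f y)
  int : ∀ f, bdf f → ∫ y, J f y ∂P = ∫ x, f x ∂μ

/-- the space of bounded measurable functions -/
def BF (X : Type*) [MeasurableSpace X] : Submodule ℝ (X → ℝ) where
  carrier := {f | bdf f}
  add_mem' hf hg := bdf.add hf hg
  zero_mem' := bdf_const 0
  smul_mem' c _ hf := bdf.smul c hf

/-- the class of a bounded function -/
noncomputable def toL (μ : Measure X) [IsFiniteMeasure μ] : BF X →ₗ[ℝ] Lp ℝ 2 μ where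
  toFun f := (bdf.memLp (μ := μ) f.2 2).toLp f.1
  map_add' _ _ := rfl
  map_smul' _ _ := rfl

lemma toL_ae [IsFiniteMeasure μ] (f : BF X) : toL μ f =ᵐ[μ] f.1 :=
  (bdf.memLp (μ := μ) f.2 2).coeFn_toLp

lemma exists_toL [IsFiniteMeasure μ] {x : Lp ℝ 2 μ} (hx : x ∈ Ball μ) :
    ∃ g : BF X, (∀ y, |g.1 y| ≤ 1) ∧ toL μ g = x := by
  obtain ⟨g, hg, hg1, hxg⟩ := exists_rep hx
  refine ⟨⟨g, hg, 1, hg1⟩, hg1, ?_⟩
  refine Lp.ext ((toL_ae _).trans hxg.symm)

lemma denseRange_toL [IsFiniteMeasure μ] : DenseRange (toL μ) := by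
  have h1 : (Submodule.span ℝ (Ball μ) : Set (Lp ℝ 2 μ)) ⊆ Set.range (toL μ) := by
    have h2 : Submodule.span ℝ (Ball μ) ≤ LinearMap.range (toL μ) := by
      rw [Submodule.span_le]
      intro x hx
      obtain ⟨g, _, hg⟩ := exists_toL hx
      exact ⟨g, hg⟩
    intro x hx
    exact h2 hx
  exact dense_span_Ball.mono h1

namespace Hom

variable [IsFiniteMeasure μ] [IsFiniteMeasure P] {J : (X → ℝ) → (Λ → ℝ)} (hJ : Hom μ P J)

include hJ

lemma bdf' {f : X → ℝ} (hf : bdf f) : bdf (J f) := by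
  obtain ⟨hf1, K, hK⟩ := id hf
  exact ⟨hJ.meas f hf, K, hJ.bdd f K hf1 hK⟩

/-- class of a bounded function -/
lemma norm_toLp {f : X → ℝ} (hf : bdf f) :
    ‖((hJ.bdf' hf).memLp (μ := P) 2).toLp (J f)‖ = ‖(hf.memLp (μ := μ) 2).toLp f‖ := by
  have h1 : ‖((hJ.bdf' hf).memLp (μ := P) 2).toLp (J f)‖ ^ 2
      = ‖(hf.memLp (μ := μ) 2).toLp f‖ ^ 2 := by
    rw [← real_inner_self_eq_norm_sq, ← real_inner_self_eq_norm_sq, L2.inner_def, L2.inner_def]
    have e1 : ∫ a, ⟪(((hJ.bdf' hf).memLp (μ := P) 2).toLp (J f) : Λ → ℝ) a,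
        (((hJ.bdf' hf).memLp (μ := P) 2).toLp (J f) : Λ → ℝ) a⟫_ℝ ∂P = ∫ y, J (f * f) y ∂P := by
      refine integral_congr_ae ?_
      filter_upwards [((hJ.bdf' hf).memLp (μ := P) 2).coeFn_toLp, hJ.mul f f hf hf] with y h2 h3
      rw [h2, h3]
      simp [sq]
    have e2 : ∫ a, ⟪((hf.memLp (μ := μ) 2).toLp f : X → ℝ) a,
        ((hf.memLp (μ := μ) 2).toLp f : X → ℝ) a⟫_ℝ ∂μ = ∫ x, (f * f) x ∂μ := by
      refine integral_congr_ae ?_
      filter_upwards [(hf.memLp (μ := μ) 2).coeFn_toLp] with y h2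
      rw [h2]
      simp [sq]
    rw [e1, e2, hJ.int _ (hf.mul hf)]
  exact (pow_left_inj₀ (norm_nonneg _) (norm_nonneg _) two_ne_zero).mp h1

/-- `J` on classes of bounded functions -/
noncomputable def JL : BF X →ₗ[ℝ] Lp ℝ 2 P where
  toFun f := ((hJ.bdf' f.2).memLp (μ := P) 2).toLp (J f.1)
  map_add' f g := by
    refine Lp.ext ?_
    refine (MemLp.coeFn_toLp _).trans ((hJ.add _ _ f.2 g.2).trans ?_)
    refine EventuallyEq.trans ?_ (Lp.coeFn_add _ _).symm
    exact (MemLp.coeFn_toLp _).symm.add (MemLp.coeFn_toLp _).symm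
  map_smul' c f := by
    refine Lp.ext ?_
    refine (MemLp.coeFn_toLp _).trans ((hJ.smul c _ f.2).trans ?_)
    refine EventuallyEq.trans ?_ (Lp.coeFn_smul _ _).symm
    exact (MemLp.coeFn_toLp _).symm.const_smul c

/-- the isometry of `L²` spaces extending `J` -/
noncomputable def iso : Lp ℝ 2 μ →ₗᵢ[ℝ] Lp ℝ 2 P where
  toLinearMap := ((hJ.JL).extendOfNorm (toL μ)).toLinearMap
  norm_map' x := by
    have hn : ∀ f : BF X, ‖hJ.JL f‖ = ‖toL μ f‖ := fun f => hJ.norm_toLp f.2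
    have hcl : IsClosed {x : Lp ℝ 2 μ | ‖(hJ.JL).extendOfNorm (toL μ) x‖ = ‖x‖} :=
      isClosed_eq ((ContinuousLinearMap.continuous _).norm) continuous_norm
    have hsub : Set.range (toL μ) ⊆ {x : Lp ℝ 2 μ | ‖(hJ.JL).extendOfNorm (toL μ) x‖ = ‖x‖} := by
      rintro _ ⟨f, rfl⟩
      change ‖(hJ.JL).extendOfNorm (toL μ) (toL μ f)‖ = ‖toL μ f‖
      rw [LinearMap.extendOfNorm_eq denseRange_toL ⟨1, fun x => by rw [one_mul, hn]⟩, hn]
    exact (hcl.closure_subset_iff.mpr hsub) (denseRange_toL x)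

lemma iso_toL (f : BF X) : hJ.iso (toL μ f) = hJ.JL f := by
  have hn : ∀ f : BF X, ‖hJ.JL f‖ = ‖toL μ f‖ := fun f => hJ.norm_toLp f.2
  exact LinearMap.extendOfNorm_eq denseRange_toL ⟨1, fun x => by rw [one_mul, hn]⟩ f

lemma iso_toL_ae (f : BF X) : hJ.iso (toL μ f) =ᵐ[P] J f.1 := by
  rw [iso_toL]
  exact ((hJ.bdf' f.2).memLp (μ := P) 2).coeFn_toLp

lemma iso_Ball {x : Lp ℝ 2 μ} (hx : x ∈ Ball μ) : hJ.iso x ∈ Ball P := by
  obtain ⟨g, hg, rfl⟩ := exists_toL hx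
  rw [mem_Ball_iff]
  filter_upwards [hJ.iso_toL_ae g] with y hy
  rw [hy]
  exact hJ.bdd g.1 1 g.2.1 hg y

lemma ae_nonneg_ind {A : Set X} (hA : MeasurableSet A) :
    ∀ᵐ y ∂P, 0 ≤ J (A.indicator fun _ => (1 : ℝ)) y := by
  have hb : bdf (A.indicator fun _ => (1 : ℝ)) :=
    ⟨measurable_const.indicator hA, 1, fun x => by by_cases h : x ∈ A <;> simp [h]⟩
  have h1 : (A.indicator fun _ => (1 : ℝ)) * (A.indicator fun _ => (1 : ℝ))
      = A.indicator fun _ => (1 : ℝ) := by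
    funext x
    by_cases h : x ∈ A <;> simp [h]
  filter_upwards [hJ.mul _ _ hb hb] with y hy
  rw [h1] at hy
  rw [hy]
  exact mul_self_nonneg _

omit hJ in
lemma bdf_ind {A : Set X} (hA : MeasurableSet A) : bdf (A.indicator fun _ => (1 : ℝ)) :=
  ⟨measurable_const.indicator hA, 1, fun x => by by_cases h : x ∈ A <;> simp [h]⟩

omit hJ in
lemma inner_toL (f : BF X) (x : Lp ℝ 2 μ) : ⟪x, toL μ f⟫_ℝ = ∫ a, x a * f.1 a ∂μ := by
  rw [inner_Lp]
  refine integral_congr_ae ?_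
  filter_upwards [toL_ae (μ := μ) f] with a ha
  rw [ha]

omit hJ in
lemma inner_ind {A : Set X} (hA : MeasurableSet A) (x : Lp ℝ 2 μ) :
    ⟪x, toL μ ⟨_, bdf_ind hA⟩⟫_ℝ = ∫ a in A, x a ∂μ := by
  rw [inner_toL, ← integral_indicator hA]
  refine integral_congr_ae (Eventually.of_forall fun a => ?_)
  by_cases h : a ∈ A <;> simp [h]

lemma op_le_one (hm : m ≤ mΛ) {x : Lp ℝ 2 μ} (hx : x ∈ Ball μ) :
    ∀ᵐ a ∂μ, op hJ.iso hm x a ≤ 1 := by
  have hw : ∀ᵐ y ∂P, |EE hm (hJ.iso x) y| ≤ 1 := by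
    have h1 := mem_Ball_iff.mp (hJ.iso_Ball hx)
    have h2 := ae_bdd_abs_condExp_of_ae_bdd_abs (m := m) (R := (1 : ℝ)) h1
    filter_upwards [h2, EE_ae' hm (hJ.iso x)] with y h3 h4
    rw [h4]
    exact h3
  have hint : Integrable (op hJ.iso hm x) μ := (Lp.memLp _).integrable (by norm_num)
  refine ae_le_of_forall_setIntegral_le hint (integrable_const (1 : ℝ)) fun A hA _ => ?_
  rw [← inner_ind hA, inner_op]
  have h3 : ⟪EE hm (hJ.iso x), hJ.iso (toL μ ⟨_, bdf_ind hA⟩)⟫_ℝ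
      = ∫ y, EE hm (hJ.iso x) y * J (A.indicator fun _ => (1 : ℝ)) y ∂P := by
    rw [inner_Lp]
    refine integral_congr_ae ?_
    filter_upwards [hJ.iso_toL_ae ⟨_, bdf_ind hA⟩] with y hy
    rw [hy]
  rw [h3]
  have h4 : ∫ x in A, (1 : ℝ) ∂μ = ∫ y, J (A.indicator fun _ => (1 : ℝ)) y ∂P := by
    rw [hJ.int _ (bdf_ind hA), integral_indicator hA]
  rw [h4]
  have hJi : Integrable (J (A.indicator fun _ => (1 : ℝ))) P := (hJ.bdf' (bdf_ind hA)).integrable
  refine integral_mono_ae ?_ hJi ?_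
  · refine hJi.bdd_mul (c := 1) (Lp.aestronglyMeasurable _) ?_
    filter_upwards [hw] with y hy
    simpa using hy
  · filter_upwards [hw, hJ.ae_nonneg_ind hA] with y h5 h6
    calc EE hm (hJ.iso x) y * J (A.indicator fun _ => (1 : ℝ)) y
        ≤ 1 * J (A.indicator fun _ => (1 : ℝ)) y :=
          mul_le_mul_of_nonneg_right ((le_abs_self _).trans h5) h6
      _ = J (A.indicator fun _ => (1 : ℝ)) y := one_mul _

lemma op_Ball (hm : m ≤ mΛ) {x : Lp ℝ 2 μ} (hx : x ∈ Ball μ) : op hJ.iso hm x ∈ Ball μ := by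
  have hnx : -x ∈ Ball μ := by
    rw [mem_Ball_iff] at hx ⊢
    filter_upwards [hx, Lp.coeFn_neg x] with a h1 h2
    rw [h2, Pi.neg_apply, abs_neg]
    exact h1
  rw [mem_Ball_iff]
  filter_upwards [hJ.op_le_one hm hx, hJ.op_le_one hm hnx, Lp.coeFn_neg (op hJ.iso hm x)]
    with a h1 h2 h3
  rw [map_neg, h3, Pi.neg_apply] at h2
  exact abs_le.mpr ⟨by linarith, h1⟩

end Hom

/-! ### the forms -/

section main

variable [IsProbabilityMeasure μ] [IsProbabilityMeasure P] {ι : Type*} [Fintype ι] [DecidableEq ι]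
  {J : ι → (X → ℝ) → Λ → ℝ} (hJ : ∀ i, Hom μ P (J i))

/-- the multilinear form on bounded functions -/
noncomputable def tauJ (P : Measure Λ) (J : ι → (X → ℝ) → Λ → ℝ) (f : ι → X → ℝ) : ℝ :=
  ∫ y, ∏ j, J j (f j) y ∂P

/-- the multilinear form on classes -/
noncomputable def tauL (F : ι → Lp ℝ 2 μ) : ℝ := ∫ y, ∏ j, (hJ j).iso (F j) y ∂P

/-- product over the other sites -/
noncomputable def prodE (F : ι → Lp ℝ 2 μ) (j : ι) : Λ → ℝ :=
  fun y => ∏ i ∈ Finset.univ.erase j, (hJ i).iso (F i) y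

lemma prodE_update (F : ι → Lp ℝ 2 μ) (j : ι) (x : Lp ℝ 2 μ) :
    prodE hJ (update F j x) j = prodE hJ F j := by
  funext y
  refine Finset.prod_congr rfl fun i hi => ?_
  rw [update_of_ne (Finset.ne_of_mem_erase hi)]

lemma prodE_bdd {F : ι → Lp ℝ 2 μ} {j : ι} (hF : ∀ i, i ≠ j → F i ∈ Ball μ) :
    ∀ᵐ y ∂P, |prodE hJ F j y| ≤ 1 := by
  have h1 : ∀ᵐ y ∂P, ∀ i, i ≠ j → |(hJ i).iso (F i) y| ≤ 1 := by
    rw [ae_all_iff]
    intro i
    by_cases hi : i = j
    · exact Eventually.of_forall fun _ h => absurd hi h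
    · filter_upwards [mem_Ball_iff.mp ((hJ i).iso_Ball (hF i hi))] with y hy _ using hy
  filter_upwards [h1] with y hy
  unfold prodE
  rw [Finset.abs_prod]
  exact Finset.prod_le_one (fun i _ => abs_nonneg _) fun i hi => hy i (Finset.ne_of_mem_erase hi)

lemma prodE_memLp {F : ι → Lp ℝ 2 μ} {j : ι} (hF : ∀ i, i ≠ j → F i ∈ Ball μ) :
    MemLp (prodE hJ F j) 2 P := by
  refine MemLp.of_bound (Finset.aestronglyMeasurable_fun_prod _ fun i _ =>
    Lp.aestronglyMeasurable _) 1 ?_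
  filter_upwards [prodE_bdd hJ hF] with y hy
  simpa using hy

lemma norm_le_one_of_Ball {x : Lp ℝ 2 P} (hx : x ∈ Ball P) : ‖x‖ ≤ 1 := by
  have h := Lp.norm_le_of_ae_bound (f := x) zero_le_one (by simpa using mem_Ball_iff.mp hx)
  simpa [measureUnivNNReal] using h

lemma tauL_inner {F : ι → Lp ℝ 2 μ} {j : ι} (hF : ∀ i, i ≠ j → F i ∈ Ball μ) :
    tauL hJ F = ⟪(hJ j).iso (F j), (prodE_memLp hJ hF).toLp⟫_ℝ := by
  rw [inner_Lp]
  refine integral_congr_ae ?_
  filter_upwards [(prodE_memLp hJ hF).coeFn_toLp] with y hy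
  rw [hy]
  exact (Finset.mul_prod_erase Finset.univ (fun i => (hJ i).iso (F i) y) (Finset.mem_univ j)).symm

lemma tauL_update {F : ι → Lp ℝ 2 μ} {j : ι} (hF : ∀ i, i ≠ j → F i ∈ Ball μ) (x : Lp ℝ 2 μ) :
    tauL hJ (update F j x) = ⟪(hJ j).iso x, (prodE_memLp hJ hF).toLp⟫_ℝ := by
  have hF' : ∀ i, i ≠ j → update F j x i ∈ Ball μ := fun i hi => by
    rw [update_of_ne hi]; exact hF i hi
  rw [tauL_inner hJ hF', update_self]
  congr 1
  exact MemLp.toLp_congr _ _ (by rw [prodE_update])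

lemma tauL_congr {F : ι → Lp ℝ 2 μ} {f : ι → X → ℝ} (hf : ∀ j, bdf (f j))
    (hFf : ∀ j, F j = toL μ ⟨f j, hf j⟩) : tauL hJ F = tauJ P J f := by
  refine integral_congr_ae ?_
  have h1 : ∀ᵐ y ∂P, ∀ j, (hJ j).iso (F j) y = J j (f j) y := by
    rw [ae_all_iff]
    intro j
    rw [hFf j]
    exact (hJ j).iso_toL_ae _
  filter_upwards [h1] with y hy
  exact Finset.prod_congr rfl fun j _ => hy j

variable {SS : ι → MeasurableSpace Λ} (hSS : ∀ i, SS i ≤ mΛ)
  (hvis : ∀ i j, j ≠ i → ∀ f, bdf f → AEStronglyMeasurable[SS i] (J j f) P)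

/-- the operators `a i` -/
noncomputable def aop (i : ι) : Lp ℝ 2 μ →L[ℝ] Lp ℝ 2 μ := op (hJ i).iso (hSS i)

/-- The RULE, tested on bounded measurable functions. -/
def RuleHyp (μ : Measure X) (P : Measure Λ) (J : ι → (X → ℝ) → Λ → ℝ)
    (SS : ι → MeasurableSpace Λ) : Prop :=
  ∀ (i : ι) (F g : ι → X → ℝ), (∀ j, bdf (F j)) → (∀ j, bdf (g j)) →
    (∀ j, ∀ G, bdf G → ∫ x, g j x * G x ∂μ = ∫ y, (P[J i (F j) | SS i]) y * J i G y ∂P) →
    ∀ j0, tauJ P J (update F j0 (g j0)) = tauJ P J (update g j0 (F j0))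

omit [IsProbabilityMeasure P] in
lemma aesm_prod {κ : Type*} [DecidableEq κ] (t : Finset κ) (f : κ → Λ → ℝ)
    (hf : ∀ i ∈ t, AEStronglyMeasurable[m] (f i) P) :
    AEStronglyMeasurable[m] (fun y => ∏ i ∈ t, f i y) P := by
  induction t using Finset.induction_on with
  | empty =>
    simp only [Finset.prod_empty]
    exact aestronglyMeasurable_const
  | insert a t ha ih =>
    simp only [Finset.prod_insert ha]
    exact (hf a (Finset.mem_insert_self _ _)).mul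
      (ih fun i hi => hf i (Finset.mem_insert_of_mem hi))

include hvis in
lemma prodE_meas {F : ι → Lp ℝ 2 μ} {i : ι} (hF : ∀ l, l ≠ i → F l ∈ Ball μ) :
    AEStronglyMeasurable[SS i] (prodE hJ F i) P := by
  refine aesm_prod _ _ fun l hl => ?_
  have hl' := Finset.ne_of_mem_erase hl
  obtain ⟨g, _, hg⟩ := exists_toL (hF l hl')
  rw [← hg]
  exact (hvis i l hl' g.1 g.2).congr ((hJ l).iso_toL_ae g).symm

include hvis in
lemma tauL_dom {F : ι → Lp ℝ 2 μ} {i : ι} (hF : ∀ l, l ≠ i → F l ∈ Ball μ) :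
    ‖tauL hJ F‖ ^ 2 ≤ RCLike.re ⟪aop hJ hSS i (F i), F i⟫_ℝ := by
  have h1 : EE (hSS i) ((prodE_memLp hJ hF).toLp) = (prodE_memLp hJ hF).toLp :=
    EE_of_meas (hSS i) ((prodE_meas (SS := SS) hJ hvis hF).congr
      (prodE_memLp hJ hF).coeFn_toLp.symm)
  have h2 : ‖(prodE_memLp hJ hF).toLp‖ ≤ 1 := by
    refine norm_le_one_of_Ball (toLp_mem_Ball _ (prodE_bdd hJ hF))
  have h3 : ‖tauL hJ F‖ ≤ ‖EE (hSS i) ((hJ i).iso (F i))‖ := by
    rw [tauL_inner hJ hF, ← h1, ← EE_symm]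
    calc ‖⟪EE (hSS i) ((hJ i).iso (F i)), (prodE_memLp hJ hF).toLp⟫_ℝ‖
        ≤ ‖EE (hSS i) ((hJ i).iso (F i))‖ * ‖(prodE_memLp hJ hF).toLp‖ := norm_inner_le_norm _ _
      _ ≤ ‖EE (hSS i) ((hJ i).iso (F i))‖ * 1 := by gcongr
      _ = _ := mul_one _
  calc ‖tauL hJ F‖ ^ 2 ≤ ‖EE (hSS i) ((hJ i).iso (F i))‖ ^ 2 := by gcongr
    _ = RCLike.re ⟪aop hJ hSS i (F i), F i⟫_ℝ := by
        unfold aop
        rw [inner_op_self]; simp

lemma tauL_bd {F : ι → Lp ℝ 2 μ} {i : ι} (hF : ∀ l, l ≠ i → F l ∈ Ball μ) :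
    ‖tauL hJ F‖ ≤ ‖F i‖ := by
  have h2 : ‖(prodE_memLp hJ hF).toLp‖ ≤ 1 := by
    refine norm_le_one_of_Ball (toLp_mem_Ball _ (prodE_bdd hJ hF))
  rw [tauL_inner hJ hF]
  calc ‖⟪(hJ i).iso (F i), (prodE_memLp hJ hF).toLp⟫_ℝ‖
      ≤ ‖(hJ i).iso (F i)‖ * ‖(prodE_memLp hJ hF).toLp‖ := norm_inner_le_norm _ _
    _ ≤ ‖(hJ i).iso (F i)‖ * 1 := by gcongr
    _ = ‖F i‖ := by rw [mul_one, LinearIsometry.norm_map]

lemma tauL_rule (hrule : RuleHyp μ P J SS) (i : ι) (F : ι → Lp ℝ 2 μ) (j0 : ι)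
    (hF : ∀ l, F l ∈ Ball μ) :
    tauL hJ (update F j0 (aop hJ hSS i (F j0)))
      = tauL hJ (update (fun l => aop hJ hSS i (F l)) j0 (F j0)) := by
  choose F' hF'1 hF' using fun l => exists_toL (hF l)
  choose g hg1 hg using fun l => exists_toL ((hJ i).op_Ball (hSS i) (hF l))
  have hkey := hrule i (fun l => (F' l).1) (fun l => (g l).1) (fun l => (F' l).2)
    (fun l => (g l).2) (fun j G hG => by
      have h1 : ⟪aop hJ hSS i (F j), toL μ ⟨G, hG⟩⟫_ℝ = ∫ x, (g j).1 x * G x ∂μ := by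
        have : aop hJ hSS i (F j) = toL μ (g j) := (hg j).symm
        rw [this, Hom.inner_toL]
        refine integral_congr_ae ?_
        filter_upwards [toL_ae (μ := μ) (g j)] with x hx
        rw [hx]
      rw [← h1]
      unfold aop
      rw [inner_op, inner_Lp]
      refine integral_congr_ae ?_
      have h2 : P[(hJ i).iso (F j)|SS i] =ᵐ[P] P[J i (F' j).1|SS i] := by
        refine condExp_congr_ae ?_
        rw [← hF' j]
        exact (hJ i).iso_toL_ae _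
      filter_upwards [EE_ae' (hSS i) ((hJ i).iso (F j)), (hJ i).iso_toL_ae ⟨G, hG⟩, h2]
        with y h3 h4 h5
      rw [h3, h4, h5]) j0
  rw [tauL_congr hJ (f := update (fun l => (F' l).1) j0 (g j0).1)
      (fun j => by
        by_cases hj : j = j0
        · subst hj; rw [update_self]; exact (g j).2
        · rw [update_of_ne hj]; exact (F' j).2)
      (fun j => by
        by_cases hj : j = j0
        · subst hj; simp only [update_self]; exact (hg j).symm
        · simp only [update_of_ne hj]; exact (hF' j).symm),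
    tauL_congr hJ (f := update (fun l => (g l).1) j0 (F' j0).1)
      (fun j => by
        by_cases hj : j = j0
        · subst hj; rw [update_self]; exact (F' j).2
        · rw [update_of_ne hj]; exact (g j).2)
      (fun j => by
        by_cases hj : j = j0
        · subst hj; simp only [update_self]; exact (hF' j).symm
        · simp only [update_of_ne hj]; exact (hg j).symm)]
  exact hkey

/-! ### the visible sub-sigma-algebra -/

section visible

variable (hY : ∀ A, MeasurableSet[mY] A ↔ MeasurableSet A ∧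
  ∀ i, AEStronglyMeasurable[SS i] (J i (A.indicator fun _ => (1 : ℝ))) P)

open Hom

include hY

lemma aop_ind {A : Set X} (hA : MeasurableSet A) (hA' : MeasurableSet[mY] A) (i : ι) :
    aop hJ hSS i (toL μ ⟨_, bdf_ind hA⟩) = toL μ ⟨_, bdf_ind hA⟩ := by
  unfold aop
  rw [op_fix_iff]
  exact (((hY A).mp hA').2 i).congr ((hJ i).iso_toL_ae ⟨_, bdf_ind hA⟩).symm

include hJ hSS in
lemma meas_of_fix (g : BF X)
    (hfix : ∀ i, AEStronglyMeasurable[SS i] (J i g.1) P) : Measurable[mY] g.1 := by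
  have hgoal : ∀ t, MeasurableSet[mY] (g.1 ⁻¹' Ioi t) := ?_
  · exact measurable_of_Ioi hgoal
  intro t
  have hA : MeasurableSet (g.1 ⁻¹' Ioi t) := g.2.1 measurableSet_Ioi
  rw [hY]
  refine ⟨hA, fun i => ?_⟩
  -- approximating functions
  let h : ℕ → ℝ → ℝ := fun n u => min 1 (n * max (u - t) 0)
  have hcont : ∀ n, Continuous (h n) := fun n =>
    continuous_const.min (continuous_const.mul ((continuous_id.sub continuous_const).max
      continuous_const))
  let f : ℕ → BF X := fun n => ⟨fun x => h n (g.1 x), g.2.comp (hcont n)⟩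
  have h01 : ∀ n u, 0 ≤ h n u ∧ h n u ≤ 1 := fun n u =>
    ⟨le_min zero_le_one (mul_nonneg (Nat.cast_nonneg n) (le_max_right _ _)), min_le_left _ _⟩
  have hlim : ∀ x, Tendsto (fun n => h n (g.1 x)) atTop
      (𝓝 ((g.1 ⁻¹' Ioi t).indicator (fun _ => (1 : ℝ)) x)) := by
    intro x
    by_cases hx : t < g.1 x
    · have hx' : x ∈ g.1 ⁻¹' Ioi t := hx
      rw [indicator_of_mem hx']
      have hpos : 0 < max (g.1 x - t) 0 := lt_max_of_lt_left (by linarith)
      obtain ⟨N, hN⟩ := exists_nat_gt (1 / max (g.1 x - t) 0)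
      refine tendsto_atTop_of_eventually_const (i₀ := N) fun n hn => ?_
      have h2 : 1 ≤ (n : ℝ) * max (g.1 x - t) 0 := by
        have h3 : 1 / max (g.1 x - t) 0 < n := lt_of_lt_of_le hN (by exact_mod_cast hn)
        have := (div_lt_iff₀ hpos).mp h3
        exact this.le
      exact min_eq_left h2
    · have hx' : x ∉ g.1 ⁻¹' Ioi t := hx
      rw [indicator_of_notMem hx']
      have h2 : max (g.1 x - t) 0 = 0 := max_eq_right (by linarith [not_lt.mp hx])
      simp [h, h2]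
  have hL2 : Tendsto (fun n => toL μ (f n)) atTop (𝓝 (toL μ ⟨_, bdf_ind hA⟩)) := by
    rw [tendsto_iff_norm_sub_tendsto_zero]
    have h3 : Tendsto (fun n => ‖toL μ (f n) - toL μ ⟨_, bdf_ind hA⟩‖ ^ 2) atTop (𝓝 0) := by
      have h4 : ∀ n, ‖toL μ (f n) - toL μ ⟨_, bdf_ind hA⟩‖ ^ 2
          = ∫ x, (h n (g.1 x) - (g.1 ⁻¹' Ioi t).indicator (fun _ => (1 : ℝ)) x) ^ 2 ∂μ := by
        intro n
        rw [← map_sub, ← real_inner_self_eq_norm_sq, inner_Lp]
        refine integral_congr_ae ?_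
        filter_upwards [toL_ae (μ := μ) (f n - ⟨_, bdf_ind hA⟩)] with x hx
        rw [hx, sq]
        rfl
      simp_rw [h4]
      have h5 := tendsto_integral_of_dominated_convergence (μ := μ)
        (F := fun n x => (h n (g.1 x) - (g.1 ⁻¹' Ioi t).indicator (fun _ => (1 : ℝ)) x) ^ 2)
        (f := fun _ => (0 : ℝ)) (fun _ => (1 : ℝ))
        (fun n => ((((hcont n).measurable.comp g.2.1).sub
          (measurable_const.indicator hA)).pow_const 2).aestronglyMeasurable)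
        (integrable_const _)
        (fun n => Eventually.of_forall fun x => by
          have h6 := h01 n (g.1 x)
          have h7 : 0 ≤ (g.1 ⁻¹' Ioi t).indicator (fun _ => (1 : ℝ)) x ∧
              (g.1 ⁻¹' Ioi t).indicator (fun _ => (1 : ℝ)) x ≤ 1 := by
            by_cases hx : x ∈ g.1 ⁻¹' Ioi t
            · rw [indicator_of_mem hx]; norm_num
            · rw [indicator_of_notMem hx]; norm_num
          rw [Real.norm_eq_abs, abs_of_nonneg (sq_nonneg _), sq_le_one_iff_abs_le_one, abs_le]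
          constructor <;> linarith [h6.1, h6.2, h7.1, h7.2])
        (Eventually.of_forall fun x => by
          have := ((hlim x).sub_const ((g.1 ⁻¹' Ioi t).indicator (fun _ => (1 : ℝ)) x)).pow 2
          simpa using this)
      simpa using h5
    have h8 := h3.sqrt
    simpa [Real.sqrt_sq (norm_nonneg _)] using h8
  have hclosed : IsClosed {x : Lp ℝ 2 P | AEStronglyMeasurable[SS i] x P} :=
    isClosed_aestronglyMeasurable (hSS i)
  have hmem : (hJ i).iso (toL μ ⟨_, bdf_ind hA⟩) ∈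
      {x : Lp ℝ 2 P | AEStronglyMeasurable[SS i] x P} := by
    refine hclosed.mem_of_tendsto (((hJ i).iso.continuous.tendsto _).comp hL2)
      (Eventually.of_forall fun n => ?_)
    have h9 : AEStronglyMeasurable[SS i] (fun y => h n (J i g.1 y)) P :=
      (hcont n).comp_aestronglyMeasurable (hfix i)
    refine h9.congr ?_
    exact (((hJ i).iso_toL_ae (f n)).trans ((hJ i).comp g.1 g.2 (h n) (hcont n))).symm
  exact AEStronglyMeasurable.congr hmem ((hJ i).iso_toL_ae _)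

/-- the projection onto the common fixed vectors is the conditional expectation on `mY` -/
lemma proj_eq_condExp [Nonempty ι] (hYX : mY ≤ mX)
    (hfixall : ∀ x, (∀ i, aop hJ hSS i x = x) ↔ avg (aop hJ hSS) x = x)
    (hpB : ∀ x ∈ Ball μ, proj (avg (aop hJ hSS)) x ∈ Ball μ) {x : Lp ℝ 2 μ} (hx : x ∈ Ball μ) :
    proj (avg (aop hJ hSS)) x =ᵐ[μ] μ[x|mY] := by
  set p := proj (avg (aop hJ hSS)) with hp
  have hint : ∀ z : Lp ℝ 2 μ, Integrable z μ := fun z => (Lp.memLp z).integrable (by norm_num)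
  refine ae_eq_condExp_of_forall_setIntegral_eq hYX (hint x)
    (fun A _ _ => (hint _).integrableOn) (fun A hA _ => ?_) ?_
  · have hAX : MeasurableSet A := hYX A hA
    rw [← Hom.inner_ind hAX, ← Hom.inner_ind hAX]
    have h1 : p (toL μ ⟨_, Hom.bdf_ind hAX⟩) = toL μ ⟨_, Hom.bdf_ind hAX⟩ :=
      proj_of_fix ((hfixall _).mp fun i => aop_ind hJ hSS hY hAX hA i)
    have h2 : ⟪p x, toL μ ⟨_, Hom.bdf_ind hAX⟩⟫_ℝ = ⟪x, p (toL μ ⟨_, Hom.bdf_ind hAX⟩)⟫_ℝ :=
      Submodule.inner_starProjection_left_eq_right _ _ _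
    rw [h2, h1]
  · obtain ⟨g, _, hg⟩ := exists_toL (hpB x hx)
    have hfix : ∀ i, aop hJ hSS i (toL μ g) = toL μ g := by
      rw [hfixall, hg]
      exact proj_fix _ _
    have hmeas : Measurable[mY] g.1 := by
      refine meas_of_fix hJ hSS hY g fun i => ?_
      have h3 := (op_fix_iff (hJ i).iso (hSS i) (toL μ g)).mp (hfix i)
      exact h3.congr ((hJ i).iso_toL_ae g)
    have h4 : AEStronglyMeasurable[mY] g.1 μ := hmeas.stronglyMeasurable.aestronglyMeasurable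
    rw [← hg]
    exact h4.congr (toL_ae g).symm

include hJ hSS hvis in
/-- **N-SPEC**: RULE ⟹ functions orthogonal to the visible sub-sigma-algebra do not contribute. -/
theorem specX (hι : 3 ≤ Fintype.card ι) (hYX : mY ≤ mX) (hrule : RuleHyp μ P J SS)
    (f : ι → X → ℝ) (hf : ∀ i, bdf (f i)) (i0 : ι) (hi0 : μ[f i0 | mY] =ᵐ[μ] 0) :
    tauJ P J f = 0 := by
  have hne : Nonempty ι := Fintype.card_pos_iff.mp (by omega)
  have hspec := spec_all hι (a := aop hJ hSS) (fun i => op_selfAdjoint _ _)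
    (fun i x => op_nonneg _ _ x) (fun i => norm_op_le _ _) (Ball μ) isClosed_Ball
    (fun f hf => Ball_avg f hf) (fun i x hx => (hJ i).op_Ball (hSS i) hx) dense_span_Ball
    (tauL hJ)
    (fun F j x y hF => by
      rw [tauL_update hJ hF, tauL_update hJ hF, tauL_update hJ hF, map_add, inner_add_left])
    (fun F j c x hF => by
      rw [tauL_update hJ hF, tauL_update hJ hF, map_smul, inner_smul_left]
      simp)
    (fun F j hF => tauL_bd hJ hF)
    (fun i F j hF => tauL_rule hJ hSS hrule i F j hF)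
    (fun i F hF => tauL_dom hJ hSS hvis hF)
  obtain ⟨hfixall, hpB, hτ⟩ := hspec
  -- scaling
  choose K hK using fun i => (hf i).2
  set C : ℝ := 1 + ∑ i, |K i| with hC
  have hCpos : 0 < C := by positivity
  have hKC : ∀ i x, |(C⁻¹ • f i) x| ≤ 1 := by
    intro i x
    rw [Pi.smul_apply, smul_eq_mul, abs_mul, abs_of_pos (inv_pos.mpr hCpos),
      inv_mul_le_iff₀ hCpos, mul_one]
    calc |f i x| ≤ K i := hK i x
      _ ≤ |K i| := le_abs_self _
      _ ≤ ∑ i, |K i| := Finset.single_le_sum (f := fun i => |K i|) (fun i _ => abs_nonneg _)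
            (Finset.mem_univ i)
      _ ≤ C := by rw [hC]; linarith
  have hf' : ∀ i, bdf (C⁻¹ • f i) := fun i => (hf i).smul _
  have h1 : tauJ P J (fun i => C⁻¹ • f i) = (C⁻¹) ^ Fintype.card ι * tauJ P J f := by
    unfold tauJ
    rw [← integral_const_mul]
    refine integral_congr_ae ?_
    have h2 : ∀ᵐ y ∂P, ∀ j, J j (C⁻¹ • f j) y = C⁻¹ * J j (f j) y := by
      rw [ae_all_iff]
      intro j
      filter_upwards [(hJ j).smul C⁻¹ (f j) (hf j)] with y hy
      rw [hy]; rfl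
    filter_upwards [h2] with y hy
    simp only [hy, Finset.prod_mul_distrib, Finset.prod_const, Finset.card_univ]
  have h2 : tauJ P J (fun i => C⁻¹ • f i) = 0 := by
    set F : ι → Lp ℝ 2 μ := fun i => toL μ ⟨_, hf' i⟩ with hF
    have hFB : ∀ i, F i ∈ Ball μ := fun i => by
      rw [mem_Ball_iff]
      filter_upwards [toL_ae (μ := μ) ⟨_, hf' i⟩] with x hx
      rw [hx]
      exact hKC i x
    rw [← tauL_congr hJ (F := F) hf' (fun j => rfl), hτ F hFB]
    have h3 : proj (avg (aop hJ hSS)) (F i0) = 0 := by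
      refine Lp.ext ?_
      refine (proj_eq_condExp hJ hSS hY hYX hfixall hpB (hFB i0)).trans ?_
      have h4 : μ[(F i0 : X → ℝ)|mY] =ᵐ[μ] μ[C⁻¹ • f i0|mY] :=
        condExp_congr_ae (toL_ae ⟨_, hf' i0⟩)
      refine h4.trans ((condExp_smul C⁻¹ (f i0) mY).trans ?_)
      filter_upwards [hi0, Lp.coeFn_zero ℝ 2 μ] with x hx hx0
      rw [hx0, Pi.smul_apply, hx]
      simp
    unfold tauL
    have h5 : ∀ᵐ y ∂P, ∏ j, (hJ j).iso (proj (avg (aop hJ hSS)) (F j)) y = 0 := by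
      have h6 : (hJ i0).iso (proj (avg (aop hJ hSS)) (F i0)) = 0 := by rw [h3, map_zero]
      filter_upwards [Lp.coeFn_zero ℝ 2 P] with y hy
      refine Finset.prod_eq_zero (Finset.mem_univ i0) ?_
      rw [h6, hy]; rfl
    rw [integral_congr_ae h5]
    simp
  rw [h1] at h2
  exact (mul_eq_zero.mp h2).resolve_left (pow_ne_zero _ (inv_ne_zero hCpos.ne'))

end visible

end main

end Crest.Agent.R069.SpecX
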