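import Crest.Agent.R069.RuleDic
import Crest.Agent.R069.RuleA2
import Crest.Agent.R069.RuleEq
import Crest.Agent.R069.SpecX
import Crest.Agent.R069.Iface

/-!
# Row 69, node RULE: final assembly `n_rule : N_RULE`

Ingredients: the level system `RuleLev.rlev` (helper212), the rule `Rule.rule_eq` (helper714), the
spectral theorem `SpecX.specX` (helper334), `RuleA.R1` and the dictionary `RuleDic` (helper225).
-/

set_option autoImplicit false
set_option linter.unusedSectionVars false

open MeasureTheory Filter Set ProbabilityTheory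
open scoped ENNReal Topology

namespace Crest.Agent.R069.RuleTop

open Crest.Agent.R069 Crest.Agent.R069.RuleDic Crest.Agent.R069.Rule

/-- the rule on `Lb P.Ω` in the form needed by the spectral theorem -/
theorem hrule {X : Sys} [StandardBorelSpace X.Ω] {ι : Type} [Fintype ι] [DecidableEq ι]
    {s : ι → ℕ → ℤ} {P : Pair X} [StandardBorelSpace P.Ω] [Nonempty P.Ω] (h1 : S1 P)
    (h2 : S2 s P) (hX : XIndP X s) (hc : 2 ≤ Fintype.card ι) (i : ι) {F g : ι → X.Ω → ℝ}
    (hF : ∀ j, Bd X.ms (F j)) (hg : ∀ j, Bd X.ms (g j))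
    (hFg : ∀ j, ∀ G : X.Ω → ℝ, Bd X.ms G → ∫ x, g j x * G x ∂X.μ =
      ∫ y, ((lb P.μ)[F j ∘ φ s P i | rest s i P]) y * (G ∘ φ s P i) y ∂(lb P.μ)) (j0 : ι) :
    ∫ y, (∏ j ∈ Finset.univ.erase j0, F j (φ s P j y)) * g j0 (φ s P j0 y) ∂(lb P.μ) =
      ∫ y, (∏ j ∈ Finset.univ.erase j0, g j (φ s P j y)) * F j0 (φ s P j0 y) ∂(lb P.μ) := by
  refine rule_eq (RuleLev.rlev h1 hX) h2 hX hc (fun i f hf => RuleA.R1 h2 i hf) i j0 hF hg ?_
  intro j G hG
  rw [hFg j G hG]
  refine integral_congr_ae ?_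
  have e1 : (lb P.μ)[F j ∘ φ s P i | rest s i P] =ᵐ[lb P.μ] PF s i P (F j ∘ P.π) :=
    condExp_congr_ae (comp_φ s P i (hF j).1)
  filter_upwards [e1, comp_φ s P i hG.1] with y h3 h4
  rw [h3, h4]

section

variable {X : Sys} {ι : Type} [Fintype ι] [DecidableEq ι] (s : ι → ℕ → ℤ) (P : Pair X)
  [StandardBorelSpace P.Ω] [Nonempty P.Ω]

theorem hom (i : ι) : SpecX.Hom X.μ (lb P.μ) (fun f : X.Ω → ℝ => f ∘ φ s P i) where
  meas f hf := hf.1.comp (φ_mp s P i).measurable
  bdd f C _ hC y := hC _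
  add _ _ _ _ := EventuallyEq.rfl
  smul _ _ _ := EventuallyEq.rfl
  mul _ _ _ _ := EventuallyEq.rfl
  comp _ _ _ _ := EventuallyEq.rfl
  int f hf := by
    have h := φ_mp s P i
    rw [← h.map_eq, integral_map h.measurable.aemeasurable
      (by rw [h.map_eq]; exact hf.1.aestronglyMeasurable)]
    rfl

theorem visX_iff' (A : Set X.Ω) : MeasurableSet[P.visX s] A ↔ MeasurableSet A ∧
    ∀ i, AEStronglyMeasurable[rest s i P]
      ((A.indicator fun _ => (1 : ℝ)) ∘ φ s P i) (lb P.μ) := by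
  rw [visX_iff s P]
  refine and_congr_right fun hA => forall_congr' fun i => ?_
  constructor
  · rintro ⟨B, hB, hAB⟩
    refine ⟨B.indicator fun _ => (1 : ℝ),
      (@stronglyMeasurable_const _ _ (rest s i P) _ (1 : ℝ)).indicator hB, ?_⟩
    filter_upwards [hAB] with y hy
    have hy' : (φ s P i y ∈ A) = (y ∈ B) := hy
    by_cases h : y ∈ B
    · have h' : φ s P i y ∈ A := by rw [hy']; exact h
      simp only [Function.comp_apply, indicator_of_mem h, indicator_of_mem h']
    · have h' : φ s P i y ∉ A := by rw [hy']; exact h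
      simp only [Function.comp_apply, indicator_of_notMem h, indicator_of_notMem h']
  · rintro ⟨g, hg, hgA⟩
    refine ⟨g ⁻¹' {1}, hg.measurable (measurableSet_singleton _), ?_⟩
    filter_upwards [hgA] with y hy
    apply propext
    show φ s P i y ∈ A ↔ g y = 1
    rw [← hy]
    by_cases h : φ s P i y ∈ A
    · simp [h]
    · simp [h]

theorem tauJ_update (F : ι → X.Ω → ℝ) (u : X.Ω → ℝ) (j0 : ι) :
    SpecX.tauJ (lb P.μ) (fun i (f : X.Ω → ℝ) => f ∘ φ s P i) (Function.update F j0 u) =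
      ∫ y, (∏ j ∈ Finset.univ.erase j0, F j (φ s P j y)) * u (φ s P j0 y) ∂(lb P.μ) := by
  unfold SpecX.tauJ
  congr 1
  funext y
  rw [← Finset.prod_erase_mul _ _ (Finset.mem_univ j0)]
  congr 1
  · refine Finset.prod_congr rfl fun j hj => ?_
    rw [Function.update_of_ne (Finset.ne_of_mem_erase hj)]
    rfl
  · rw [Function.update_self]
    rfl

end

/-- **node `N_RULE`** -/
theorem n_rule : N_RULE := by
  intro X hX P hP ι _ s hc hXi h1 h2 f hf h0
  classical
  have : Nonempty P.Ω := (nonempty_of_measure_ne_zero (μ := P.μ) (s := univ) (by simp)).to_type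
  obtain ⟨i0, hi0⟩ := h0
  rw [tau_eq s P hf]
  refine SpecX.specX (mY := P.visX s) (J := fun i (f : X.Ω → ℝ) => f ∘ φ s P i)
    (SS := fun i => rest s i P) (fun i => hom s P i) (fun i => restLe s P i) ?_
    (fun A => visX_iff' s P A) hc (fun A h => h.1) ?_ f hf i0 hi0
  · intro i j hij g hg
    exact (hg.1.comp (φ_measurable s P hij)).stronglyMeasurable.aestronglyMeasurable
  · intro i F g hF hg hFg j0
    rw [tauJ_update s P, tauJ_update s P]
    exact hrule h1 h2 hXi (by omega) i hF hg hFg j0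

end Crest.Agent.R069.RuleTop
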