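import Crest.Agent.R069.Rel2

/-!
# Row 69, node S1F: the relative product of an ARBITRARY probability space `Q` with a standard Borel
`E` over a common factor `B`
-/

set_option autoImplicit false

open MeasureTheory Filter Set ProbabilityTheory
open scoped ENNReal Topology

namespace Crest.Agent.R069.S1F

variable {Q E B : Type*} [mQ : MeasurableSpace Q] [mE : MeasurableSpace E] [StandardBorelSpace E]
  [Nonempty E] [mB : MeasurableSpace B]

/-- the law of `(q, e)`, `e` of law `rker μ φ (f q)` given `q`. -/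
noncomputable def exProd (ν : Measure Q) (f : Q → B) (hf : Measurable f) (μ : Measure E)
    [IsFiniteMeasure μ] (φ : E → B) : Measure (Q × E) :=
  ν ⊗ₘ ((rker μ φ).comap f hf)

variable {ν : Measure Q} [IsProbabilityMeasure ν] {f : Q → B} {hf : Measurable f}
  {μ : Measure E} [IsProbabilityMeasure μ] {φ : E → B}

instance : IsProbabilityMeasure (exProd ν f hf μ φ) := by
  unfold exProd; infer_instance

theorem exProd_fst : MeasurePreserving Prod.fst (exProd ν f hf μ φ) ν := by
  refine ⟨measurable_fst, ?_⟩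
  rw [exProd]
  exact Measure.fst_compProd ν _

theorem exProd_snd (hφ : Measurable φ) (h : ν.map f = μ.map φ) :
    MeasurePreserving Prod.snd (exProd ν f hf μ φ) μ := by
  refine ⟨measurable_snd, ?_⟩
  have h1 : (exProd ν f hf μ φ).map Prod.snd = ((rker μ φ).comap f hf) ∘ₘ ν :=
    Measure.snd_compProd ν _
  rw [h1]
  ext A hA
  rw [Measure.bind_apply hA (Kernel.aemeasurable _)]
  have h2 : ∫⁻ a, ((rker μ φ).comap f hf) a A ∂ν = ∫⁻ b, rker μ φ b A ∂(ν.map f) := by
    rw [lintegral_map (Kernel.measurable_coe _ hA) hf]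
    rfl
  rw [h2, h]
  conv_rhs => rw [← rker_comp (μ := μ) hφ]
  rw [Measure.bind_apply hA (Kernel.aemeasurable _)]

theorem exProd_base [MeasurableEq B] (hφ : Measurable φ) (h : ν.map f = μ.map φ) :
    ∀ᵐ p ∂(exProd ν f hf μ φ), φ p.2 = f p.1 := by
  rw [exProd]
  refine Measure.ae_compProd_of_ae_ae (measurableSet_eq_fun (by fun_prop) (by fun_prop)) ?_
  have h1 := ae_rker_eq (μ := μ) hφ (measurable_id (α := B))
  rw [← h] at h1
  filter_upwards [ae_of_ae_map hf.aemeasurable h1] with x hx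
  exact hx

theorem exProd_map (hφ : Measurable φ) (h : ν.map f = μ.map φ) {T₁ : Q → Q} {T : E → E}
    (hT₁ : MeasurePreserving T₁ ν ν) (hT : MeasurePreserving T μ μ) (S : B ≃ᵐ B)
    (h1 : (fun x => f (T₁ x)) =ᵐ[ν] fun x => S (f x))
    (h2 : (fun x => φ (T x)) =ᵐ[μ] fun x => S (φ x)) :
    MeasurePreserving (Prod.map T₁ T) (exProd ν f hf μ φ) (exProd ν f hf μ φ) := by
  refine ⟨hT₁.measurable.prodMap hT.measurable, ?_⟩
  refine Measure.ext_prod fun {A A'} hA hA' => ?_
  rw [Measure.map_apply (hT₁.measurable.prodMap hT.measurable) (hA.prod hA')]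
  have e : Prod.map T₁ T ⁻¹' (A ×ˢ A') = (T₁ ⁻¹' A) ×ˢ (T ⁻¹' A') := rfl
  rw [e, exProd, Measure.compProd_apply_prod (hT₁.measurable hA) (hT.measurable hA'),
    Measure.compProd_apply_prod hA hA']
  have h3 := fibMap_of_equiv hT hφ hφ S h2 A' hA'
  rw [← h] at h3
  have h4 := ae_of_ae_map hf.aemeasurable h3
  have h5 : ∀ᵐ x ∂ν, ((rker μ φ).comap f hf) x (T ⁻¹' A') =
      ((rker μ φ).comap f hf) (T₁ x) A' := by
    filter_upwards [h4, h1] with x hx4 hx1
    simp only [Kernel.comap_apply]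
    rw [hx1]
    exact hx4
  rw [← lintegral_indicator (hT₁.measurable hA), ← lintegral_indicator hA]
  conv_rhs => rw [← hT₁.map_eq]
  rw [lintegral_map ((Kernel.measurable_coe _ hA').indicator hA) hT₁.measurable]
  refine lintegral_congr_ae ?_
  filter_upwards [h5] with x hx
  by_cases hxA : T₁ x ∈ A
  · rw [indicator_of_mem (show x ∈ T₁ ⁻¹' A from hxA), indicator_of_mem hxA, hx]
  · rw [indicator_of_notMem (show x ∉ T₁ ⁻¹' A from hxA), indicator_of_notMem hxA]

end Crest.Agent.R069.S1F
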