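import Crest.Agent.R069.Iface
import Crest.Agent.R069.S1FRel

/-!
# Row 69, node N_S1F: (S1) passes to factors containing the base and the environment
-/

set_option autoImplicit false

open MeasureTheory Filter Set ProbabilityTheory
open scoped ENNReal Topology

namespace Crest.Agent.R069.S1F

theorem nul_preimage {α β : Type*} [mα : MeasurableSpace α] [mβ : MeasurableSpace β]
    {μ : Measure α} {ν : Measure β} {f : α → β} (hf : MeasurePreserving f μ ν) {B : Set β}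
    (hB : MeasurableSet[nul ν] B) : MeasurableSet[nul μ] (f ⁻¹' B) := by
  refine ⟨hf.measurable hB.1, ?_⟩
  rcases hB.2 with h | h
  · left; rwa [hf.measure_preimage hB.1.nullMeasurableSet]
  · right; rwa [← preimage_compl, hf.measure_preimage hB.1.compl.nullMeasurableSet]

theorem aele_nul {α : Type*} {m' : MeasurableSpace α} [mα : MeasurableSpace α] (μ : Measure α) :
    AELe μ (nul μ) m' := by
  intro A hA
  rcases hA.2 with h | h
  · exact ⟨∅, @MeasurableSet.empty _ m', ae_eq_empty.2 h⟩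
  · exact ⟨univ, @MeasurableSet.univ _ m', ae_eq_univ.2 h⟩

theorem aele_sup_nul {α : Type*} {m' : MeasurableSpace α} [mα : MeasurableSpace α]
    (μ : Measure α) : AELe μ (m' ⊔ nul μ) m' :=
  AELe.sup AELe.refl (aele_nul μ)

theorem condExp_sup_nul {α : Type*} {m' : MeasurableSpace α} [mα : MeasurableSpace α]
    {μ : Measure α} [IsProbabilityMeasure μ] (hm : m' ≤ mα) {f : α → ℝ} (hf : BdM mα f) :
    μ[f | m' ⊔ nul μ] =ᵐ[μ] μ[f | m'] :=
  condExp_eq_of_aele (sup_le hm (nul_le_ms μ)) hm (aele_sup_nul μ) (AELe.of_le le_sup_left) hf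

/-- the automorphism `S n` -/
def seq (M : Sys) (n : ℤ) : M.Ω ≃ᵐ M.Ω where
  toFun := M.S n
  invFun := M.S (-n)
  left_inv x := by rw [← M.S_add, neg_add_cancel, M.S_zero]
  right_inv x := by rw [← M.S_add, add_neg_cancel, M.S_zero]
  measurable_toFun := (M.S_mp n).measurable
  measurable_invFun := (M.S_mp (-n)).measurable

section main

variable {X : Sys} {P F Q : Pair X} {φ : P.Ω → F.Ω}

section defs

variable [StandardBorelSpace P.Ω] [Nonempty P.Ω] [StandardBorelSpace F.Ω]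

/-- the law of the relative product `Q ×_F P` -/
noncomputable def law (_hφ : FacOf P F φ) (e : Ext F Q) : Measure (Q.Ω × P.Ω) :=
  exProd Q.μ e.f e.f_mp.measurable P.μ φ

instance (hφ : FacOf P F φ) (e : Ext F Q) : IsProbabilityMeasure (law hφ e) := by
  unfold law; infer_instance

theorem law_fst (hφ : FacOf P F φ) (e : Ext F Q) : MeasurePreserving Prod.fst (law hφ e) Q.μ :=
  exProd_fst

theorem law_snd (hφ : FacOf P F φ) (e : Ext F Q) : MeasurePreserving Prod.snd (law hφ e) P.μ :=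
  exProd_snd hφ.mp.measurable (e.f_mp.map_eq.trans hφ.mp.map_eq.symm)

theorem law_base (hφ : FacOf P F φ) (e : Ext F Q) : ∀ᵐ p ∂(law hφ e), φ p.2 = e.f p.1 :=
  exProd_base hφ.mp.measurable (e.f_mp.map_eq.trans hφ.mp.map_eq.symm)

theorem law_S (hφ : FacOf P F φ) (e : Ext F Q) (n : ℤ) :
    MeasurePreserving (Prod.map (Q.S n) (P.S n)) (law hφ e) (law hφ e) :=
  exProd_map hφ.mp.measurable (e.f_mp.map_eq.trans hφ.mp.map_eq.symm) (Q.S_mp n)
    (P.S_mp n) (seq F.toSys n) (e.f_S n) (Eventually.of_forall fun x => hφ.equi n x)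

theorem comap_fst_le (hφ : FacOf P F φ) (e : Ext F Q) :
    Q.C.comap Prod.fst ≤ (Prod.instMeasurableSpace : MeasurableSpace (Q.Ω × P.Ω)) :=
  comap_le_of_mp (law_fst hφ e) Q.C_le

/-- the relative product `Q ×_F P` as a pair over `X` -/
noncomputable def relPair (hφ : FacOf P F φ) (e : Ext F Q) : Pair X where
  Ω := Q.Ω × P.Ω
  ms := Prod.instMeasurableSpace
  μ := law hφ e
  pr := inferInstance
  S n := Prod.map (Q.S n) (P.S n)
  S_zero x := by ext <;> simp [Q.S_zero, P.S_zero]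
  S_add a b x := by ext <;> simp [Q.S_add, P.S_add]
  S_mp n := law_S hφ e n
  π := Q.π ∘ Prod.fst
  π_mp := Q.π_mp.comp (law_fst hφ e)
  π_S n := (law_fst hφ e).quasiMeasurePreserving.ae_eq_comp (Q.π_S n)
  C := Q.C.comap Prod.fst ⊔ nul (law hφ e)
  C_le := sup_le (comap_fst_le hφ e) (nul_le_ms _)
  C_nul := le_sup_right
  C_S n := by
    rw [measurable_iff_comap_le, MeasurableSpace.comap_sup]
    refine sup_le ?_ ?_
    · refine le_trans ?_ le_sup_left
      rintro _ ⟨_, ⟨A, hA, rfl⟩, rfl⟩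
      exact ⟨Q.S n ⁻¹' A, Q.C_S n hA, rfl⟩
    · refine le_trans ?_ le_sup_right
      rintro _ ⟨A, hA, rfl⟩
      exact nul_preimage (law_S hφ e n) hA
  indep := by
    have h1 := (indep_comap_iff (law_fst hφ e) Q.π_mp.measurable.comap_le Q.C_le).2 Q.indep
    rw [MeasurableSpace.comap_comp] at h1
    exact Indep.mono_ae (Q.π_mp.measurable.comp measurable_fst).comap_le
      (Q.π_mp.measurable.comp measurable_fst).comap_le (comap_fst_le hφ e)
      (sup_le (comap_fst_le hφ e) (nul_le_ms _)) AELe.refl (aele_sup_nul _) h1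

/-- `Q ×_F P` extends `P` -/
noncomputable def relExt (hφ : FacOf P F φ) (e : Ext F Q) : Ext P (relPair hφ e) where
  f := Prod.snd
  f_mp := law_snd hφ e
  f_S n := Eventually.of_forall fun x => rfl
  f_π := by
    have h3 := (law_fst hφ e).quasiMeasurePreserving.ae_eq_comp e.f_π
    have h4 := (law_snd hφ e).quasiMeasurePreserving.ae_eq_comp hφ.pi_eq
    have h5 : ∀ᵐ p ∂(law hφ e), Q.π p.1 = P.π p.2 := by
      filter_upwards [law_base hφ e, h3, h4] with p hp0 hp3 hp4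
      have hp3' : Q.π p.1 = F.π (e.f p.1) := hp3
      have hp4' : P.π p.2 = F.π (φ p.2) := hp4
      rw [hp3', hp4', hp0]
    exact h5
  f_C := by
    change P.C.comap Prod.snd ≤ Q.C.comap Prod.fst ⊔ nul (law hφ e)
    rintro _ ⟨A, hA, rfl⟩
    rw [hφ.C_eq] at hA
    obtain ⟨_, ⟨B, hB, rfl⟩, hAB⟩ := aele_sup_nul P.μ A hA
    have hA' : MeasurableSet A := by
      have : F.C.comap φ ⊔ nul P.μ ≤ P.ms := hφ.C_eq ▸ P.C_le
      exact this _ hA
    have h1 : Prod.snd ⁻¹' A =ᵐ[law hφ e] Prod.snd ⁻¹' (φ ⁻¹' B) :=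
      (law_snd hφ e).quasiMeasurePreserving.preimage_ae_eq hAB
    have h2 : (Prod.snd ⁻¹' (φ ⁻¹' B) : Set (Q.Ω × P.Ω)) =ᵐ[law hφ e]
        Prod.fst ⁻¹' (e.f ⁻¹' B) := by
      filter_upwards [law_base hφ e] with p hp
      apply propext
      change φ p.2 ∈ B ↔ e.f p.1 ∈ B
      rw [hp]
    have h3 : MeasurableSet[Q.C.comap Prod.fst] (Prod.fst ⁻¹' (e.f ⁻¹' B) : Set (Q.Ω × P.Ω)) :=
      ⟨e.f ⁻¹' B, e.f_C _ ⟨B, hB, rfl⟩, rfl⟩
    exact measurableSet_of_ae_nul (m := Q.C.comap Prod.fst ⊔ nul (law hφ e))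
      (sup_le (comap_fst_le hφ e) (nul_le_ms _)) le_sup_right (measurable_snd hA')
      ((le_sup_left : Q.C.comap Prod.fst ≤ Q.C.comap Prod.fst ⊔ nul (law hφ e)) _ h3)
      (h1.trans h2)

end defs

theorem s1F_aux [StandardBorelSpace P.Ω] [Nonempty P.Ω] [StandardBorelSpace F.Ω] (hP : S1 P)
    (hφ : FacOf P F φ) : S1 F := by
  intro Q e f hf
  have hfm : Measurable f := hf.1
  obtain ⟨K, hK⟩ := hf.2
  have hb : BdM F.ms f := ⟨hf.1, hf.2⟩
  have hbφ : BdM P.ms (f ∘ φ) := ⟨hfm.comp hφ.mp.measurable, K, fun x => hK _⟩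
  have hbe : BdM Q.ms (f ∘ e.f) := ⟨hfm.comp e.f_mp.measurable, K, fun x => hK _⟩
  have key := hP (relPair hφ e) (relExt hφ e) (f ∘ φ) ⟨hbφ.meas, hbφ.bdd⟩
  have key' : (law hφ e)[(f ∘ φ) ∘ Prod.snd | Q.C.comap Prod.fst ⊔ nul (law hφ e)]
      =ᵐ[law hφ e] (P.μ[f ∘ φ | P.C]) ∘ Prod.snd := key
  -- left side
  have hbp : BdM (Prod.instMeasurableSpace : MeasurableSpace (Q.Ω × P.Ω))
      ((f ∘ e.f) ∘ Prod.fst) :=
    ⟨hbe.meas.comp measurable_fst, K, fun x => hK _⟩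
  have e1 : ((f ∘ φ) ∘ Prod.snd : Q.Ω × P.Ω → ℝ) =ᵐ[law hφ e] (f ∘ e.f) ∘ Prod.fst := by
    filter_upwards [law_base hφ e] with p hp
    show f (φ p.2) = f (e.f p.1)
    rw [hp]
  have e2 : (law hφ e)[(f ∘ φ) ∘ Prod.snd | Q.C.comap Prod.fst ⊔ nul (law hφ e)] =ᵐ[law hφ e]
      (Q.μ[f ∘ e.f | Q.C]) ∘ Prod.fst :=
    ((condExp_congr_ae e1).trans (condExp_sup_nul (comap_fst_le hφ e) hbp)).trans
      (condExp_comp_mp (law_fst hφ e) Q.C_le (hbe.integrable le_rfl))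
  -- right side
  have e3 : P.μ[f ∘ φ | P.C] =ᵐ[P.μ] (F.μ[f | F.C]) ∘ φ := by
    rw [hφ.C_eq]
    exact (condExp_sup_nul (comap_le_of_mp hφ.mp F.C_le) hbφ).trans
      (condExp_comp_mp hφ.mp F.C_le (hb.integrable le_rfl))
  have e4 : (P.μ[f ∘ φ | P.C]) ∘ Prod.snd =ᵐ[law hφ e] ((F.μ[f | F.C]) ∘ e.f) ∘ Prod.fst := by
    filter_upwards [(law_snd hφ e).quasiMeasurePreserving.ae_eq_comp e3, law_base hφ e]
      with p hp3 hp
    have hp3' : (P.μ[f ∘ φ | P.C]) p.2 = (F.μ[f | F.C]) (φ p.2) := hp3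
    show (P.μ[f ∘ φ | P.C]) p.2 = (F.μ[f | F.C]) (e.f p.1)
    rw [hp3', hp]
  have e5 : (Q.μ[f ∘ e.f | Q.C]) ∘ Prod.fst =ᵐ[law hφ e]
      ((F.μ[f | F.C]) ∘ e.f) ∘ Prod.fst := (e2.symm.trans key').trans e4
  refine (ae_comp_iff (law_fst hφ e) ?_ ?_).1 e5
  · exact (stronglyMeasurable_condExp.mono Q.C_le).measurable
  · exact (stronglyMeasurable_condExp.mono F.C_le).measurable.comp e.f_mp.measurable

/-- **N_S1F** -/
theorem s1F : N_S1F := by
  intro X _ P F hP hF φ hφ h1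
  have hne : Nonempty P.Ω := by
    by_contra hemp
    rw [not_nonempty_iff] at hemp
    have h3 : P.μ univ = 1 := measure_univ
    rw [Set.univ_eq_empty_iff.2 hemp, measure_empty] at h3
    exact zero_ne_one h3
  exact s1F_aux h1 hφ

end main

end Crest.Agent.R069.S1F
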