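import Mathlib

/-!
# Row 69, node SAT: existence of sated objects (abstract exhaustion lemma)

`P` = objects (pairs `(E, C)` of systems), `Hom p q` = extensions `q ≥ p`, `F p` = tests
(`L²(E_p)`), `pull f : F p → F q` = composition with the factor map, `en i p x` = countably many
energies, monotone under extension and bounded.  If every `ω`-chain has a union, then above every
object there is a *sated* one: no extension increases any energy of any test.
The version `exists_sated_step` performs in addition a prescribed closure step infinitely often.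
-/

set_option autoImplicit false

open Filter Topology TopologicalSpace

namespace Crest.Agent.R069.Sat

universe u v w

set_option linter.checkUnivs false in
/-- The data of the exhaustion argument. -/
structure Exh (I : Type) where
  P : Type u
  Hom : P → P → Type v
  comp : ∀ {p q r : P}, Hom p q → Hom q r → Hom p r
  idh : ∀ p : P, Hom p p
  F : P → Type w
  instF : ∀ p, PseudoMetricSpace (F p)
  instS : ∀ p, SeparableSpace (F p)
  instN : ∀ p, Nonempty (F p)
  pull : ∀ {p q : P}, Hom p q → F p → F q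
  pull_cont : ∀ {p q : P} (f : Hom p q), Continuous (pull f)
  pull_comp : ∀ {p q r : P} (f : Hom p q) (g : Hom q r) (x : F p),
    pull (comp f g) x = pull g (pull f x)
  pull_id : ∀ (p : P) (x : F p), pull (idh p) x = x
  en : I → ∀ p : P, F p → ℝ
  en_cont : ∀ i p, Continuous (en i p)
  mono : ∀ i {p q : P} (f : Hom p q) (x : F p), en i p x ≤ en i q (pull f x)
  bdd : ∀ i {p : P} (x : F p), ∃ B : ℝ, ∀ (q : P) (f : Hom p q), en i q (pull f x) ≤ B
  lim : ∀ (p : ℕ → P) (f : ∀ n, Hom (p n) (p (n + 1))), ∃ (l : P) (g : ∀ n, Hom (p n) l),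
    (∀ n (x : F (p n)), pull (g n) x = pull (g (n + 1)) (pull (f n) x)) ∧
      Dense (⋃ n, Set.range (pull (g n)))

namespace Exh

attribute [instance] Exh.instF Exh.instS Exh.instN

variable {I : Type} (K : Exh.{u, v, w} I)

/-- `p` is sated: no extension increases an energy of a test of `p`. -/
def Sated (p : K.P) : Prop :=
  ∀ (q : K.P) (f : K.Hom p q) (i : I) (x : K.F p), K.en i q (K.pull f x) = K.en i p x

/-- one step: almost maximise one energy of one test. -/
lemma step (p : K.P) (i : I) (x : K.F p) {ε : ℝ} (hε : 0 < ε) :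
    ∃ (q : K.P) (f : K.Hom p q), ∀ (r : K.P) (g : K.Hom q r),
      K.en i r (K.pull g (K.pull f x)) ≤ K.en i q (K.pull f x) + ε := by
  classical
  let S : Set ℝ := {t | ∃ (q : K.P) (f : K.Hom p q), t = K.en i q (K.pull f x)}
  have hne : S.Nonempty := ⟨_, p, K.idh p, rfl⟩
  have hbd : BddAbove S := by
    obtain ⟨B, hB⟩ := K.bdd i x
    refine ⟨B, ?_⟩
    rintro t ⟨q, f, rfl⟩
    exact hB q f
  obtain ⟨t, ⟨q, f, rfl⟩, ht⟩ := exists_lt_of_lt_csSup hne (sub_lt_self (sSup S) hε)
  refine ⟨q, f, fun r g => ?_⟩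
  have h1 : K.en i r (K.pull g (K.pull f x)) ≤ sSup S := by
    rw [← K.pull_comp]
    exact le_csSup hbd ⟨r, K.comp f g, rfl⟩
  linarith

section chain

variable (Q : ∀ p q : K.P, K.Hom p q → Prop) (hQ : ∀ p, ∃ (q : K.P) (f : K.Hom p q), Q p q f)
  (p0 : K.P) (idx : ℕ → I)

/-- the state: an object with countably many tests. -/
abbrev St : Type _ := Σ p : K.P, (ℕ → K.F p)

/-- the saturating part of the next step. -/
noncomputable def nextA (n : ℕ) (s : K.St) : Σ q : K.P, K.Hom s.1 q :=
  ⟨_, (K.step s.1 (idx n.unpair.2.unpair.1) (s.2 n.unpair.1)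
      (ε := 1 / ((n.unpair.2.unpair.2 : ℝ) + 1)) (by positivity)).choose_spec.choose⟩

lemma nextA_spec (n : ℕ) (s : K.St) (r : K.P) (g : K.Hom (K.nextA idx n s).1 r) :
    K.en (idx n.unpair.2.unpair.1) r (K.pull g (K.pull (K.nextA idx n s).2 (s.2 n.unpair.1)))
      ≤ K.en (idx n.unpair.2.unpair.1) (K.nextA idx n s).1
          (K.pull (K.nextA idx n s).2 (s.2 n.unpair.1))
        + 1 / ((n.unpair.2.unpair.2 : ℝ) + 1) :=
  (K.step s.1 (idx n.unpair.2.unpair.1) (s.2 n.unpair.1)
      (ε := 1 / ((n.unpair.2.unpair.2 : ℝ) + 1)) (by positivity)).choose_spec.choose_spec r g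

/-- the prescribed closure step. -/
noncomputable def nextB (q : K.P) : Σ r : K.P, K.Hom q r :=
  ⟨_, (hQ q).choose_spec.choose⟩

lemma nextB_spec (q : K.P) : Q q (K.nextB Q hQ q).1 (K.nextB Q hQ q).2 :=
  (hQ q).choose_spec.choose_spec

/-- the next state. -/
noncomputable def nextSt (n : ℕ) (s : K.St) : K.St :=
  ⟨(K.nextB Q hQ (K.nextA idx n s).1).1, fun t =>
    if t.unpair.1 ≤ n then
      K.pull (K.comp (K.nextA idx n s).2 (K.nextB Q hQ (K.nextA idx n s).1).2) (s.2 t)
    else denseSeq (K.F _) t.unpair.2⟩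

/-- the chain of states. -/
noncomputable def chain : ℕ → K.St
  | 0 => ⟨p0, fun t => denseSeq (K.F p0) t.unpair.2⟩
  | n + 1 => K.nextSt Q hQ idx n (chain n)

/-- the connecting extensions of the chain. -/
noncomputable def cmap (n : ℕ) :
    K.Hom (K.chain Q hQ p0 idx n).1 (K.chain Q hQ p0 idx (n + 1)).1 :=
  K.comp (K.nextA idx n (K.chain Q hQ p0 idx n)).2
    (K.nextB Q hQ (K.nextA idx n (K.chain Q hQ p0 idx n)).1).2

lemma chain_test_self (n b : ℕ) :
    (K.chain Q hQ p0 idx n).2 (Nat.pair n b) = denseSeq (K.F (K.chain Q hQ p0 idx n).1) b := by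
  cases n with
  | zero =>
    show denseSeq (K.F p0) (Nat.pair 0 b).unpair.2 = _
    rw [Nat.unpair_pair]
    rfl
  | succ n =>
    have h : ¬ (Nat.pair (n + 1) b).unpair.1 ≤ n := by rw [Nat.unpair_pair]; simp
    show (if (Nat.pair (n + 1) b).unpair.1 ≤ n then _ else
      denseSeq (K.F _) (Nat.pair (n + 1) b).unpair.2) = _
    rw [if_neg h, Nat.unpair_pair]
    rfl

lemma chain_test_succ (n t : ℕ) (h : t.unpair.1 ≤ n) :
    (K.chain Q hQ p0 idx (n + 1)).2 t
      = K.pull (K.cmap Q hQ p0 idx n) ((K.chain Q hQ p0 idx n).2 t) := by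
  exact if_pos h

/-- any limit of the chain is sated. -/
lemma sated_of_chain (hidx : Function.Surjective idx) (l : K.P)
    (g : ∀ n, K.Hom (K.chain Q hQ p0 idx n).1 l)
    (hg : ∀ n (x : K.F (K.chain Q hQ p0 idx n).1),
      K.pull (g n) x = K.pull (g (n + 1)) (K.pull (K.cmap Q hQ p0 idx n) x))
    (hd : Dense (⋃ n, Set.range (K.pull (g n)))) : K.Sated l := by
  intro q f i y
  -- the tests
  have key : ∀ a b : ℕ, K.en i q (K.pull f (K.pull (g a)
      (denseSeq (K.F (K.chain Q hQ p0 idx a).1) b)))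
      = K.en i l (K.pull (g a) (denseSeq (K.F (K.chain Q hQ p0 idx a).1) b)) := by
    intro a b
    obtain ⟨m, rfl⟩ := hidx i
    -- transport of the test
    have htr : ∀ n, a ≤ n → K.pull (g n) ((K.chain Q hQ p0 idx n).2 (Nat.pair a b))
        = K.pull (g a) (denseSeq (K.F (K.chain Q hQ p0 idx a).1) b) := by
      intro n hn
      induction n, hn using Nat.le_induction with
      | base => rw [K.chain_test_self]
      | succ n hn ih =>
        rw [K.chain_test_succ Q hQ p0 idx n _ (by simpa using hn), ← hg n, ih]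
    refine le_antisymm ?_ (K.mono _ f _)
    refine le_of_forall_pos_le_add fun ε hε => ?_
    obtain ⟨k, hk⟩ := exists_nat_one_div_lt hε
    set n : ℕ := Nat.pair (Nat.pair a b) (Nat.pair m k) with hn
    have hn1 : n.unpair.1 = Nat.pair a b := by simp [hn]
    have hn2 : n.unpair.2.unpair.1 = m := by simp [hn]
    have hn3 : n.unpair.2.unpair.2 = k := by simp [hn]
    have han : a ≤ n := (Nat.left_le_pair a b).trans (Nat.left_le_pair _ _)
    have hy := htr n han
    rw [← hy]
    set s := K.chain Q hQ p0 idx n with hs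
    have hsp := K.nextA_spec idx n s q
      (K.comp (K.nextB Q hQ (K.nextA idx n s).1).2 (K.comp (g (n + 1)) f))
    have hmo := K.mono (idx m)
      (K.comp (K.nextB Q hQ (K.nextA idx n s).1).2 (g (n + 1)))
      (K.pull (K.nextA idx n s).2 (s.2 (Nat.pair a b)))
    rw [hn1, hn2, hn3] at hsp
    have hgn : K.pull (g n) (s.2 (Nat.pair a b))
        = K.pull (K.comp (K.nextB Q hQ (K.nextA idx n s).1).2 (g (n + 1)))
            (K.pull (K.nextA idx n s).2 (s.2 (Nat.pair a b))) := by
      rw [hg n]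
      have e2 := K.pull_comp (K.nextA idx n s).2 (K.nextB Q hQ (K.nextA idx n s).1).2
        (s.2 (Nat.pair a b))
      have e3 := K.pull_comp (K.nextB Q hQ (K.nextA idx n s).1).2 (g (n + 1))
        (K.pull (K.nextA idx n s).2 (s.2 (Nat.pair a b)))
      exact (congrArg (K.pull (g (n + 1))) e2).trans e3.symm
    rw [hgn]
    have e1 : K.pull f (K.pull (K.comp (K.nextB Q hQ (K.nextA idx n s).1).2 (g (n + 1)))
            (K.pull (K.nextA idx n s).2 (s.2 (Nat.pair a b))))
        = K.pull (K.comp (K.nextB Q hQ (K.nextA idx n s).1).2 (K.comp (g (n + 1)) f))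
            (K.pull (K.nextA idx n s).2 (s.2 (Nat.pair a b))) := by
      have e3 := K.pull_comp (K.nextB Q hQ (K.nextA idx n s).1).2 (g (n + 1))
        (K.pull (K.nextA idx n s).2 (s.2 (Nat.pair a b)))
      have e4 := K.pull_comp (g (n + 1)) f
        (K.pull (K.nextB Q hQ (K.nextA idx n s).1).2
          (K.pull (K.nextA idx n s).2 (s.2 (Nat.pair a b))))
      have e5 := K.pull_comp (K.nextB Q hQ (K.nextA idx n s).1).2 (K.comp (g (n + 1)) f)
        (K.pull (K.nextA idx n s).2 (s.2 (Nat.pair a b)))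
      exact ((congrArg (K.pull f) e3).trans e4.symm).trans e5.symm
    rw [e1]
    linarith
  -- closedness
  have hcl : IsClosed {y : K.F l | K.en i q (K.pull f y) = K.en i l y} :=
    isClosed_eq ((K.en_cont i q).comp (K.pull_cont f)) (K.en_cont i l)
  have hsub : (⋃ n, Set.range (K.pull (g n))) ⊆ {y : K.F l | K.en i q (K.pull f y) = K.en i l y} := by
    intro z hz
    obtain ⟨n, hz⟩ := Set.mem_iUnion.1 hz
    obtain ⟨x, rfl⟩ := hz
    have hcl' : IsClosed {x : K.F (K.chain Q hQ p0 idx n).1 |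
        K.en i q (K.pull f (K.pull (g n) x)) = K.en i l (K.pull (g n) x)} :=
      isClosed_eq ((K.en_cont i q).comp ((K.pull_cont f).comp (K.pull_cont (g n))))
        ((K.en_cont i l).comp (K.pull_cont (g n)))
    have hall : Set.range (denseSeq (K.F (K.chain Q hQ p0 idx n).1)) ⊆
        {x : K.F (K.chain Q hQ p0 idx n).1 |
        K.en i q (K.pull f (K.pull (g n) x)) = K.en i l (K.pull (g n) x)} := by
      rintro _ ⟨b, rfl⟩
      exact key n b
    exact hcl'.closure_subset_iff.2 hall (denseRange_denseSeq _ x)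
  exact hcl.closure_subset_iff.2 hsub (hd y)

end chain

/-- **Existence of sated objects, with a closure step performed infinitely often.** -/
theorem exists_sated_step [Countable I] [Nonempty I]
    (Q : ∀ p q : K.P, K.Hom p q → Prop) (hQ : ∀ p, ∃ (q : K.P) (f : K.Hom p q), Q p q f)
    (p0 : K.P) :
    ∃ (a b : ℕ → K.P) (h : ∀ n, K.Hom (a n) (b n)) (k : ∀ n, K.Hom (b n) (a (n + 1))) (l : K.P)
      (g : ∀ n, K.Hom (a n) l) (g' : ∀ n, K.Hom (b n) l),
      a 0 = p0 ∧ (∀ n, Q (b n) (a (n + 1)) (k n)) ∧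
      (∀ n (x : K.F (a n)), K.pull (g n) x = K.pull (g' n) (K.pull (h n) x)) ∧
      (∀ n (x : K.F (b n)), K.pull (g' n) x = K.pull (g (n + 1)) (K.pull (k n) x)) ∧
      Dense (⋃ n, Set.range (K.pull (g n))) ∧ K.Sated l := by
  obtain ⟨idx, hidx⟩ := exists_surjective_nat I
  obtain ⟨l, g, hg, hd⟩ := K.lim (fun n => (K.chain Q hQ p0 idx n).1) (K.cmap Q hQ p0 idx)
  refine ⟨fun n => (K.chain Q hQ p0 idx n).1,
    fun n => (K.nextA idx n (K.chain Q hQ p0 idx n)).1,
    fun n => (K.nextA idx n (K.chain Q hQ p0 idx n)).2,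
    fun n => (K.nextB Q hQ (K.nextA idx n (K.chain Q hQ p0 idx n)).1).2, l, g,
    fun n => K.comp (K.nextB Q hQ (K.nextA idx n (K.chain Q hQ p0 idx n)).1).2 (g (n + 1)),
    rfl, fun n => K.nextB_spec Q hQ _, fun n x => ?_, fun n x => ?_, hd,
    K.sated_of_chain Q hQ p0 idx hidx l g hg hd⟩
  · rw [hg n x]
    have e2 := K.pull_comp (K.nextA idx n (K.chain Q hQ p0 idx n)).2
      (K.nextB Q hQ (K.nextA idx n (K.chain Q hQ p0 idx n)).1).2 x
    have e3 := K.pull_comp (K.nextB Q hQ (K.nextA idx n (K.chain Q hQ p0 idx n)).1).2 (g (n + 1))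
      (K.pull (K.nextA idx n (K.chain Q hQ p0 idx n)).2 x)
    exact (congrArg (K.pull (g (n + 1))) e2).trans e3.symm
  · exact K.pull_comp _ _ _

/-- **Existence of sated objects.** -/
theorem exists_sated [Countable I] [Nonempty I] (p0 : K.P) :
    ∃ (l : K.P) (_ : K.Hom p0 l), K.Sated l := by
  obtain ⟨a, b, h, k, l, g, g', h0, -, -, -, -, hs⟩ :=
    K.exists_sated_step (fun _ _ _ => True) (fun p => ⟨p, K.idh p, trivial⟩) p0
  subst h0
  exact ⟨l, g 0, hs⟩

end Exh

end Crest.Agent.R069.Sat
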