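import Crest.Agent.R069.Tower

/-!
# Density of the pulled back `L²` functions in a tower (row 69, node SAT)
-/

set_option autoImplicit false

open MeasureTheory Filter Set ProbabilityTheory
open scoped ENNReal Topology InnerProductSpace

namespace Crest.Agent.R069

universe u

variable {E : ℕ → Type u} [∀ j, MeasurableSpace (E j)]
variable {μ : ∀ j, Measure (E j)} {π : ∀ j, E (j + 1) → E j} {ν : Measure (∀ j, E j)}

/-- pull back of `L²` functions along the coordinate `n` of a tower. -/
noncomputable def towerPull (h : IsTower μ π ν) (n : ℕ) : Lp ℝ 2 (μ n) →ₗ[ℝ] Lp ℝ 2 ν :=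
  Lp.compMeasurePreservingₗ ℝ (fun x : ∀ j, E j => x n) (h.marg n)

theorem towerPull_apply (h : IsTower μ π ν) (n : ℕ) (g : Lp ℝ 2 (μ n)) :
    towerPull h n g = Lp.compMeasurePreserving (fun x : ∀ j, E j => x n) (h.marg n) g := rfl

theorem coeFn_towerPull (h : IsTower μ π ν) (n : ℕ) (g : Lp ℝ 2 (μ n)) :
    towerPull h n g =ᵐ[ν] fun x => g (x n) := Lp.coeFn_compMeasurePreserving g (h.marg n)

theorem towerPull_mono (hπ : ∀ j, MeasurePreserving (π j) (μ (j + 1)) (μ j))
    (h : IsTower μ π ν) : Monotone (fun n => LinearMap.range (towerPull h n)) := by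
  apply monotone_nat_of_le_succ
  rintro n _ ⟨g, rfl⟩
  refine ⟨Lp.compMeasurePreserving (π n) (hπ n) g, ?_⟩
  apply Lp.ext
  have h1 := coeFn_towerPull h n g
  have h2 := coeFn_towerPull h (n + 1) (Lp.compMeasurePreserving (π n) (hπ n) g)
  have h3 := (h.marg (n + 1)).quasiMeasurePreserving.ae
    (Lp.coeFn_compMeasurePreserving g (hπ n))
  filter_upwards [h1, h2, h3, h.comp n] with x e1 e2 e3 e4
  rw [e1, e2, e3, Function.comp_apply, e4]

/-- **Density.** -/
theorem dense_towerPull [∀ j, IsProbabilityMeasure (μ j)]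
    (hπ : ∀ j, MeasurePreserving (π j) (μ (j + 1)) (μ j))
    (h : IsTower μ π ν) : Dense (⋃ n, Set.range (towerPull h n)) := by
  have hp : IsProbabilityMeasure ν := h.isProb
  have hmono := towerPull_mono hπ h
  have hset : (⋃ n, Set.range (towerPull h n)) =
      ((⨆ n, LinearMap.range (towerPull h n) : Submodule ℝ (Lp ℝ 2 ν)) : Set (Lp ℝ 2 ν)) := by
    rw [Submodule.coe_iSup_of_directed _ hmono.directed_le]
    simp only [LinearMap.coe_range]
  rw [hset, Submodule.dense_iff_topologicalClosure_eq_top, Submodule.topologicalClosure_eq_top_iff,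
    Submodule.eq_bot_iff]
  intro g hg
  rw [Submodule.mem_orthogonal] at hg
  have hint : Integrable g ν := (Lp.memLp g).integrable (by norm_num)
  -- integrals over pulled back sets vanish
  have h1 : ∀ (n : ℕ) (A : Set (E n)), MeasurableSet A →
      ∫ x in (fun x : ∀ j, E j => x n) ⁻¹' A, g x ∂ν = 0 := by
    intro n A hA
    have hA' : MeasurableSet ((fun x : ∀ j, E j => x n) ⁻¹' A) := measurable_pi_apply n hA
    have e := hg (towerPull h n (indicatorConstLp 2 hA (measure_ne_top _ _) (1 : ℝ)))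
      (le_iSup (fun n => LinearMap.range (towerPull h n)) n ⟨_, rfl⟩)
    have e2 : towerPull h n (indicatorConstLp 2 hA (measure_ne_top _ _) (1 : ℝ))
        = indicatorConstLp 2 hA' (measure_ne_top _ _) (1 : ℝ) := by
      rw [towerPull_apply]
      exact Lp.indicatorConstLp_compMeasurePreserving hA (measure_ne_top _ _) (1 : ℝ) (h.marg n)
    rw [e2, L2.inner_indicatorConstLp_one] at e
    exact e
  have h2 : ∀ B : Set (∀ j, E j), MeasurableSet B → ∫ x in B, g x ∂ν = 0 := by
    intro B hB
    induction B, hB using MeasurableSpace.induction_on_inter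
      (generateFrom_squareCylinders (α := E)).symm
      (isPiSystem_squareCylinders (fun _ ↦ MeasurableSpace.isPiSystem_measurableSet) (by simp)) with
    | empty => simp
    | basic s hs =>
      obtain ⟨I, t, ht, rfl⟩ := hs
      classical
      let A : ∀ j, Set (E j) := fun j => if j ∈ I then t j else univ
      have hA' : ∀ i, MeasurableSet (A i) := by
        intro i
        by_cases hi : i ∈ I
        · simp only [A, hi, if_true]
          exact ht i (mem_univ i)
        · simp only [A, hi, if_false, MeasurableSet.univ]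
      have e : ((I : Set ℕ).pi t : Set (∀ j, E j)) = {x | ∀ i ≤ I.sup id, x i ∈ A i} := by
        ext x
        simp only [Set.mem_pi, Finset.mem_coe, Set.mem_ofPred_eq, A]
        constructor
        · intro hx i _
          by_cases hi : i ∈ I
          · simp only [hi, if_true]; exact hx i hi
          · simp only [hi, if_false, mem_univ]
        · intro hx i hi
          have := hx i (Finset.le_sup (f := id) hi)
          have hi' : i ∈ I := hi
          simpa only [hi', if_true] using this
      rw [e, setIntegral_congr_set (h.cyl_ae_eq A (I.sup id))]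
      exact h1 _ _ (measurableSet_cylB (fun j => (hπ j).measurable) hA' _)
    | compl s hs ih =>
      have hu := h1 0 univ MeasurableSet.univ
      rw [preimage_univ, setIntegral_univ] at hu
      have := integral_add_compl hs hint
      rw [ih, hu, zero_add] at this
      exact this
    | iUnion s hd hs ih =>
      rw [integral_iUnion hs hd hint.integrableOn]
      simp [ih]
  have h3 : g =ᵐ[ν] 0 := ae_eq_zero_of_forall_setIntegral_eq_of_sigmaFinite
    (fun s _ _ => hint.integrableOn) (fun s hs _ => h2 s hs)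
  exact Lp.eq_zero_iff_ae_eq_zero.2 h3

/-- **Density of sets**: every measurable set of the inverse limit is approximated by sets
pulled back from a coordinate. -/
theorem exists_measure_symmDiff_tower_lt [∀ j, IsProbabilityMeasure (μ j)]
    (hπ : ∀ j, MeasurePreserving (π j) (μ (j + 1)) (μ j))
    (h : IsTower μ π ν) {A : Set (∀ j, E j)} (hA : MeasurableSet A) {ε : ℝ≥0∞} (hε : ε ≠ 0) :
    ∃ (n : ℕ) (B : Set (E n)), MeasurableSet B ∧
      ν (symmDiff A ((fun x : ∀ j, E j => x n) ⁻¹' B)) < ε := by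
  have hp : IsProbabilityMeasure ν := h.isProb
  obtain ⟨δ, hδ0, hδ⟩ : ∃ δ : ℝ, 0 < δ ∧ ENNReal.ofReal (4 * δ ^ 2) < ε := by
    have h1 : Tendsto (fun δ : ℝ => ENNReal.ofReal (4 * δ ^ 2)) (𝓝[>] 0) (𝓝 0) := by
      have : Tendsto (fun δ : ℝ => ENNReal.ofReal (4 * δ ^ 2)) (𝓝 0) (𝓝 0) := by
        have hc : Continuous (fun δ : ℝ => ENNReal.ofReal (4 * δ ^ 2)) :=
          ENNReal.continuous_ofReal.comp (by fun_prop)
        have := hc.tendsto 0
        simpa using this
      exact this.mono_left nhdsWithin_le_nhds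
    have h2 : ∀ᶠ δ : ℝ in 𝓝[>] 0, ENNReal.ofReal (4 * δ ^ 2) < ε :=
      h1.eventually (gt_mem_nhds (pos_iff_ne_zero.2 hε))
    obtain ⟨δ, hd1, hd2⟩ := (h2.and self_mem_nhdsWithin).exists
    exact ⟨δ, hd2, hd1⟩
  let F : Lp ℝ 2 ν := indicatorConstLp 2 hA (measure_ne_top _ _) (1 : ℝ)
  obtain ⟨G, hG, hFG⟩ := (dense_towerPull hπ h).exists_dist_lt F hδ0
  obtain ⟨n, g, rfl⟩ := mem_iUnion.1 hG
  obtain ⟨g', hg'm, hg'⟩ := (Lp.aestronglyMeasurable g)
  have hg'M : Measurable g' := hg'm.measurable
  refine ⟨n, {x | 1 / 2 < g' x}, measurableSet_lt measurable_const hg'M, ?_⟩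
  refine lt_of_le_of_lt ?_ hδ
  -- pointwise
  have e1 : F =ᵐ[ν] A.indicator (fun _ => (1 : ℝ)) := indicatorConstLp_coeFn
  have e2 := coeFn_towerPull h n g
  have e3 := (h.marg n).quasiMeasurePreserving.ae hg'
  have e4 : (⇑(F - towerPull h n g) : (∀ j, E j) → ℝ) =ᵐ[ν]
      fun x => A.indicator (fun _ => (1 : ℝ)) x - g' (x n) := by
    filter_upwards [Lp.coeFn_sub F (towerPull h n g), e1, e2, e3] with x a1 a2 a3 a4
    rw [a1, Pi.sub_apply, a2, a3, a4]
  have hsub : symmDiff A ((fun x : ∀ j, E j => x n) ⁻¹' {x | 1 / 2 < g' x}) ⊆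
      {x | (1 / 2 : ℝ) ≤ |A.indicator (fun _ => (1 : ℝ)) x - g' (x n)|} := by
    intro x hx
    rw [Set.mem_symmDiff] at hx
    simp only [mem_preimage, Set.mem_ofPred_eq] at hx ⊢
    rcases hx with ⟨hx1, hx2⟩ | ⟨hx1, hx2⟩
    · rw [indicator_of_mem hx1]
      have h0 : g' (x n) ≤ 1 / 2 := not_lt.1 hx2
      exact le_trans (by linarith) (le_abs_self _)
    · rw [indicator_of_notMem hx2, zero_sub, abs_neg]
      exact le_trans hx1.le (le_abs_self _)
  have hms : AEStronglyMeasurable (⇑(F - towerPull h n g) : (∀ j, E j) → ℝ) ν :=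
    Lp.aestronglyMeasurable _
  have hch := meas_ge_le_mul_pow_eLpNorm_enorm ν (p := 2) (by norm_num) (by norm_num) hms
    (ε := (1 / 2 : ℝ≥0∞)) (by norm_num) (by simp)
  calc ν (symmDiff A ((fun x : ∀ j, E j => x n) ⁻¹' {x | 1 / 2 < g' x}))
      ≤ ν {x | (1 / 2 : ℝ≥0∞) ≤ ‖(F - towerPull h n g : Lp ℝ 2 ν) x‖ₑ} := by
        refine measure_mono_ae ?_
        filter_upwards [e4] with x hx hx2
        have := hsub hx2
        simp only [Set.mem_ofPred_eq] at this
        show (1 / 2 : ℝ≥0∞) ≤ _
        rw [hx, Real.enorm_eq_ofReal_abs]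
        have e : (1 / 2 : ℝ≥0∞) = ENNReal.ofReal (1 / 2) := by
          rw [ENNReal.ofReal_div_of_pos (by norm_num)]; norm_num
        rw [e]
        exact ENNReal.ofReal_le_ofReal this
    _ ≤ _ := hch
    _ ≤ ENNReal.ofReal (4 * δ ^ 2) := by
        have hd : eLpNorm (⇑(F - towerPull h n g) : (∀ j, E j) → ℝ) 2 ν ≤ ENNReal.ofReal δ := by
          rw [dist_eq_norm] at hFG
          rw [← Lp.enorm_def]
          rw [← ofReal_norm_eq_enorm]
          exact ENNReal.ofReal_le_ofReal hFG.le
        rw [ENNReal.ofReal_mul (by norm_num), ENNReal.ofReal_pow hδ0.le]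
        norm_num
        gcongr
        exact hd

end Crest.Agent.R069
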