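import Mathlib

/-!
# Inverse limits of sequences of standard Borel probability spaces (row 69, node TOWER)

`E 0 ← E 1 ← E 2 ← ...` with measure preserving maps `π j : E (j+1) → E j`.  The inverse limit is
realised as a probability measure `ν` on `∀ j, E j` with marginals `μ j` and
`π j (x (j+1)) = x j` almost everywhere (`IsTower μ π ν`).
-/

set_option autoImplicit false
set_option linter.unusedSectionVars false

open MeasureTheory ProbabilityTheory Filter Set
open scoped ENNReal Topology

namespace Crest.Agent.R069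

universe u

section Tower

variable {E : ℕ → Type u} [∀ j, MeasurableSpace (E j)]

/-- `ν` is the law of the inverse limit of the tower `π j : E (j+1) → E j`. -/
structure IsTower (μ : ∀ j, Measure (E j)) (π : ∀ j, E (j + 1) → E j)
    (ν : Measure (∀ j, E j)) : Prop where
  marg : ∀ j, MeasurePreserving (fun x : ∀ j, E j => x j) ν (μ j)
  comp : ∀ j, ∀ᵐ x ∂ν, π j (x (j + 1)) = x j

/-- The subset of `E n` describing the cylinder `{x | ∀ i ≤ n, x i ∈ A i}`. -/
def cylB (π : ∀ j, E (j + 1) → E j) (A : ∀ j, Set (E j)) : ∀ n, Set (E n)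
  | 0 => A 0
  | n + 1 => A (n + 1) ∩ π n ⁻¹' cylB π A n

theorem measurableSet_cylB {π : ∀ j, E (j + 1) → E j} (hπ : ∀ j, Measurable (π j))
    {A : ∀ j, Set (E j)} (hA : ∀ j, MeasurableSet (A j)) (n : ℕ) :
    MeasurableSet (cylB π A n) := by
  induction n with
  | zero => exact hA 0
  | succ n ih => exact (hA _).inter (hπ n ih)

theorem mem_cylB_iff {π : ∀ j, E (j + 1) → E j} {A : ∀ j, Set (E j)} {x : ∀ j, E j}
    (hx : ∀ j, π j (x (j + 1)) = x j) (n : ℕ) :
    x n ∈ cylB π A n ↔ ∀ i ≤ n, x i ∈ A i := by
  induction n with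
  | zero =>
    constructor
    · intro h i hi
      obtain rfl : i = 0 := by omega
      exact h
    · intro h
      exact h 0 le_rfl
  | succ n ih =>
    constructor
    · rintro ⟨h1, h2⟩ i hi
      rw [mem_preimage, hx n] at h2
      rcases Nat.lt_or_ge i (n + 1) with h | h
      · exact (ih.1 h2) i (by omega)
      · obtain rfl : i = n + 1 := by omega
        exact h1
    · intro h
      refine ⟨h _ le_rfl, ?_⟩
      rw [mem_preimage, hx n]
      exact ih.2 fun i hi => h i (by omega)

variable {μ : ∀ j, Measure (E j)} {π : ∀ j, E (j + 1) → E j} {ν ν' : Measure (∀ j, E j)}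

theorem IsTower.ae_comp (h : IsTower μ π ν) : ∀ᵐ x ∂ν, ∀ j, π j (x (j + 1)) = x j :=
  ae_all_iff.2 h.comp

theorem IsTower.isProb [∀ j, IsProbabilityMeasure (μ j)] (h : IsTower μ π ν) :
    IsProbabilityMeasure ν := by
  constructor
  have := (h.marg 0).measure_preimage (s := univ) MeasurableSet.univ.nullMeasurableSet
  rw [preimage_univ] at this
  rw [this]
  exact measure_univ

/-- A cylinder set in the coordinates `≤ n` is a.e. a set in the coordinate `n`. -/
theorem IsTower.cyl_ae_eq (h : IsTower μ π ν) (A : ∀ j, Set (E j)) (n : ℕ) :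
    {x : ∀ j, E j | ∀ i ≤ n, x i ∈ A i} =ᵐ[ν] (fun x : ∀ j, E j => x n) ⁻¹' cylB π A n := by
  filter_upwards [h.ae_comp] with x hx
  exact propext (mem_cylB_iff hx n).symm

theorem IsTower.measure_cyl (h : IsTower μ π ν) (hπ : ∀ j, Measurable (π j))
    {A : ∀ j, Set (E j)} (hA : ∀ j, MeasurableSet (A j)) (n : ℕ) :
    ν {x | ∀ i ≤ n, x i ∈ A i} = μ n (cylB π A n) := by
  rw [← (h.marg n).measure_preimage (measurableSet_cylB hπ hA n).nullMeasurableSet]
  exact measure_congr (h.cyl_ae_eq A n)

/-- The inverse limit is unique. -/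
theorem IsTower.unique [∀ j, IsProbabilityMeasure (μ j)] (hπ : ∀ j, Measurable (π j))
    (h : IsTower μ π ν) (h' : IsTower μ π ν') : ν = ν' := by
  have hp : IsProbabilityMeasure ν := h.isProb
  have hp' : IsProbabilityMeasure ν' := h'.isProb
  refine MeasureTheory.ext_of_generate_finite _ generateFrom_squareCylinders.symm
    (isPiSystem_squareCylinders (fun _ ↦ MeasurableSpace.isPiSystem_measurableSet) (by simp)) ?_ (by simp)
  rintro s ⟨I, t, ht, rfl⟩
  classical
  let A : ∀ j, Set (E j) := fun j => if j ∈ I then t j else univ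
  have hA' : ∀ i, MeasurableSet (A i) := by
    intro i
    by_cases hi : i ∈ I
    · simp only [A, hi, if_true]
      exact ht i (mem_univ i)
    · simp only [A, hi, if_false, MeasurableSet.univ]
  have e : ((I : Set ℕ).pi t : Set (∀ j, E j)) = {x | ∀ i ≤ I.sup id, x i ∈ A i} := by
    ext x
    simp only [Set.mem_pi, Finset.mem_coe, Set.mem_ofPred_eq, A]
    constructor
    · intro hx i _
      by_cases hi : i ∈ I
      · simp only [hi, if_true]; exact hx i hi
      · simp only [hi, if_false, mem_univ]
    · intro hx i hi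
      have := hx i (Finset.le_sup (f := id) hi)
      have hi' : i ∈ I := hi
      simpa only [hi', if_true] using this
  rw [e, h.measure_cyl hπ hA', h'.measure_cyl hπ hA']

/-- Maps of towers: if each `T j` preserves `μ j → μ' j` and commutes a.e. with the projections,
then the product map sends the tower measure to the tower measure. -/
theorem IsTower.map {E' : ℕ → Type u} [∀ j, MeasurableSpace (E' j)]
    {μ' : ∀ j, Measure (E' j)} {π' : ∀ j, E' (j + 1) → E' j} (hπ : ∀ j, Measurable (π' j))
    [∀ j, MeasurableEq (E' j)]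
    (h : IsTower μ π ν) {T : ∀ j, E j → E' j} (hT : ∀ j, MeasurePreserving (T j) (μ j) (μ' j))
    (hc : ∀ j, ∀ᵐ x ∂(μ (j + 1)), π' j (T (j + 1) x) = T j (π j x)) :
    IsTower μ' π' (ν.map (fun x j => T j (x j))) := by
  have hm : Measurable (fun (x : ∀ j, E j) j => T j (x j)) :=
    measurable_pi_iff.2 fun j => (hT j).measurable.comp (measurable_pi_apply j)
  constructor
  · intro j
    refine ⟨measurable_pi_apply j, ?_⟩
    rw [Measure.map_map (measurable_pi_apply j) hm, ← (hT j).map_eq, ← (h.marg j).map_eq,
      Measure.map_map (hT j).measurable (measurable_pi_apply j)]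
    rfl
  · intro j
    rw [ae_map_iff hm.aemeasurable]
    · filter_upwards [h.comp j, (h.marg (j + 1)).quasiMeasurePreserving.ae (hc j)] with x hx hx'
      rw [hx', hx]
    · exact measurableSet_eq_fun ((hπ j).comp (measurable_pi_apply _)) (measurable_pi_apply _)

/-- A measure preserving automorphism of the tower gives a measure preserving automorphism of
the inverse limit. -/
theorem IsTower.measurePreserving [∀ j, IsProbabilityMeasure (μ j)] [∀ j, MeasurableEq (E j)]
    (hπ : ∀ j, Measurable (π j))
    (h : IsTower μ π ν) {T : ∀ j, E j → E j} (hT : ∀ j, MeasurePreserving (T j) (μ j) (μ j))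
    (hc : ∀ j, ∀ᵐ x ∂(μ (j + 1)), π j (T (j + 1) x) = T j (π j x)) :
    MeasurePreserving (fun (x : ∀ j, E j) j => T j (x j)) ν ν := by
  refine ⟨measurable_pi_iff.2 fun j => (hT j).measurable.comp (measurable_pi_apply j), ?_⟩
  exact (h.map hπ hT hc).unique hπ h

end Tower

section Existence

variable {E : ℕ → Type u} [∀ j, MeasurableSpace (E j)] [∀ j, StandardBorelSpace (E j)]
  (μ : ∀ j, Measure (E j)) [∀ j, IsProbabilityMeasure (μ j)] (π : ∀ j, E (j + 1) → E j)

theorem compProd_comap_map {α β γ : Type*} [MeasurableSpace α] [MeasurableSpace β]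
    [MeasurableSpace γ] (ρ : Measure α) [IsFiniteMeasure ρ] (f : α → β) (hf : Measurable f)
    (κ : Kernel β γ) [IsMarkovKernel κ] :
    (ρ ⊗ₘ (κ.comap f hf)).map (Prod.map f id) = (ρ.map f) ⊗ₘ κ := by
  have : IsFiniteMeasure (ρ.map f) := inferInstance
  ext s hs
  rw [Measure.map_apply (by fun_prop) hs, Measure.compProd_apply (by measurability),
    Measure.compProd_apply hs, lintegral_map (Kernel.measurable_kernel_prodMk_left hs) hf]
  rfl

open ProbabilityTheory.Kernel in
/-- Existence of the inverse limit (Ionescu-Tulcea). -/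
theorem exists_isTower (hπ : ∀ j, MeasurePreserving (π j) (μ (j + 1)) (μ j)) :
    ∃ ν : Measure (∀ j, E j), IsProbabilityMeasure ν ∧ IsTower μ π ν := by
  have hne : ∀ j, Nonempty (E j) := fun j => (μ j).nonempty_of_neZero
  let κ : (n : ℕ) → Kernel (Π i : Finset.Iic n, E i) (E (n + 1)) := fun n =>
    (condDistrib id (π n) (μ (n + 1))).comap (fun x => x ⟨n, by simp⟩) (measurable_pi_apply _)
  let ν := trajMeasure (μ 0) κ
  have hp : IsProbabilityMeasure ν := inferInstance
  have key : ∀ n, ν.map (fun x => (x n, x (n + 1))) =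
      (ν.map (fun x => x n)) ⊗ₘ condDistrib id (π n) (μ (n + 1)) := by
    intro n
    have h := map_frestrictLe_trajMeasure_compProd_eq_map_trajMeasure (μ₀ := μ 0) (κ := κ) (a := n)
    have h2 := congrArg
      (fun m => m.map (Prod.map (fun x : (Π i : Finset.Iic n, E i) => x ⟨n, by simp⟩) id)) h
    simp only at h2
    rw [Measure.map_map (by fun_prop) (by fun_prop)] at h2
    have e1 : (Prod.map (fun x : (Π i : Finset.Iic n, E i) => x ⟨n, by simp⟩) id) ∘
      (fun x : (∀ j, E j) ↦ (Preorder.frestrictLe n x, x (n + 1))) = fun x => (x n, x (n + 1)) := rfl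
    rw [e1] at h2
    rw [← h2]
    have h3 := compProd_comap_map (ν.map (Preorder.frestrictLe n))
      (fun x : (Π i : Finset.Iic n, E i) => x ⟨n, by simp⟩) (measurable_pi_apply _)
      (condDistrib id (π n) (μ (n + 1)))
    rw [Measure.map_map (measurable_pi_apply _) (by fun_prop)] at h3
    exact h3
  have hcd : ∀ n, (μ n) ⊗ₘ condDistrib id (π n) (μ (n + 1)) =
      (μ (n + 1)).map (fun x => (π n x, x)) := by
    intro n
    have := compProd_map_condDistrib (mβ := inferInstance) (μ := μ (n + 1)) (X := π n) (Y := id)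
      measurable_id.aemeasurable
    rw [(hπ n).map_eq] at this
    exact this
  have marg : ∀ n, ν.map (fun x => x n) = μ n := by
    intro n
    induction n with
    | zero =>
      have : ν.map (fun x => x 0) = (ν.map (Preorder.frestrictLe 0)).map
          (fun x : (Π i : Finset.Iic 0, E i) => x ⟨0, by simp⟩) := by
        rw [Measure.map_map (measurable_pi_apply _) (by fun_prop)]
        rfl
      rw [this]
      let e : E 0 → (Π i : Finset.Iic 0, E i) := (MeasurableEquiv.piUnique
        (fun i : Finset.Iic 0 ↦ E i)).symm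
      have he : Measurable e := (MeasurableEquiv.piUnique (fun i : Finset.Iic 0 ↦ E i)).symm.measurable
      have hν : ν = (traj κ 0) ∘ₘ ((μ 0).map e) := rfl
      rw [hν, Measure.map_comp _ _ (by fun_prop), traj_map_frestrictLe, partialTraj_self,
          Measure.id_comp, Measure.map_map (measurable_pi_apply _) he]
      exact Measure.map_id
    | succ n ih =>
      have h1 : ν.map (fun x => x (n + 1)) = (ν.map (fun x => (x n, x (n + 1)))).map Prod.snd := by
        rw [Measure.map_map measurable_snd (by fun_prop)]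
        rfl
      have hm : Measurable (fun x => (π n x, x)) := (hπ n).measurable.prodMk measurable_id
      rw [h1, key n, ih, hcd n, Measure.map_map measurable_snd hm]
      exact Measure.map_id
  refine ⟨ν, hp, fun n => ⟨measurable_pi_apply n, marg n⟩, fun n => ?_⟩
  have h1 := key n
  rw [marg n, hcd n] at h1
  have h2 : ∀ᵐ p ∂(ν.map (fun x => (x n, x (n + 1)))), π n p.2 = p.1 := by
    have hm : Measurable (fun x => (π n x, x)) := (hπ n).measurable.prodMk measurable_id
    rw [h1, ae_map_iff hm.aemeasurable]
    · exact ae_of_all _ fun x => rfl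
    · exact measurableSet_eq_fun ((hπ n).measurable.comp measurable_snd) measurable_fst
  rw [ae_map_iff (by fun_prop)] at h2
  · exact h2
  · exact measurableSet_eq_fun ((hπ n).measurable.comp measurable_snd) measurable_fst

end Existence

end Crest.Agent.R069
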