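import Crest.Agent.R069.SatDefs
import Crest.Agent.R069.Tower

/-!
# Unions of chains of pairs (row 69, node SAT)
-/

set_option autoImplicit false

open MeasureTheory Filter Set ProbabilityTheory
open scoped ENNReal Topology

namespace Crest.Agent.R069

section nul

variable {α : Type*}

theorem nul_le {mα : MeasurableSpace α} {μ : Measure α} : nul μ ≤ mα := fun _ h => h.1

theorem measurableSet_nul_iff {mα : MeasurableSpace α} {μ : Measure α} {A : Set α} :
    MeasurableSet[nul μ] A ↔ MeasurableSet A ∧ (μ A = 0 ∨ μ Aᶜ = 0) := Iff.rfl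

/-- description of the completed sigma-algebra. -/
theorem measurableSet_sup_nul_iff {m mα : MeasurableSpace α} {μ : Measure α} (hm : m ≤ mα)
    {A : Set α} :
    MeasurableSet[m ⊔ nul μ] A ↔ MeasurableSet A ∧ ∃ B, MeasurableSet[m] B ∧ A =ᵐ[μ] B := by
  constructor
  · intro h
    refine ⟨(sup_le hm nul_le) _ h, ?_⟩
    have h1 : m ⊔ nul μ ≤ eventuallyMeasurableSpace m (ae μ) := by
      refine sup_le (fun B hB => ⟨B, hB, Filter.EventuallyEq.rfl⟩) ?_
      rintro B ⟨hB, hB2⟩
      rcases hB2 with h0 | h0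
      · exact ⟨∅, @MeasurableSet.empty _ m, by rwa [ae_eq_empty]⟩
      · exact ⟨univ, @MeasurableSet.univ _ m, by rwa [ae_eq_univ]⟩
    obtain ⟨B, hB, hAB⟩ := h1 _ h
    exact ⟨B, hB, hAB⟩
  · rintro ⟨hA, B, hB, hAB⟩
    have hBm := hm _ hB
    have e : A = (B \ (B \ A)) ∪ (A \ B) := by
      ext x; simp only [mem_union, Set.mem_diff]; tauto
    have n1 : MeasurableSet[nul μ] (B \ A) :=
      ⟨hBm.diff hA, Or.inl (ae_le_set.1 hAB.symm.le)⟩
    have n2 : MeasurableSet[nul μ] (A \ B) :=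
      ⟨hA.diff hBm, Or.inl (ae_le_set.1 hAB.le)⟩
    rw [e]
    have l1 : m ≤ m ⊔ nul μ := le_sup_left
    have l2 : nul μ ≤ m ⊔ nul μ := le_sup_right
    exact @MeasurableSet.union _ (m ⊔ nul μ) _ _
      (@MeasurableSet.diff _ (m ⊔ nul μ) _ _ (l1 _ hB) (l2 _ n1)) (l2 _ n2)

theorem mem_of_ae_eq {C mα : MeasurableSpace α} {μ : Measure α} (hC : C ≤ mα) (hn : nul μ ≤ C) {A B : Set α}
    (hB : MeasurableSet[C] B) (hA : MeasurableSet A) (h : A =ᵐ[μ] B) : MeasurableSet[C] A := by
  have : MeasurableSet[C ⊔ nul μ] A := (measurableSet_sup_nul_iff hC).2 ⟨hA, B, hB, h⟩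
  rwa [sup_eq_left.2 hn] at this

theorem indep_sup_nul {m1 m2 mα : MeasurableSpace α} {μ : Measure α} (h2 : m2 ≤ mα)
    (h : Indep m1 m2 μ) : Indep m1 (m2 ⊔ nul μ) μ := by
  rw [Indep_iff] at h ⊢
  intro A B hA hB
  obtain ⟨hB1, B', hB', hBB⟩ := (measurableSet_sup_nul_iff h2).1 hB
  have e1 : μ (A ∩ B) = μ (A ∩ B') :=
    measure_congr ((Filter.EventuallyEq.refl _ A).inter hBB)
  rw [e1, measure_congr hBB, h A B' hA hB']

/-- Independence only depends on sets up to null sets. -/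
theorem indep_of_ae_sets {m1 m2 m1' mα : MeasurableSpace α} {μ : Measure α} (h : Indep m1' m2 μ)
    (hsub : ∀ A, MeasurableSet[m1] A → ∃ A', MeasurableSet[m1'] A' ∧ A =ᵐ[μ] A') :
    Indep m1 m2 μ := by
  rw [Indep_iff] at h ⊢
  intro A B hA hB
  obtain ⟨A', hA', hAA⟩ := hsub A hA
  have e1 : μ (A ∩ B) = μ (A' ∩ B) :=
    measure_congr (hAA.inter (Filter.EventuallyEq.refl _ B))
  rw [e1, measure_congr hAA, h A' B hA' hB]

theorem comap_nul_le {β : Type*} {mα : MeasurableSpace α} {μ : Measure α}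
    {mβ : MeasurableSpace β} {ν : Measure β} {f : α → β}
    (hf : MeasurePreserving f μ ν) : (nul ν).comap f ≤ nul μ := by
  rintro _ ⟨A, hA, rfl⟩
  refine ⟨hf.measurable hA.1, ?_⟩
  rw [hf.measure_preimage hA.1.nullMeasurableSet, ← preimage_compl,
    hf.measure_preimage hA.1.compl.nullMeasurableSet]
  exact hA.2

end nul

section lim

variable {X : Sys} (p : ℕ → Pair X) [hsb : ∀ n, StandardBorelSpace (p n).Ω]
  (f : ∀ n, Ext (p n) (p (n + 1)))

/-- the law of the union of the chain. -/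
noncomputable def limMeas : Measure (∀ n, (p n).Ω) :=
  (exists_isTower (fun n => (p n).μ) (fun n => (f n).f) (fun n => (f n).f_mp)).choose

instance limMeas_prob : IsProbabilityMeasure (limMeas p f) :=
  (exists_isTower (fun n => (p n).μ) (fun n => (f n).f) (fun n => (f n).f_mp)).choose_spec.1

theorem limMeas_isTower :
    IsTower (fun n => (p n).μ) (fun n => (f n).f) (limMeas p f) :=
  (exists_isTower (fun n => (p n).μ) (fun n => (f n).f) (fun n => (f n).f_mp)).choose_spec.2

theorem lim_eval_mp (n : ℕ) :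
    MeasurePreserving (fun x : ∀ n, (p n).Ω => x n) (limMeas p f) (p n).μ :=
  (limMeas_isTower p f).marg n

theorem lim_S_mp (a : ℤ) :
    MeasurePreserving (fun (x : ∀ n, (p n).Ω) n => (p n).S a (x n)) (limMeas p f)
      (limMeas p f) :=
  (limMeas_isTower p f).measurePreserving (fun n => (f n).f_mp.measurable)
    (fun n => (p n).S_mp a) (fun n => (f n).f_S a)

theorem lim_π_ae (n : ℕ) :
    (fun x : ∀ n, (p n).Ω => (p 0).π (x 0)) =ᵐ[limMeas p f] fun x => (p n).π (x n) := by
  induction n with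
  | zero => exact Filter.EventuallyEq.rfl
  | succ n ih =>
    have h1 := (lim_eval_mp p f (n + 1)).quasiMeasurePreserving.ae (f n).f_π
    have h2 := (limMeas_isTower p f).comp n
    filter_upwards [ih, h1, h2] with x e1 e2 e3
    rw [e1]
    simp only [Function.comp_apply] at e2
    rw [e2, e3]

/-- the environment of the union at stage `n`. -/
@[implicit_reducible]
noncomputable def limC (n : ℕ) : MeasurableSpace (∀ n, (p n).Ω) :=
  (p n).C.comap (fun x => x n) ⊔ nul (limMeas p f)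

theorem limC_le (n : ℕ) : limC p f n ≤ MeasurableSpace.pi := by
  refine sup_le ?_ nul_le
  rintro _ ⟨A, hA, rfl⟩
  exact measurable_pi_apply n ((p n).C_le _ hA)

theorem comap_eval_C_le (n : ℕ) :
    (p n).C.comap (fun x : ∀ n, (p n).Ω => x n) ≤ MeasurableSpace.pi := by
  rintro _ ⟨A, hA, rfl⟩
  exact measurable_pi_apply n ((p n).C_le _ hA)

theorem limC_mono : Monotone (limC p f) := by
  apply monotone_nat_of_le_succ
  intro n
  refine sup_le ?_ le_sup_right
  rintro _ ⟨A, hA, rfl⟩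
  refine (measurableSet_sup_nul_iff (comap_eval_C_le p (n + 1))).2
    ⟨comap_eval_C_le p n _ ⟨A, hA, rfl⟩, ?_⟩
  refine ⟨(fun x : ∀ n, (p n).Ω => x (n + 1)) ⁻¹' ((f n).f ⁻¹' A),
    ⟨_, (f n).f_C _ ⟨A, hA, rfl⟩, rfl⟩, ?_⟩
  filter_upwards [(limMeas_isTower p f).comp n] with x hx
  show (x n ∈ A) = ((f n).f (x (n + 1)) ∈ A)
  rw [hx]

theorem lim_indep (n : ℕ) :
    Indep (X.ms.comap (fun x : ∀ n, (p n).Ω => (p 0).π (x 0))) (limC p f n)
      (limMeas p f) := by
  apply indep_sup_nul (comap_eval_C_le p n)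
  have h1 : Indep (X.ms.comap (fun x : ∀ n, (p n).Ω => (p n).π (x n)))
      ((p n).C.comap (fun x : ∀ n, (p n).Ω => x n)) (limMeas p f) := by
    rw [Indep_iff]
    rintro _ _ ⟨A, hA, rfl⟩ ⟨B, hB, rfl⟩
    have h := (Indep_iff _ _ _).1 (p n).indep _ B ⟨A, hA, rfl⟩ hB
    have hm : MeasurableSet ((p n).π ⁻¹' A) := (p n).π_mp.measurable hA
    have hB' := (p n).C_le _ hB
    have e1 : (fun x : ∀ n, (p n).Ω => (p n).π (x n)) ⁻¹' A
        = (fun x : ∀ n, (p n).Ω => x n) ⁻¹' ((p n).π ⁻¹' A) := rfl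
    rw [e1, ← preimage_inter,
      (lim_eval_mp p f n).measure_preimage (hm.inter hB').nullMeasurableSet,
      (lim_eval_mp p f n).measure_preimage hm.nullMeasurableSet,
      (lim_eval_mp p f n).measure_preimage hB'.nullMeasurableSet]
    exact h
  refine indep_of_ae_sets h1 ?_
  rintro _ ⟨A, hA, rfl⟩
  refine ⟨_, ⟨A, hA, rfl⟩, ?_⟩
  filter_upwards [lim_π_ae p f n] with x hx
  show ((p 0).π (x 0) ∈ A) = ((p n).π (x n) ∈ A)
  rw [hx]

/-- **The union of a chain of standard Borel pairs.** -/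
noncomputable def limPair : Pair X where
  Ω := ∀ n, (p n).Ω
  ms := MeasurableSpace.pi
  μ := limMeas p f
  pr := limMeas_prob p f
  S a x n := (p n).S a (x n)
  S_zero x := by funext n; exact (p n).S_zero _
  S_add a b x := by funext n; exact (p n).S_add _ _ _
  S_mp a := lim_S_mp p f a
  π x := (p 0).π (x 0)
  π_mp := (p 0).π_mp.comp (lim_eval_mp p f 0)
  π_S a := (lim_eval_mp p f 0).quasiMeasurePreserving.ae ((p 0).π_S a)
  C := ⨆ n, limC p f n
  C_le := iSup_le (limC_le p f)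
  C_nul := le_trans le_sup_right (le_iSup (limC p f) 0)
  C_S a := by
    rw [measurable_iff_comap_le, MeasurableSpace.comap_iSup]
    refine iSup_mono fun n => ?_
    rw [limC, MeasurableSpace.comap_sup]
    refine sup_le_sup ?_ (comap_nul_le (lim_S_mp p f a))
    rintro _ ⟨_, ⟨A, hA, rfl⟩, rfl⟩
    exact ⟨(p n).S a ⁻¹' A, (p n).C_S a hA, rfl⟩
  indep := by
    have h := indep_iSup_of_monotone (μ := limMeas p f)
      (m := limC p f) (m1 := X.ms.comap (fun x : ∀ n, (p n).Ω => (p 0).π (x 0)))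
      (fun n => (lim_indep p f n).symm) (limC_le p f) ?_ (limC_mono p f)
    · exact h.symm
    · rintro _ ⟨A, hA, rfl⟩
      exact ((p 0).π_mp.measurable.comp (measurable_pi_apply 0)) hA

/-- the union extends every member of the chain. -/
noncomputable def limExt (n : ℕ) : Ext (p n) (limPair p f) where
  f := fun x => x n
  f_mp := lim_eval_mp p f n
  f_S a := Filter.EventuallyEq.rfl
  f_π := lim_π_ae p f n
  f_C := le_trans le_sup_left (le_iSup (limC p f) n)

instance limPair_sb : StandardBorelSpace (limPair p f).Ω := by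
  change StandardBorelSpace (∀ n, (p n).Ω)
  infer_instance

end lim

end Crest.Agent.R069
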