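import Crest.Agent.R069.Sat
import Crest.Agent.R069.SatEn
import Crest.Agent.R069.SatLim
import Crest.Agent.R069.SatDense

/-!
# Existence of sated standard Borel pairs (row 69, node SAT)
-/

set_option autoImplicit false

open MeasureTheory Filter Set ProbabilityTheory TopologicalSpace
open scoped ENNReal Topology symmDiff

namespace Crest.Agent.R069

open SatEn

variable {X : Sys}

/-- The identity extension. -/
def satRefl (P : Pair X) : Ext P P where
  f := id
  f_mp := MeasurePreserving.id _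
  f_S _ := Filter.EventuallyEq.rfl
  f_π := Filter.EventuallyEq.rfl
  f_C := by rw [MeasurableSpace.comap_id]

/-- Composition of extensions. -/
def satTrans {P Q R : Pair X} (e : Ext P Q) (e' : Ext Q R) : Ext P R where
  f := e.f ∘ e'.f
  f_mp := e.f_mp.comp e'.f_mp
  f_S n := by
    have h1 := e'.f_S n
    have h2 := e'.f_mp.quasiMeasurePreserving.ae (e.f_S n)
    filter_upwards [h1, h2] with x a b
    simp only [Function.comp_apply]
    rw [a, b]
  f_π := by
    have h2 := e'.f_mp.quasiMeasurePreserving.ae e.f_π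
    filter_upwards [e'.f_π, h2] with x a b
    rw [a]; exact b
  f_C := by
    rw [← MeasurableSpace.comap_comp]
    exact (MeasurableSpace.comap_mono e.f_C).trans e'.f_C

theorem Ext.lb_mp {P Q : Pair X} (e : Ext P Q) : MeasurePreserving (Lb.mp e.f) (lb Q.μ) (lb P.μ) :=
  measurePreserving_lbmap (fun _ => e.f_mp)

theorem siteA_le (M : Sys) (s : ℕ → ℤ) : siteA M s ≤ LL M.ms := by
  refine MeasurableSpace.generateFrom_le ?_
  rintro _ ⟨A, hA, rfl⟩
  exact measurableSet_intl (fun k => (M.S_mp (s k)).measurable hA)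

theorem rest_le {ι : Type} (s : ι → ℕ → ℤ) (i : ι) (P : Pair X) : rest s i P ≤ LL P.ms := by
  refine sup_le (sup_le (iSup_le fun j => iSup_le fun _ => siteA_le _ _) (LL_mono P.C_le)) ?_
  exact nul_le

/-- the site sets of an extension. -/
theorem Ext.site_ae {P Q : Pair X} (e : Ext P Q) (s : ℕ → ℤ) (A : Set P.Ω) :
    Lb.mp e.f ⁻¹' (intl (fun k => P.S (s k) ⁻¹' A)) =ᵐ[lb Q.μ]
      intl (fun k => Q.S (s k) ⁻¹' (e.f ⁻¹' A)) := by
  have h : ∀ k, (e.f ⁻¹' (P.S (s k) ⁻¹' A) : Set Q.Ω) =ᵐ[Q.μ] Q.S (s k) ⁻¹' (e.f ⁻¹' A) := by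
    intro k
    filter_upwards [e.f_S (s k)] with x hx
    show (P.S (s k) (e.f x) ∈ A) = (e.f (Q.S (s k) x) ∈ A)
    rw [hx]
  have e1 := lbmap_preimage (fun _ => e.f) (fun k => P.S (s k) ⁻¹' A)
  have e2 := intl_ae_eq (μ := Q.μ) (A := fun k => e.f ⁻¹' (P.S (s k) ⁻¹' A))
    (B := fun k => Q.S (s k) ⁻¹' (e.f ⁻¹' A)) h
  rw [← e1] at e2
  exact e2

theorem Ext.aele_site {P Q : Pair X} (e : Ext P Q) (s : ℕ → ℤ) :
    AELe (lb Q.μ) ((siteA P.toSys s).comap (Lb.mp e.f)) (siteA Q.toSys s) := by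
  rw [siteA, MeasurableSpace.comap_generateFrom]
  refine AELe.generateFrom ?_
  rintro _ ⟨_, ⟨A, hA, rfl⟩, rfl⟩
  refine ⟨intl (fun k => Q.S (s k) ⁻¹' (e.f ⁻¹' A)), ?_, e.site_ae s A⟩
  exact MeasurableSpace.measurableSet_generateFrom ⟨e.f ⁻¹' A, e.f_mp.measurable hA, rfl⟩

/-- **The rest sigma-algebras grow under extensions** (mod null sets). -/
theorem Ext.aele_rest {P Q : Pair X} {ι : Type} (e : Ext P Q) (s : ι → ℕ → ℤ) (i : ι) :
    AELe (lb Q.μ) ((rest s i P).comap (Lb.mp e.f)) (rest s i Q) := by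
  rw [rest, rest, MeasurableSpace.comap_sup, MeasurableSpace.comap_sup]
  refine AELe.sup_sup (AELe.sup_sup ?_ ?_) ?_
  · rw [MeasurableSpace.comap_iSup]
    refine AELe.iSup fun j => ?_
    rw [MeasurableSpace.comap_iSup]
    refine AELe.iSup fun hj => ?_
    exact (e.aele_site (s j)).trans (AELe.of_le (le_iSup₂_of_le j hj le_rfl))
  · refine AELe.of_le ?_
    have h1 : (LL P.C).comap (Lb.mp e.f) = LL (P.C.comap e.f) := comap_lbmap_LL e.f
    rw [h1]
    exact LL_mono e.f_C
  · exact AELe.of_le (comap_nul_le e.lb_mp)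

/-- energies as `enS`. -/
theorem en0_eq (P : Pair X) (A : Set P.Ω) : en0 P A = enS P.μ P.C A := rfl

theorem en1_eq {ι : Type} (s : ι → ℕ → ℤ) (i : ι) (P : Pair X) (A : Set P.Ω) :
    en1 s i P A = enS (lb P.μ) (rest s i P) (intl (fun k => P.S (s i k) ⁻¹' A)) := rfl

theorem en0_mono {P Q : Pair X} (e : Ext P Q) {A : Set P.Ω} (hA : MeasurableSet A) :
    en0 P A ≤ en0 Q (e.f ⁻¹' A) :=
  enS_mono_map e.f_mp P.C_le Q.C_le (AELe.of_le e.f_C) hA

theorem measurableSet_site (P : Pair X) (s : ℕ → ℤ) {A : Set P.Ω} (hA : MeasurableSet A) :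
    MeasurableSet (intl (fun k => P.S (s k) ⁻¹' A)) :=
  measurableSet_intl (fun k => (P.S_mp (s k)).measurable hA)

theorem en1_ext {P Q : Pair X} {ι : Type} (e : Ext P Q) (s : ι → ℕ → ℤ) (i : ι) (A : Set P.Ω) :
    en1 s i Q (e.f ⁻¹' A) =
      enS (lb Q.μ) (rest s i Q) (Lb.mp e.f ⁻¹' (intl (fun k => P.S (s i k) ⁻¹' A))) :=
  enS_congr (e.site_ae (s i) A).symm

theorem en1_mono {P Q : Pair X} {ι : Type} (e : Ext P Q) (s : ι → ℕ → ℤ) (i : ι) {A : Set P.Ω}
    (hA : MeasurableSet A) : en1 s i P A ≤ en1 s i Q (e.f ⁻¹' A) := by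
  rw [en1_ext]
  exact enS_mono_map e.lb_mp (rest_le s i P) (rest_le s i Q) (e.aele_rest s i)
    (measurableSet_site P (s i) hA)

theorem lb_site (P : Pair X) (s : ℕ → ℤ) {A : Set P.Ω} (hA : MeasurableSet A) :
    lb P.μ (intl (fun k => P.S (s k) ⁻¹' A)) = P.μ A := by
  rw [lb_intl P.μ (fun k => (P.S_mp (s k)).measurable hA)]
  apply ulim_eq
  have h : ∀ k, P.μ (P.S (s k) ⁻¹' A) = P.μ A := fun k =>
    (P.S_mp (s k)).measure_preimage hA.nullMeasurableSet
  simp_rw [h]
  exact tendsto_const_nhds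

/-- the energies. -/
noncomputable def enO {ι : Type} (s : ι → ℕ → ℤ) : Option ι → ∀ P : Pair X, Set P.Ω → ℝ
  | none, P, A => en0 P A
  | some i, P, A => en1 s i P A

theorem enO_mono {P Q : Pair X} {ι : Type} (e : Ext P Q) (s : ι → ℕ → ℤ) (i : Option ι)
    {A : Set P.Ω} (hA : MeasurableSet A) : enO s i P A ≤ enO s i Q (e.f ⁻¹' A) := by
  cases i with
  | none => exact en0_mono e hA
  | some i => exact en1_mono e s i hA

theorem enO_le_one {ι : Type} (s : ι → ℕ → ℤ) (i : Option ι) (P : Pair X) {A : Set P.Ω}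
    (hA : MeasurableSet A) : enO s i P A ≤ 1 := by
  cases i with
  | none => exact enS_le_one P.C_le hA
  | some i => exact enS_le_one (rest_le s i P) (measurableSet_site P (s i) hA)

theorem enO_cont {ι : Type} (s : ι → ℕ → ℤ) (i : Option ι) (P : Pair X) :
    Continuous (fun A : MeasuredSets P.μ => enO s i P A) := by
  cases i with
  | none => exact continuous_enS P.C_le (fun A => A) (fun A hA => hA) (fun A B _ _ => le_rfl)
  | some i =>
    refine continuous_enS (μ := P.μ) (μ' := lb P.μ) (rest_le s i P)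
      (fun A => intl (fun k => P.S (s i k) ⁻¹' A))
      (fun A hA => measurableSet_site P (s i) hA) (fun A B hA hB => ?_)
    have e : intl (fun k => P.S (s i k) ⁻¹' A) ∆ intl (fun k => P.S (s i k) ⁻¹' B)
        = intl (fun k => P.S (s i k) ⁻¹' (A ∆ B)) := by
      rw [Set.symmDiff_def, ← intl_diff, ← intl_diff, ← intl_union]
      rfl
    rw [e]
    unfold Measure.real
    rw [lb_site P (s i) (hA.symmDiff hB)]

/-- Standard Borel pairs. -/
def SPair (X : Sys) : Type 1 := {P : Pair X // StandardBorelSpace P.Ω}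

instance (P : SPair X) : StandardBorelSpace P.1.Ω := P.2

/-- tests: measured sets modulo null sets. -/
abbrev Tst (P : Pair X) : Type := SeparationQuotient (MeasuredSets P.μ)

/-- pull-back of tests. -/
noncomputable def Tst.pull {P Q : Pair X} (e : Ext P Q) : Tst P → Tst Q :=
  SeparationQuotient.lift (fun A => SeparationQuotient.mk (pullS e.f_mp A)) (by
    intro A B h
    exact SeparationQuotient.mk_eq_mk.2 (h.map (continuous_pullS e.f_mp)))

theorem Tst.pull_mk {P Q : Pair X} (e : Ext P Q) (A : MeasuredSets P.μ) :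
    Tst.pull e (SeparationQuotient.mk A) = SeparationQuotient.mk (pullS e.f_mp A) := rfl

theorem Tst.continuous_pull {P Q : Pair X} (e : Ext P Q) : Continuous (Tst.pull e) :=
  SeparationQuotient.continuous_lift
    (SeparationQuotient.continuous_mk.comp (continuous_pullS e.f_mp))

/-- energies of tests. -/
noncomputable def Tst.en {ι : Type} (s : ι → ℕ → ℤ) (i : Option ι) (P : Pair X) : Tst P → ℝ :=
  SeparationQuotient.lift (fun A => enO s i P A) (by
    intro A B h
    exact (h.map (enO_cont s i P)).eq)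

theorem Tst.en_mk {ι : Type} (s : ι → ℕ → ℤ) (i : Option ι) (P : Pair X) (A : MeasuredSets P.μ) :
    Tst.en s i P (SeparationQuotient.mk A) = enO s i P A := rfl

theorem Tst.continuous_en {ι : Type} (s : ι → ℕ → ℤ) (i : Option ι) (P : Pair X) :
    Continuous (Tst.en s i P) :=
  SeparationQuotient.continuous_lift (enO_cont s i P)

theorem Tst.mk_eq {P : Pair X} {A B : MeasuredSets P.μ} (h : (A : Set P.Ω) =ᵐ[P.μ] (B : Set P.Ω)) :
    (SeparationQuotient.mk A : Tst P) = SeparationQuotient.mk B := by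
  refine SeparationQuotient.mk_eq_mk.2 ?_
  rw [EMetric.inseparable_iff, MeasuredSets.edist_def]
  exact measure_symmDiff_eq_zero_iff.2 h

/-- the exhaustion data of standard Borel pairs. -/
noncomputable def satExh (X : Sys) {ι : Type} (s : ι → ℕ → ℤ) : Sat.Exh.{1, 0, 0} (Option ι) where
  P := SPair X
  Hom P Q := Ext P.1 Q.1
  comp e e' := satTrans e e'
  idh P := satRefl P.1
  F P := Tst P.1
  instF P := inferInstance
  instS P := by
    have : SeparableSpace (MeasuredSets P.1.μ) := separableSpace_measuredSets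
    exact SeparationQuotient.surjective_mk.denseRange.separableSpace
      SeparationQuotient.continuous_mk
  instN P := inferInstance
  pull e := Tst.pull e
  pull_cont e := Tst.continuous_pull e
  pull_comp e e' x := by
    obtain ⟨A, rfl⟩ := SeparationQuotient.surjective_mk x
    rfl
  pull_id P x := by
    obtain ⟨A, rfl⟩ := SeparationQuotient.surjective_mk x
    rfl
  en i P := Tst.en s i P.1
  en_cont i P := Tst.continuous_en s i P.1
  mono i {P Q} e x := by
    obtain ⟨A, rfl⟩ := SeparationQuotient.surjective_mk x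
    exact enO_mono e s i A.2
  bdd i {P} x := by
    refine ⟨1, fun Q e => ?_⟩
    obtain ⟨A, rfl⟩ := SeparationQuotient.surjective_mk x
    exact enO_le_one s i Q.1 (e.f_mp.measurable A.2)
  lim p f := by
    have hsb : ∀ n, StandardBorelSpace ((fun n => (p n).1) n).Ω := fun n => (p n).2
    refine ⟨⟨limPair (fun n => (p n).1) f, limPair_sb _ f⟩, fun n => limExt (fun n => (p n).1) f n,
      fun n x => ?_, ?_⟩
    · obtain ⟨A, rfl⟩ := SeparationQuotient.surjective_mk x
      refine Tst.mk_eq ?_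
      filter_upwards [(limMeas_isTower (fun n => (p n).1) f).comp n] with x hx
      show (x n ∈ (A : Set (p n).1.Ω)) = ((f n).f (x (n + 1)) ∈ (A : Set (p n).1.Ω))
      rw [hx]
    · intro x
      obtain ⟨A, rfl⟩ := SeparationQuotient.surjective_mk x
      rw [EMetric.mem_closure_iff]
      intro ε hε
      obtain ⟨n, B, hB, hlt⟩ := exists_measure_symmDiff_tower_lt
        (fun n => (f n).f_mp) (limMeas_isTower (fun n => (p n).1) f) A.2 hε.ne'
      refine ⟨_, mem_iUnion.2 ⟨n, ⟨SeparationQuotient.mk ⟨B, hB⟩, rfl⟩⟩, ?_⟩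
      exact hlt

/-- **Existence of sated standard Borel pairs.** -/
theorem exists_sated_std {ι : Type} [Countable ι] (s : ι → ℕ → ℤ) (P : Pair X)
    [hP : StandardBorelSpace P.Ω] :
    ∃ (Q : Pair X) (_ : Ext P Q), StandardBorelSpace Q.Ω ∧
      Sated s (fun Q => StandardBorelSpace Q.Ω) Q := by
  obtain ⟨l, e, hl⟩ := (satExh X s).exists_sated ⟨P, hP⟩
  refine ⟨l.1, e, l.2, ?_, ?_⟩
  · intro Q hQ e' A hA
    exact hl ⟨Q, hQ⟩ e' none (SeparationQuotient.mk ⟨A, hA⟩)
  · intro Q hQ e' A hA i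
    exact hl ⟨Q, hQ⟩ e' (some i) (SeparationQuotient.mk ⟨A, hA⟩)

end Crest.Agent.R069
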