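import Crest.Agent.R069.StdFac

/-!
# Row 69, node STD, part 2: a pair which is sated with respect to standard Borel extensions is
# sated with respect to all extensions; conditional expectation form of satedness.
-/

set_option autoImplicit false

open MeasureTheory Filter Set ProbabilityTheory
open scoped ENNReal Topology

namespace Crest.Agent.R069.Std

section basic

variable {X : Sys} {ι : Type} (s : ι → ℕ → ℤ) (i : ι)

/-- the set `A` placed at the site `i` -/
def sset (M : Sys) (σ : ℕ → ℤ) (A : Set M.Ω) : Set (Lb M.Ω) := intl (fun k => M.S (σ k) ⁻¹' A)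

theorem measurableSet_sset {M : Sys} {σ : ℕ → ℤ} {A : Set M.Ω} (hA : MeasurableSet A) :
    MeasurableSet (sset M σ A) :=
  measurableSet_intl (fun k => (M.S_mp (σ k)).measurable hA)

theorem siteA_le (M : Sys) (σ : ℕ → ℤ) : siteA M σ ≤ (instMSLb : MeasurableSpace (Lb M.Ω)) := by
  refine MeasurableSpace.generateFrom_le ?_
  rintro _ ⟨A, hA, rfl⟩
  exact measurableSet_sset hA

/-- the incomplete version of `rest`. -/
@[implicit_reducible]
noncomputable def rest0 (P : Pair X) : MeasurableSpace (Lb P.Ω) :=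
  (⨆ j, ⨆ _ : j ≠ i, siteA P.toSys (s j)) ⊔ LL P.C

theorem rest_eq (P : Pair X) : rest s i P = rest0 s i P ⊔ nul (lb P.μ) := rfl

theorem rest0_le_rest (P : Pair X) : rest0 s i P ≤ rest s i P := le_sup_left

theorem nul_le_rest (P : Pair X) : nul (lb P.μ) ≤ rest s i P := le_sup_right

theorem rest0_le (P : Pair X) : rest0 s i P ≤ (instMSLb : MeasurableSpace (Lb P.Ω)) := by
  refine sup_le (iSup_le fun j => iSup_le fun _ => siteA_le _ _) ?_
  exact LL_mono P.C_le

theorem rest_le (P : Pair X) : rest s i P ≤ (instMSLb : MeasurableSpace (Lb P.Ω)) :=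
  sup_le (rest0_le s i P) nul_le

theorem aele_nul {α : Type*} {mα : MeasurableSpace α} (μ : Measure α) (m : MeasurableSpace α) :
    AELe μ (@nul α mα μ) m := by
  rintro A ⟨hA, h | h⟩
  · exact ⟨∅, @MeasurableSet.empty _ m, by rwa [ae_eq_empty]⟩
  · exact ⟨univ, @MeasurableSet.univ _ m, by rwa [ae_eq_univ]⟩

theorem aele_rest (P : Pair X) : AELe (lb P.μ) (rest s i P) (rest0 s i P) :=
  AELe.sup AELe.refl (aele_nul _ _)

variable {P Q R : Pair X}

/-- the map of Loeb spaces preserves the measure -/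
theorem mp_Lb (e : Ext P Q) : MeasurePreserving (Lb.mp e.f) (lb Q.μ) (lb P.μ) :=
  measurePreserving_lbmap (f := fun _ => e.f) (fun _ => e.f_mp)

/-- pull back of the sets at a site -/
theorem preimage_sset (e : Ext P Q) (σ : ℕ → ℤ) (A : Set P.Ω) :
    Lb.mp e.f ⁻¹' (sset P.toSys σ A) =ᵐ[lb Q.μ] sset Q.toSys σ (e.f ⁻¹' A) := by
  have key : intl (fun k => e.f ⁻¹' (P.S (σ k) ⁻¹' A)) =ᵐ[lb Q.μ]
      intl (fun k => Q.S (σ k) ⁻¹' (e.f ⁻¹' A)) := by
    refine intl_ae_eq (μ := Q.μ) (fun k => ?_)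
    filter_upwards [e.f_S (σ k)] with x hx
    apply propext
    show P.S (σ k) (e.f x) ∈ A ↔ e.f (Q.S (σ k) x) ∈ A
    rw [hx]
  exact key

theorem preimage_intl (e : Ext P Q) (A : ℕ → Set P.Ω) :
    Lb.mp e.f ⁻¹' (intl A) = intl (fun k => e.f ⁻¹' (A k)) := rfl

theorem comap_rest_le (e : Ext P Q) : (rest s i P).comap (Lb.mp e.f) ≤ rest s i Q := by
  have hmp := mp_Lb e
  unfold rest
  rw [MeasurableSpace.comap_sup, MeasurableSpace.comap_sup]
  refine sup_le (sup_le ?_ ?_) ?_
  · rw [MeasurableSpace.comap_iSup]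
    refine iSup_le fun j => ?_
    rw [MeasurableSpace.comap_iSup]
    refine iSup_le fun hj => ?_
    unfold siteA
    rw [MeasurableSpace.comap_generateFrom]
    refine MeasurableSpace.generateFrom_le ?_
    rintro _ ⟨_, ⟨A, hA, rfl⟩, rfl⟩
    refine measurableSet_of_nul_le (rest_le s i Q) (nul_le_rest s i Q)
      (s := sset Q.toSys (s j) (e.f ⁻¹' A)) ?_ ?_ (preimage_sset e (s j) A)
    · have h1 : siteA Q.toSys (s j) ≤ rest s i Q :=
        ((le_iSup₂ (f := fun j (_ : j ≠ i) => siteA Q.toSys (s j)) j hj).trans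
          le_sup_left).trans le_sup_left
      exact h1 _ (MeasurableSpace.measurableSet_generateFrom ⟨_, e.f_mp.measurable hA, rfl⟩)
    · exact hmp.measurable (measurableSet_sset hA)
  · have h1 : LL Q.C ≤ rest s i Q := le_sup_right.trans le_sup_left
    refine le_trans ?_ h1
    have h2 := comap_lbmap_LL (mβ := P.C) e.f
    have h3 : (LL P.C).comap (Lb.mp e.f) = LL (P.C.comap e.f) := h2
    rw [h3]
    exact LL_mono e.f_C
  · exact (comap_nul_le hmp).trans (nul_le_rest s i Q)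

end basic

section energy

variable {X : Sys} {ι : Type} (s : ι → ℕ → ℤ) (i : ι) {P Q R : Pair X}

/-- from energies to conditional expectations, (S1) for sets -/
theorem s1set_of_en0 (e : Ext P Q) {A : Set P.Ω} (hA : MeasurableSet A)
    (h : en0 Q (e.f ⁻¹' A) = en0 P A) :
    Q.μ[(e.f ⁻¹' A).indicator (fun _ => (1 : ℝ)) | Q.C] =ᵐ[Q.μ]
      P.μ[A.indicator (fun _ => (1 : ℝ)) | P.C] ∘ e.f := by
  have h1 := condExp_comp_mp e.f_mp P.C_le
    ((BdM.indicator (m := P.ms) hA).integrable (μ := P.μ) le_rfl)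
  have h2 : (A.indicator (fun _ => (1 : ℝ))) ∘ e.f = (e.f ⁻¹' A).indicator (fun _ => (1 : ℝ)) :=
    rfl
  rw [h2] at h1
  refine (condExp_eq_of_sq e.f_C Q.C_le
    (BdM.indicator (m := Q.ms) (e.f_mp.measurable hA)) ?_).trans h1
  have h3 : ∫ x, (Q.μ[(e.f ⁻¹' A).indicator (fun _ => (1 : ℝ)) | P.C.comap e.f] x) ^ 2 ∂Q.μ
      = en0 P A := by
    unfold en0
    rw [← integral_comp_mp e.f_mp (F := fun x => (P.μ[A.indicator (fun _ => (1 : ℝ)) | P.C] x) ^ 2)
      ((stronglyMeasurable_condExp.mono P.C_le).aestronglyMeasurable.pow 2)]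
    refine integral_congr_ae ?_
    filter_upwards [h1] with x hx
    rw [hx]
    rfl
  rw [h3, ← h]
  exact le_rfl

/-- from energies to conditional expectations, (S2) for sets -/
theorem s2set_of_en1 (e : Ext P Q) {A : Set P.Ω} (hA : MeasurableSet A)
    (h : en1 s i Q (e.f ⁻¹' A) = en1 s i P A) :
    (lb Q.μ)[(sset P.toSys (s i) A).indicator (fun _ => (1 : ℝ)) ∘ Lb.mp e.f | rest s i Q]
      =ᵐ[lb Q.μ] (lb P.μ)[(sset P.toSys (s i) A).indicator (fun _ => (1 : ℝ)) | rest s i P]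
        ∘ Lb.mp e.f := by
  have hmp := mp_Lb e
  have hm := measurableSet_sset (M := P.toSys) (σ := s i) hA
  have h1 := condExp_comp_mp hmp (rest_le s i P)
    ((BdM.indicator (m := instMSLb) hm).integrable (μ := lb P.μ) le_rfl)
  have hset : (sset P.toSys (s i) A).indicator (fun _ => (1 : ℝ)) ∘ Lb.mp e.f =ᵐ[lb Q.μ]
      (sset Q.toSys (s i) (e.f ⁻¹' A)).indicator (fun _ => (1 : ℝ)) := by
    have h2 : (sset P.toSys (s i) A).indicator (fun _ => (1 : ℝ)) ∘ Lb.mp e.f
        = (Lb.mp e.f ⁻¹' (sset P.toSys (s i) A)).indicator (fun _ => (1 : ℝ)) := rfl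
    rw [h2]
    exact indicator_ae_eq_of_ae_eq_set (preimage_sset e (s i) A)
  have hbd : BdM (instMSLb : MeasurableSpace (Lb Q.Ω))
      ((sset P.toSys (s i) A).indicator (fun _ => (1 : ℝ)) ∘ Lb.mp e.f) := by
    have h2 : (sset P.toSys (s i) A).indicator (fun _ => (1 : ℝ)) ∘ Lb.mp e.f
        = (Lb.mp e.f ⁻¹' (sset P.toSys (s i) A)).indicator (fun _ => (1 : ℝ)) := rfl
    rw [h2]
    exact BdM.indicator (hmp.measurable hm)
  refine (condExp_eq_of_sq (comap_rest_le s i e) (rest_le s i Q) hbd ?_).trans h1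
  have h3 : ∫ x, ((lb Q.μ)[(sset P.toSys (s i) A).indicator (fun _ => (1 : ℝ)) ∘ Lb.mp e.f |
      (rest s i P).comap (Lb.mp e.f)] x) ^ 2 ∂(lb Q.μ) = en1 s i P A := by
    unfold en1
    have h4 := integral_comp_mp hmp
      (F := fun x => ((lb P.μ)[(sset P.toSys (s i) A).indicator (fun _ => (1 : ℝ)) |
        rest s i P] x) ^ 2)
      ((stronglyMeasurable_condExp.mono (rest_le s i P)).aestronglyMeasurable.pow 2)
    refine Eq.trans ?_ h4
    refine integral_congr_ae ?_
    filter_upwards [h1] with x hx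
    rw [hx]
    rfl
  have h5 : ∫ x, ((lb Q.μ)[(sset P.toSys (s i) A).indicator (fun _ => (1 : ℝ)) ∘ Lb.mp e.f |
      rest s i Q] x) ^ 2 ∂(lb Q.μ) = en1 s i Q (e.f ⁻¹' A) := by
    unfold en1
    refine integral_congr_ae ?_
    filter_upwards [condExp_congr_ae (m := rest s i Q) hset] with x hx
    rw [hx]
    rfl
  rw [h3, h5, h]

end energy

section transfer

variable {X : Sys} {ι : Type} (s : ι → ℕ → ℤ) (i : ι) {P Q R : Pair X}

/-- (S1) for a set -/
def S1set (e : Ext P Q) (A : Set P.Ω) : Prop :=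
  Q.μ[(e.f ⁻¹' A).indicator (fun _ => (1 : ℝ)) | Q.C] =ᵐ[Q.μ]
    P.μ[A.indicator (fun _ => (1 : ℝ)) | P.C] ∘ e.f

/-- (S2) for a set at the site `i` -/
def S2set (e : Ext P Q) (A : Set P.Ω) : Prop :=
  (lb Q.μ)[(sset P.toSys (s i) A).indicator (fun _ => (1 : ℝ)) ∘ Lb.mp e.f | rest s i Q]
    =ᵐ[lb Q.μ] (lb P.μ)[(sset P.toSys (s i) A).indicator (fun _ => (1 : ℝ)) | rest s i P]
      ∘ Lb.mp e.f

theorem setIntegral_comp_mp {Ω Ω' : Type*} {mΩ : MeasurableSpace Ω} {mΩ' : MeasurableSpace Ω'}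
    {μ : Measure Ω} {μ' : Measure Ω'} {φ : Ω' → Ω} (hφ : MeasurePreserving φ μ' μ)
    {B : Set Ω} (hB : MeasurableSet B) {F : Ω → ℝ} (hF : AEStronglyMeasurable F μ) :
    ∫ x in φ ⁻¹' B, F (φ x) ∂μ' = ∫ x in B, F x ∂μ := by
  rw [← setIntegral_map hB (by rw [hφ.map_eq]; exact hF) hφ.measurable.aemeasurable, hφ.map_eq]

theorem s1set_transfer [StandardBorelSpace P.Ω]
    (hK : ∀ R : Pair X, StandardBorelSpace R.Ω → ∀ (e0 : Ext P R) (A : Set P.Ω),
      MeasurableSet A → S1set e0 A) (e : Ext P Q) {A : Set P.Ω} (hA : MeasurableSet A) :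
    S1set e A := by
  unfold S1set
  have hgP : AEStronglyMeasurable (P.μ[A.indicator (fun _ => (1 : ℝ)) | P.C]) P.μ :=
    (stronglyMeasurable_condExp.mono P.C_le).aestronglyMeasurable
  refine condExp_eq_of_integral Q.C_le
    ((BdM.indicator (m := Q.ms) (e.f_mp.measurable hA)).integrable le_rfl)
    (e.f_mp.integrable_comp_of_integrable integrable_condExp) ?_ (fun B hB => ?_)
  · have h1 : StronglyMeasurable[P.C.comap e.f] (P.μ[A.indicator (fun _ => (1 : ℝ)) | P.C] ∘ e.f) :=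
      stronglyMeasurable_condExp.comp_measurable (comap_measurable e.f)
    exact (h1.mono e.f_C).aestronglyMeasurable
  obtain ⟨R, hR, e0, e1, A0, B0, h01, -, hA0, hB0, hAe, hBe⟩ := exists_std_factor e
    (A := fun _ => ∅) (B := fun _ => B) (fun _ => MeasurableSet.empty) (fun _ => hB)
  have key := hK R hR e0 A hA
  have hB0' : MeasurableSet[R.ms] (B0 0) := R.C_le _ (hB0 0)
  have hBe' : e1.f ⁻¹' (B0 0) = B := hBe 0
  have hgR : AEStronglyMeasurable (P.μ[A.indicator (fun _ => (1 : ℝ)) | P.C] ∘ e0.f) R.μ :=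
    hgP.comp_measurePreserving e0.f_mp
  have e1a : ∫ x in B, (P.μ[A.indicator (fun _ => (1 : ℝ)) | P.C] ∘ e.f) x ∂Q.μ
      = ∫ x in B0 0, (P.μ[A.indicator (fun _ => (1 : ℝ)) | P.C] ∘ e0.f) x ∂(R.μ) := by
    rw [← hBe', ← setIntegral_comp_mp e1.f_mp hB0' hgR]
    congr 1
    funext x
    show _ = (P.μ[A.indicator (fun _ => (1 : ℝ)) | P.C]) (e0.f (e1.f x))
    rw [h01]
    rfl
  have e2a : ∫ x in B, (e.f ⁻¹' A).indicator (fun _ => (1 : ℝ)) x ∂Q.μ
      = ∫ x in B0 0, (e0.f ⁻¹' A).indicator (fun _ => (1 : ℝ)) x ∂(R.μ) := by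
    rw [← hBe', ← setIntegral_comp_mp e1.f_mp hB0'
      ((BdM.indicator (m := R.ms) (e0.f_mp.measurable hA)).integrable
        (μ := R.μ) le_rfl).aestronglyMeasurable]
    congr 1
    funext x
    show _ = (A.indicator (fun _ => (1 : ℝ))) (e0.f (e1.f x))
    rw [h01]
    rfl
  rw [e1a, e2a, ← setIntegral_condExp R.C_le
    ((BdM.indicator (m := R.ms) (e0.f_mp.measurable hA)).integrable le_rfl) (hB0 0)]
  refine setIntegral_congr_ae hB0' ?_
  filter_upwards [key] with x hx _
  exact hx.symm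

/-- the `π`-system generating `rest0`. -/
def tests (Q : Pair X) : Set (Set (Lb Q.Ω)) :=
  {G | ∃ (A : ι → Set Q.Ω) (B : ℕ → Set Q.Ω), (∀ j, MeasurableSet (A j)) ∧
    (∀ k, MeasurableSet[Q.C] (B k)) ∧
    G = (⋂ j, ⋂ (_ : j ≠ i), sset Q.toSys (s j) (A j)) ∩ intl B}

theorem sset_univ (M : Sys) (σ : ℕ → ℤ) : sset M σ univ = univ := by
  unfold sset
  simp

theorem sset_inter (M : Sys) (σ : ℕ → ℤ) (A B : Set M.Ω) :
    sset M σ (A ∩ B) = sset M σ A ∩ sset M σ B := by
  unfold sset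
  rw [← intl_inter]
  rfl

theorem isPiSystem_tests (Q : Pair X) : IsPiSystem (tests s i Q) := by
  rintro _ ⟨A, B, hA, hB, rfl⟩ _ ⟨A', B', hA', hB', rfl⟩ _
  refine ⟨fun j => A j ∩ A' j, fun k => B k ∩ B' k, fun j => (hA j).inter (hA' j),
    fun k => MeasurableSet.inter (hB k) (hB' k), ?_⟩
  rw [intl_inter]
  ext x
  simp only [mem_inter_iff, mem_iInter, sset_inter]
  constructor
  · rintro ⟨⟨h1, h2⟩, h3, h4⟩
    exact ⟨fun j hj => ⟨h1 j hj, h3 j hj⟩, h2, h4⟩
  · rintro ⟨h1, h2, h4⟩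
    exact ⟨⟨fun j hj => (h1 j hj).1, h2⟩, fun j hj => (h1 j hj).2, h4⟩

theorem rest0_eq_generateFrom [Finite ι] (Q : Pair X) :
    rest0 s i Q = MeasurableSpace.generateFrom (tests s i Q) := by
  classical
  apply le_antisymm
  · refine sup_le (iSup_le fun j => iSup_le fun hj => ?_) ?_
    · refine MeasurableSpace.generateFrom_le ?_
      rintro _ ⟨A, hA, rfl⟩
      refine MeasurableSpace.measurableSet_generateFrom
        ⟨fun j' => if j' = j then A else univ, fun _ => univ, ?_, fun _ => @MeasurableSet.univ _ Q.C,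
          ?_⟩
      · intro j'
        by_cases h : j' = j
        · simp only [h, if_true]; exact hA
        · simp only [h, if_false]; exact MeasurableSet.univ
      · rw [intl_univ, inter_univ]
        ext x
        simp only [mem_iInter]
        constructor
        · intro hx j' _
          by_cases h : j' = j
          · subst h; simp only [if_true]; exact hx
          · simp only [h, if_false]; rw [sset_univ]; trivial
        · intro hx
          have := hx j hj
          simp only [if_true] at this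
          exact this
    · refine MeasurableSpace.generateFrom_le ?_
      rintro _ ⟨B, hB, rfl⟩
      refine MeasurableSpace.measurableSet_generateFrom
        ⟨fun _ => univ, B, fun _ => MeasurableSet.univ, hB, ?_⟩
      simp only [sset_univ, iInter_univ, univ_inter]
  · refine MeasurableSpace.generateFrom_le ?_
    rintro _ ⟨A, B, hA, hB, rfl⟩
    refine MeasurableSet.inter (MeasurableSet.iInter fun j => MeasurableSet.iInter fun hj => ?_) ?_
    · have h1 : siteA Q.toSys (s j) ≤ rest0 s i Q :=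
        (le_iSup₂ (f := fun j (_ : j ≠ i) => siteA Q.toSys (s j)) j hj).trans le_sup_left
      exact h1 _ (MeasurableSpace.measurableSet_generateFrom ⟨_, hA j, rfl⟩)
    · have h1 : LL Q.C ≤ rest0 s i Q := le_sup_right
      exact h1 _ (measurableSet_intl hB)

theorem s2set_transfer [Finite ι] [StandardBorelSpace P.Ω]
    (hK : ∀ R : Pair X, StandardBorelSpace R.Ω → ∀ (e0 : Ext P R) (A : Set P.Ω),
      MeasurableSet A → S2set s i e0 A) (e : Ext P Q) {A : Set P.Ω} (hA : MeasurableSet A) :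
    S2set s i e A := by
  classical
  unfold S2set
  have hmp := mp_Lb e
  have hm := measurableSet_sset (M := P.toSys) (σ := s i) hA
  set u : Lb P.Ω → ℝ := (sset P.toSys (s i) A).indicator (fun _ => (1 : ℝ)) with hu
  have hub : BdM (instMSLb : MeasurableSpace (Lb P.Ω)) u := BdM.indicator hm
  set g : Lb P.Ω → ℝ := (lb P.μ)[u | rest s i P] with hg
  have hgm : AEStronglyMeasurable g (lb P.μ) :=
    (stronglyMeasurable_condExp.mono (rest_le s i P)).aestronglyMeasurable
  have hgi : Integrable g (lb P.μ) := integrable_condExp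
  have hum : AEStronglyMeasurable u (lb P.μ) := (hub.integrable le_rfl).aestronglyMeasurable
  have hubQ : BdM (instMSLb : MeasurableSpace (Lb Q.Ω)) (u ∘ Lb.mp e.f) :=
    ⟨hub.meas.comp hmp.measurable, hub.bdd.imp (fun C hC x => hC _)⟩
  -- the conditional expectation with respect to `rest` is the one w.r.t. `rest0`
  have hr : (lb Q.μ)[u ∘ Lb.mp e.f | rest s i Q] =ᵐ[lb Q.μ]
      (lb Q.μ)[u ∘ Lb.mp e.f | rest0 s i Q] :=
    condExp_eq_of_aele (rest_le s i Q) (rest0_le s i Q) (aele_rest s i Q)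
      (AELe.of_le (rest0_le_rest s i Q)) hubQ
  refine hr.trans ?_
  -- a bounded `rest s i P`-measurable version of `g`
  obtain ⟨G, hG, hgG⟩ := hub.condExp_bm (μ := lb P.μ) (rest_le s i P)
  have hgG' : g ∘ Lb.mp e.f =ᵐ[lb Q.μ] G ∘ Lb.mp e.f := hmp.quasiMeasurePreserving.ae_eq_comp hgG
  have hGQ : BdM (rest s i Q) (G ∘ Lb.mp e.f) :=
    ⟨hG.comp.meas.mono (comap_rest_le s i e) le_rfl, hG.comp.bdd⟩
  have hGQ0 : AEStronglyMeasurable[rest0 s i Q] (g ∘ Lb.mp e.f) (lb Q.μ) := by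
    obtain ⟨G', hG', hGG'⟩ := AELe.exists_bm (rest_le s i Q) (rest0_le s i Q) (aele_rest s i Q) hGQ
    exact ⟨G', hG'.meas.stronglyMeasurable, hgG'.trans hGG'⟩
  have step : ∀ T ∈ tests s i Q, ∫ x in T, (g ∘ Lb.mp e.f) x ∂(lb Q.μ)
      = ∫ x in T, (u ∘ Lb.mp e.f) x ∂(lb Q.μ) := by
    rintro _ ⟨A', B', hA', hB', rfl⟩
    obtain ⟨enc⟩ : Nonempty (Encodable ι) := ⟨Encodable.ofCountable ι⟩
    set A'' : ℕ → Set Q.Ω := fun n => match Encodable.decode (α := ι) n with
      | some j => A' j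
      | none => univ with hA''
    have hA''m : ∀ n, MeasurableSet (A'' n) := by
      intro n
      simp only [hA'']
      cases Encodable.decode (α := ι) n with
      | none => exact MeasurableSet.univ
      | some j => exact hA' j
    have hA''e : ∀ j, A'' (Encodable.encode j) = A' j := by
      intro j
      simp only [hA'', Encodable.encodek]
    obtain ⟨R, hR, e0, e1, A0, B0, h01, -, hA0, hB0, hAe, hBe⟩ := exists_std_factor e
      (A := A'') (B := B') hA''m hB'
    have key : (lb R.μ)[u ∘ Lb.mp e0.f | rest s i R] =ᵐ[lb R.μ] g ∘ Lb.mp e0.f :=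
      hK R hR e0 A hA
    have hmp0 := mp_Lb e0
    have hmp1 := mp_Lb e1
    set T0 : Set (Lb R.Ω) := (⋂ j, ⋂ (_ : j ≠ i), sset R.toSys (s j) (A0 (Encodable.encode j)))
      ∩ intl B0 with hT0
    have hT0mem : T0 ∈ tests s i R := ⟨fun j => A0 (Encodable.encode j), B0,
      fun j => hA0 _, hB0, rfl⟩
    have hT0r : MeasurableSet[rest0 s i R] T0 := by
      rw [rest0_eq_generateFrom]
      exact MeasurableSpace.measurableSet_generateFrom hT0mem
    have hT0m : MeasurableSet[instMSLb] T0 := rest0_le s i R _ hT0r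
    have hT : ((⋂ j, ⋂ (_ : j ≠ i), sset Q.toSys (s j) (A' j)) ∩ intl B' : Set (Lb Q.Ω))
        =ᵐ[lb Q.μ] Lb.mp e1.f ⁻¹' T0 := by
      have h1 : ∀ j, sset Q.toSys (s j) (A' j) =ᵐ[lb Q.μ]
          Lb.mp e1.f ⁻¹' (sset R.toSys (s j) (A0 (Encodable.encode j))) := by
        intro j
        have := preimage_sset e1 (s j) (A0 (Encodable.encode j))
        rw [hAe, hA''e] at this
        exact this.symm
      have h2 : (intl B' : Set (Lb Q.Ω)) = Lb.mp e1.f ⁻¹' (intl B0) := by
        rw [preimage_intl]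
        congr 1
        funext k
        exact (hBe k).symm
      rw [hT0, preimage_inter, ← h2]
      simp only [preimage_iInter]
      refine EventuallyEq.inter ?_ EventuallyEq.rfl
      have h3 : ∀ᵐ x ∂(lb Q.μ), ∀ j, (x ∈ sset Q.toSys (s j) (A' j)) =
          (x ∈ Lb.mp e1.f ⁻¹' (sset R.toSys (s j) (A0 (Encodable.encode j)))) := by
        rw [ae_all_iff]
        intro j
        exact h1 j
      filter_upwards [h3] with x hx
      have h4 : x ∈ (⋂ j, ⋂ (_ : j ≠ i), sset Q.toSys (s j) (A' j)) ↔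
          x ∈ ⋂ j, ⋂ (_ : j ≠ i),
            Lb.mp e1.f ⁻¹' (sset R.toSys (s j) (A0 (Encodable.encode j))) := by
        simp only [mem_iInter]
        constructor
        · intro h j hj
          rw [← hx j]; exact h j hj
        · intro h j hj
          rw [hx j]; exact h j hj
      exact propext h4
    have hcomp : Lb.mp e.f = Lb.mp e0.f ∘ Lb.mp e1.f := by
      funext x
      funext k
      exact (h01 (x k)).symm
    have hgen : ∀ v : Lb P.Ω → ℝ, AEStronglyMeasurable v (lb P.μ) →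
        ∫ x in Lb.mp e1.f ⁻¹' T0, (v ∘ Lb.mp e.f) x ∂(lb Q.μ)
          = ∫ x in T0, (v ∘ Lb.mp e0.f) x ∂(lb R.μ) := by
      intro v hv
      rw [← setIntegral_comp_mp hmp1 hT0m (hv.comp_measurePreserving hmp0), hcomp]
      rfl
    rw [setIntegral_congr_set hT, setIntegral_congr_set hT, hgen g hgm, hgen u hum]
    have hi : Integrable (u ∘ Lb.mp e0.f) (lb R.μ) :=
      hmp0.integrable_comp_of_integrable (hub.integrable le_rfl)
    rw [← setIntegral_condExp (rest_le s i R) hi (rest0_le_rest s i R _ hT0r)]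
    refine setIntegral_congr_ae hT0m ?_
    filter_upwards [key] with x hx _
    exact hx.symm
  refine condExp_eq_of_piSystem (rest0_le s i Q) (rest0_eq_generateFrom s i Q)
    (isPiSystem_tests s i Q) (hubQ.integrable le_rfl)
    (hmp.integrable_comp_of_integrable hgi) hGQ0 ?_ step
  have huniv : (univ : Set (Lb Q.Ω)) ∈ tests s i Q := by
    refine ⟨fun _ => univ, fun _ => univ, fun _ => MeasurableSet.univ,
      fun _ => @MeasurableSet.univ _ Q.C, ?_⟩
    simp only [sset_univ, iInter_univ, univ_inter, intl_univ]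
  have := step _ huniv
  simpa using this

end transfer

section final

/-- from a generating `π`-system of sets to bounded functions -/
theorem condExp_comp_of_piSystem {Ω Ω' : Type*} {mΩ : MeasurableSpace Ω}
    {mΩ' : MeasurableSpace Ω'} {μ : Measure Ω} {μ' : Measure Ω'} [IsFiniteMeasure μ]
    [IsFiniteMeasure μ'] {φ : Ω' → Ω} (hφ : MeasurePreserving φ μ' μ)
    {m m₁ : MeasurableSpace Ω} {m' : MeasurableSpace Ω'} (hm : m ≤ mΩ) (h₁ : m₁ ≤ mΩ)
    (hm' : m' ≤ mΩ') (hmm' : m.comap φ ≤ m') {S : Set (Set Ω)}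
    (hS : m₁ = MeasurableSpace.generateFrom S) (hpi : IsPiSystem S)
    (h : ∀ A ∈ S, μ'[A.indicator (fun _ => (1 : ℝ)) ∘ φ | m'] =ᵐ[μ']
      μ[A.indicator (fun _ => (1 : ℝ)) | m] ∘ φ) {f : Ω → ℝ} (hf : BdM m₁ f) :
    μ'[f ∘ φ | m'] =ᵐ[μ'] μ[f | m] ∘ φ := by
  have hsup : m' ⊔ m.comap φ = m' := sup_eq_left.2 hmm'
  have hci : CI μ' (m₁.comap φ) m' (m.comap φ) := by
    refine ci_of_piSystem (S := {T | ∃ A ∈ S, φ ⁻¹' A = T}) (comap_le_of_mp hφ h₁) hm'
      (comap_le_of_mp hφ hm) ?_ ?_ ?_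
    · rw [hS, MeasurableSpace.comap_generateFrom]
      rfl
    · exact hpi.comap φ
    · rintro _ ⟨A, hA, rfl⟩
      rw [hsup]
      have hA₁ : MeasurableSet[m₁] A := hS ▸ MeasurableSpace.measurableSet_generateFrom hA
      have h1 := condExp_comp_mp hφ hm ((BdM.indicator hA₁).integrable (μ := μ) h₁)
      exact (h A hA).trans h1.symm
  have h2 := hci (f ∘ φ) hf.comp
  rw [hsup] at h2
  exact h2.trans (condExp_comp_mp hφ hm (hf.integrable h₁))

variable {X : Sys} {ι : Type} {s : ι → ℕ → ℤ} {P Q : Pair X}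

/-- the class of standard Borel pairs -/
def StdB (Q : Pair X) : Prop := StandardBorelSpace Q.Ω

theorem s1set_of_sated [StandardBorelSpace P.Ω] (h : Sated s StdB P) (e : Ext P Q)
    {A : Set P.Ω} (hA : MeasurableSet A) : S1set e A :=
  s1set_transfer (fun R hR e0 A hA => s1set_of_en0 e0 hA (h.sated0 R hR e0 A hA)) e hA

theorem s2set_of_sated [Finite ι] [StandardBorelSpace P.Ω] (h : Sated s StdB P) (e : Ext P Q)
    (i : ι) {A : Set P.Ω} (hA : MeasurableSet A) : S2set s i e A :=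
  s2set_transfer s i
    (fun R hR e0 A hA => s2set_of_en1 s i e0 hA (h.sated1 R hR e0 A hA i)) e hA

/-- **STD**: satedness with respect to standard Borel extensions implies satedness with respect
to all extensions. -/
theorem Sated.all [Finite ι] [StandardBorelSpace P.Ω] (h : Sated s StdB P) :
    Sated s (fun _ => True) P := by
  refine ⟨fun Q _ e A hA => ?_, fun Q _ e A hA i => ?_⟩
  · have h1 := s1set_of_sated h e hA
    unfold S1set at h1
    unfold en0
    rw [← integral_comp_mp e.f_mp (F := fun x => (P.μ[A.indicator (fun _ => (1 : ℝ)) | P.C] x) ^ 2)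
      ((stronglyMeasurable_condExp.mono P.C_le).aestronglyMeasurable.pow 2)]
    refine integral_congr_ae ?_
    filter_upwards [h1] with x hx
    rw [hx]
    rfl
  · have h1 := s2set_of_sated h e i hA
    unfold S2set at h1
    have hset : (sset P.toSys (s i) A).indicator (fun _ => (1 : ℝ)) ∘ Lb.mp e.f =ᵐ[lb Q.μ]
        (sset Q.toSys (s i) (e.f ⁻¹' A)).indicator (fun _ => (1 : ℝ)) := by
      have h2 : (sset P.toSys (s i) A).indicator (fun _ => (1 : ℝ)) ∘ Lb.mp e.f
          = (Lb.mp e.f ⁻¹' (sset P.toSys (s i) A)).indicator (fun _ => (1 : ℝ)) := rfl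
      rw [h2]
      exact indicator_ae_eq_of_ae_eq_set (preimage_sset e (s i) A)
    unfold en1
    have h4 := integral_comp_mp (mp_Lb e)
      (F := fun x => ((lb P.μ)[(sset P.toSys (s i) A).indicator (fun _ => (1 : ℝ)) |
        rest s i P] x) ^ 2)
      ((stronglyMeasurable_condExp.mono (rest_le s i P)).aestronglyMeasurable.pow 2)
    refine Eq.trans ?_ h4
    refine integral_congr_ae ?_
    filter_upwards [h1, condExp_congr_ae (m := rest s i Q) hset] with x hx hx'
    have h5 : ((lb Q.μ)[(intl (fun k => Q.S (s i k) ⁻¹' (e.f ⁻¹' A))).indicator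
        (fun _ => (1 : ℝ)) | rest s i Q]) x
        = ((lb Q.μ)[(sset P.toSys (s i) A).indicator (fun _ => (1 : ℝ)) ∘ Lb.mp e.f |
          rest s i Q]) x := hx'.symm
    rw [h5, hx]
    rfl

/-- **(S1)** for bounded functions and arbitrary extensions. -/
theorem S1_fun [StandardBorelSpace P.Ω] (h : Sated s StdB P) (e : Ext P Q) {f : P.Ω → ℝ}
    (hf : BdM P.ms f) : Q.μ[f ∘ e.f | Q.C] =ᵐ[Q.μ] P.μ[f | P.C] ∘ e.f :=
  condExp_comp_of_piSystem e.f_mp P.C_le le_rfl Q.C_le e.f_C
    (S := {A | MeasurableSet[P.ms] A}) (@MeasurableSpace.generateFrom_measurableSet _ P.ms).symm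
    (@MeasurableSpace.isPiSystem_measurableSet _ P.ms) (fun _ hA => s1set_of_sated h e hA) hf

theorem siteA_generate (M : Sys) (σ : ℕ → ℤ) :
    siteA M σ = MeasurableSpace.generateFrom {B | ∃ A : Set M.Ω, MeasurableSet A ∧
      B = sset M σ A} := rfl

theorem isPiSystem_siteA (M : Sys) (σ : ℕ → ℤ) :
    IsPiSystem {B | ∃ A : Set M.Ω, MeasurableSet A ∧ B = sset M σ A} := by
  rintro _ ⟨A, hA, rfl⟩ _ ⟨A', hA', rfl⟩ _
  exact ⟨A ∩ A', hA.inter hA', (sset_inter M σ A A').symm⟩

/-- **(S2)** for bounded functions measurable with respect to the site, arbitrary extensions. -/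
theorem S2_fun [Finite ι] [StandardBorelSpace P.Ω] (h : Sated s StdB P) (e : Ext P Q) (i : ι)
    {g : Lb P.Ω → ℝ} (hg : BdM (siteA P.toSys (s i)) g) :
    (lb Q.μ)[g ∘ Lb.mp e.f | rest s i Q] =ᵐ[lb Q.μ] (lb P.μ)[g | rest s i P] ∘ Lb.mp e.f := by
  refine condExp_comp_of_piSystem (mp_Lb e) (rest_le s i P) (siteA_le P.toSys (s i))
    (rest_le s i Q) (comap_rest_le s i e) (siteA_generate P.toSys (s i))
    (isPiSystem_siteA P.toSys (s i)) ?_ hg
  rintro _ ⟨A, hA, rfl⟩
  exact s2set_of_sated h e i hA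

end final

end Crest.Agent.R069.Std
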