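import Crest.Agent.R069.SatOut
import Crest.Agent.R069.Std
import Crest.Agent.R069.Iface

/-!
# Row 69, node SAT: N_SAT from the existence of pairs sated against standard Borel extensions
-/

set_option autoImplicit false

open MeasureTheory Filter Set
open scoped ENNReal Topology

namespace Crest.Agent.R069.SatTop

open Crest.Agent.R069

/-- (S1) and (S2) against all extensions from satedness against standard Borel ones. -/
theorem out_of_std {X : Sys} {ι : Type} [Finite ι] {s : ι → ℕ → ℤ} {P : Pair X}
    [StandardBorelSpace P.Ω] (h : Sated s Std.StdB P) : S1 P ∧ S2 s P := by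
  have h2 : Sated s (fun _ => True) P := Std.Sated.all h
  exact ⟨fun Q e => (SatEn.Sated.out h2 Q trivial e).1,
    fun Q e => (SatEn.Sated.out h2 Q trivial e).2⟩

/-- N_SAT from the existence of pairs sated against the standard Borel extensions. -/
theorem n_sat_of (h : ∀ (X : Sys), StandardBorelSpace X.Ω → ∀ (P : Pair X),
    StandardBorelSpace P.Ω → ∀ (ι : Type) [Fintype ι] (s : ι → ℕ → ℤ),
      ∃ (Q : Pair X) (_ : Ext P Q), Std.StdB Q ∧ Sated s Std.StdB Q) : N_SAT := by
  intro X hX P hP ι _ s
  obtain ⟨Q, e, hQ, hs⟩ := h X hX P hP ι s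
  have : StandardBorelSpace Q.Ω := hQ
  exact ⟨Q, e, hQ, (out_of_std hs).1, (out_of_std hs).2⟩

end Crest.Agent.R069.SatTop
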