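import Crest.Agent.R069.SatEx
import Crest.Agent.R069.SatTop

/-!
# Row 69: N_SAT
-/

set_option autoImplicit false

open MeasureTheory Filter Set

namespace Crest.Agent.R069

/-- **N_SAT**: existence of sated pairs. -/
theorem n_sat : N_SAT :=
  SatTop.n_sat_of fun _ _ P hP _ _ s => @exists_sated_std _ _ _ s P hP

end Crest.Agent.R069
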