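import Crest.Agent.R069.SatSite
import Crest.Agent.R069.Defs

/-!
# Row 69, node SAT: from constant energies to (S1) and (S2) (frozen definitions)
-/

set_option autoImplicit false

open MeasureTheory Filter Set
open scoped ENNReal Topology symmDiff

namespace Crest.Agent.R069.SatEn

open Crest.Agent.R069

/-- null and co-null sets pull back to null and co-null sets. -/
theorem comap_nul_le {α β : Type*} [mα : MeasurableSpace α] [mβ : MeasurableSpace β]
    {μ : Measure α} {ν : Measure β} {f : α → β} (hf : MeasurePreserving f μ ν) :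
    (nul ν).comap f ≤ nul μ := by
  rintro _ ⟨A, ⟨hA, h⟩, rfl⟩
  refine ⟨hf.measurable hA, ?_⟩
  rcases h with h | h
  · left; rw [hf.measure_preimage hA.nullMeasurableSet]; exact h
  · right
    rw [← preimage_compl, hf.measure_preimage hA.compl.nullMeasurableSet]; exact h

variable {X : Sys}

/-- the complete rest sigma-algebras increase along extensions (modulo null sets). -/
theorem aele_rest {ι : Type} (s : ι → ℕ → ℤ) (i : ι) {P Q : Pair X} (e : Ext P Q) :
    AELe (lb Q.μ) ((rest s i P).comap (Lb.mp e.f)) (rest s i Q) := by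
  unfold rest
  rw [MeasurableSpace.comap_sup]
  refine AELe.sup_sup ?_ (AELe.of_le (comap_nul_le (measurePreserving_lbmap fun _ => e.f_mp)))
  exact aele_restT (mC := P.C) (mC' := Q.C) (T := fun j k => P.S (s j k))
    (T' := fun j k => Q.S (s j k)) i e.f_mp.measurable (fun j k => e.f_S (s j k))
    (AELe.of_le e.f_C)

theorem rest_le_LL {ι : Type} (s : ι → ℕ → ℤ) (i : ι) (P : Pair X) : rest s i P ≤ LL P.ms :=
  restM_le s i P.toSys le_rfl P.C_le

/-- (S1) from constant energies. -/
theorem S1At_of_en {P Q : Pair X} (e : Ext P Q)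
    (h : ∀ A : Set P.Ω, MeasurableSet A → en0 Q (e.f ⁻¹' A) ≤ en0 P A) : S1At P Q e := by
  intro f hf
  exact S1_of_enS e.f_mp P.C_le Q.C_le (AELe.of_le e.f_C) h ⟨hf.1, hf.2⟩

/-- (S2) from constant energies. -/
theorem S2At_of_en {ι : Type} {s : ι → ℕ → ℤ} {P Q : Pair X} (e : Ext P Q)
    (h : ∀ A : Set P.Ω, MeasurableSet A → ∀ i, en1 s i Q (e.f ⁻¹' A) ≤ en1 s i P A) :
    S2At s P Q e := by
  intro i f hf
  exact S2_of_enS (T := fun k => P.S (s i k)) (T' := fun k => Q.S (s i k)) e.f_mp
    (fun k => (P.S_mp _).measurable) (fun k => (Q.S_mp _).measurable) (fun k => e.f_S _)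
    (rest_le_LL s i P) (rest_le_LL s i Q) (aele_rest s i e) (fun A hA => h A hA i) ⟨hf.1, hf.2⟩

/-- (S1), (S2) against the extensions in the class `K`. -/
theorem Sated.out {ι : Type} {s : ι → ℕ → ℤ} {K : Pair X → Prop} {P : Pair X} (h : Sated s K P)
    (Q : Pair X) (hQ : K Q) (e : Ext P Q) : S1At P Q e ∧ S2At s P Q e :=
  ⟨S1At_of_en e fun A hA => (h.sated0 Q hQ e A hA).le,
    S2At_of_en e fun A hA i => (h.sated1 Q hQ e A hA i).le⟩

end Crest.Agent.R069.SatEn
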