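import Crest.Agent.R069.SatEn
import Crest.Agent.R069.LoebLift

/-!
# Row 69, node SAT: sites on Loeb spaces, energies of site sets, outputs (S1), (S2)

Unbundled: `T k : Ω → Ω` (`T k = S (s k)`), `f : Ω' → Ω` measure preserving and a.e. equivariant.
-/

set_option autoImplicit false
set_option linter.unusedSectionVars false
set_option linter.unusedVariables false

open MeasureTheory Filter Set
open scoped ENNReal Topology symmDiff

namespace Crest.Agent.R069.SatEn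

open Crest.Agent.R069

section induct

variable {Ω : Type*} {mΩ : MeasurableSpace Ω}

/-- Induction principle for bounded measurable functions: indicators, linear combinations,
uniform limits. -/
theorem bdd_induct {P : (Ω → ℝ) → Prop} (h_ind : ∀ A, MeasurableSet A → P (ind A))
    (h_lin : ∀ (c : ℝ) (f g : Ω → ℝ), BdM mΩ f → BdM mΩ g → P f → P g →
      P (fun x => c * f x + g x))
    (h_lim : ∀ f, BdM mΩ f → (∀ ε > 0, ∃ g, BdM mΩ g ∧ P g ∧ ∀ x, |f x - g x| ≤ ε) → P f) :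
    ∀ f, BdM mΩ f → P f := by
  classical
  intro f hf
  refine h_lim f hf fun ε hε => ?_
  obtain ⟨C, hC⟩ := hf.bdd
  obtain ⟨N, hN⟩ := exists_nat_one_div_lt hε
  set n : ℝ := (N : ℝ) + 1 with hn
  have hnpos : 0 < n := by positivity
  obtain ⟨M, hM⟩ := exists_nat_gt (n * C + 1)
  set s : Finset ℤ := Finset.Icc (-(M : ℤ)) (M : ℤ) with hs
  set A : ℤ → Set Ω := fun j => {x | ⌊n * f x⌋ = j} with hA
  have hAm : ∀ j, MeasurableSet (A j) := by
    intro j
    have h1 : Measurable (fun x => ⌊n * f x⌋) :=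
      Int.measurable_floor.comp (hf.meas.const_mul n)
    exact h1 (measurableSet_singleton j)
  have hfl : ∀ x, ⌊n * f x⌋ ∈ s := by
    intro x
    have h1 := hC x
    have h2 : |n * f x| ≤ n * C := by
      rw [abs_mul, abs_of_pos hnpos]
      gcongr
    rw [abs_le] at h2
    rw [hs, Finset.mem_Icc]
    constructor
    · rw [Int.le_floor]
      push_cast
      linarith [h2.1]
    · have : (⌊n * f x⌋ : ℝ) ≤ M := by
        have := Int.floor_le (n * f x)
        linarith [h2.2]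
      exact_mod_cast this
  have hsum : ∀ t : Finset ℤ, BdM mΩ (fun x => ∑ j ∈ t, ((j : ℝ) / n) * ind (A j) x) ∧
      P (fun x => ∑ j ∈ t, ((j : ℝ) / n) * ind (A j) x) := by
    intro t
    induction t using Finset.induction_on with
    | empty =>
      have h0 : (fun x : Ω => ∑ j ∈ (∅ : Finset ℤ), ((j : ℝ) / n) * ind (A j) x)
          = ind (∅ : Set Ω) := by
        funext x; simp [ind]
      rw [h0]
      exact ⟨bm_ind MeasurableSet.empty, h_ind _ MeasurableSet.empty⟩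
    | insert j t hj ih =>
      have h1 : (fun x : Ω => ∑ i ∈ insert j t, ((i : ℝ) / n) * ind (A i) x)
          = fun x => ((j : ℝ) / n) * ind (A j) x + ∑ i ∈ t, ((i : ℝ) / n) * ind (A i) x := by
        funext x; rw [Finset.sum_insert hj]
      rw [h1]
      exact ⟨((bm_ind (hAm j)).const_mul _).add ih.1,
        h_lin _ _ _ (bm_ind (hAm j)) ih.1 (h_ind _ (hAm j)) ih.2⟩
  refine ⟨_, (hsum s).1, (hsum s).2, fun x => ?_⟩
  have h1 : ∑ j ∈ s, ((j : ℝ) / n) * ind (A j) x = (⌊n * f x⌋ : ℝ) / n := by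
    rw [Finset.sum_eq_single_of_mem _ (hfl x)]
    · have : x ∈ A ⌊n * f x⌋ := rfl
      rw [ind, indicator_of_mem this, mul_one]
    · intro j _ hj
      have : x ∉ A j := fun hx => hj (by rw [← hx])
      rw [ind, indicator_of_notMem this, mul_zero]
  show |f x - ∑ j ∈ s, ((j : ℝ) / n) * ind (A j) x| ≤ ε
  rw [h1]
  have h2 := Int.floor_le (n * f x)
  have h3 := Int.lt_floor_add_one (n * f x)
  have h4 : f x - (⌊n * f x⌋ : ℝ) / n = (n * f x - ⌊n * f x⌋) / n := by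
    field_simp
  rw [h4, abs_of_nonneg (div_nonneg (by linarith) hnpos.le)]
  have h5 : (n * f x - ⌊n * f x⌋) / n ≤ 1 / n := by
    gcongr
    linarith
  have h6 : 1 / n < ε := hN
  linarith

/-- If two functions are uniformly close, so are their conditional expectations. -/
theorem condExp_close {Ω : Type*} {m mΩ : MeasurableSpace Ω} {μ : Measure Ω}
    [IsProbabilityMeasure μ] {f g : Ω → ℝ} (hf : Integrable f μ) (hg : Integrable g μ) {ε : ℝ}
    (h : ∀ᵐ x ∂μ, |f x - g x| ≤ ε) : ∀ᵐ x ∂μ, |(μ[f | m]) x - (μ[g | m]) x| ≤ ε := by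
  have h1 : ∀ᵐ x ∂μ, |(f - g) x| ≤ ε := by
    filter_upwards [h] with x hx
    simpa using hx
  have h2 := ae_bdd_abs_condExp_of_ae_bdd_abs (m := m) h1
  filter_upwards [h2, condExp_sub hf hg m] with x hx hy
  rw [hy, Pi.sub_apply] at hx
  exact hx

end induct


theorem ind_congr_ae {Ω : Type*} {mΩ : MeasurableSpace Ω} {μ : Measure Ω} {A B : Set Ω}
    (h : A =ᵐ[μ] B) : ind A =ᵐ[μ] ind B :=
  indicator_ae_eq_of_ae_eq_set h

section transfer

/-- Transfer of conditional expectation identities from sets to bounded functions. -/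
theorem condExp_transfer {Ω Y Y' : Type*} {mΩ : MeasurableSpace Ω} {m₁ mY : MeasurableSpace Y}
    {m₂ mY' : MeasurableSpace Y'} {ν : Measure Y} {ν' : Measure Y'} [IsProbabilityMeasure ν]
    [IsProbabilityMeasure ν'] {F : Y' → Y} (hF : MeasurePreserving F ν' ν)
    (Φ : (Ω → ℝ) → Y → ℝ) (Φ' : (Ω → ℝ) → Y' → ℝ)
    (hint : ∀ {u : Ω → ℝ}, BdM mΩ u → Integrable (Φ u) ν)
    (hint' : ∀ {u : Ω → ℝ}, BdM mΩ u → Integrable (Φ' u) ν')
    (hlin : ∀ (c : ℝ) {u v : Ω → ℝ}, BdM mΩ u → BdM mΩ v →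
      Φ (fun x => c * u x + v x) = c • Φ u + Φ v)
    (hlin' : ∀ (c : ℝ) {u v : Ω → ℝ}, BdM mΩ u → BdM mΩ v →
      Φ' (fun x => c * u x + v x) = c • Φ' u + Φ' v)
    (hlip : ∀ {u v : Ω → ℝ} {ε : ℝ}, BdM mΩ u → BdM mΩ v → (∀ x, |u x - v x| ≤ ε) →
      ∀ y, |Φ u y - Φ v y| ≤ ε)
    (hlip' : ∀ {u v : Ω → ℝ} {ε : ℝ}, BdM mΩ u → BdM mΩ v → (∀ x, |u x - v x| ≤ ε) →
      ∀ y, |Φ' u y - Φ' v y| ≤ ε)
    (hset : ∀ A, MeasurableSet[mΩ] A → ν'[Φ' (ind A) | m₂] =ᵐ[ν'] (ν[Φ (ind A) | m₁]) ∘ F)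
    {g : Ω → ℝ} (hg : BdM mΩ g) : ν'[Φ' g | m₂] =ᵐ[ν'] (ν[Φ g | m₁]) ∘ F := by
  refine bdd_induct (mΩ := mΩ) (P := fun g => ν'[Φ' g | m₂] =ᵐ[ν'] (ν[Φ g | m₁]) ∘ F)
    hset ?_ ?_ g hg
  · intro c u v hu hv h1 h2
    have e1 : ν'[Φ' (fun x => c * u x + v x) | m₂] =ᵐ[ν'] c • ν'[Φ' u | m₂] + ν'[Φ' v | m₂] := by
      rw [hlin' c hu hv]
      exact (condExp_add ((hint' hu).smul c) (hint' hv) m₂).trans
        ((condExp_smul c (Φ' u) m₂).add (EventuallyEq.refl _ _))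
    have e2 : ν[Φ (fun x => c * u x + v x) | m₁] =ᵐ[ν] c • ν[Φ u | m₁] + ν[Φ v | m₁] := by
      rw [hlin c hu hv]
      exact (condExp_add ((hint hu).smul c) (hint hv) m₁).trans
        ((condExp_smul c (Φ u) m₁).add (EventuallyEq.refl _ _))
    have e3 := hF.quasiMeasurePreserving.ae_eq_comp e2
    filter_upwards [e1, e3, h1, h2] with x h3 h4 h5 h6
    rw [h3, h4]
    simp only [Pi.add_apply, Pi.smul_apply, Function.comp, smul_eq_mul] at h5 h6 ⊢
    rw [h5, h6]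
  · intro u hu hap
    have hn : ∀ n : ℕ, ∀ᵐ x ∂ν', |(ν'[Φ' u | m₂]) x - ((ν[Φ u | m₁]) ∘ F) x|
        ≤ 2 * (1 / ((n : ℝ) + 1)) := by
      intro n
      obtain ⟨v, hv, hvP, huv⟩ := hap (1 / ((n : ℝ) + 1)) (by positivity)
      have c1 := condExp_close (m := m₂) (hint' hu) (hint' hv) (ε := 1 / ((n : ℝ) + 1))
        (Eventually.of_forall fun x => hlip' hu hv huv x)
      have c2 := condExp_close (m := m₁) (hint hu) (hint hv) (ε := 1 / ((n : ℝ) + 1))
        (Eventually.of_forall fun x => hlip hu hv huv x)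
      have c3 := hF.quasiMeasurePreserving.ae c2
      filter_upwards [c1, c3, hvP] with x h1 h2 h3
      have h3' : (ν'[Φ' v | m₂]) x = (ν[Φ v | m₁]) (F x) := h3
      have e : (ν'[Φ' u | m₂]) x - (ν[Φ u | m₁]) (F x)
          = ((ν'[Φ' u | m₂]) x - (ν'[Φ' v | m₂]) x)
            + ((ν[Φ v | m₁]) (F x) - (ν[Φ u | m₁]) (F x)) := by
        rw [h3']; ring
      show |(ν'[Φ' u | m₂]) x - (ν[Φ u | m₁]) (F x)| ≤ 2 * (1 / ((n : ℝ) + 1))
      calc |(ν'[Φ' u | m₂]) x - (ν[Φ u | m₁]) (F x)|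
          ≤ |(ν'[Φ' u | m₂]) x - (ν'[Φ' v | m₂]) x|
            + |(ν[Φ v | m₁]) (F x) - (ν[Φ u | m₁]) (F x)| := by rw [e]; exact abs_add_le _ _
        _ ≤ 1 / ((n : ℝ) + 1) + 1 / ((n : ℝ) + 1) := by
            refine add_le_add h1 ?_
            rw [abs_sub_comm]; exact h2
        _ = 2 * (1 / ((n : ℝ) + 1)) := by ring
    have hall := ae_all_iff.2 hn
    filter_upwards [hall] with x hx
    have ht : Tendsto (fun n : ℕ => 2 * (1 / ((n : ℝ) + 1))) atTop (𝓝 (2 * 0)) :=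
      tendsto_one_div_add_atTop_nhds_zero_nat.const_mul 2
    rw [mul_zero] at ht
    have h0 : |(ν'[Φ' u | m₂]) x - ((ν[Φ u | m₁]) ∘ F) x| ≤ 0 :=
      ge_of_tendsto' ht hx
    have := abs_nonpos_iff.1 h0
    linarith

end transfer

section S1

variable {Ω Ω' : Type*} {m mΩ : MeasurableSpace Ω} {m' mΩ' : MeasurableSpace Ω'}
  {μ : Measure Ω} {μ' : Measure Ω'} [IsProbabilityMeasure μ] [IsProbabilityMeasure μ']

/-- **Output (S1)**: if the energies of sets do not increase, conditional expectations of bounded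
functions do not change. -/
theorem S1_of_enS {f : Ω' → Ω} (hf : MeasurePreserving f μ' μ) (hm : m ≤ mΩ) (hm' : m' ≤ mΩ')
    (h : AELe μ' (m.comap f) m')
    (hle : ∀ A, MeasurableSet[mΩ] A → enS μ' m' (f ⁻¹' A) ≤ enS μ m A)
    {g : Ω → ℝ} (hg : BdM mΩ g) : μ'[g ∘ f | m'] =ᵐ[μ'] (μ[g | m]) ∘ f := by
  refine condExp_transfer (mΩ := mΩ) hf (fun u => u) (fun u => u ∘ f)
    (fun hu => hu.integrable le_rfl)
    (fun hu => hf.integrable_comp_of_integrable (hu.integrable le_rfl))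
    (fun c u v _ _ => rfl) (fun c u v _ _ => rfl) (fun _ _ h y => h y) (fun _ _ h y => h (f y))
    ?_ hg
  intro A hA
  show μ'[ind A ∘ f | m'] =ᵐ[μ'] (μ[ind A | m]) ∘ f
  rw [← ind_preimage]
  exact condExp_eq_of_enS_map hf hm hm' h hA (hle A hA)

end S1

section site

variable {Ω Ω' : Type*} {mΩ : MeasurableSpace Ω} {mΩ' : MeasurableSpace Ω'}
  {μ : Measure Ω} {μ' : Measure Ω'}

/-- the sigma-algebra of the standard sets placed by the sequence of maps `T k`. -/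
@[implicit_reducible]
def siteT {Ω : Type*} [MeasurableSpace Ω] (T : ℕ → Ω → Ω) : MeasurableSpace (Lb Ω) :=
  MeasurableSpace.generateFrom {B | ∃ A : Set Ω, MeasurableSet A ∧ B = intl (fun k => T k ⁻¹' A)}

theorem siteT_le (T : ℕ → Ω → Ω) (hT : ∀ k, Measurable (T k)) : siteT T ≤ LL mΩ := by
  refine MeasurableSpace.generateFrom_le ?_
  rintro _ ⟨A, hA, rfl⟩
  exact measurableSet_intl fun k => hT k hA

theorem measurableSet_siteT (T : ℕ → Ω → Ω) {A : Set Ω} (hA : MeasurableSet A) :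
    MeasurableSet[siteT T] (intl (fun k => T k ⁻¹' A)) :=
  MeasurableSpace.measurableSet_generateFrom ⟨A, hA, rfl⟩

variable [IsProbabilityMeasure μ] [IsProbabilityMeasure μ'] {f : Ω' → Ω}
  {T : ℕ → Ω → Ω} {T' : ℕ → Ω' → Ω'}

theorem intl_site_ae (heq : ∀ k, (fun x => f (T' k x)) =ᵐ[μ'] fun x => T k (f x)) (A : Set Ω) :
    (lbmap (fun _ => f)) ⁻¹' (intl (fun k => T k ⁻¹' A))
      =ᵐ[lb μ'] intl (fun k => T' k ⁻¹' (f ⁻¹' A)) := by
  rw [lbmap_preimage]
  refine intl_ae_eq fun k => ?_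
  filter_upwards [heq k] with x hx
  apply propext
  show T k (f x) ∈ A ↔ f (T' k x) ∈ A
  rw [hx]

theorem aele_siteT (hf : Measurable f)
    (heq : ∀ k, (fun x => f (T' k x)) =ᵐ[μ'] fun x => T k (f x)) :
    AELe (lb μ') ((siteT T).comap (lbmap (fun _ => f))) (siteT T') := by
  unfold siteT
  rw [MeasurableSpace.comap_generateFrom]
  refine AELe.generateFrom ?_
  rintro _ ⟨_, ⟨A, hA, rfl⟩, rfl⟩
  exact ⟨_, measurableSet_siteT T' (hf hA), intl_site_ae heq A⟩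

theorem aele_LL_of_aele {Ω : Type*} {m₁ m₂ : MeasurableSpace Ω} [mΩ : MeasurableSpace Ω]
    {μ : Measure Ω} [IsProbabilityMeasure μ] (h₂ : AELe μ m₁ m₂) :
    AELe (lb μ) (LL m₁) (LL m₂) := by
  refine AELe.generateFrom ?_
  rintro _ ⟨A, hA, rfl⟩
  choose B hB hAB using fun k => h₂ (A k) (hA k)
  exact ⟨intl B, measurableSet_intl hB, intl_ae_eq hAB⟩

theorem aele_comap_LL {Ω Ω' : Type*} {mC : MeasurableSpace Ω} {mC' : MeasurableSpace Ω'}
    [mΩ' : MeasurableSpace Ω'] {μ' : Measure Ω'} [IsProbabilityMeasure μ'] {f : Ω' → Ω}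
    (h : AELe μ' (mC.comap f) mC') :
    AELe (lb μ') ((LL mC).comap (lbmap (fun _ => f))) (LL mC') := by
  rw [comap_lbmap_LL]
  exact aele_LL_of_aele h

/-- everything except the site `i`. -/
@[implicit_reducible]
def restT {Ω : Type*} (mC : MeasurableSpace Ω) [mΩ : MeasurableSpace Ω] {ι : Type*}
    (T : ι → ℕ → Ω → Ω) (i : ι) : MeasurableSpace (Lb Ω) :=
  (⨆ j, ⨆ _ : j ≠ i, siteT (T j)) ⊔ LL mC

theorem restT_le {Ω : Type*} {mC : MeasurableSpace Ω} [mΩ : MeasurableSpace Ω] {ι : Type*}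
    (T : ι → ℕ → Ω → Ω) (hT : ∀ i k, Measurable (T i k)) (i : ι)
    (hC : mC ≤ mΩ) : restT mC T i ≤ LL mΩ :=
  sup_le (iSup_le fun j => iSup_le fun _ => siteT_le (T j) (hT j)) (LL_mono hC)

theorem aele_restT {Ω Ω' : Type*} {mC : MeasurableSpace Ω} {mC' : MeasurableSpace Ω'}
    [mΩ : MeasurableSpace Ω] [mΩ' : MeasurableSpace Ω'] {μ' : Measure Ω'}
    [IsProbabilityMeasure μ'] {f : Ω' → Ω} {ι : Type*} {T : ι → ℕ → Ω → Ω}
    {T' : ι → ℕ → Ω' → Ω'} (i : ι) (hf : Measurable f)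
    (heq : ∀ j k, (fun x => f (T' j k x)) =ᵐ[μ'] fun x => T j k (f x))
    (h : AELe μ' (mC.comap f) mC') :
    AELe (lb μ') ((restT mC T i).comap (lbmap (fun _ => f))) (restT mC' T' i) := by
  unfold restT
  rw [MeasurableSpace.comap_sup]
  refine AELe.sup_sup ?_ (aele_comap_LL h)
  rw [MeasurableSpace.comap_iSup]
  refine AELe.iSup fun j => ?_
  rw [MeasurableSpace.comap_iSup]
  refine AELe.iSup fun hj => ?_
  have h1 : siteT (T' j) ≤ ⨆ j, ⨆ _ : j ≠ i, siteT (T' j) :=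
    le_iSup_of_le (f := fun j => ⨆ _ : j ≠ i, siteT (T' j)) j
      (le_iSup_of_le (f := fun _ : j ≠ i => siteT (T' j)) hj le_rfl)
  exact (aele_siteT hf (heq j)).trans (AELe.of_le h1)

/-- site sets: `μ (A ∆ B)` is preserved. -/
theorem real_intl_symmDiff (hT : ∀ k, MeasurePreserving (T k) μ μ) {A B : Set Ω}
    (hA : MeasurableSet A) (hB : MeasurableSet B) :
    (lb μ).real (intl (fun k => T k ⁻¹' A) ∆ intl (fun k => T k ⁻¹' B)) = μ.real (A ∆ B) := by
  have h1 : intl (fun k => T k ⁻¹' A) ∆ intl (fun k => T k ⁻¹' B)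
      = intl (fun k => T k ⁻¹' (A ∆ B)) := by
    have : ∀ k, T k ⁻¹' (A ∆ B) = (T k ⁻¹' A \ T k ⁻¹' B) ∪ (T k ⁻¹' B \ T k ⁻¹' A) := fun k => rfl
    simp_rw [this]
    rw [intl_union, intl_diff, intl_diff]
    rfl
  rw [h1, Measure.real, Measure.real, lb_intl μ fun k => (hT k).measurable (hA.symmDiff hB)]
  congr 1
  apply ulim_eq
  have : ∀ k, μ (T k ⁻¹' (A ∆ B)) = μ (A ∆ B) := fun k =>
    (hT k).measure_preimage (hA.symmDiff hB).nullMeasurableSet
  simp_rw [this]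
  exact tendsto_const_nhds

/-- continuity of the site energies. -/
theorem continuous_enS_site (hT : ∀ k, MeasurePreserving (T k) μ μ)
    {m' : MeasurableSpace (Lb Ω)} (hm' : m' ≤ LL mΩ) :
    Continuous (fun A : MeasuredSets μ => enS (lb μ) m' (intl (fun k => T k ⁻¹' (A : Set Ω)))) :=
  continuous_enS hm' (fun A => intl (fun k => T k ⁻¹' A))
    (fun A hA => measurableSet_intl fun k => (hT k).measurable hA)
    (fun A B hA hB => (real_intl_symmDiff hT hA hB).le)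

/-- continuity of the energy `A ↦ ∫ (μ[1_A | m])²`. -/
theorem continuous_enS_base {Ω : Type*} {m' : MeasurableSpace Ω} {mΩ : MeasurableSpace Ω}
    {μ : Measure Ω} [IsProbabilityMeasure μ] (hm' : m' ≤ mΩ) :
    Continuous (fun A : MeasuredSets μ => enS μ m' (A : Set Ω)) :=
  continuous_enS hm' (fun A => A) (fun A hA => hA) (fun A B _ _ => le_rfl)

/-- monotonicity of the site energies. -/
theorem enS_site_mono (hf : MeasurePreserving f μ' μ) (hT : ∀ k, Measurable (T k))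
    (heq : ∀ k, (fun x => f (T' k x)) =ᵐ[μ'] fun x => T k (f x))
    {m₁ : MeasurableSpace (Lb Ω)} {m₂ : MeasurableSpace (Lb Ω')} (h₁ : m₁ ≤ LL mΩ)
    (h₂ : m₂ ≤ LL mΩ') (h : AELe (lb μ') (m₁.comap (lbmap (fun _ => f))) m₂) {A : Set Ω}
    (hA : MeasurableSet A) :
    enS (lb μ) m₁ (intl (fun k => T k ⁻¹' A))
      ≤ enS (lb μ') m₂ (intl (fun k => T' k ⁻¹' (f ⁻¹' A))) := by
  rw [← enS_congr (m := m₂) (intl_site_ae heq A)]
  exact enS_mono_map (measurePreserving_lbmap fun _ => hf) h₁ h₂ h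
    (measurableSet_intl fun k => hT k hA)

/-- equal site energies ⟹ equal conditional expectations of site sets. -/
theorem condExp_site_eq (hf : MeasurePreserving f μ' μ) (hT : ∀ k, Measurable (T k))
    (heq : ∀ k, (fun x => f (T' k x)) =ᵐ[μ'] fun x => T k (f x))
    {m₁ : MeasurableSpace (Lb Ω)} {m₂ : MeasurableSpace (Lb Ω')} (h₁ : m₁ ≤ LL mΩ)
    (h₂ : m₂ ≤ LL mΩ') (h : AELe (lb μ') (m₁.comap (lbmap (fun _ => f))) m₂) {A : Set Ω}
    (hA : MeasurableSet A)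
    (hle : enS (lb μ') m₂ (intl (fun k => T' k ⁻¹' (f ⁻¹' A)))
      ≤ enS (lb μ) m₁ (intl (fun k => T k ⁻¹' A))) :
    (lb μ')[ind (intl (fun k => T' k ⁻¹' (f ⁻¹' A))) | m₂] =ᵐ[lb μ']
      ((lb μ)[ind (intl (fun k => T k ⁻¹' A)) | m₁]) ∘ lbmap (fun _ => f) := by
  rw [← enS_congr (m := m₂) (intl_site_ae heq A)] at hle
  have h3 := condExp_eq_of_enS_map (measurePreserving_lbmap fun _ => hf) h₁ h₂ h
    (measurableSet_intl fun k => hT k hA) hle
  exact (condExp_congr_ae (ind_congr_ae (intl_site_ae heq A).symm)).trans h3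

end site

section S2

variable {Ω Ω' : Type*} {mΩ : MeasurableSpace Ω} {mΩ' : MeasurableSpace Ω'}
  {μ : Measure Ω} {μ' : Measure Ω'} [IsProbabilityMeasure μ] [IsProbabilityMeasure μ']
  {f : Ω' → Ω} {T : ℕ → Ω → Ω} {T' : ℕ → Ω' → Ω'}

theorem bm_site {g : Ω → ℝ} (hg : BdM mΩ g) (hT : ∀ k, Measurable (T k)) :
    ∃ C, BM mΩ (fun k x => g (T k x)) C := by
  obtain ⟨C, hC⟩ := hg.bdd
  exact ⟨C, fun k => hg.meas.comp (hT k), fun k x => hC _⟩

theorem integrable_st_site {g : Ω → ℝ} (hg : BdM mΩ g) (hT : ∀ k, Measurable (T k)) :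
    Integrable (st (fun k x => g (T k x))) (lb μ) := by
  obtain ⟨C, hC⟩ := bm_site (T := T) hg hT
  exact hC.integrable_st le_rfl

theorem st_ind_site (T : ℕ → Ω → Ω) (A : Set Ω) :
    st (fun k x => ind A (T k x)) = ind (intl (fun k => T k ⁻¹' A)) := by
  have h1 : (fun (k : ℕ) (x : Ω) => ind A (T k x))
      = fun k => (T k ⁻¹' A).indicator (fun _ => (1 : ℝ)) := by
    funext k
    exact (ind_preimage (T k) A).symm
  rw [h1, st_indicator (fun k => T k ⁻¹' A) (f := fun _ _ => (1 : ℝ))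
    (stOK_of_bdd (C := 1) (by simp)), st_const]

theorem st_site_lin (hT : ∀ k, Measurable (T k)) (c : ℝ) {u v : Ω → ℝ} (hu : BdM mΩ u)
    (hv : BdM mΩ v) :
    st (fun k x => c * u (T k x) + v (T k x))
      = c • st (fun k x => u (T k x)) + st (fun k x => v (T k x)) := by
  obtain ⟨C, hC⟩ := bm_site (T := T) hu hT
  obtain ⟨D, hD⟩ := bm_site (T := T) hv hT
  funext x
  exact st_eq (((hC.ok x).const_mul c).add (hD.ok x))

theorem st_site_lip (hT : ∀ k, Measurable (T k)) {u v : Ω → ℝ} (hu : BdM mΩ u)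
    (hv : BdM mΩ v) {ε : ℝ} (h : ∀ x, |u x - v x| ≤ ε) (y : Lb Ω) :
    |st (fun k x => u (T k x)) y - st (fun k x => v (T k x)) y| ≤ ε := by
  obtain ⟨C, hC⟩ := bm_site (T := T) hu hT
  obtain ⟨D, hD⟩ := bm_site (T := T) hv hT
  exact norm_st_sub_le hC.ok hD.ok (Eventually.of_forall fun k => h _)

/-- **Output (S2)**: if the site energies of sets do not increase, the conditional expectations of
bounded functions at the site do not change. -/
theorem S2_of_enS (hf : MeasurePreserving f μ' μ) (hT : ∀ k, Measurable (T k))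
    (hT' : ∀ k, Measurable (T' k))
    (heq : ∀ k, (fun x => f (T' k x)) =ᵐ[μ'] fun x => T k (f x))
    {m₁ : MeasurableSpace (Lb Ω)} {m₂ : MeasurableSpace (Lb Ω')} (h₁ : m₁ ≤ LL mΩ)
    (h₂ : m₂ ≤ LL mΩ') (h : AELe (lb μ') (m₁.comap (lbmap (fun _ => f))) m₂)
    (hle : ∀ A, MeasurableSet[mΩ] A → enS (lb μ') m₂ (intl (fun k => T' k ⁻¹' (f ⁻¹' A)))
      ≤ enS (lb μ) m₁ (intl (fun k => T k ⁻¹' A)))
    {g : Ω → ℝ} (hg : BdM mΩ g) :
    (lb μ')[st (fun k x => g (f (T' k x))) | m₂] =ᵐ[lb μ']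
      ((lb μ)[st (fun k x => g (T k x)) | m₁]) ∘ lbmap (fun _ => f) := by
  have hcf : ∀ {u : Ω → ℝ}, BdM mΩ u → BdM mΩ' (u ∘ f) := fun hu =>
    ⟨hu.meas.comp hf.measurable, hu.bdd.imp fun C hC x => hC _⟩
  have a1 : ∀ {u : Ω → ℝ}, BdM mΩ u → Integrable (st (fun k x => u (f (T' k x)))) (lb μ') :=
    fun {u} hu => integrable_st_site (g := u ∘ f) (hcf hu) hT'
  have a2 : ∀ (c : ℝ) {u v : Ω → ℝ}, BdM mΩ u → BdM mΩ v →
      st (fun k x => c * u (f (T' k x)) + v (f (T' k x)))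
        = c • st (fun k x => u (f (T' k x))) + st (fun k x => v (f (T' k x))) :=
    fun c {u v} hu hv => st_site_lin (T := T') (u := u ∘ f) (v := v ∘ f) hT' c (hcf hu) (hcf hv)
  have a3 : ∀ {u v : Ω → ℝ} {ε : ℝ}, BdM mΩ u → BdM mΩ v → (∀ x, |u x - v x| ≤ ε) →
      ∀ y, |st (fun k x => u (f (T' k x))) y - st (fun k x => v (f (T' k x))) y| ≤ ε :=
    fun {u v ε} hu hv h => st_site_lip (T := T') (u := u ∘ f) (v := v ∘ f) hT' (hcf hu) (hcf hv)
      (fun x => h (f x))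
  refine condExp_transfer (mΩ := mΩ) (measurePreserving_lbmap fun _ => hf)
    (fun u => st (fun k x => u (T k x))) (fun u => st (fun k x => u (f (T' k x))))
    (fun hu => integrable_st_site hu hT) a1
    (fun c u v hu hv => st_site_lin hT c hu hv) a2
    (fun hu hv h => st_site_lip hT hu hv h) a3 ?_ hg
  · intro A hA
    have e1 : st (fun k x => ind A (f (T' k x))) = ind (intl (fun k => T' k ⁻¹' (f ⁻¹' A))) := by
      have : (fun (k : ℕ) (x : Ω') => ind A (f (T' k x))) = fun k x => ind (f ⁻¹' A) (T' k x) := by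
        funext k x
        rw [ind_preimage]
        rfl
      rw [this]
      exact st_ind_site T' (f ⁻¹' A)
    show (lb μ')[st (fun k x => ind A (f (T' k x))) | m₂] =ᵐ[lb μ']
      ((lb μ)[st (fun k x => ind A (T k x)) | m₁]) ∘ lbmap (fun _ => f)
    rw [e1, st_ind_site T A]
    exact condExp_site_eq hf hT heq h₁ h₂ h hA (hle A hA)

end S2

end Crest.Agent.R069.SatEn
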