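import Crest.Agent.R069.SatDefs
import Crest.Agent.R069.Sites

/-!
# Row 69: the Loeb space of a pair as a pair, visible sets

* `visE s P` : the visible sub-sigma-algebra of a pair (invariant, contains `C`);
* `ptS M t : Lb M.Ω → M.Ω` : the point at the site `t` (measure preserving, equivariant);
* `lbSys M` : the Loeb system;
* `sitePair P t D ..` : the Loeb space of `P` as a pair over the base, through the site `t`, with
  environment `D`;  `sitePairExt` : it is an extension of `P` through `ptS P t`;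
* `visE_comap_le` : visible sets stay visible.
-/

set_option autoImplicit false
set_option linter.unusedVariables false

open MeasureTheory Filter Set ProbabilityTheory
open scoped ENNReal Topology

namespace Crest.Agent.R069.Cl

section tools

theorem measurableSet_of_ae_eq {α : Type*} {m : MeasurableSpace α} [mα : MeasurableSpace α]
    {μ : Measure α} (hm : m ≤ mα) (hn : nul μ ≤ m) {A B : Set α} (hA : MeasurableSet A)
    (hB : MeasurableSet[m] B) (h : A =ᵐ[μ] B) : MeasurableSet[m] A := by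
  have h1 : μ (A \ B) = 0 := (ae_eq_set.1 h).1
  have h2 : μ (B \ A) = 0 := (ae_eq_set.1 h).2
  have e1 : MeasurableSet[m] (A \ B) := hn _ ⟨hA.diff (hm _ hB), Or.inl h1⟩
  have e2 : MeasurableSet[m] (B \ A) := hn _ ⟨(hm _ hB).diff hA, Or.inl h2⟩
  have e3 : A = (A \ B) ∪ (B \ (B \ A)) := by
    ext x; simp only [Set.mem_union, Set.mem_sdiff]; tauto
  rw [e3]
  exact e1.union (hB.diff e2)

theorem comap_nul_le {α β : Type*} [mα : MeasurableSpace α] [mβ : MeasurableSpace β]
    {μ : Measure α} {ν : Measure β} {f : α → β} (hf : MeasurePreserving f μ ν) :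
    (nul ν).comap f ≤ nul μ := by
  rintro _ ⟨A, ⟨hA, hA2⟩, rfl⟩
  refine ⟨hf.measurable hA, ?_⟩
  rw [← preimage_compl, hf.measure_preimage hA.nullMeasurableSet,
    hf.measure_preimage hA.compl.nullMeasurableSet]
  exact hA2

theorem nul_le {α : Type*} [mα : MeasurableSpace α] {μ : Measure α} : nul μ ≤ mα :=
  fun _ h => h.1

theorem comap_le_of_ae {α β : Type*} {m : MeasurableSpace α} {mC : MeasurableSpace β}
    [mα : MeasurableSpace α] {μ : Measure α} (hm : m ≤ mα) (hn : nul μ ≤ m) {f : α → β}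
    (hf : ∀ A, MeasurableSet[mC] A → MeasurableSet (f ⁻¹' A) ∧
      ∃ B, MeasurableSet[m] B ∧ f ⁻¹' A =ᵐ[μ] B) : mC.comap f ≤ m := by
  rintro _ ⟨A, hA, rfl⟩
  obtain ⟨h1, B, hB, h2⟩ := hf A hA
  exact measurableSet_of_ae_eq hm hn h1 hB h2

theorem generateFrom_le_of_ae {α : Type*} {m : MeasurableSpace α} [mα : MeasurableSpace α]
    {μ : Measure α} (hm : m ≤ mα) (hn : nul μ ≤ m) {𝓢 : Set (Set α)}
    (hf : ∀ A ∈ 𝓢, MeasurableSet A ∧ ∃ B, MeasurableSet[m] B ∧ A =ᵐ[μ] B) :
    MeasurableSpace.generateFrom 𝓢 ≤ m := by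
  refine MeasurableSpace.generateFrom_le fun A hA => ?_
  obtain ⟨h1, B, hB, h2⟩ := hf A hA
  exact measurableSet_of_ae_eq hm hn h1 hB h2

end tools

section site

theorem measurableSet_site (M : Sys) (s : ℕ → ℤ) {A : Set M.Ω} (hA : MeasurableSet A) :
    MeasurableSet (intl (fun k => M.S (s k) ⁻¹' A)) :=
  measurableSet_intl (fun k => (M.S_mp (s k)).measurable hA)

theorem siteA_le (M : Sys) (t : ℕ → ℤ) : siteA M t ≤ LL M.ms := by
  refine MeasurableSpace.generateFrom_le ?_
  rintro _ ⟨A, hA, rfl⟩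
  exact measurableSet_site M t hA

theorem measurableSet_siteA (M : Sys) (t : ℕ → ℤ) {A : Set M.Ω} (hA : MeasurableSet A) :
    MeasurableSet[siteA M t] (intl (fun k => M.S (t k) ⁻¹' A)) :=
  MeasurableSpace.measurableSet_generateFrom ⟨A, hA, rfl⟩

/-- a countable union of site sets is a.e. the site set of the union -/
theorem intl_site_iUnion_ae (M : Sys) (t : ℕ → ℤ) (A : ℕ → Set M.Ω)
    (hA : ∀ n, MeasurableSet (A n)) :
    intl (fun k => M.S (t k) ⁻¹' (⋃ n, A n)) =ᵐ[lb M.μ] ⋃ n, intl (fun k => M.S (t k) ⁻¹' (A n)) := by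
  have hsub : (⋃ n, intl (fun k => M.S (t k) ⁻¹' (A n))) ⊆
      intl (fun k => M.S (t k) ⁻¹' (⋃ n, A n)) := by
    intro x hx
    obtain ⟨n, hn⟩ := mem_iUnion.1 hx
    have hn' : ∀ᶠ k in (UU : Filter ℕ), x k ∈ M.S (t k) ⁻¹' (A n) := hn
    show ∀ᶠ k in (UU : Filter ℕ), x k ∈ M.S (t k) ⁻¹' (⋃ n, A n)
    filter_upwards [hn'] with k hk
    exact mem_iUnion.2 ⟨n, hk⟩
  have hmeasU : MeasurableSet (⋃ n, A n) := MeasurableSet.iUnion hA
  have hv : ∀ B : Set M.Ω, MeasurableSet B → lb M.μ (intl (fun k => M.S (t k) ⁻¹' B)) = M.μ B := by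
    intro B hB
    rw [lb_intl M.μ (fun k => (M.S_mp (t k)).measurable hB)]
    apply ulim_eq
    have : (fun k => M.μ (M.S (t k) ⁻¹' B)) = fun _ => M.μ B := by
      funext k
      exact (M.S_mp (t k)).measure_preimage hB.nullMeasurableSet
    rw [this]
    exact tendsto_const_nhds
  refine (ae_eq_of_subset_of_measure_ge hsub ?_ ?_ (measure_ne_top _ _)).symm
  · rw [hv _ hmeasU]
    rw [measure_iUnion_eq_iSup_accumulate]
    refine iSup_le fun n => ?_
    have hacc : accumulate A n = ⋃ i ∈ Finset.range (n+1), A i := by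
      ext x; simp [mem_accumulate]
    have hms : MeasurableSet (accumulate A n) := by
      rw [hacc]; exact Finset.measurableSet_biUnion _ (fun i _ => hA i)
    rw [← hv _ hms]
    refine measure_mono ?_
    intro x hx
    have hx' : ∀ᶠ k in (UU : Filter ℕ), x k ∈ M.S (t k) ⁻¹' (accumulate A n) := hx
    by_contra hcon
    have h3 : ∀ i ∈ Finset.range (n+1), ∀ᶠ k in (UU : Filter ℕ), ¬ (x k ∈ M.S (t k) ⁻¹' (A i)) := by
      intro i _
      rw [Ultrafilter.eventually_not]
      intro h4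
      exact hcon (mem_iUnion.2 ⟨i, h4⟩)
    have h5 := (Filter.eventually_all_finset (Finset.range (n+1))).2 h3
    obtain ⟨k, hk, hk'⟩ := (hx'.and h5).exists
    rw [hacc] at hk
    simp only [mem_preimage, mem_iUnion] at hk
    obtain ⟨i, hi, h6⟩ := hk
    exact hk' i hi h6
  · exact (MeasurableSet.iUnion fun n => measurableSet_site M t (hA n)).nullMeasurableSet

theorem comap_site_eq (M : Sys) (t : ℕ → ℤ) (n : ℤ) (A : Set M.Ω) :
    lbmap (fun _ : ℕ => M.S n) ⁻¹' intl (fun k => M.S (t k) ⁻¹' A) =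
      intl (fun k => M.S (t k) ⁻¹' (M.S n ⁻¹' A)) := by
  rw [lbmap_preimage]
  congr 1
  funext k
  ext x
  simp only [mem_preimage]
  rw [← M.S_add, ← M.S_add, add_comm]

end site

section visible

variable {X : Sys} {ι : Type} (s : ι → ℕ → ℤ) (P : Pair X)

theorem rest_le (i : ι) : rest s i P ≤ LL P.ms :=
  sup_le (sup_le (iSup_le fun _ => iSup_le fun _ => siteA_le _ _) (LL_mono P.C_le)) nul_le

theorem nul_le_rest (i : ι) : nul (lb P.μ) ≤ rest s i P := le_sup_right

theorem LL_C_le_rest (i : ι) : LL P.C ≤ rest s i P := le_sup_right.trans le_sup_left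

/-- **The visible sets** of a pair: measurable sets which, placed at any site `i`, are measurable
with respect to everything at the other sites and the environment. -/
@[implicit_reducible]
noncomputable def visE : MeasurableSpace P.Ω where
  MeasurableSet' A := MeasurableSet A ∧
    ∀ i, MeasurableSet[rest s i P] (intl (fun k => P.S (s i k) ⁻¹' A))
  measurableSet_empty := ⟨MeasurableSet.empty, fun i => by
    have : intl (fun k => P.S (s i k) ⁻¹' (∅ : Set P.Ω)) = ∅ := by
      simp only [preimage_empty, intl_empty]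
    rw [this]; exact @MeasurableSet.empty _ (rest s i P)⟩
  measurableSet_compl A hA := ⟨hA.1.compl, fun i => by
    have : intl (fun k => P.S (s i k) ⁻¹' Aᶜ) = (intl (fun k => P.S (s i k) ⁻¹' A))ᶜ := by
      rw [← intl_compl]; rfl
    rw [this]; exact (hA.2 i).compl⟩
  measurableSet_iUnion A hA := ⟨MeasurableSet.iUnion fun n => (hA n).1, fun i =>
    measurableSet_of_ae_eq (rest_le s P i) (nul_le_rest s P i)
      (measurableSet_site P.toSys (s i) (MeasurableSet.iUnion fun n => (hA n).1))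
      (@MeasurableSet.iUnion _ _ (rest s i P) _ _ fun n => (hA n).2 i)
      (intl_site_iUnion_ae P.toSys (s i) A (fun n => (hA n).1))⟩

theorem visE_le : visE s P ≤ P.ms := fun _ h => h.1

/-- `rest` is invariant under the shift of the Loeb space. -/
theorem measurable_rest (i : ι) (n : ℤ) :
    Measurable[rest s i P, rest s i P] (lbmap (fun _ : ℕ => P.S n)) := by
  rw [measurable_iff_comap_le]
  unfold rest
  simp only [MeasurableSpace.comap_sup, MeasurableSpace.comap_iSup]
  refine sup_le_sup (sup_le_sup ?_ ?_) ?_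
  · refine iSup_mono fun j => iSup_mono fun _ => ?_
    rw [siteA, MeasurableSpace.comap_generateFrom]
    refine MeasurableSpace.generateFrom_mono ?_
    rintro _ ⟨_, ⟨A, hA, rfl⟩, rfl⟩
    exact ⟨P.S n ⁻¹' A, (P.S_mp n).measurable hA, comap_site_eq P.toSys (s j) n A⟩
  · rw [comap_lbmap_LL]
    exact LL_mono (measurable_iff_comap_le.1 (P.C_S n))
  · exact comap_nul_le (measurePreserving_lbmap (fun _ => P.S_mp n))

/-- the visible sigma-algebra is invariant. -/
theorem visE_S (n : ℤ) : Measurable[visE s P, visE s P] (P.S n) := by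
  intro A hA
  refine ⟨(P.S_mp n).measurable hA.1, fun i => ?_⟩
  rw [← comap_site_eq P.toSys (s i) n A]
  exact measurable_rest s P i n (hA.2 i)

theorem C_le_visE : P.C ≤ visE s P := fun A hA =>
  ⟨P.C_le _ hA, fun i => LL_C_le_rest s P i _ (measurableSet_intl (fun k => P.C_S (s i k) hA))⟩

theorem nul_le_visE : nul P.μ ≤ visE s P := P.C_nul.trans (C_le_visE s P)

/-- `visE` only depends on the sets up to null sets. -/
theorem visE_congr {A B : Set P.Ω} (hA : MeasurableSet A) (hB : MeasurableSet[visE s P] B)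
    (h : A =ᵐ[P.μ] B) : MeasurableSet[visE s P] A :=
  measurableSet_of_ae_eq (visE_le s P) (nul_le_visE s P) hA hB h

variable {s P}

theorem intl_comap_ae {Q : Pair X} {f : Q.Ω → P.Ω} (hmp : MeasurePreserving f Q.μ P.μ)
    (hS : ∀ n, (fun x => f (Q.S n x)) =ᵐ[Q.μ] fun x => P.S n (f x)) (t : ℕ → ℤ)
    (A : Set P.Ω) :
    lbmap (fun _ : ℕ => f) ⁻¹' intl (fun k => P.S (t k) ⁻¹' A) =ᵐ[lb Q.μ]
      intl (fun k => Q.S (t k) ⁻¹' (f ⁻¹' A)) := by
  rw [lbmap_preimage]
  refine intl_ae_eq fun k => ?_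
  filter_upwards [hS (t k)] with x hx
  apply propext
  show P.S (t k) (f x) ∈ A ↔ f (Q.S (t k) x) ∈ A
  rw [hx]

/-- functoriality of `rest`. -/
theorem comap_rest_le {Q : Pair X} {f : Q.Ω → P.Ω} (hmp : MeasurePreserving f Q.μ P.μ)
    (hS : ∀ n, (fun x => f (Q.S n x)) =ᵐ[Q.μ] fun x => P.S n (f x)) (hC : P.C.comap f ≤ Q.C)
    (i : ι) : (rest s i P).comap (lbmap (fun _ : ℕ => f)) ≤ rest s i Q := by
  have hlb : MeasurePreserving (lbmap (fun _ : ℕ => f)) (lb Q.μ) (lb P.μ) :=
    measurePreserving_lbmap (fun _ => hmp)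
  have hle := rest_le s Q i
  have hnl := nul_le_rest s Q i
  unfold rest
  simp only [MeasurableSpace.comap_sup, MeasurableSpace.comap_iSup]
  refine sup_le (sup_le ?_ ?_) ?_
  · refine iSup_le fun j => iSup_le fun hj => ?_
    rw [siteA, MeasurableSpace.comap_generateFrom]
    refine generateFrom_le_of_ae (μ := lb Q.μ) hle hnl ?_
    rintro _ ⟨_, ⟨A, hA, rfl⟩, rfl⟩
    refine ⟨hlb.measurable (measurableSet_site P.toSys (s j) hA),
      intl (fun k => Q.S (s j k) ⁻¹' (f ⁻¹' A)), ?_, intl_comap_ae hmp hS (s j) A⟩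
    have h1 : siteA Q.toSys (s j) ≤ rest s i Q :=
      (le_iSup₂_of_le (f := fun j (_ : j ≠ i) => siteA Q.toSys (s j)) j hj le_rfl).trans
        (le_sup_left.trans le_sup_left)
    exact h1 _ (measurableSet_siteA Q.toSys (s j) (hmp.measurable hA))
  · rw [comap_lbmap_LL]
    exact (LL_mono hC).trans (LL_C_le_rest s Q i)
  · exact (comap_nul_le hlb).trans hnl

/-- **visible sets stay visible.** -/
theorem visE_comap_le {Q : Pair X} {f : Q.Ω → P.Ω} (hmp : MeasurePreserving f Q.μ P.μ)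
    (hS : ∀ n, (fun x => f (Q.S n x)) =ᵐ[Q.μ] fun x => P.S n (f x)) (hC : P.C.comap f ≤ Q.C) :
    (visE s P).comap f ≤ visE s Q := by
  rintro _ ⟨A, hA, rfl⟩
  refine ⟨hmp.measurable hA.1, fun i => ?_⟩
  refine measurableSet_of_ae_eq (rest_le s Q i) (nul_le_rest s Q i)
    (measurableSet_site Q.toSys (s i) (hmp.measurable hA.1)) ?_
    (intl_comap_ae hmp hS (s i) A).symm
  exact comap_rest_le hmp hS hC i _ ⟨_, hA.2 i, rfl⟩

theorem visE_ext {Q : Pair X} (e : Ext P Q) : (visE s P).comap e.f ≤ visE s Q :=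
  visE_comap_le e.f_mp e.f_S e.f_C

end visible

section ptS

variable (M : Sys)

/-- The point at the site `s`. -/
noncomputable def ptS [StandardBorelSpace M.Ω] [Nonempty M.Ω] (s : ℕ → ℤ) : Lb M.Ω → M.Ω :=
  sv (fun k => M.S (s k))

variable [StandardBorelSpace M.Ω] [Nonempty M.Ω]

theorem mp_ptS (s : ℕ → ℤ) : MeasurePreserving (ptS M s) (lb M.μ) M.μ :=
  measurePreserving_sv (fun k => M.S_mp (s k))

theorem measurable_ptS (s : ℕ → ℤ) : Measurable (ptS M s) := (mp_ptS M s).measurable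

theorem ptS_preimage_ae (s : ℕ → ℤ) {A : Set M.Ω} (hA : MeasurableSet A) :
    ptS M s ⁻¹' A =ᵐ[lb M.μ] intl (fun k => M.S (s k) ⁻¹' A) :=
  sv_preimage_ae (fun k => M.S_mp (s k)) hA

theorem ptS_equivariant (s : ℕ → ℤ) (n : ℤ) :
    (fun x => ptS M s (lbmap (fun _ => M.S n) x)) =ᵐ[lb M.μ] fun x => M.S n (ptS M s x) := by
  have h1 := pt_lbmap_ae (μ := M.μ) (g := M.S n) (M.S_mp n).measurable
  have h2 := (measurePreserving_lbmap (fun k => M.S_mp (s k))).quasiMeasurePreserving.ae h1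
  filter_upwards [h2] with x hx
  have e : lbmap (fun k => M.S (s k)) (lbmap (fun _ => M.S n) x)
      = lbmap (fun _ => M.S n) (lbmap (fun k => M.S (s k)) x) := by
    funext k
    simp only [lbmap_apply]
    rw [← M.S_add, ← M.S_add, add_comm]
  show pt _ = _
  rw [e, hx]
  rfl

/-- the Loeb system. -/
@[reducible] noncomputable def lbSys (M : Sys) : Sys where
  Ω := Lb M.Ω
  ms := LL M.ms
  μ := lb M.μ
  pr := inferInstance
  S n := lbmap (fun _ => M.S n)
  S_zero x := by funext k; exact M.S_zero _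
  S_add a b x := by funext k; exact M.S_add a b _
  S_mp n := measurePreserving_lbmap (fun _ => M.S_mp n)

/-- the null sets of the Loeb space. -/
@[reducible] noncomputable def nulL (M : Sys) : MeasurableSpace (Lb M.Ω) := nul (lb M.μ)

theorem nulL_le (M : Sys) : nulL M ≤ LL M.ms := nul_le

/-- full site at `t` (through the point map). -/
@[reducible] noncomputable def fullS (t : ℕ → ℤ) : MeasurableSpace (Lb M.Ω) :=
  M.ms.comap (ptS M t)

theorem fullS_le (t : ℕ → ℤ) : fullS M t ≤ LL M.ms :=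
  measurable_iff_comap_le.1 (measurable_ptS M t)

theorem siteA_le_fullS (t : ℕ → ℤ) : siteA M t ≤ fullS M t ⊔ nulL M := by
  refine generateFrom_le_of_ae (μ := lb M.μ) (sup_le (fullS_le M t) (nulL_le M)) le_sup_right ?_
  rintro _ ⟨A, hA, rfl⟩
  refine ⟨measurableSet_site M t hA, ptS M t ⁻¹' A, ?_, (ptS_preimage_ae M t hA).symm⟩
  exact (le_sup_left : fullS M t ≤ fullS M t ⊔ nulL M) _ ⟨A, hA, rfl⟩

theorem fullS_le_siteA (t : ℕ → ℤ) : fullS M t ≤ siteA M t ⊔ nulL M := by
  refine comap_le_of_ae (μ := lb M.μ) (sup_le (siteA_le M t) (nulL_le M)) le_sup_right ?_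
  intro A hA
  refine ⟨measurable_ptS M t hA, _, ?_, ptS_preimage_ae M t hA⟩
  exact (le_sup_left : siteA M t ≤ siteA M t ⊔ nulL M) _ (measurableSet_siteA M t hA)

theorem measurable_ptS_lbmap (t : ℕ → ℤ) (n : ℤ) :
    Measurable (ptS M t ∘ lbmap (fun _ : ℕ => M.S n)) :=
  (measurable_ptS M t).comp (measurable_lbmap fun _ => (M.S_mp n).measurable)

/-- a site sigma-algebra of an invariant sigma-algebra is invariant up to null sets. -/
theorem comap_site_le {m : MeasurableSpace M.Ω} (hm : m ≤ M.ms)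
    (hS : ∀ n, Measurable[m, m] (M.S n)) (t : ℕ → ℤ) (n : ℤ) :
    (m.comap (ptS M t)).comap (lbmap (fun _ : ℕ => M.S n)) ≤ m.comap (ptS M t) ⊔ nulL M := by
  rw [MeasurableSpace.comap_comp]
  have hle : m.comap (ptS M t) ≤ LL M.ms := (MeasurableSpace.comap_mono hm).trans (fullS_le M t)
  refine @comap_le_of_ae _ _ _ _ (LL M.ms) (lbSys M).μ (sup_le hle (nulL_le M)) le_sup_right _ ?_
  intro A hA
  refine ⟨measurable_ptS_lbmap M t n (hm _ hA), ptS M t ⁻¹' (M.S n ⁻¹' A), ?_, ?_⟩
  · exact (le_sup_left : m.comap (ptS M t) ≤ _) _ ⟨_, hS n hA, rfl⟩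
  · filter_upwards [ptS_equivariant M t n] with x hx
    apply propext
    show ptS M t (lbmap (fun _ => M.S n) x) ∈ A ↔ M.S n (ptS M t x) ∈ A
    rw [hx]

end ptS

section sitePair

variable {X : Sys} (P : Pair X) [StandardBorelSpace P.Ω] [Nonempty P.Ω] (t : ℕ → ℤ)

/-- the factor map of the Loeb space to the base through the site `t`. -/
noncomputable def piS : Lb P.Ω → X.Ω := P.π ∘ ptS P.toSys t

theorem mp_piS : MeasurePreserving (piS P t) (lb P.μ) X.μ := P.π_mp.comp (mp_ptS P.toSys t)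

theorem piS_S (n : ℤ) : (fun x => piS P t (lbmap (fun _ => P.S n) x)) =ᵐ[lb P.μ]
    fun x => X.S n (piS P t x) := by
  have h1 := ptS_equivariant P.toSys t n
  have h2 := (mp_ptS P.toSys t).quasiMeasurePreserving.ae (P.π_S n)
  filter_upwards [h1, h2] with x hx1 hx2
  show P.π (ptS P.toSys t (lbmap (fun _ => P.S n) x)) = _
  rw [hx1, hx2]
  rfl

/-- The Loeb space of `P` as a pair over `X` through the site `t`, with environment `D`. -/
noncomputable def sitePair (D : MeasurableSpace (Lb P.Ω)) (hD : D ≤ LL P.ms)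
    (hnul : nulL P.toSys ≤ D)
    (hinv : ∀ n, Measurable[D, D] (lbmap (fun _ : ℕ => P.S n)))
    (hind : @Indep _ (X.ms.comap (piS P t)) D (LL P.ms) (lb P.μ)) : Pair X where
  toSys := lbSys P.toSys
  π := piS P t
  π_mp := mp_piS P t
  π_S := piS_S P t
  C := D
  C_le := hD
  C_nul := hnul
  C_S := hinv
  indep := hind

theorem comap_C_le {D : MeasurableSpace (Lb P.Ω)} (hD : D ≤ LL P.ms)
    (hnul : nulL P.toSys ≤ D) (hLL : LL P.C ≤ D) : P.C.comap (ptS P.toSys t) ≤ D := by
  rintro _ ⟨A, hA, rfl⟩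
  refine @measurableSet_of_ae_eq _ D (LL P.ms) (lb P.μ) hD hnul _ _
    (measurable_ptS P.toSys t (P.C_le _ hA))
    (hLL _ (measurableSet_intl (fun k => P.C_S (t k) hA)))
    (ptS_preimage_ae P.toSys t (P.C_le _ hA))

noncomputable def sitePairExt (D : MeasurableSpace (Lb P.Ω)) (hD : D ≤ LL P.ms)
    (hnul : nulL P.toSys ≤ D)
    (hinv : ∀ n, Measurable[D, D] (lbmap (fun _ : ℕ => P.S n)))
    (hind : @Indep _ (X.ms.comap (piS P t)) D (LL P.ms) (lb P.μ))
    (hLL : LL P.C ≤ D) :
    Ext P (sitePair P t D hD hnul hinv hind) where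
  f := ptS P.toSys t
  f_mp := mp_ptS P.toSys t
  f_S n := ptS_equivariant P.toSys t n
  f_π := EventuallyEq.rfl
  f_C := comap_C_le P t hD hnul hLL

end sitePair

end Crest.Agent.R069.Cl
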