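import Crest.Agent.R069.Sites
import Crest.Agent.R069.Defs
import Crest.Agent.R069.CILoeb

/-!
# Site points of a system, conditional expectations at a site, naturality (row 69, GLUE)

For `M : Sys` with `M.Ω` standard Borel, `M.pt s : Lb M.Ω → M.Ω` is the point at the site `s`
(`M.pt s x = lim_k S_{s k} (x k)`).

* `Sys.pt_mp`, `Sys.pt_preimage_ae`, `Sys.sitef_ae_pt`, `Sys.pt_S` (a.e. equivariance),
  `Sys.pt_add` (`s + n`), `Sys.aele_siteM_comap`, `Sys.aele_comap_siteM`, `Sys.aele_comap_LL`;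
* naturality under a.e. equivariant factor maps `f` : `Sys.sitef_factor`, `Sys.pt_factor`,
  `Sys.aele_siteM_factor`;
* `Sys.sitef_loeb` : iterated sites on `Lb (Lb M)`; `XInd.iIndepFun` : the site points are
  independent; `tau_eq_pt`;
* `Sys.condExp_sitef` : `(lb μ)[f_s | LL C] = (μ[f|C])_s` for `C` (a.e.) invariant;
  `Sys.condExp_sitef_factor` : `(lb μ)[F_s | comap (Lb.mp f) (LL N)] = (G)_s ∘ Lb.mp f` if
  `μ[F | comap f N] = G ∘ f`.
-/

set_option autoImplicit false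
set_option linter.unusedSectionVars false

open MeasureTheory Filter Set ProbabilityTheory
open scoped ENNReal Topology

namespace Crest.Agent.R069

/-- the Loeb measure of a system, with the instance fixed (`= lb M.μ`). -/
local notation "lbS(" M ")" => @lb (Sys.Ω M) (Sys.ms M) (Sys.μ M)

instance Sys.instNonempty (M : Sys) : Nonempty M.Ω := nonempty_of_isProbabilityMeasure M.μ

section pt

variable (M : Sys)

theorem Sys.S_comm' (a b : ℤ) (x : M.Ω) : M.S a (M.S b x) = M.S b (M.S a x) := by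
  rw [← M.S_add, ← M.S_add, add_comm]

theorem Sys.S_neg_S (n : ℤ) (x : M.Ω) : M.S (-n) (M.S n x) = x := by
  rw [← M.S_add, neg_add_cancel, M.S_zero]

theorem Sys.S_S_neg (n : ℤ) (x : M.Ω) : M.S n (M.S (-n) x) = x := by
  rw [← M.S_add, add_neg_cancel, M.S_zero]

theorem Lb.mp_eq_lbmap {α β : Type*} (f : α → β) : (Lb.mp f : Lb α → Lb β) = lbmap (fun _ => f) :=
  rfl

theorem Sys.meas_S (n : ℤ) : Measurable[M.ms, M.ms] (M.S n) := (M.S_mp n).measurable

theorem Sys.preimage_ae (n : ℤ) {A B : Set M.Ω} (h : A =ᵐ[M.μ] B) :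
    M.S n ⁻¹' A =ᵐ[M.μ] M.S n ⁻¹' B :=
  (M.S_mp n).quasiMeasurePreserving.preimage_ae_eq h

theorem Sys.comp_ae (n : ℤ) {F G : M.Ω → ℝ} (h : F =ᵐ[M.μ] G) :
    (fun x => F (M.S n x)) =ᵐ[M.μ] fun x => G (M.S n x) :=
  (M.S_mp n).quasiMeasurePreserving.ae_eq_comp h

variable [StandardBorelSpace M.Ω]

/-- the point at the site `s` -/
noncomputable def Sys.pt (s : ℕ → ℤ) : Lb M.Ω → M.Ω := sv (fun k => M.S (s k))

theorem Sys.measurable_pt (s : ℕ → ℤ) : Measurable (M.pt s) :=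
  measurable_sv fun k => (M.S_mp (s k)).measurable

theorem Sys.pt_mp (s : ℕ → ℤ) : MeasurePreserving (M.pt s) (lb M.μ) M.μ :=
  measurePreserving_sv fun k => M.S_mp (s k)

theorem Sys.pt_preimage_ae (s : ℕ → ℤ) {A : Set M.Ω} (hA : MeasurableSet A) :
    M.pt s ⁻¹' A =ᵐ[lb M.μ] intl (fun k => M.S (s k) ⁻¹' A) :=
  sv_preimage_ae (fun k => M.S_mp (s k)) hA

/-- a function at a site is the function of the site point -/
theorem Sys.sitef_ae_pt (s : ℕ → ℤ) {f : M.Ω → ℝ} (hf : Measurable f) :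
    sitef M s f =ᵐ[lb M.μ] fun x => f (M.pt s x) :=
  (comp_sv_ae_eq_st (fun k => M.S_mp (s k)) hf).symm

theorem Sys.pt_comp (s : ℕ → ℤ) (n : ℤ) :
    (fun x => M.pt s (Lb.mp (M.S n) x)) = M.pt (fun k => s k + n) := by
  funext x
  show sv (fun k => M.S (s k)) (lbmap (fun _ => M.S n) x) = sv (fun k => M.S (s k + n)) x
  rw [sv_lbmap]
  congr 1
  funext k y
  exact (M.S_add (s k) n y).symm

/-- **a.e. equivariance** in the site form -/
theorem Sys.pt_add (s : ℕ → ℤ) (n : ℤ) :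
    M.pt (fun k => s k + n) =ᵐ[lb M.μ] fun x => M.S n (M.pt s x) := by
  have h := sv_comp_ae (g := fun k => M.S (s k)) (fun k => M.S_mp (s k)) (f := M.S n)
    (M.S_mp n).measurable
  have h2 : (fun k => M.S n ∘ M.S (s k)) = fun k => M.S (s k + n) := by
    funext k y
    rw [add_comm, M.S_add]
    rfl
  rw [h2] at h
  exact h

/-- **a.e. equivariance** of the site point: `M.pt s : M.loeb → M` is a factor map -/
theorem Sys.pt_S (s : ℕ → ℤ) (n : ℤ) :
    (fun x => M.pt s (Lb.mp (M.S n) x)) =ᵐ[lb M.μ] fun x => M.S n (M.pt s x) := by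
  rw [M.pt_comp s n]
  exact M.pt_add s n

theorem Sys.aele_siteM_comap (s : ℕ → ℤ) {m : MeasurableSpace M.Ω} (hm : m ≤ M.ms) :
    AELe lbS(M) (siteM M s m) (m.comap (M.pt s)) :=
  aele_siteG_comap (mα := M.ms) (mM := M.ms) (fun k => M.S_mp (s k)) hm

theorem Sys.aele_comap_siteM (s : ℕ → ℤ) {m : MeasurableSpace M.Ω} (hm : m ≤ M.ms) :
    AELe lbS(M) (m.comap (M.pt s)) (siteM M s m) :=
  aele_comap_siteG (mα := M.ms) (mM := M.ms) (fun k => M.S_mp (s k)) hm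

theorem Sys.aele_comap_LL (s : ℕ → ℤ) {m : MeasurableSpace M.Ω} (hm : m ≤ M.ms)
    (hS : ∀ n, Measurable[m, m] (M.S n)) :
    AELe lbS(M) (m.comap (M.pt s)) (LL m) :=
  R069.aele_comap_LL (mα := M.ms) (mM := M.ms) (fun k => M.S_mp (s k)) hm (fun k => hS (s k))

end pt

section factor

variable {M N : Sys} {f : M.Ω → N.Ω}

theorem measurePreserving_mp (hf : MeasurePreserving f M.μ N.μ) :
    MeasurePreserving (Lb.mp f) (lb M.μ) (lb N.μ) := measurePreserving_lbmap fun _ => hf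

theorem Sys.ae_lb_factor (hS : ∀ n, (fun x => f (M.S n x)) =ᵐ[M.μ] fun x => N.S n (f x))
    (s : ℕ → ℤ) :
    ∀ᵐ x ∂(lb M.μ), ∀ᶠ k in (UU : Filter ℕ), f (M.S (s k) (x k)) = N.S (s k) (f (x k)) :=
  ae_lb_of_forall_ae (μ := M.μ) (p := fun k x => f (M.S (s k) x) = N.S (s k) (f x))
    fun k => hS (s k)

/-- naturality of the functions at a site -/
theorem Sys.sitef_factor (hS : ∀ n, (fun x => f (M.S n x)) =ᵐ[M.μ] fun x => N.S n (f x))
    (s : ℕ → ℤ) (g : N.Ω → ℝ) :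
    sitef M s (g ∘ f) =ᵐ[lb M.μ] fun x => sitef N s g (Lb.mp f x) := by
  filter_upwards [Sys.ae_lb_factor hS s] with x hx
  show ulim (fun k => g (f (M.S (s k) (x k)))) = ulim (fun k => g (N.S (s k) (f (x k))))
  unfold ulim
  congr 1
  refine congrArg _ (Ultrafilter.coe_injective (Filter.map_congr ?_))
  filter_upwards [hx] with k hk
  rw [hk]

/-- naturality of the site points -/
theorem Sys.pt_factor [StandardBorelSpace M.Ω] [StandardBorelSpace N.Ω]
    (hS : ∀ n, (fun x => f (M.S n x)) =ᵐ[M.μ] fun x => N.S n (f x))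
    (hf : MeasurePreserving f M.μ N.μ) (s : ℕ → ℤ) :
    (fun x => N.pt s (Lb.mp f x)) =ᵐ[lb M.μ] fun x => f (M.pt s x) := by
  have h1 := sv_comp_ae (g := fun k => M.S (s k)) (fun k => M.S_mp (s k)) (f := f)
    hf.measurable
  filter_upwards [Sys.ae_lb_factor hS s, h1] with x hx h2
  show sv (fun k => N.S (s k)) (lbmap (fun _ => f) x) = f (sv (fun k => M.S (s k)) x)
  rw [← h2]
  show sv (fun k => N.S (s k)) (lbmap (fun _ => f) x) = sv (fun k => f ∘ M.S (s k)) x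
  rw [sv_lbmap]
  refine pt_congr ?_
  filter_upwards [hx] with k hk
  exact hk.symm

theorem Sys.sc_factor (hS : ∀ n, (fun x => f (M.S n x)) =ᵐ[M.μ] fun x => N.S n (f x))
    (s : ℕ → ℤ) (A : Set N.Ω) :
    intl (fun k => M.S (s k) ⁻¹' (f ⁻¹' A)) =ᵐ[lb M.μ]
      Lb.mp f ⁻¹' intl (fun k => N.S (s k) ⁻¹' A) := by
  filter_upwards [Sys.ae_lb_factor hS s] with x hx
  apply propext
  show (∀ᶠ k in (UU : Filter ℕ), f (M.S (s k) (x k)) ∈ A) ↔
    ∀ᶠ k in (UU : Filter ℕ), N.S (s k) (f (x k)) ∈ A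
  constructor
  · intro h
    filter_upwards [hx, h] with k h1 h2
    rw [← h1]; exact h2
  · intro h
    filter_upwards [hx, h] with k h1 h2
    rw [h1]; exact h2

/-- naturality of the site sigma-algebras -/
theorem Sys.aele_siteM_factor (hS : ∀ n, (fun x => f (M.S n x)) =ᵐ[M.μ] fun x => N.S n (f x))
    (s : ℕ → ℤ) (m : MeasurableSpace N.Ω) :
    AELe (lb M.μ) (siteM M s (m.comap f)) ((siteM N s m).comap (Lb.mp f)) := by
  refine AELe.generateFrom ?_
  rintro _ ⟨_, ⟨A, hA, rfl⟩, rfl⟩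
  exact ⟨_, ⟨_, MeasurableSpace.measurableSet_generateFrom ⟨A, hA, rfl⟩, rfl⟩,
    Sys.sc_factor hS s A⟩

theorem Sys.aele_factor_siteM (hS : ∀ n, (fun x => f (M.S n x)) =ᵐ[M.μ] fun x => N.S n (f x))
    (s : ℕ → ℤ) (m : MeasurableSpace N.Ω) :
    AELe (lb M.μ) ((siteM N s m).comap (Lb.mp f)) (siteM M s (m.comap f)) := by
  rw [siteM, MeasurableSpace.comap_generateFrom]
  refine AELe.generateFrom ?_
  rintro _ ⟨_, ⟨A, hA, rfl⟩, rfl⟩
  exact ⟨_, MeasurableSpace.measurableSet_generateFrom ⟨_, ⟨A, hA, rfl⟩, rfl⟩,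
    (Sys.sc_factor hS s A).symm⟩

end factor

section condExp

variable {M N : Sys}

theorem Sys.aele_comap_S {C : MeasurableSpace M.Ω}
    (hS : ∀ n, AELe M.μ (C.comap (M.S n)) C) (n : ℤ) : AELe M.μ C (C.comap (M.S n)) := by
  intro A hA
  obtain ⟨B, hB, hAB⟩ := hS (-n) (M.S (-n) ⁻¹' A) ⟨A, hA, rfl⟩
  refine ⟨M.S n ⁻¹' B, ⟨B, hB, rfl⟩, ?_⟩
  have h1 : M.S n ⁻¹' (M.S (-n) ⁻¹' A) = A := by
    ext x
    show M.S (-n) (M.S n x) ∈ A ↔ x ∈ A
    rw [M.S_neg_S]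
  have h2 : M.S n ⁻¹' (M.S (-n) ⁻¹' A) =ᵐ[M.μ] M.S n ⁻¹' B :=
    M.preimage_ae n hAB
  rwa [h1] at h2

/-- conditional expectations commute with the action, `C` a.e. invariant. -/
theorem Sys.condExp_S {C : MeasurableSpace M.Ω} (hC : C ≤ M.ms)
    (hS : ∀ n, AELe M.μ (C.comap (M.S n)) C) {F : M.Ω → ℝ} (hF : BdM M.ms F) (n : ℤ) :
    M.μ[fun x => F (M.S n x) | C] =ᵐ[M.μ] fun x => (M.μ[F | C]) (M.S n x) := by
  have h1 := condExp_comp_mp (M.S_mp n) hC (hF.integrable le_rfl)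
  obtain ⟨K, hK⟩ := hF.bdd
  have hFS : BdM M.ms (F ∘ M.S n) :=
    ⟨hF.meas.comp (M.meas_S n), K, fun x => hK _⟩
  have h2 : M.μ[F ∘ M.S n | C] =ᵐ[M.μ] M.μ[F ∘ M.S n | C.comap (M.S n)] :=
    condExp_eq_of_aele hC (comap_le_of_mp (M.S_mp n) hC) (Sys.aele_comap_S hS n) (hS n) hFS
  exact h2.trans h1

/-- **conditional expectation of a function at a site given the environment** -/
theorem Sys.condExp_sitef {C : MeasurableSpace M.Ω} (hC : C ≤ M.ms)
    (hS : ∀ n, Measurable[C, C] (M.S n)) (s : ℕ → ℤ) {F G : M.Ω → ℝ} (hF : Bd M.ms F)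
    (hG : Bd C G) (hGF : G =ᵐ[M.μ] M.μ[F | C]) :
    (lbS(M))[sitef M s F | LL C] =ᵐ[lbS(M)] sitef M s G := by
  obtain ⟨hFm, K, hK⟩ := hF
  obtain ⟨hGm, K', hK'⟩ := hG
  have hFb : BdM M.ms F := ⟨hFm, K, hK⟩
  refine condExp_st (mα := M.ms) (C := K) (C' := K') hC
    ⟨fun k => hFm.comp (M.meas_S (s k)), fun _ _ => hK _⟩
    ⟨fun k => hGm.comp (hS (s k)), fun _ _ => hK' _⟩ (fun k => ?_)
  have h1 := Sys.condExp_S hC (fun n => AELe.of_le (hS n).comap_le) hFb (s k)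
  have h2 := M.comp_ae (s k) hGF
  exact h2.trans h1.symm

/-- **conditional expectation of a function at a site given the Loeb space of a factor** -/
theorem Sys.condExp_sitef_factor {f : M.Ω → N.Ω}
    (hS : ∀ n, (fun x => f (M.S n x)) =ᵐ[M.μ] fun x => N.S n (f x))
    (hf : MeasurePreserving f M.μ N.μ) {C : MeasurableSpace N.Ω} (hC : C ≤ N.ms)
    (hCS : ∀ n, Measurable[C, C] (N.S n)) (s : ℕ → ℤ) {F : M.Ω → ℝ} {G : N.Ω → ℝ}
    (hF : Bd M.ms F) (hG : Bd C G)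
    (hGF : (fun x => G (f x)) =ᵐ[M.μ] M.μ[F | C.comap f]) :
    (lbS(M))[sitef M s F | (LL C).comap (Lb.mp f)] =ᵐ[lbS(M)]
      fun x => sitef N s G (Lb.mp f x) := by
  obtain ⟨hFm, K, hK⟩ := hF
  obtain ⟨hGm, K', hK'⟩ := hG
  have hFb : BdM M.ms F := ⟨hFm, K, hK⟩
  have hcf : C.comap f ≤ M.ms := comap_le_of_mp hf hC
  have hinv : ∀ n, AELe M.μ ((C.comap f).comap (M.S n)) (C.comap f) := by
    rintro n _ ⟨_, ⟨A, hA, rfl⟩, rfl⟩
    refine ⟨f ⁻¹' (N.S n ⁻¹' A), ⟨_, hCS n hA, rfl⟩, ?_⟩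
    filter_upwards [hS n] with x hx
    apply propext
    show f (M.S n x) ∈ A ↔ N.S n (f x) ∈ A
    rw [hx]
  rw [Lb.mp_eq_lbmap, comap_lbmap_LL]
  change (lbS(M))[sitef M s F | LL (C.comap f)] =ᵐ[lbS(M)] st (fun k x => G (N.S (s k) (f x)))
  refine condExp_st (mα := M.ms) (C := K) (C' := K') hcf
    ⟨fun k => hFm.comp (M.meas_S (s k)), fun _ _ => hK _⟩
    ⟨fun k => hGm.comp ((hCS (s k)).comp (comap_measurable f)), fun _ _ => hK' _⟩ (fun k => ?_)
  have h1 := Sys.condExp_S hcf hinv hFb (s k)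
  have h2 := M.comp_ae (s k) hGF
  have h3 : (fun x => G (N.S (s k) (f x))) =ᵐ[M.μ] fun x => G (f (M.S (s k) x)) := by
    filter_upwards [hS (s k)] with x hx
    rw [hx]
  exact (h3.trans h2).trans h1.symm

end condExp

section double

variable (M : Sys)

theorem Sys.st_congr {α : Type*} [MeasurableSpace α] {μ : Measure α} {f g : ℕ → α → ℝ}
    (h : ∀ k, f k =ᵐ[μ] g k) : st f =ᵐ[lb μ] st g := by
  have := ae_lb_of_forall_ae (μ := μ) (p := fun k x => f k x = g k x) h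
  filter_upwards [this] with x hx
  show ulim (fun k => f k (x k)) = ulim (fun k => g k (x k))
  unfold ulim
  congr 1
  exact congrArg _ (Ultrafilter.coe_injective (Filter.map_congr hx))

/-- functions at a site only depend on the function mod null sets -/
theorem Sys.sitef_congr (s : ℕ → ℤ) {f g : M.Ω → ℝ} (h : f =ᵐ[M.μ] g) :
    sitef M s f =ᵐ[lb M.μ] sitef M s g :=
  Sys.st_congr fun k => M.comp_ae (s k) h

/-- the function at the site `t` of the Loeb system of the function at the site `s` -/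
theorem Sys.sitef_loeb [StandardBorelSpace M.Ω] (s t : ℕ → ℤ) {f : M.Ω → ℝ}
    (hf : Measurable f) :
    sitef M.loeb t (sitef M s f) =ᵐ[lb (lb M.μ)] fun x => sitef M t f (Lb.mp (M.pt s) x) := by
  have h1 : sitef M.loeb t (sitef M s f) =ᵐ[lb (lb M.μ)] sitef M.loeb t (f ∘ M.pt s) :=
    M.loeb.sitef_congr t (M.sitef_ae_pt s hf)
  have h2 : sitef M.loeb t (f ∘ M.pt s) =ᵐ[lb (lb M.μ)]
      fun x => sitef M t f (Lb.mp (M.pt s) x) :=
    Sys.sitef_factor (M := M.loeb) (N := M) (f := M.pt s) (fun n => M.pt_S s n) t f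
  exact h1.trans h2

theorem Sys.sitef_loeb' [StandardBorelSpace M.Ω] (s t : ℕ → ℤ) (f : M.Ω → ℝ) :
    sitef M.loeb t (f ∘ M.pt s) =ᵐ[lb (lb M.μ)] fun x => sitef M t f (Lb.mp (M.pt s) x) :=
  Sys.sitef_factor (M := M.loeb) (N := M) (f := M.pt s) (fun n => M.pt_S s n) t f

theorem Sys.mp_pt_mp [StandardBorelSpace M.Ω] (s : ℕ → ℤ) :
    MeasurePreserving (Lb.mp (M.pt s)) (lb (lb M.μ)) (lb M.μ) :=
  measurePreserving_lbmap fun _ => M.pt_mp s

end double

section indep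

variable {X : Sys} [StandardBorelSpace X.Ω] {ι : Type}

/-- the multilinear form in terms of the site points -/
theorem tau_eq_pt [Fintype ι] (s : ι → ℕ → ℤ) (f : ι → X.Ω → ℝ) (hf : ∀ i, Measurable (f i)) :
    tau X s f = ∫ x, ∏ i, f i (X.pt (s i) x) ∂(lb X.μ) := by
  refine integral_congr_ae ?_
  have h : ∀ᵐ x ∂(lb X.μ), ∀ i, sitef X (s i) (f i) x = f i (X.pt (s i) x) := by
    rw [ae_all_iff]; exact fun i => X.sitef_ae_pt (s i) (hf i)
  filter_upwards [h] with x hx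
  exact Finset.prod_congr rfl fun i _ => hx i

theorem XInd.integral_pt {s : ι → ℕ → ℤ} {J : Finset ι} (h : XInd X s J)
    (f : ι → X.Ω → ℝ) (hf : ∀ i, Bd X.ms (f i)) :
    ∫ x, ∏ i ∈ J, f i (X.pt (s i) x) ∂(lb X.μ) = ∏ i ∈ J, ∫ x, f i x ∂X.μ := by
  rw [← h f hf]
  refine integral_congr_ae ?_
  have h : ∀ᵐ x ∂(lb X.μ), ∀ i ∈ J, sitef X (s i) (f i) x = f i (X.pt (s i) x) := by
    rw [Filter.eventually_all_finset]
    exact fun i _ => X.sitef_ae_pt (s i) (hf i).1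
  filter_upwards [h] with x hx
  exact Finset.prod_congr rfl fun i hi => (hx i hi).symm

/-- **the site points are independent** -/
theorem XInd.iIndepFun {s : ι → ℕ → ℤ} {J : Finset ι} (h : XInd X s J) :
    ProbabilityTheory.iIndepFun (fun (i : J) => X.pt (s i)) (lb X.μ) := by
  classical
  rw [iIndepFun_iff_measure_inter_preimage_eq_mul]
  intro S A hA
  have hm : ∀ i : J, MeasurableSet (X.pt (s i) ⁻¹' A i) ∨ i ∉ S := by
    intro i
    by_cases hi : i ∈ S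
    · exact Or.inl (X.measurable_pt (s i) (hA i hi))
    · exact Or.inr hi
  -- the test functions
  let F : ι → X.Ω → ℝ := fun i =>
    if h : ∃ hi : i ∈ J, (⟨i, hi⟩ : J) ∈ S then (A ⟨i, h.1⟩).indicator (fun _ => (1 : ℝ))
    else fun _ => 1
  have hF1 : ∀ i : J, i ∈ S → F i = (A i).indicator (fun _ => (1 : ℝ)) := by
    intro i hi
    have : ∃ hi : (i : ι) ∈ J, (⟨i, hi⟩ : J) ∈ S := ⟨i.2, hi⟩
    simp only [F]
    rw [dif_pos this]
  have hF2 : ∀ i : J, i ∉ S → F i = fun _ => 1 := by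
    intro i hi
    have : ¬ ∃ hi : (i : ι) ∈ J, (⟨i, hi⟩ : J) ∈ S := fun ⟨_, h⟩ => hi h
    simp only [F]
    rw [dif_neg this]
  have hFb : ∀ i, Bd X.ms (F i) := by
    intro i
    by_cases hi : ∃ hi : i ∈ J, (⟨i, hi⟩ : J) ∈ S
    · obtain ⟨h1, h2⟩ := hi
      rw [hF1 ⟨i, h1⟩ h2]
      refine ⟨measurable_const.indicator (hA _ h2), 1, fun x => ?_⟩
      by_cases hx : x ∈ A ⟨i, h1⟩ <;> simp [hx]
    · simp only [F]
      rw [dif_neg hi]
      exact ⟨measurable_const, 1, fun _ => by simp⟩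
  have key := h.integral_pt F hFb
  rw [← Finset.prod_coe_sort J (fun i => ∫ x, F i x ∂X.μ)] at key
  simp_rw [← Finset.prod_coe_sort J (fun i => F i (X.pt (s i) _))] at key
  have e1 : ∀ x, ∏ i : J, F i (X.pt (s i) x) =
      (⋂ i ∈ S, X.pt (s i) ⁻¹' A i).indicator (fun _ => (1 : ℝ)) x := by
    intro x
    have h1 : ∏ i : J, F i (X.pt (s i) x) = ∏ i ∈ S, F i (X.pt (s i) x) := by
      symm
      refine Finset.prod_subset (Finset.subset_univ S) fun i _ hi => ?_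
      rw [hF2 i hi]
    rw [h1]
    by_cases hx : x ∈ ⋂ i ∈ S, X.pt (s i) ⁻¹' A i
    · rw [indicator_of_mem hx]
      refine Finset.prod_eq_one fun i hi => ?_
      rw [hF1 i hi, indicator_of_mem]
      exact mem_iInter₂.1 hx i hi
    · rw [indicator_of_notMem hx]
      have : ∃ i ∈ S, x ∉ X.pt (s i) ⁻¹' A i := by
        by_contra hc
        push Not at hc
        exact hx (mem_iInter₂.2 hc)
      obtain ⟨i, hi, hxi⟩ := this
      refine Finset.prod_eq_zero hi ?_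
      rw [hF1 i hi, indicator_of_notMem]
      exact hxi
  have e2 : ∏ i : J, ∫ x, F i x ∂X.μ = ∏ i ∈ S, X.μ.real (A i) := by
    have h1 : ∏ i : J, ∫ x, F i x ∂X.μ = ∏ i ∈ S, ∫ x, F i x ∂X.μ := by
      symm
      refine Finset.prod_subset (Finset.subset_univ S) fun i _ hi => ?_
      rw [hF2 i hi]; simp
    rw [h1]
    refine Finset.prod_congr rfl fun i hi => ?_
    rw [hF1 i hi, integral_indicator_const _ (hA i hi)]
    simp
  have hmS : MeasurableSet (⋂ i ∈ S, X.pt (s i) ⁻¹' A i) :=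
    Finset.measurableSet_biInter S fun i hi => X.measurable_pt (s i) (hA i hi)
  have e3 : (lb X.μ).real (⋂ i ∈ S, X.pt (s i) ⁻¹' A i) = ∏ i ∈ S, X.μ.real (A i) := by
    rw [← e2, ← key]
    simp_rw [e1]
    rw [integral_indicator_const _ hmS]
    simp
  have e4 : ∀ i ∈ S, (lb X.μ) (X.pt (s i) ⁻¹' A i) = X.μ (A i) := fun i hi =>
    (X.pt_mp (s i)).measure_preimage (hA i hi).nullMeasurableSet
  rw [Finset.prod_congr rfl e4]
  rw [← ENNReal.ofReal_toReal (measure_ne_top (lb X.μ) _)]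
  change ENNReal.ofReal ((lb X.μ).real _) = _
  rw [e3, ENNReal.ofReal_prod_of_nonneg (fun i _ => measureReal_nonneg)]
  refine Finset.prod_congr rfl fun i _ => ?_
  exact ENNReal.ofReal_toReal (measure_ne_top _ _)

end indep

end Crest.Agent.R069
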