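import Mathlib

/-!
# Row 69, node SPEC = step (3c)

Abstract Hilbert space lemma (no functional calculus).
-/

set_option autoImplicit false
set_option linter.unusedSectionVars false

open Filter Topology RCLike ContinuousLinearMap
open scoped InnerProductSpace

namespace Crest.Agent.R069.Spec

variable {𝕜 : Type*} [RCLike 𝕜]
variable {H : Type*} [NormedAddCommGroup H] [InnerProductSpace 𝕜 H] [CompleteSpace H]
variable {K : Type*} [NormedAddCommGroup K] [InnerProductSpace 𝕜 K] [CompleteSpace K]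

/-- powers of a contraction are contractions, pointwise -/
lemma norm_pow_apply_le {a : H →L[𝕜] H} (h1 : ‖a‖ ≤ 1) (n : ℕ) (x : H) : ‖(a ^ n) x‖ ≤ ‖x‖ := by
  induction n with
  | zero => simp
  | succ n ih =>
    rw [pow_succ']
    calc ‖(a * a ^ n) x‖ = ‖a ((a ^ n) x)‖ := rfl
      _ ≤ ‖a‖ * ‖(a ^ n) x‖ := a.le_opNorm _
      _ ≤ 1 * ‖x‖ := by gcongr
      _ = ‖x‖ := one_mul _

lemma inner_pow_left {a : H →L[𝕜] H} (ha : IsSelfAdjoint a) (n : ℕ) (x y : H) :
    ⟪(a ^ n) x, y⟫_𝕜 = ⟪x, (a ^ n) y⟫_𝕜 := by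
  have h : IsSelfAdjoint (a ^ n) := ha.pow n
  rw [← ContinuousLinearMap.adjoint_inner_right]
  rw [ContinuousLinearMap.isSelfAdjoint_iff'.mp h]

/-- a positive contraction: if `a (a y) = y` then `a y = y` -/
lemma fix_of_sq {a : H →L[𝕜] H} (h0 : ∀ h, 0 ≤ re ⟪a h, h⟫_𝕜) {y : H} (hy : a (a y) = y) :
    a y = y := by
  set z := y - a y with hz
  have h2 : a z = - z := by
    rw [hz, map_sub, hy]; abel
  have h3 := h0 z
  rw [h2, inner_neg_left, map_neg] at h3
  have h4 : re ⟪z, z⟫_𝕜 = ‖z‖ ^ 2 := by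
    rw [inner_self_eq_norm_sq]
  rw [h4] at h3
  have h5 : z = 0 := by
    have : ‖z‖ ^ 2 = 0 := le_antisymm (by linarith) (by positivity)
    simpa using this
  rw [hz, sub_eq_zero] at h5
  exact h5.symm

/-- powers of a positive contraction converge strongly to a fixed vector -/
lemma exists_tendsto_pow {a : H →L[𝕜] H} (ha : IsSelfAdjoint a)
    (h0 : ∀ h, 0 ≤ re ⟪a h, h⟫_𝕜) (h1 : ‖a‖ ≤ 1) (x : H) :
    ∃ y, a y = y ∧ Tendsto (fun n : ℕ => (a ^ n) x) atTop (𝓝 y) := by
  -- t m = ‖a^m x‖²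
  set t : ℕ → ℝ := fun m => ‖(a ^ m) x‖ ^ 2 with ht
  have hanti : Antitone t := by
    refine antitone_nat_of_succ_le fun m => ?_
    have : ‖(a ^ (m + 1)) x‖ ≤ ‖(a ^ m) x‖ := by
      have := norm_pow_apply_le h1 1 ((a ^ m) x)
      rw [pow_succ']
      simpa using this
    exact pow_le_pow_left₀ (norm_nonneg _) this 2
  have hbdd : BddBelow (Set.range t) := ⟨0, by rintro _ ⟨m, rfl⟩; positivity⟩
  obtain ⟨L, hL⟩ : ∃ L, Tendsto t atTop (𝓝 L) := ⟨_, tendsto_atTop_ciInf hanti hbdd⟩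
  have hLt : ∀ m, L ≤ t m := fun m => hanti.le_of_tendsto hL m
  -- inner product of even powers
  have hin : ∀ k l : ℕ, re ⟪(a ^ (2 * k)) x, (a ^ (2 * l)) x⟫_𝕜 = t (k + l) := by
    intro k l
    have e1 : (a ^ (2 * k)) x = (a ^ k) ((a ^ k) x) := by
      rw [two_mul, pow_add]; rfl
    have e2 : (a ^ k) ((a ^ (2 * l)) x) = (a ^ l) ((a ^ (k + l)) x) := by
      rw [← mul_apply_eq_comp, ← mul_apply_eq_comp, ← pow_add, ← pow_add]
      congr 2; ring
    rw [e1, inner_pow_left ha, e2, ← inner_pow_left ha, ← mul_apply_eq_comp, ← pow_add,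
      add_comm l k, inner_self_eq_norm_sq]
  have hdist : ∀ k l : ℕ, ‖(a ^ (2 * k)) x - (a ^ (2 * l)) x‖ ^ 2
      = t (k + k) - 2 * t (k + l) + t (l + l) := by
    intro k l
    rw [@norm_sub_sq 𝕜, hin, ← hin k k, ← hin l l, inner_self_eq_norm_sq, inner_self_eq_norm_sq]
  have hcau : CauchySeq (fun k : ℕ => (a ^ (2 * k)) x) := by
    rw [Metric.cauchySeq_iff]
    intro ε hε
    have hev : ∀ᶠ m in atTop, t m < L + ε ^ 2 / 4 :=
      hL.eventually (gt_mem_nhds (by have : 0 < ε ^ 2 := by positivity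
                                     linarith))
    obtain ⟨M, hM⟩ := eventually_atTop.mp hev
    refine ⟨M, fun k hk l hl => ?_⟩
    rw [dist_eq_norm]
    have h2 : ‖(a ^ (2 * k)) x - (a ^ (2 * l)) x‖ ^ 2 < ε ^ 2 := by
      rw [hdist]
      have h3 := hM (k + k) (by omega)
      have h4 := hM (l + l) (by omega)
      have h5 := hLt (k + l)
      nlinarith [sq_nonneg ε, sq_pos_of_pos hε]
    exact lt_of_pow_lt_pow_left₀ 2 hε.le h2
  obtain ⟨y, hy⟩ := cauchySeq_tendsto_of_complete hcau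
  have hsq : a (a y) = y := by
    have h3 : Tendsto (fun k : ℕ => a (a ((a ^ (2 * k)) x))) atTop (𝓝 (a (a y))) :=
      (a.continuous.tendsto _).comp ((a.continuous.tendsto _).comp hy)
    have h4 : Tendsto (fun k : ℕ => (a ^ (2 * (k + 1))) x) atTop (𝓝 y) :=
      hy.comp (tendsto_add_atTop_nat 1)
    have h5 : (fun k : ℕ => (a ^ (2 * (k + 1))) x) = fun k : ℕ => a (a ((a ^ (2 * k)) x)) := by
      funext k
      rw [show 2 * (k + 1) = 2 * k + 1 + 1 by ring, pow_succ', pow_succ']; rfl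
    rw [h5] at h4
    exact tendsto_nhds_unique h3 h4
  have hfix : a y = y := fix_of_sq h0 hsq
  refine ⟨y, hfix, ?_⟩
  -- combine even and odd powers: norm of difference is antitone
  rw [Metric.tendsto_atTop] at hy ⊢
  intro ε hε
  obtain ⟨M, hM⟩ := hy ε hε
  refine ⟨2 * M, fun n hn => ?_⟩
  have h6 := hM M le_rfl
  rw [dist_eq_norm] at h6 ⊢
  have hpy : ∀ m : ℕ, (a ^ m) y = y := by
    intro m
    induction m with
    | zero => simp
    | succ m ih => rw [pow_succ']; change a ((a ^ m) y) = y; rw [ih, hfix]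
  have h7 : (a ^ n) x - y = (a ^ (n - 2 * M)) ((a ^ (2 * M)) x - y) := by
    rw [map_sub, hpy, ← mul_apply_eq_comp, ← pow_add]
    congr 3; omega
  rw [h7]
  exact lt_of_le_of_lt (norm_pow_apply_le h1 _ _) h6

/-- The space of fixed vectors of `a`. -/
def fixSp (a : H →L[𝕜] H) : Submodule 𝕜 H where
  carrier := {x | a x = x}
  add_mem' := by intro x y hx hy; simp only [Set.mem_ofPred_eq] at *; rw [map_add, hx, hy]
  zero_mem' := by simp
  smul_mem' := by intro c x hx; simp only [Set.mem_ofPred_eq] at *; rw [map_smul, hx]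

@[simp] lemma mem_fixSp {a : H →L[𝕜] H} {x : H} : x ∈ fixSp a ↔ a x = x := Iff.rfl

lemma isClosed_fixSp (a : H →L[𝕜] H) : IsClosed (fixSp a : Set H) :=
  isClosed_eq a.continuous continuous_id

instance (a : H →L[𝕜] H) : CompleteSpace (fixSp a) := (isClosed_fixSp a).completeSpace_coe

/-- The orthogonal projection of `H` onto the fixed vectors of `a`. -/
noncomputable def proj (a : H →L[𝕜] H) : H →L[𝕜] H := (fixSp a).starProjection

lemma proj_fix (a : H →L[𝕜] H) (x : H) : a (proj a x) = proj a x :=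
  (fixSp a).starProjection_apply_mem x

lemma proj_of_fix {a : H →L[𝕜] H} {x : H} (hx : a x = x) : proj a x = x :=
  Submodule.starProjection_eq_self_iff.mpr hx

/-- `a ^ n x → proj x` on the fixed space. -/
theorem tendsto_pow {a : H →L[𝕜] H} (ha : IsSelfAdjoint a)
    (h0 : ∀ h, 0 ≤ re ⟪a h, h⟫_𝕜) (h1 : ‖a‖ ≤ 1) (x : H) :
    Tendsto (fun n : ℕ => (a ^ n) x) atTop (𝓝 (proj a x)) := by
  obtain ⟨y, hy, hlim⟩ := exists_tendsto_pow ha h0 h1 x
  have hpz : ∀ z, a z = z → ∀ m : ℕ, (a ^ m) z = z := by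
    intro z hz m
    induction m with
    | zero => simp
    | succ m ih => rw [pow_succ']; change a ((a ^ m) z) = z; rw [ih, hz]
  have : proj a x = y := by
    refine Submodule.eq_starProjection_of_mem_of_inner_eq_zero hy ?_
    intro z hz
    have h2 : Tendsto (fun n : ℕ => ⟪(a ^ n) x, z⟫_𝕜) atTop (𝓝 ⟪y, z⟫_𝕜) :=
      hlim.inner tendsto_const_nhds
    have h3 : (fun n : ℕ => ⟪(a ^ n) x, z⟫_𝕜) = fun _ => ⟪x, z⟫_𝕜 := by
      funext n; rw [inner_pow_left ha, hpz z hz]
    rw [h3] at h2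
    have h4 := tendsto_nhds_unique h2 tendsto_const_nhds
    rw [inner_sub_left, h4, sub_self]
  rw [this]; exact hlim

lemma norm_sub_apply_sq_le {a : H →L[𝕜] H}
    (hdom : ∀ h, ‖a h‖ ^ 2 ≤ re ⟪a h, h⟫_𝕜) (x : H) : ‖x - a x‖ ≤ ‖x‖ := by
  have h2 := @norm_sub_sq 𝕜 H _ _ _ x (a x)
  have h3 := hdom x
  rw [← inner_conj_symm, conj_re] at h3
  have h4 : ‖x - a x‖ ^ 2 ≤ ‖x‖ ^ 2 := by nlinarith [sq_nonneg ‖a x‖]
  exact (pow_le_pow_iff_left₀ (norm_nonneg _) (norm_nonneg _) two_ne_zero).mp h4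

/-- `‖a h‖² ≤ ⟨a h, h⟩` for a positive contraction. -/
lemma norm_sq_le_re_inner {a : H →L[𝕜] H} (ha : IsSelfAdjoint a)
    (h0 : ∀ h, 0 ≤ re ⟪a h, h⟫_𝕜) (h1 : ‖a‖ ≤ 1) (h : H) : ‖a h‖ ^ 2 ≤ re ⟪a h, h⟫_𝕜 := by
  -- positivity on `h - t a h`
  have sa : ∀ x y, ⟪a x, y⟫_𝕜 = ⟪x, a y⟫_𝕜 := fun x y => by simpa using inner_pow_left ha 1 x y
  have key : ∀ t : ℝ, 0 ≤ re ⟪a h, h⟫_𝕜 - 2 * t * ‖a h‖ ^ 2 + t ^ 2 * re ⟪a (a h), a h⟫_𝕜 := by
    intro t
    have h2 := h0 (h - (t : 𝕜) • a h)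
    have e1 : re ⟪a (h - (t : 𝕜) • a h), h - (t : 𝕜) • a h⟫_𝕜
        = re ⟪a h, h⟫_𝕜 - 2 * t * ‖a h‖ ^ 2 + t ^ 2 * re ⟪a (a h), a h⟫_𝕜 := by
      rw [map_sub, map_smul, inner_sub_left, inner_sub_right, inner_sub_right, inner_smul_left,
        inner_smul_left, inner_smul_right, inner_smul_right, sa (a h) h]
      have e2 : ⟪a h, a h⟫_𝕜 = ((‖a h‖ ^ 2 : ℝ) : 𝕜) := by
        rw [inner_self_eq_norm_sq_to_K]; push_cast; rfl
      rw [e2, conj_ofReal]
      simp only [map_sub, re_ofReal_mul, ofReal_re]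
      ring
    rw [e1] at h2; exact h2
  have h3 : re ⟪a (a h), a h⟫_𝕜 ≤ ‖a h‖ ^ 2 := by
    calc re ⟪a (a h), a h⟫_𝕜 ≤ ‖a (a h)‖ * ‖a h‖ := re_inner_le_norm _ _
      _ ≤ (‖a‖ * ‖a h‖) * ‖a h‖ := by gcongr; exact a.le_opNorm _
      _ ≤ (1 * ‖a h‖) * ‖a h‖ := by gcongr
      _ = ‖a h‖ ^ 2 := by ring
  have h4 := key 1
  nlinarith

lemma map_pow_apply_of_fix {a : H →L[𝕜] H} {z : H} (hz : a z = z) (m : ℕ) : (a ^ m) z = z := by
  induction m with
  | zero => simp
  | succ m ih => rw [pow_succ']; change a ((a ^ m) z) = z; rw [ih, hz]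

/-- SPEC, one operator: `P a^(N+1) = P a` and `‖P h‖² ≤ C ⟨a h, h⟩` force `P = P ∘ proj`. -/
theorem spec_one {a : H →L[𝕜] H} (ha : IsSelfAdjoint a)
    (h0 : ∀ h, 0 ≤ re ⟪a h, h⟫_𝕜) (h1 : ‖a‖ ≤ 1)
    (P : H →L[𝕜] K) (C : ℝ) (N : ℕ) (hN : 1 ≤ N) (hP : ∀ h, P ((a ^ (N + 1)) h) = P (a h))
    (hdom : ∀ h, ‖P h‖ ^ 2 ≤ C * re ⟪a h, h⟫_𝕜) (h : H) : P h = P (proj a h) := by
  -- Step 1: the operator `c = 1 - a`
  set c : H →L[𝕜] H := 1 - a with hc
  have hca : ∀ x, c x = x - a x := fun x => rfl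
  have hcs : IsSelfAdjoint c := (IsSelfAdjoint.one _).sub ha
  have hc1 : ‖c‖ ≤ 1 := by
    refine c.opNorm_le_bound zero_le_one fun x => ?_
    rw [one_mul]
    exact norm_sub_apply_sq_le (norm_sq_le_re_inner ha h0 h1) x
  have hc0 : ∀ x, 0 ≤ re ⟪c x, x⟫_𝕜 := by
    intro x
    rw [hca, inner_sub_left, map_sub, inner_self_eq_norm_sq]
    have : re ⟪a x, x⟫_𝕜 ≤ ‖x‖ ^ 2 := by
      calc re ⟪a x, x⟫_𝕜 ≤ ‖a x‖ * ‖x‖ := re_inner_le_norm _ _
        _ ≤ (‖a‖ * ‖x‖) * ‖x‖ := by gcongr; exact a.le_opNorm _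
        _ ≤ (1 * ‖x‖) * ‖x‖ := by gcongr
        _ = ‖x‖ ^ 2 := by ring
    linarith
  -- Step 2: if `P (a^(k+1) x) = 0` for all `k` then `P x = 0`
  have step2 : ∀ x, (∀ k : ℕ, P ((a ^ (k + 1)) x) = 0) → P x = 0 := by
    intro x hx
    obtain ⟨y, hy, hlim⟩ := exists_tendsto_pow hcs hc0 hc1 x
    have hay : a y = 0 := by
      rw [hca] at hy
      have := sub_eq_self.mp hy
      exact this
    -- P (c^n x) = P x and P (a^(k+1) (c^n x)) = 0
    have hPn : ∀ n : ℕ, P ((c ^ n) x) = P x ∧ ∀ k : ℕ, P ((a ^ (k + 1)) ((c ^ n) x)) = 0 := by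
      intro n
      induction n with
      | zero => exact ⟨by simp, by simpa using hx⟩
      | succ n ih =>
        obtain ⟨ih1, ih2⟩ := ih
        have e : (c ^ (n + 1)) x = (c ^ n) x - a ((c ^ n) x) := by rw [pow_succ']; rfl
        refine ⟨?_, fun k => ?_⟩
        · rw [e, map_sub, ih1]
          have := ih2 0
          rw [zero_add, pow_one] at this
          rw [this, sub_zero]
        · rw [e, map_sub, map_sub, ih2]
          have h5 : (a ^ (k + 1)) (a ((c ^ n) x)) = (a ^ (k + 1 + 1)) ((c ^ n) x) := by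
            rw [pow_succ a (k + 1)]; rfl
          rw [h5, ih2, sub_zero]
    have hlim2 : Tendsto (fun n : ℕ => C * re ⟪a ((c ^ n) x), (c ^ n) x⟫_𝕜) atTop
        (𝓝 (C * re ⟪a y, y⟫_𝕜)) := by
      refine Tendsto.const_mul _ ?_
      exact (RCLike.continuous_re.tendsto _).comp (((a.continuous.tendsto _).comp hlim).inner hlim)
    rw [hay, inner_zero_left, map_zero, mul_zero] at hlim2
    have h6 : ‖P x‖ ^ 2 ≤ 0 := by
      refine ge_of_tendsto hlim2 (Eventually.of_forall fun n => ?_)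
      have h7 := hdom ((c ^ n) x)
      rwa [(hPn n).1] at h7
    have h8 : ‖P x‖ ^ 2 = 0 := le_antisymm h6 (by positivity)
    simpa using h8
  -- Step 3: `P h = P (a^N h)`
  have step3 : ∀ x, P ((a ^ N) x) = P x := by
    intro x
    have h9 : P (x - (a ^ N) x) = 0 := by
      refine step2 _ fun k => ?_
      rw [map_sub, map_sub]
      have e1 : (a ^ (k + 1)) ((a ^ N) x) = (a ^ (N + 1)) ((a ^ k) x) := by
        rw [← mul_apply_eq_comp, ← mul_apply_eq_comp, ← pow_add, ← pow_add]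
        congr 2; ring
      have e2 : (a ^ (k + 1)) x = a ((a ^ k) x) := by rw [pow_succ']; rfl
      rw [e1, hP, e2, sub_self]
    rw [map_sub, sub_eq_zero] at h9
    exact h9.symm
  have step4 : ∀ m : ℕ, P ((a ^ (N * m)) h) = P h := by
    intro m
    induction m with
    | zero => simp
    | succ m ih =>
      have e1 : (a ^ (N * (m + 1))) h = (a ^ N) ((a ^ (N * m)) h) := by
        rw [← mul_apply_eq_comp, ← pow_add]; congr 2; ring
      rw [e1, step3, ih]
  have hlim3 : Tendsto (fun m : ℕ => P ((a ^ (N * m)) h)) atTop (𝓝 (P (proj a h))) :=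
    (P.continuous.tendsto _).comp ((tendsto_pow ha h0 h1 h).comp
      (tendsto_id.const_mul_atTop' (by omega)))
  have hlim4 : Tendsto (fun m : ℕ => P ((a ^ (N * m)) h)) atTop (𝓝 (P h)) := by
    simp only [step4]; exact tendsto_const_nhds
  exact tendsto_nhds_unique hlim4 hlim3

/-- a positive contraction which does not decrease the norm of `v` fixes `v` -/
lemma fix_of_norm_le {a : H →L[𝕜] H} (ha : IsSelfAdjoint a)
    (h0 : ∀ h, 0 ≤ re ⟪a h, h⟫_𝕜) (h1 : ‖a‖ ≤ 1) {v : H} (hv : ‖v‖ ≤ ‖a v‖) : a v = v := by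
  have h2 := @norm_sub_sq 𝕜 H _ _ _ v (a v)
  have h3 := norm_sq_le_re_inner ha h0 h1 v
  rw [← inner_conj_symm, conj_re] at h3
  have h4 : ‖v - a v‖ ^ 2 ≤ 0 := by
    have : ‖v‖ ^ 2 ≤ ‖a v‖ ^ 2 := pow_le_pow_left₀ (norm_nonneg _) hv 2
    nlinarith
  have h5 : ‖v - a v‖ ^ 2 = 0 := le_antisymm h4 (by positivity)
  have h6 : v - a v = 0 := by simpa using h5
  exact (sub_eq_zero.mp h6).symm

lemma proj_mem_of_isClosed {a : H →L[𝕜] H} (ha : IsSelfAdjoint a)
    (h0 : ∀ h, 0 ≤ re ⟪a h, h⟫_𝕜) (h1 : ‖a‖ ≤ 1) {B : Set H} (hB : IsClosed B)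
    (hBa : ∀ x ∈ B, a x ∈ B) {x : H} (hx : x ∈ B) : proj a x ∈ B := by
  refine hB.mem_of_tendsto (tendsto_pow ha h0 h1 x) (Eventually.of_forall fun n => ?_)
  induction n with
  | zero => simpa using hx
  | succ n ih => rw [pow_succ']; exact hBa _ ih

lemma pow_mem {a : H →L[𝕜] H} {B : Set H} (hBa : ∀ x ∈ B, a x ∈ B) {x : H} (hx : x ∈ B) (n : ℕ) :
    (a ^ n) x ∈ B := by
  induction n with
  | zero => simpa using hx
  | succ n ih => rw [pow_succ']; exact hBa _ ih

open Function in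
/-- **SPEC, multilinear form** (= (A) of the satedness route). `B` is the set of "bounded"
vectors (e.g. `{f : |f| ≤ 1 a.e.}` in `L²`), `τ` a form which is linear and contractive in every
slot when the other slots are in `B`; `a` in one slot equals `a` in all the other slots, and the
domination holds for ONE slot `i0`.  Then `τ F = τ (proj a ∘ F)`. -/
theorem spec_multi {ι : Type*} [Fintype ι] [DecidableEq ι] (hι : 3 ≤ Fintype.card ι) (i0 : ι)
    {a : H →L[𝕜] H} (ha : IsSelfAdjoint a) (h0 : ∀ h, 0 ≤ re ⟪a h, h⟫_𝕜) (h1 : ‖a‖ ≤ 1)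
    (B : Set H) (hBc : IsClosed B) (hBa : ∀ x ∈ B, a x ∈ B)
    (hBd : Dense (Submodule.span 𝕜 B : Set H))
    (τ : (ι → H) → 𝕜)
    (hadd : ∀ (F : ι → H) (j : ι) (x y : H), (∀ i, i ≠ j → F i ∈ B) →
      τ (update F j (x + y)) = τ (update F j x) + τ (update F j y))
    (hsmul : ∀ (F : ι → H) (j : ι) (c : 𝕜) (x : H), (∀ i, i ≠ j → F i ∈ B) →
      τ (update F j (c • x)) = c * τ (update F j x))
    (hbd : ∀ (F : ι → H) (j : ι), (∀ i, i ≠ j → F i ∈ B) → ‖τ F‖ ≤ ‖F j‖)
    (hR : ∀ (F : ι → H) (j : ι), (∀ i, F i ∈ B) →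
      τ (update F j (a (F j))) = τ (update (fun i => a (F i)) j (F j)))
    (hdom : ∀ (F : ι → H), (∀ i, i ≠ i0 → F i ∈ B) → ‖τ F‖ ^ 2 ≤ re ⟪a (F i0), F i0⟫_𝕜)
    (F : ι → H) (hF : ∀ i, F i ∈ B) : τ F = τ (fun i => proj a (F i)) := by
  classical
  -- (1)
  have S1 : ∀ (F : ι → H) (j : ι), (∀ i, F i ∈ B) →
      τ (update F j (a (a (F j)))) = τ (fun i => a (F i)) := by
    intro F j hF
    have h2 := hR (update F j (a (F j))) j (by
      intro i
      by_cases hij : i = j
      · subst hij; simpa using hBa _ (hF i)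
      · simpa [hij] using hF i)
    simp only [update_self, update_idem] at h2
    rw [h2]
    congr 1
    funext i
    by_cases hij : i = j
    · subst hij; simp
    · simp [hij]
  -- (2)
  have S2 : ∀ (F : ι → H) (j j' : ι), (∀ i, F i ∈ B) →
      τ (update F j (a (a (F j)))) = τ (update F j' (a (a (F j')))) := by
    intro F j j' hF
    rw [S1 F j hF, S1 F j' hF]
  -- (3)
  have S3 : ∀ (s : Finset ι), i0 ∉ s → ∀ (F : ι → H), (∀ i, F i ∈ B) →
      τ (fun i => if i ∈ s then a (a (F i)) else F i)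
        = τ (update F i0 ((a ^ (2 * s.card)) (F i0))) := by
    intro s
    induction s using Finset.induction_on with
    | empty => intro _ F hF; simp
    | insert j s hjs ih =>
      intro hi0 F hF
      have hi0s : i0 ∉ s := fun h => hi0 (Finset.mem_insert_of_mem h)
      have hi0j : i0 ≠ j := fun h => hi0 (h ▸ Finset.mem_insert_self _ _)
      set G : ι → H := fun i => if i ∈ s then a (a (F i)) else F i with hG
      have hGB : ∀ i, G i ∈ B := by
        intro i
        simp only [hG]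
        split_ifs
        · exact hBa _ (hBa _ (hF i))
        · exact hF i
      have e1 : (fun i => if i ∈ insert j s then a (a (F i)) else F i)
          = update G j (a (a (G j))) := by
        funext i
        by_cases hij : i = j
        · subst hij; simp [hG, hjs]
        · simp [hG, hij]
      rw [e1, S2 G j i0 hGB]
      have e2 : update G i0 (a (a (G i0)))
          = fun i => if i ∈ s then a (a ((update F i0 (a (a (F i0)))) i))
            else (update F i0 (a (a (F i0)))) i := by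
        funext i
        by_cases hij : i = i0
        · subst hij; simp [hG, hi0s]
        · simp [hG, hij]
      rw [e2, ih hi0s (update F i0 (a (a (F i0)))) (by
        intro i
        by_cases hij : i = i0
        · subst hij; simpa using hBa _ (hBa _ (hF i))
        · simpa [hij] using hF i)]
      rw [update_idem, update_self, Finset.card_insert_of_notMem hjs]
      congr 2
  -- the exponent
  obtain ⟨j1, hj1⟩ : ∃ j1 : ι, j1 ≠ i0 := by
    by_contra hcon
    push Not at hcon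
    have : Fintype.card ι ≤ 1 := Fintype.card_le_one_iff.mpr fun x y => by rw [hcon x, hcon y]
    omega
  set s : Finset ι := (Finset.univ.erase i0).erase j1 with hs
  have hscard : s.card = Fintype.card ι - 2 := by
    rw [hs, Finset.card_erase_of_mem (by simp [hj1]), Finset.card_erase_of_mem (Finset.mem_univ _),
      Finset.card_univ]
    omega
  have hi0s : i0 ∉ s := by simp [hs]
  have hj1s : j1 ∉ s := by simp [hs]
  have S4 : ∀ (F : ι → H), (∀ i, F i ∈ B) →
      τ (update F i0 ((a ^ (2 * s.card + 1)) (F i0))) = τ (update F i0 (a (F i0))) := by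
    intro F hF
    rw [hR F i0 hF]
    -- G' : slot j1 has F j1
    set G' : ι → H := update (update (fun i => a (F i)) i0 (F i0)) j1 (F j1) with hG'
    have hG'B : ∀ i, G' i ∈ B := by
      intro i
      by_cases hij : i = j1
      · subst hij; simpa [hG'] using hF i
      · by_cases hi : i = i0
        · subst hi; simpa [hG', hij] using hF i
        · simpa [hG', hij, hi] using hBa _ (hF i)
    have e1 : update (fun i => a (F i)) i0 (F i0) = update G' j1 (a (G' j1)) := by
      funext i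
      by_cases hij : i = j1
      · subst hij; simp [hG', hj1]
      · simp [hG', hij]
    rw [e1, hR G' j1 hG'B]
    have e2 : update (fun i => a (G' i)) j1 (G' j1)
        = fun i => if i ∈ s then a (a ((update F i0 (a (F i0))) i))
          else (update F i0 (a (F i0))) i := by
      funext i
      by_cases hij : i = j1
      · subst hij; simp [hG', hj1s, hj1]
      · by_cases hi : i = i0
        · subst hi; simp [hG', hij, hi0s]
        · have his : i ∈ s := by simp [hs, hij, hi]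
          simp [hG', hij, hi, his]
    rw [e2, S3 s hi0s (update F i0 (a (F i0))) (by
        intro i
        by_cases hij : i = i0
        · subst hij; simpa using hBa _ (hF i)
        · simpa [hij] using hF i)]
    rw [update_idem, update_self]
    congr 2
  -- (5) the functional
  have S5 : ∀ (F : ι → H), (∀ i, F i ∈ B) → τ F = τ (update F i0 (proj a (F i0))) := by
    intro F hF
    let P₀ : H →ₗ[𝕜] 𝕜 :=
      { toFun := fun h => τ (update F i0 h)
        map_add' := fun x y => hadd F i0 x y fun i _ => hF i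
        map_smul' := fun c x => hsmul F i0 c x fun i _ => hF i }
    have hP₀ : ∀ x, ‖P₀ x‖ ≤ 1 * ‖x‖ := by
      intro x
      rw [one_mul]
      have := hbd (update F i0 x) i0 (fun i hi => by simpa [hi] using hF i)
      rw [update_self] at this
      exact this
    let P : H →L[𝕜] 𝕜 := P₀.mkContinuous 1 hP₀
    have hPapp : ∀ h, P h = τ (update F i0 h) := fun h => rfl
    have hPow : P.comp (a ^ (2 * s.card + 1)) = P.comp a := by
      refine ContinuousLinearMap.ext_on hBd fun h hh => ?_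
      change P ((a ^ (2 * s.card + 1)) h) = P (a h)
      have h3 := S4 (update F i0 h) (by
        intro i
        by_cases hij : i = i0
        · subst hij; simpa using hh
        · simpa [hij] using hF i)
      simp only [update_idem, update_self] at h3
      exact h3
    have h4 := spec_one ha h0 h1 P 1 (2 * s.card) (by omega)
      (fun h => by
        have := congrArg (fun Q : H →L[𝕜] 𝕜 => Q h) hPow
        exact this)
      (fun h => by
        rw [one_mul, hPapp]
        have := hdom (update F i0 h) (fun i hi => by simpa [hi] using hF i)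
        simpa using this) (F i0)
    rw [hPapp, hPapp, update_eq_self] at h4
    exact h4
  -- (7)
  have S7 : ∀ (m : ℕ) (F : ι → H), (∀ i, F i ∈ B) → a (F i0) = F i0 →
      τ F = τ (fun i => (a ^ m) (F i)) := by
    intro m
    induction m with
    | zero => intro F _ _; simp
    | succ m ih =>
      intro F hF hfix
      have h5 := hR F i0 hF
      rw [hfix, update_eq_self] at h5
      have h6 : update (fun i => a (F i)) i0 (F i0) = fun i => a (F i) := by
        funext i
        by_cases hij : i = i0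
        · subst hij; simp [hfix]
        · simp [hij]
      rw [h6] at h5
      rw [h5, ih (fun i => a (F i)) (fun i => hBa _ (hF i)) (by simp [hfix])]
      congr 1
  -- (8) continuity
  have S8 : ∀ (F G : ι → H), (∀ i, F i ∈ B) → (∀ i, G i ∈ B) → ∀ s : Finset ι,
      ‖τ F - τ (s.piecewise G F)‖ ≤ ∑ i ∈ s, ‖F i - G i‖ := by
    intro F G hF hG s
    induction s using Finset.induction_on with
    | empty => simp
    | insert j s hjs ih =>
      rw [Finset.sum_insert hjs, Finset.piecewise_insert]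
      have hW : ∀ i, s.piecewise G F i ∈ B := by
        intro i
        by_cases his : i ∈ s
        · simpa [his] using hG i
        · simpa [his] using hF i
      have e1 : s.piecewise G F = update (s.piecewise G F) j (F j) := by
        funext i
        by_cases hij : i = j
        · subst hij; simp [hjs]
        · simp [hij]
      have e2 : τ (s.piecewise G F) - τ (update (s.piecewise G F) j (G j))
          = τ (update (s.piecewise G F) j (F j - G j)) := by
        conv_lhs => rw [e1]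
        rw [update_idem]
        have h7 := hadd (s.piecewise G F) j (F j - G j) (G j) (fun i _ => hW i)
        rw [sub_add_cancel] at h7
        rw [h7]; ring
      have h8 : ‖τ (s.piecewise G F) - τ (update (s.piecewise G F) j (G j))‖ ≤ ‖F j - G j‖ := by
        rw [e2]
        have := hbd (update (s.piecewise G F) j (F j - G j)) j
          (fun i hi => by simpa [hi] using hW i)
        simpa using this
      calc ‖τ F - τ (update (s.piecewise G F) j (G j))‖
          ≤ ‖τ F - τ (s.piecewise G F)‖ + ‖τ (s.piecewise G F) - τ (update (s.piecewise G F) j (G j))‖ :=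
            norm_sub_le_norm_sub_add_norm_sub _ _ _
        _ ≤ ∑ i ∈ s, ‖F i - G i‖ + ‖F j - G j‖ := add_le_add ih h8
        _ = ‖F j - G j‖ + ∑ i ∈ s, ‖F i - G i‖ := add_comm _ _
  have S8' : ∀ (F G : ι → H), (∀ i, F i ∈ B) → (∀ i, G i ∈ B) →
      ‖τ F - τ G‖ ≤ ∑ i, ‖F i - G i‖ := by
    intro F G hF hG
    simpa using S8 F G hF hG Finset.univ
  -- conclusion
  have hpB : ∀ i, proj a (F i) ∈ B := fun i => proj_mem_of_isClosed ha h0 h1 hBc hBa (hF i)
  set F' : ι → H := update F i0 (proj a (F i0)) with hF'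
  have hF'B : ∀ i, F' i ∈ B := by
    intro i
    by_cases hij : i = i0
    · subst hij; simpa [hF'] using hpB i
    · simpa [hF', hij] using hF i
  have hF'fix : a (F' i0) = F' i0 := by simp [hF', proj_fix]
  have e3 : (fun i => proj a (F' i)) = fun i => proj a (F i) := by
    funext i
    by_cases hij : i = i0
    · subst hij; simp only [hF', update_self]; exact proj_of_fix (proj_fix a _)
    · simp [hF', hij]
  rw [S5 F hF, ← e3, ← sub_eq_zero, ← norm_eq_zero]
  have hlim : Tendsto (fun m : ℕ => ∑ i, ‖(a ^ m) (F' i) - proj a (F' i)‖) atTop (𝓝 0) := by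
    rw [show (0 : ℝ) = ∑ _i : ι, (0 : ℝ) by simp]
    refine tendsto_finsetSum _ fun i _ => ?_
    have := (tendsto_pow ha h0 h1 (F' i)).sub_const (proj a (F' i))
    rw [sub_self] at this
    simpa using this.norm
  refine le_antisymm (ge_of_tendsto hlim (Eventually.of_forall fun m => ?_)) (norm_nonneg _)
  rw [S7 m F' hF'B hF'fix]
  exact S8' _ _ (fun i => pow_mem hBa (hF'B i) m)
    (fun i => proj_mem_of_isClosed ha h0 h1 hBc hBa (hF'B i))

open Function in
/-- Slotwise form: under the conclusion of `spec_multi`, `proj a` may be inserted in one slot. -/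
lemma slot_of_all {ι : Type*} [Fintype ι] [DecidableEq ι] {p : H →L[𝕜] H}
    {B : Set H} (hpB : ∀ x ∈ B, p x ∈ B) (hpp : ∀ x, p (p x) = p x) {τ : (ι → H) → 𝕜}
    (hτ : ∀ F : ι → H, (∀ i, F i ∈ B) → τ F = τ (fun i => p (F i)))
    (F : ι → H) (hF : ∀ i, F i ∈ B) (j : ι) : τ (update F j (p (F j))) = τ F := by
  rw [hτ F hF, hτ (update F j (p (F j))) (by
    intro i
    by_cases hij : i = j
    · subst hij; simpa using hpB _ (hF i)
    · simpa [hij] using hF i)]
  congr 1
  funext i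
  by_cases hij : i = j
  · subst hij; simp [hpp]
  · simp [hij]

/-- The average of the operators `a i`. -/
noncomputable def avg {ι : Type*} [Fintype ι] (a : ι → H →L[𝕜] H) : H →L[𝕜] H :=
  ((Fintype.card ι : 𝕜)⁻¹) • ∑ i, a i

section avg
variable {ι : Type*} [Fintype ι] [Nonempty ι] {a : ι → H →L[𝕜] H}

lemma card_ne : (Fintype.card ι : ℝ) ≠ 0 := by
  have : Fintype.card ι ≠ 0 := Fintype.card_ne_zero
  exact_mod_cast this

lemma avg_apply (a : ι → H →L[𝕜] H) (x : H) :
    avg a x = ((Fintype.card ι : 𝕜)⁻¹) • ∑ i, a i x := by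
  rw [avg, smul_apply, sum_apply]

lemma card_inv_eq : ((Fintype.card ι : 𝕜)⁻¹) = (((Fintype.card ι : ℝ)⁻¹ : ℝ) : 𝕜) := by
  push_cast; rfl

lemma card_ne' : (Fintype.card ι : 𝕜) ≠ 0 := by
  have : Fintype.card ι ≠ 0 := Fintype.card_ne_zero
  exact_mod_cast this

lemma avg_inner (a : ι → H →L[𝕜] H) (x : H) :
    re ⟪avg a x, x⟫_𝕜 = (Fintype.card ι : ℝ)⁻¹ * ∑ i, re ⟪a i x, x⟫_𝕜 := by
  rw [avg_apply, card_inv_eq, inner_smul_left, sum_inner, conj_ofReal,
    re_ofReal_mul, map_sum]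

lemma re_inner_le_sq {b : H →L[𝕜] H} (h1 : ‖b‖ ≤ 1) (x : H) : re ⟪b x, x⟫_𝕜 ≤ ‖x‖ ^ 2 := by
  calc re ⟪b x, x⟫_𝕜 ≤ ‖b x‖ * ‖x‖ := re_inner_le_norm _ _
    _ ≤ (‖b‖ * ‖x‖) * ‖x‖ := by gcongr; exact b.le_opNorm _
    _ ≤ (1 * ‖x‖) * ‖x‖ := by gcongr
    _ = ‖x‖ ^ 2 := by ring

lemma avg_selfAdjoint (ha : ∀ i, IsSelfAdjoint (a i)) : IsSelfAdjoint (avg a) := by
  unfold avg
  refine IsSelfAdjoint.smul ?_ (isSelfAdjoint_sum _ fun i _ => ha i)
  rw [card_inv_eq]
  exact conj_ofReal _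

lemma avg_nonneg (h0 : ∀ i h, 0 ≤ re ⟪a i h, h⟫_𝕜) (x : H) : 0 ≤ re ⟪avg a x, x⟫_𝕜 := by
  rw [avg_inner]
  exact mul_nonneg (by positivity) (Finset.sum_nonneg fun i _ => h0 i x)

lemma avg_norm_le (h1 : ∀ i, ‖a i‖ ≤ 1) : ‖avg a‖ ≤ 1 := by
  refine (avg a).opNorm_le_bound zero_le_one fun x => ?_
  rw [avg_apply, one_mul, norm_smul, card_inv_eq, norm_ofReal, abs_of_nonneg (by positivity)]
  have h2 : ‖∑ i, a i x‖ ≤ ∑ _i : ι, ‖x‖ := by
    refine (norm_sum_le _ _).trans (Finset.sum_le_sum fun i _ => ?_)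
    calc ‖a i x‖ ≤ ‖a i‖ * ‖x‖ := (a i).le_opNorm _
      _ ≤ 1 * ‖x‖ := by gcongr; exact h1 i
      _ = ‖x‖ := one_mul _
  rw [Finset.sum_const, Finset.card_univ, nsmul_eq_mul] at h2
  calc (Fintype.card ι : ℝ)⁻¹ * ‖∑ i, a i x‖ ≤ (Fintype.card ι : ℝ)⁻¹ * (Fintype.card ι * ‖x‖) := by
        gcongr
    _ = ‖x‖ := by rw [← mul_assoc, inv_mul_cancel₀ (card_ne), one_mul]

/-- a vector fixed by the average is fixed by all the operators -/
lemma fix_of_avg_fix (ha : ∀ i, IsSelfAdjoint (a i)) (h0 : ∀ i h, 0 ≤ re ⟪a i h, h⟫_𝕜)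
    (h1 : ∀ i, ‖a i‖ ≤ 1) {x : H} (hx : avg a x = x) (i : ι) : a i x = x := by
  have h2 := avg_inner a x
  rw [hx, inner_self_eq_norm_sq] at h2
  have h3 : ∑ j, (‖x‖ ^ 2 - re ⟪a j x, x⟫_𝕜) = 0 := by
    rw [Finset.sum_sub_distrib, Finset.sum_const, Finset.card_univ, nsmul_eq_mul, sub_eq_zero, h2,
      ← mul_assoc, mul_inv_cancel₀ card_ne, one_mul]
  have h4 := (Finset.sum_eq_zero_iff_of_nonneg (fun j _ => by
    have := re_inner_le_sq (h1 j) x; linarith)).mp h3 i (Finset.mem_univ _)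
  -- ‖x - a x‖² = ‖x‖² - 2 re + ‖a x‖² ≤ 0
  have h5 := @norm_sub_sq 𝕜 H _ _ _ x (a i x)
  rw [← inner_conj_symm, conj_re] at h5
  have h6 := norm_sq_le_re_inner (ha i) (h0 i) (h1 i) x
  have h7 : ‖x - a i x‖ ^ 2 = 0 := le_antisymm (by nlinarith) (by positivity)
  have h8 : x - a i x = 0 := by simpa using h7
  exact (sub_eq_zero.mp h8).symm

lemma avg_fix_of_fix {x : H} (hx : ∀ i, a i x = x) : avg a x = x := by
  rw [avg_apply]
  simp only [hx, Finset.sum_const, Finset.card_univ, ← Nat.cast_smul_eq_nsmul 𝕜, ← mul_smul]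
  rw [inv_mul_cancel₀ card_ne', one_smul]

end avg

open Function in
/-- **N-SPEC** (step (A) of the satedness route, all roles): one operator `a i` for every role
`i`, "`a i` in one slot = `a i` in all the other slots" (`hR`), domination in the slot `i`
(`hdom`).  Then `τ F = τ (p ∘ F)`, `p` the projection onto the common fixed vectors
`{x | ∀ i, a i x = x}`; moreover `p` maps `B` to `B`. -/
theorem spec_all {ι : Type*} [Fintype ι] [DecidableEq ι] (hι : 3 ≤ Fintype.card ι)
    {a : ι → H →L[𝕜] H} (ha : ∀ i, IsSelfAdjoint (a i)) (h0 : ∀ i h, 0 ≤ re ⟪a i h, h⟫_𝕜)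
    (h1 : ∀ i, ‖a i‖ ≤ 1)
    (B : Set H) (hBc : IsClosed B)
    (hBavg : ∀ f : ι → H, (∀ i, f i ∈ B) → ((Fintype.card ι : 𝕜)⁻¹) • ∑ i, f i ∈ B)
    (hBa : ∀ i, ∀ x ∈ B, a i x ∈ B)
    (hBd : Dense (Submodule.span 𝕜 B : Set H))
    (τ : (ι → H) → 𝕜)
    (hadd : ∀ (F : ι → H) (j : ι) (x y : H), (∀ i, i ≠ j → F i ∈ B) →
      τ (update F j (x + y)) = τ (update F j x) + τ (update F j y))
    (hsmul : ∀ (F : ι → H) (j : ι) (c : 𝕜) (x : H), (∀ i, i ≠ j → F i ∈ B) →
      τ (update F j (c • x)) = c * τ (update F j x))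
    (hbd : ∀ (F : ι → H) (j : ι), (∀ i, i ≠ j → F i ∈ B) → ‖τ F‖ ≤ ‖F j‖)
    (hR : ∀ (i : ι) (F : ι → H) (j : ι), (∀ i, F i ∈ B) →
      τ (update F j (a i (F j))) = τ (update (fun l => a i (F l)) j (F j)))
    (hdom : ∀ (i : ι) (F : ι → H), (∀ l, l ≠ i → F l ∈ B) → ‖τ F‖ ^ 2 ≤ re ⟪a i (F i), F i⟫_𝕜) :
    (∀ x, (∀ i, a i x = x) ↔ avg a x = x) ∧ (∀ x ∈ B, proj (avg a) x ∈ B) ∧
      ∀ F : ι → H, (∀ i, F i ∈ B) → τ F = τ (fun i => proj (avg a) (F i)) := by
  classical
  have : Nonempty ι := Fintype.card_pos_iff.mp (by omega)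
  have hfix : ∀ x, (∀ i, a i x = x) ↔ avg a x = x :=
    fun x => ⟨fun h => avg_fix_of_fix h, fun h i => fix_of_avg_fix ha h0 h1 h i⟩
  have hpB : ∀ x ∈ B, proj (avg a) x ∈ B := fun x hx =>
    proj_mem_of_isClosed (avg_selfAdjoint ha) (avg_nonneg h0) (avg_norm_le h1) hBc
      (fun y hy => by rw [avg_apply]; exact hBavg _ fun i => hBa i y hy) hx
  refine ⟨hfix, hpB, ?_⟩
  have hone : ∀ i, ∀ F : ι → H, (∀ l, F l ∈ B) → τ F = τ (fun l => proj (a i) (F l)) :=
    fun i F hF => spec_multi hι i (ha i) (h0 i) (h1 i) B hBc (hBa i) hBd τ hadd hsmul hbd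
      (hR i) (hdom i) F hF
  -- one slot
  have hslot : ∀ F : ι → H, (∀ l, F l ∈ B) → ∀ j, τ (update F j (proj (avg a) (F j))) = τ F := by
    intro F hF j
    let P₀ : H →ₗ[𝕜] 𝕜 :=
      { toFun := fun h => τ (update F j h)
        map_add' := fun x y => hadd F j x y fun i _ => hF i
        map_smul' := fun c x => hsmul F j c x fun i _ => hF i }
    have hP₀ : ∀ x, ‖P₀ x‖ ≤ 1 * ‖x‖ := by
      intro x
      rw [one_mul]
      have := hbd (update F j x) j (fun i hi => by simpa [hi] using hF i)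
      rw [update_self] at this
      exact this
    let P : H →L[𝕜] 𝕜 := P₀.mkContinuous 1 hP₀
    have hPapp : ∀ h, P h = τ (update F j h) := fun h => rfl
    -- P ∘ proj (a i) = P
    have hPi : ∀ i, P.comp (proj (a i)) = P := by
      intro i
      refine ContinuousLinearMap.ext_on hBd fun h hh => ?_
      change P (proj (a i) h) = P h
      rw [hPapp, hPapp]
      have h3 := slot_of_all (p := proj (a i))
        (fun x hx => proj_mem_of_isClosed (ha i) (h0 i) (h1 i) hBc (hBa i) hx)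
        (fun x => proj_of_fix (proj_fix (a i) x)) (hone i) (update F j h) (by
          intro l
          by_cases hij : l = j
          · subst hij; simpa using hh
          · simpa [hij] using hF l) j
      simp only [update_idem, update_self] at h3
      exact h3
    -- the Riesz vector
    let v : H := (InnerProductSpace.toDual 𝕜 H).symm P
    have hv : ∀ h, ⟪v, h⟫_𝕜 = P h := fun h => by
      simp [v]
    have hvi : ∀ i, a i v = v := by
      intro i
      have h4 : proj (a i) v = v := by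
        refine ext_inner_right 𝕜 fun h => ?_
        have h5 : ⟪proj (a i) v, h⟫_𝕜 = ⟪v, proj (a i) h⟫_𝕜 :=
          Submodule.inner_starProjection_left_eq_right _ _ _
        rw [h5, hv, hv]
        exact congrArg (fun Q : H →L[𝕜] 𝕜 => Q h) (hPi i)
      rw [← h4]; exact proj_fix _ _
    have hvb : proj (avg a) v = v := proj_of_fix ((hfix v).mp hvi)
    rw [← hPapp, ← hv]
    have h5 : ⟪proj (avg a) v, F j⟫_𝕜 = ⟪v, proj (avg a) (F j)⟫_𝕜 :=
      Submodule.inner_starProjection_left_eq_right _ _ _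
    rw [← h5, hvb, hv, hPapp, update_eq_self]
  intro F hF
  have hall : ∀ s : Finset ι, τ (s.piecewise (fun i => proj (avg a) (F i)) F) = τ F := by
    intro s
    induction s using Finset.induction_on with
    | empty => simp
    | insert j s hjs ih =>
      rw [Finset.piecewise_insert]
      have h6 := hslot (s.piecewise (fun i => proj (avg a) (F i)) F) (by
        intro i
        by_cases his : i ∈ s
        · simpa [his] using hpB _ (hF i)
        · simpa [his] using hF i) j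
      have h7 : s.piecewise (fun i => proj (avg a) (F i)) F j = F j := by simp [hjs]
      rw [h7] at h6
      rw [h6, ih]
  have := hall Finset.univ
  simpa using this.symm

end Crest.Agent.R069.Spec
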