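import Crest.Agent.R069.SpecX
import Crest.Agent.R069.CI

/-!
# Row 69, node R5 = RULE ⟹ visible sub-sigma-algebra, point map form

`φ i : Λ → X` measure preserving (the sites), `SS i` sub-sigma-algebras of `Λ`.
-/

set_option autoImplicit false
set_option linter.unusedSectionVars false

open MeasureTheory Filter Topology Function Set
open scoped InnerProductSpace ENNReal

namespace Crest.Agent.R069.SpecX

variable {X Λ : Type*} [mX : MeasurableSpace X] [mΛ : MeasurableSpace Λ] {μ : Measure X}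
  {P : Measure Λ} {ι : Type*}

/-- The sigma-algebra of the sets visible in all roles. -/
@[implicit_reducible]
def mY (φ : ι → Λ → X) (P : Measure Λ) (SS : ι → MeasurableSpace Λ) : MeasurableSpace X where
  MeasurableSet' A := MeasurableSet A ∧ ∀ i, ∃ B, MeasurableSet[SS i] B ∧ φ i ⁻¹' A =ᵐ[P] B
  measurableSet_empty := ⟨MeasurableSet.empty, fun _ => ⟨∅, @MeasurableSet.empty _ (SS _),
    Filter.EventuallyEq.of_eq preimage_empty⟩⟩
  measurableSet_compl A hA := ⟨hA.1.compl, fun i => by
    obtain ⟨B, hB, hAB⟩ := hA.2 i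
    exact ⟨Bᶜ, @MeasurableSet.compl _ _ (SS i) hB, by rw [preimage_compl]; exact hAB.compl⟩⟩
  measurableSet_iUnion A hA := ⟨MeasurableSet.iUnion fun n => (hA n).1, fun i => by
    choose B hB hAB using fun n => (hA n).2 i
    exact ⟨⋃ n, B n, @MeasurableSet.iUnion _ _ (SS i) _ _ hB, by
      rw [preimage_iUnion]; exact Filter.EventuallyEq.countable_iUnion hAB⟩⟩

lemma mY_le (φ : ι → Λ → X) (P : Measure Λ) (SS : ι → MeasurableSpace Λ) : mY φ P SS ≤ mX :=
  fun _ h => h.1

variable {φ : ι → Λ → X}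

lemma hom_phi [IsFiniteMeasure μ] {ψ : Λ → X} (hψ : MeasurePreserving ψ P μ) :
    Hom μ P (fun f => f ∘ ψ) where
  meas f hf := hf.1.comp hψ.measurable
  bdd f C _ h y := h _
  add f g _ _ := EventuallyEq.rfl
  smul c f _ := EventuallyEq.rfl
  mul f g _ _ := EventuallyEq.rfl
  comp f _ h _ := EventuallyEq.rfl
  int f hf := by
    have h := hψ.map_eq
    rw [← h, integral_map hψ.measurable.aemeasurable hf.1.aestronglyMeasurable]
    rfl

lemma ind_comp {ψ : Λ → X} (A : Set X) :
    (A.indicator fun _ => (1 : ℝ)) ∘ ψ = (ψ ⁻¹' A).indicator fun _ => (1 : ℝ) := by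
  funext y
  by_cases h : ψ y ∈ A
  · simp [h]
  · simp [h]

omit mX in
lemma aesm_ind_iff {m : MeasurableSpace Λ} {B : Set Λ} :
    AEStronglyMeasurable[m] (B.indicator fun _ => (1 : ℝ)) P ↔
      ∃ B', MeasurableSet[m] B' ∧ B =ᵐ[P] B' := by
  constructor
  · rintro ⟨g, hg, hBg⟩
    refine ⟨g ⁻¹' {1}, hg.measurable (measurableSet_singleton 1), ?_⟩
    filter_upwards [hBg] with y hy
    apply propext
    change y ∈ B ↔ g y = 1
    rw [← hy]
    by_cases h : y ∈ B
    · simp [h]
    · simp [h]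
  · rintro ⟨B', hB', h⟩
    refine ⟨B'.indicator fun _ => (1 : ℝ), stronglyMeasurable_const.indicator hB', ?_⟩
    filter_upwards [h] with y hy
    have hy' : (y ∈ B) = (y ∈ B') := hy
    by_cases h1 : y ∈ B
    · rw [indicator_of_mem h1, indicator_of_mem (hy' ▸ h1)]
    · rw [indicator_of_notMem h1, indicator_of_notMem (hy' ▸ h1)]

section main

variable [IsProbabilityMeasure μ] [IsProbabilityMeasure P] [Fintype ι] [DecidableEq ι]
  {SS : ι → MeasurableSpace Λ} (hφ : ∀ i, MeasurePreserving (φ i) P μ) (hSS : ∀ i, SS i ≤ mΛ)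
  (hφS : ∀ i j, j ≠ i → Measurable[SS i, mX] (φ j)) (hc : 3 ≤ Fintype.card ι)
  (hrule : ∀ (i : ι) (F g : ι → X → ℝ), (∀ j, BdM mX (F j)) → (∀ j, BdM mX (g j)) →
    (∀ (j : ι) (G : X → ℝ), BdM mX G →
      ∫ x, g j x * G x ∂μ = ∫ y, (P[F j ∘ φ i | SS i]) y * (G ∘ φ i) y ∂P) →
    ∀ j0, ∫ y, (∏ j ∈ Finset.univ.erase j0, F j (φ j y)) * g j0 (φ j0 y) ∂P
      = ∫ y, (∏ j ∈ Finset.univ.erase j0, g j (φ j y)) * F j0 (φ j0 y) ∂P)

include hφ hSS hφS hc hrule

/-- functions orthogonal to the visible algebra do not contribute -/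
theorem specPhi_zero {F : ι → X → ℝ} (hF : ∀ j, BdM mX (F j)) (i0 : ι)
    (hi0 : μ[F i0 | mY φ P SS] =ᵐ[μ] 0) : ∫ y, ∏ j, F j (φ j y) ∂P = 0 := by
  have hb : ∀ {f : X → ℝ}, bdf f → BdM mX f := fun h => ⟨h.1, h.2⟩
  refine specX (mY := mY φ P SS) (J := fun i f => f ∘ φ i) (SS := SS) (fun i => hom_phi (hφ i)) hSS
    ?_ ?_ hc (mY_le φ P SS) ?_ F (fun i => ⟨(hF i).meas, (hF i).bdd⟩) i0 hi0
  · intro i j hij f hf
    exact (hf.1.comp (hφS i j hij)).stronglyMeasurable.aestronglyMeasurable
  · intro A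
    constructor
    · rintro ⟨hA, h⟩
      refine ⟨hA, fun i => ?_⟩
      rw [ind_comp, aesm_ind_iff]
      exact h i
    · rintro ⟨hA, h⟩
      refine ⟨hA, fun i => ?_⟩
      have := h i
      rw [ind_comp, aesm_ind_iff] at this
      exact this
  · intro i F g hF hg hFg j0
    have h1 := hrule i F g (fun j => hb (hF j)) (fun j => hb (hg j))
      (fun j G hG => hFg j G ⟨hG.meas, hG.bdd⟩) j0
    have e1 : ∀ (u v : ι → X → ℝ), tauJ P (fun i f => f ∘ φ i) (update u j0 (v j0))
        = ∫ y, (∏ j ∈ Finset.univ.erase j0, u j (φ j y)) * v j0 (φ j0 y) ∂P := by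
      intro u v
      unfold tauJ
      refine integral_congr_ae (Eventually.of_forall fun y => ?_)
      change ∏ j, (update u j0 (v j0) j) (φ j y) = _
      rw [← Finset.mul_prod_erase Finset.univ (fun j => (update u j0 (v j0) j) (φ j y))
        (Finset.mem_univ j0), mul_comm, update_self]
      congr 1
      refine Finset.prod_congr rfl fun j hj => ?_
      rw [update_of_ne (Finset.ne_of_mem_erase hj)]
    rw [e1 F g, e1 g F]
    exact h1

/-- **N-SPEC**, point map form. -/
theorem specPhi {F : ι → X → ℝ} (hF : ∀ j, BdM mX (F j)) :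
    ∫ y, ∏ j, F j (φ j y) ∂P = ∫ y, ∏ j, (μ[F j | mY φ P SS]) (φ j y) ∂P := by
  choose G hG hFG using fun j => BdM.condExp_bm (μ := μ) (mY_le φ P SS) (hF j)
  have hGX : ∀ j, BdM mX (G j) := fun j => (hG j).mono (mY_le φ P SS)
  have h1 : ∫ y, ∏ j, (μ[F j | mY φ P SS]) (φ j y) ∂P = ∫ y, ∏ j, G j (φ j y) ∂P := by
    refine integral_congr_ae ?_
    have h2 : ∀ᵐ y ∂P, ∀ j, (μ[F j | mY φ P SS]) (φ j y) = G j (φ j y) := by
      rw [ae_all_iff]
      intro j
      exact (hφ j).quasiMeasurePreserving.ae (hFG j)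
    filter_upwards [h2] with y hy
    exact Finset.prod_congr rfl fun j _ => hy j
  rw [h1]
  have hstep : ∀ (H : ι → X → ℝ), (∀ j, BdM mX (H j)) → ∀ j, H j = F j →
      ∫ y, ∏ i, (update H j (G j) i) (φ i y) ∂P = ∫ y, ∏ i, H i (φ i y) ∂P := by
    intro H hH j hj
    have hz : ∫ y, ∏ i, (update H j (fun x => H j x - G j x) i) (φ i y) ∂P = 0 := by
      refine specPhi_zero hφ hSS hφS hc hrule (fun i => ?_) j ?_
      · by_cases hij : i = j
        · subst hij; rw [update_self]; exact (hH i).sub (hGX i)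
        · rw [update_of_ne hij]; exact hH i
      · rw [update_self]
        have hi : Integrable (F j) μ := (hF j).integrable le_rfl
        have hg : Integrable (G j) μ := (hGX j).integrable le_rfl
        have h3 : μ[(fun x => H j x - G j x)|mY φ P SS] =ᵐ[μ]
            μ[F j|mY φ P SS] - μ[G j|mY φ P SS] := by
          rw [hj]; exact condExp_sub hi hg _
        refine h3.trans ?_
        rw [condExp_of_bm (mY_le φ P SS) (hG j)]
        filter_upwards [hFG j] with x hx
        simp [hx]
    have hsplit : ∀ y, ∏ i, H i (φ i y) - ∏ i, (update H j (G j) i) (φ i y)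
        = ∏ i, (update H j (fun x => H j x - G j x) i) (φ i y) := by
      intro y
      rw [← Finset.mul_prod_erase Finset.univ (fun i => H i (φ i y)) (Finset.mem_univ j),
        ← Finset.mul_prod_erase Finset.univ (fun i => (update H j (G j) i) (φ i y))
          (Finset.mem_univ j),
        ← Finset.mul_prod_erase Finset.univ
          (fun i => (update H j (fun x => H j x - G j x) i) (φ i y)) (Finset.mem_univ j)]
      have e1 : ∀ v : X → ℝ, ∏ i ∈ Finset.univ.erase j, (update H j v i) (φ i y)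
          = ∏ i ∈ Finset.univ.erase j, H i (φ i y) := fun v =>
        Finset.prod_congr rfl fun i hi => by rw [update_of_ne (Finset.ne_of_mem_erase hi)]
      rw [e1, e1, update_self, update_self]
      ring
    have hbm : ∀ (u : ι → X → ℝ), (∀ j, BdM mX (u j)) →
        Integrable (fun y => ∏ i, u i (φ i y)) P := by
      intro u hu
      have hh : ∀ i, BdM mΛ (fun y => u i (φ i y)) := fun i =>
        ⟨(hu i).meas.comp (hφ i).measurable, by
          obtain ⟨K, hK⟩ := (hu i).bdd
          exact ⟨K, fun y => hK _⟩⟩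
      exact (BdM.prod (s := Finset.univ) fun i _ => hh i).integrable le_rfl
    have hI1 := hbm H hH
    have hI2 := hbm (update H j (G j)) (fun i => by
      by_cases hij : i = j
      · subst hij; rw [update_self]; exact hGX i
      · rw [update_of_ne hij]; exact hH i)
    have h4 := integral_sub hI1 hI2
    simp_rw [hsplit] at h4
    rw [hz] at h4
    linarith
  have hall : ∀ s : Finset ι,
      ∫ y, ∏ i, (s.piecewise G F i) (φ i y) ∂P = ∫ y, ∏ i, F i (φ i y) ∂P := by
    intro s
    induction s using Finset.induction_on with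
    | empty => simp
    | insert j s hjs ih =>
      rw [Finset.piecewise_insert, hstep (s.piecewise G F) (fun i => ?_) j (by simp [hjs]), ih]
      by_cases his : i ∈ s
      · simpa [his] using hGX i
      · simpa [his] using hF i
  have h5 := hall Finset.univ
  simp only [Finset.piecewise_univ] at h5
  exact h5.symm

end main

end Crest.Agent.R069.SpecX
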