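import Mathlib

/-!
# Row 69, node STATIC, part 1: resampling of coordinates in finite product spaces
-/

open MeasureTheory ProbabilityTheory Function
open scoped ENNReal

set_option linter.unusedSectionVars false

namespace Crest.Agent.R069.Static

noncomputable section

variable {P : Type*} [Fintype P] [DecidableEq P] {E : Type*} [MeasurableSpace E]
  (μ : P → Measure E) [∀ p, IsProbabilityMeasure (μ p)]

/-- The swap of the coordinates in `s`. -/
def sw (s : Finset P) (x : (P → E) × (P → E)) : (P → E) × (P → E) :=
  (s.piecewise x.2 x.1, s.piecewise x.1 x.2)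

theorem measurable_piecewise_prod (s : Finset P) :
    Measurable (fun x : (P → E) × (P → E) => s.piecewise x.2 x.1) := by
  refine measurable_pi_lambda _ fun p => ?_
  by_cases hp : p ∈ s
  · simp only [Finset.piecewise, hp, if_true]
    exact (measurable_pi_apply p).comp measurable_snd
  · simp only [Finset.piecewise, hp, if_false]
    exact (measurable_pi_apply p).comp measurable_fst

theorem measurable_sw (s : Finset P) : Measurable (sw (E := E) s) :=
  (measurable_piecewise_prod s).prodMk
    ((measurable_piecewise_prod s).comp measurable_swap)

/-- Swapping the coordinates in `s` of two independent copies preserves the product measure. -/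
theorem mp_sw (s : Finset P) :
    MeasurePreserving (sw s) ((Measure.pi μ).prod (Measure.pi μ))
      ((Measure.pi μ).prod (Measure.pi μ)) := by
  have h1 := measurePreserving_arrowProdEquivProdArrow E E P μ μ
  have h2 : MeasurePreserving
      (fun (a : P → E × E) (p : P) => if p ∈ s then (a p).swap else a p)
      (Measure.pi fun p => (μ p).prod (μ p)) (Measure.pi fun p => (μ p).prod (μ p)) := by
    refine measurePreserving_pi (fun p => (μ p).prod (μ p)) (fun p => (μ p).prod (μ p))
      (f := fun p x => if p ∈ s then x.swap else x) fun p => ?_
    by_cases hp : p ∈ s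
    · simpa [hp] using Measure.measurePreserving_swap (μ := μ p) (ν := μ p)
    · simp only [hp, if_false]
      exact MeasurePreserving.id ((μ p).prod (μ p))
  have h3 := (h1.comp h2).comp h1.symm
  convert h3 using 1
  funext x
  refine Prod.ext ?_ ?_
  · funext p
    by_cases hp : p ∈ s <;>
      simp [sw, hp, MeasurableEquiv.arrowProdEquivProdArrow, Equiv.arrowProdEquivProdArrow]
  · funext p
    by_cases hp : p ∈ s <;>
      simp [sw, hp, MeasurableEquiv.arrowProdEquivProdArrow, Equiv.arrowProdEquivProdArrow]

/-- The first component of the swap. -/
theorem mp_piecewise (s : Finset P) :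
    MeasurePreserving (fun x : (P → E) × (P → E) => s.piecewise x.2 x.1)
      ((Measure.pi μ).prod (Measure.pi μ)) (Measure.pi μ) :=
  measurePreserving_fst.comp (mp_sw μ s)

theorem sw_single (p : P) (x : (P → E) × (P → E)) :
    sw {p} x = (update x.1 p (x.2 p), update x.2 p (x.1 p)) := by
  simp [sw, Finset.piecewise_singleton]

theorem mp_update (p : P) :
    MeasurePreserving (fun x : (P → E) × (P → E) => update x.1 p (x.2 p))
      ((Measure.pi μ).prod (Measure.pi μ)) (Measure.pi μ) := by
  have := mp_piecewise μ {p}
  simpa [Finset.piecewise_singleton] using this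

theorem measurable_update_prod (p : P) :
    Measurable (fun x : (P → E) × (P → E) => update x.1 p (x.2 p)) := by
  have := measurable_piecewise_prod (E := E) {p}
  simpa [Finset.piecewise_singleton] using this

theorem measurable_update_prod' (p : P) :
    Measurable (fun x : (P → E) × E => update x.1 p x.2) := by
  refine measurable_pi_lambda _ fun p' => ?_
  by_cases hp : p' = p
  · subst hp
    simpa using measurable_snd
  · simp only [update, hp, dite_false]
    exact (measurable_pi_apply p').comp measurable_fst

/-- Swap of one coordinate, in the space `(P → E) × E`. -/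
theorem mp_update' (p : P) :
    MeasurePreserving (fun x : (P → E) × E => (update x.1 p x.2, x.1 p))
      ((Measure.pi μ).prod (μ p)) ((Measure.pi μ).prod (μ p)) := by
  -- push forward the swap under `(ξ, η) ↦ (ξ, η p)`
  have hq : MeasurePreserving (fun x : (P → E) × (P → E) => (x.1, x.2 p))
      ((Measure.pi μ).prod (Measure.pi μ)) ((Measure.pi μ).prod (μ p)) :=
    (MeasurePreserving.id _).prod (measurePreserving_eval μ p)
  have hm : Measurable (fun x : (P → E) × E => (update x.1 p x.2, x.1 p)) :=
    (measurable_update_prod' p).prodMk ((measurable_pi_apply p).comp measurable_fst)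
  refine ⟨hm, ?_⟩
  have h := hq.comp (mp_sw μ {p})
  have h2 : (fun x : (P → E) × (P → E) => (x.1, x.2 p)) ∘ sw {p}
      = (fun x : (P → E) × E => (update x.1 p x.2, x.1 p)) ∘
        (fun x : (P → E) × (P → E) => (x.1, x.2 p)) := by
    funext x
    simp [sw_single]
  rw [h2] at h
  have h3 := h.map_eq
  rw [← Measure.map_map hm hq.measurable, hq.map_eq] at h3
  exact h3

/-- **Reduction of coordinates.**  A function on `(P → E) × W` which is a.e. invariant under the
resampling of every coordinate `p' ∉ t` is a.e. invariant under the simultaneous resampling. -/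
theorem ae_piecewise_of_update {W F : Type*} [MeasurableSpace W] (ω : Measure W)
    [IsProbabilityMeasure ω] (h : (P → E) × W → F) (s : Finset P)
    (hs : ∀ p ∈ s, ∀ᵐ x ∂(((Measure.pi μ).prod (Measure.pi μ)).prod ω),
      h (update x.1.1 p (x.1.2 p), x.2) = h (x.1.1, x.2)) :
    ∀ᵐ x ∂(((Measure.pi μ).prod (Measure.pi μ)).prod ω),
      h (s.piecewise x.1.2 x.1.1, x.2) = h (x.1.1, x.2) := by
  classical
  induction s using Finset.induction_on with
  | empty => simp
  | insert p s hps ih =>
    have ih' := ih fun q hq => hs q (Finset.mem_insert_of_mem hq)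
    have hp := hs p (Finset.mem_insert_self _ _)
    -- transfer `hp` by the swap of the coordinates in `s`
    have hmp : MeasurePreserving (fun x : ((P → E) × (P → E)) × W => (sw s x.1, x.2))
        (((Measure.pi μ).prod (Measure.pi μ)).prod ω)
        (((Measure.pi μ).prod (Measure.pi μ)).prod ω) :=
      (mp_sw μ s).prod (MeasurePreserving.id ω)
    have hp' := hmp.quasiMeasurePreserving.ae hp
    filter_upwards [ih', hp'] with x h1 h2
    refine Eq.trans ?_ (h2.trans h1)
    congr 2
    rw [Finset.piecewise_insert]
    simp [sw, hps]

end

end Crest.Agent.R069.Static
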