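import Crest.Agent.R069.Static1

/-!
# Row 69, node STATIC, part 2: one side (rows or columns) of the array, single-entry moves
-/

open MeasureTheory ProbabilityTheory Function
open scoped ENNReal

set_option linter.unusedSectionVars false

namespace Crest.Agent.R069.Static

noncomputable section

variable {P : Type*} [Fintype P] [DecidableEq P] {J : Type*} [Fintype J] [DecidableEq J]
  {I : Type*} [Fintype I] [DecidableEq I]
  {E : Type*} [MeasurableSpace E]

/-- One side of a static array: the block variables `ξ : P → E` are independent with laws `μ p`;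
`v j` is the output of line `j`, a function of the entries `ξ p` with `b p = j`; `Ψ` computes the
corner from the outputs of the lines. -/
structure Side (μ : P → Measure E) (b : P → J) (β : J → Measure E) (v : J → (P → E) → E)
    (Ψ : (J → E) → E) (μY : Measure E) : Prop where
  pμ : ∀ p, IsProbabilityMeasure (μ p)
  pβ : ∀ j, IsProbabilityMeasure (β j)
  pY : IsProbabilityMeasure μY
  mv : ∀ j, Measurable (v j)
  mΨ : Measurable Ψ
  dep : ∀ j ξ p t, b p ≠ j → v j (update ξ p t) = v j ξ
  law : MeasurePreserving (fun ξ j => v j ξ) (Measure.pi μ) (Measure.pi β)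
  fib : ∀ p, ∀ᵐ ξ ∂(Measure.pi μ), (μ p).map (fun t => v (b p) (update ξ p t)) = β (b p)
  fibΨ : ∀ j, ∀ᵐ w ∂(Measure.pi β), (β j).map (fun t => Ψ (update w j t)) = μY
  inv : ∀ j, ∃ g : (J → E) → E, Measurable g ∧ ∀ᵐ w ∂(Measure.pi β), w j = g (update w j (Ψ w))

/-- The corner as a function of the block. -/
def cor (v : J → (P → E) → E) (Ψ : (J → E) → E) (ξ : P → E) : E := Ψ (fun j => v j ξ)

namespace Side

variable {μ : P → Measure E} {b : P → J} {β : J → Measure E} {v : J → (P → E) → E}
    {Ψ : (J → E) → E} {μY : Measure E} (S : Side μ b β v Ψ μY)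

include S

theorem measurable_v : Measurable (fun ξ j => v j ξ) := measurable_pi_lambda _ S.mv

theorem measurable_cor : Measurable (cor v Ψ) := S.mΨ.comp S.measurable_v

/-- Updating one entry changes only the output of its line. -/
theorem v_update (ξ : P → E) (p : P) (t : E) :
    (fun j => v j (update ξ p t)) = update (fun j => v j ξ) (b p) (v (b p) (update ξ p t)) := by
  funext j
  by_cases h : j = b p
  · subst h; simp
  · rw [update_of_ne h, S.dep j ξ p t (Ne.symm h)]

theorem cor_update (ξ : P → E) (p : P) (t : E) :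
    cor v Ψ (update ξ p t) =
      Ψ (update (fun j => v j ξ) (b p) (v (b p) (update ξ p t))) := by
  unfold cor
  rw [S.v_update]

theorem measurable_update_const (ξ : P → E) (p : P) : Measurable (fun t => update ξ p t) :=
  measurable_update ξ

/-- The fibre law of the corner in one entry. -/
theorem fib_cor (p : P) :
    ∀ᵐ ξ ∂(Measure.pi μ), (μ p).map (fun t => cor v Ψ (update ξ p t)) = μY := by
  have := S.pμ
  have := S.pβ
  have h1 := S.fib p
  have h2 := S.law.quasiMeasurePreserving.ae (S.fibΨ (b p))
  filter_upwards [h1, h2] with ξ h1 h2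
  have e : (fun t => cor v Ψ (update ξ p t)) =
      (fun s => Ψ (update (fun j => v j ξ) (b p) s)) ∘ (fun t => v (b p) (update ξ p t)) := by
    funext t
    exact S.cor_update ξ p t
  rw [e, ← Measure.map_map, h1, h2]
  · exact S.mΨ.comp (measurable_update _)
  · exact (S.mv _).comp (measurable_update _)

theorem mp_cor [Nonempty P] : MeasurePreserving (cor v Ψ) (Measure.pi μ) μY := by
  have := S.pμ
  have := S.pY
  obtain ⟨p⟩ := ‹Nonempty P›
  have h1 : MeasurePreserving (fun x : (P → E) × E => (x.1, cor v Ψ (update x.1 p x.2)))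
      ((Measure.pi μ).prod (μ p)) ((Measure.pi μ).prod μY) :=
    (MeasurePreserving.id _).skew_product
      (g := fun ξ t => cor v Ψ (update ξ p t))
      (S.measurable_cor.comp (measurable_update_prod' p)) (S.fib_cor p)
  have h2 : MeasurePreserving (fun x : (P → E) × E => cor v Ψ (update x.1 p x.2))
      ((Measure.pi μ).prod (μ p)) μY := measurePreserving_snd.comp h1
  have h3 : MeasurePreserving (fun x : (P → E) × E => update x.1 p x.2)
      ((Measure.pi μ).prod (μ p)) (Measure.pi μ) :=
    measurePreserving_fst.comp (mp_update' μ p)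
  refine ⟨S.measurable_cor, ?_⟩
  have h4 := h2.map_eq
  have e : (fun x : (P → E) × E => cor v Ψ (update x.1 p x.2)) =
      cor v Ψ ∘ (fun x : (P → E) × E => update x.1 p x.2) := rfl
  rw [e, ← Measure.map_map S.measurable_cor h3.measurable, h3.map_eq] at h4
  exact h4

/-- **Transfer lemma.** After resampling the entries in `s`, the corner is independent of
everything which does not involve the entry `q ∉ s` of the first copy. -/
theorem transfer (s : Finset P) (q : P) (hq : q ∉ s) {Z : Type*} [MeasurableSpace Z]
    (κ : ((P → E) × (P → E)) × E → Z) (hκ : Measurable κ)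
    (hinv : ∀ x t, κ ((update x.1.1 q t, x.1.2), x.2) = κ x) :
    ((Measure.pi μ).prod (Measure.pi μ)).map
        (fun x => κ (x, cor v Ψ (s.piecewise x.2 x.1))) =
      (((Measure.pi μ).prod (Measure.pi μ)).prod μY).map κ := by
  have := S.pμ
  have := S.pY
  set PP := (Measure.pi μ).prod (Measure.pi μ) with hPP
  -- the map `A`
  have hA : MeasurePreserving
      (fun x : ((P → E) × (P → E)) × E => ((update x.1.1 q x.2, x.1.2) : (P → E) × (P → E)))
      (PP.prod (μ q)) PP := by
    have h1 : MeasurePreserving (fun x : (P → E) × E => update x.1 q x.2)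
        ((Measure.pi μ).prod (μ q)) (Measure.pi μ) :=
      measurePreserving_fst.comp (mp_update' μ q)
    -- reorganise `((ξ, η), t)` as `(η, (ξ, t))`
    have h2 : MeasurePreserving (fun x : (P → E) × ((P → E) × E) => (x.1, update x.2.1 q x.2.2))
        ((Measure.pi μ).prod ((Measure.pi μ).prod (μ q)))
        ((Measure.pi μ).prod (Measure.pi μ)) := (MeasurePreserving.id _).prod h1
    have h3 : MeasurePreserving
        (fun x : ((P → E) × (P → E)) × E => (x.1.2, (x.1.1, x.2)))
        (PP.prod (μ q)) ((Measure.pi μ).prod ((Measure.pi μ).prod (μ q))) := by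
      have h4 : MeasurePreserving (fun x : ((P → E) × (P → E)) × E => (x.1.swap, x.2))
          (PP.prod (μ q)) (PP.prod (μ q)) :=
        (Measure.measurePreserving_swap).prod (MeasurePreserving.id _)
      have h5 := measurePreserving_prodAssoc (Measure.pi μ) (Measure.pi μ) (μ q)
      exact h5.comp h4
    have h6 := (Measure.measurePreserving_swap).comp (h2.comp h3)
    exact h6
  have hM : MeasurePreserving
      (fun x : ((P → E) × (P → E)) × E =>
        (x.1, cor v Ψ (update (s.piecewise x.1.2 x.1.1) q x.2)))
      (PP.prod (μ q)) (PP.prod μY) := by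
    refine (MeasurePreserving.id _).skew_product
      (g := fun (y : (P → E) × (P → E)) (t : E) =>
        cor v Ψ (update (s.piecewise y.2 y.1) q t)) ?_ ?_
    · have h7 : Measurable (fun x : ((P → E) × (P → E)) × E =>
          (s.piecewise x.1.2 x.1.1, x.2)) :=
        ((measurable_piecewise_prod s).comp measurable_fst).prodMk measurable_snd
      exact S.measurable_cor.comp ((measurable_update_prod' q).comp h7)
    · exact (mp_piecewise μ s).quasiMeasurePreserving.ae (S.fib_cor q)
  have hm : Measurable (fun x : (P → E) × (P → E) => κ (x, cor v Ψ (s.piecewise x.2 x.1))) :=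
    hκ.comp (measurable_id.prodMk (S.measurable_cor.comp (measurable_piecewise_prod s)))
  rw [← hM.map_eq, Measure.map_map hκ hM.measurable]
  conv_lhs => rw [← hA.map_eq]
  rw [Measure.map_map hm hA.measurable]
  congr 1
  funext x
  obtain ⟨⟨ξ, η⟩, t⟩ := x
  simp only [comp_apply]
  have e1 : s.piecewise η (update ξ q t) = update (s.piecewise η ξ) q t := by
    rw [← Finset.update_piecewise_of_notMem _ _ _ hq]
  rw [e1]
  exact hinv ((ξ, η), cor v Ψ (update (s.piecewise η ξ) q t)) t

/-- a.e. form of the transfer lemma. -/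
theorem transfer_ae (s : Finset P) (q : P) (hq : q ∉ s)
    (Q : Set (((P → E) × (P → E)) × E)) (hQ : MeasurableSet Q)
    (hinv : ∀ x t, ((update x.1.1 q t, x.1.2), x.2) ∈ Q ↔ x ∈ Q) :
    (∀ᵐ x ∂((Measure.pi μ).prod (Measure.pi μ)), (x, cor v Ψ (s.piecewise x.2 x.1)) ∈ Q) ↔
      ∀ᵐ x ∂(((Measure.pi μ).prod (Measure.pi μ)).prod μY), x ∈ Q := by
  have hm : Measurable (fun x : (P → E) × (P → E) => (x, cor v Ψ (s.piecewise x.2 x.1))) :=
    measurable_id.prodMk (S.measurable_cor.comp (measurable_piecewise_prod s))
  have hκ : Measurable (fun x : ((P → E) × (P → E)) × E => (x ∈ Q : Prop)) :=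
    measurable_mem.2 hQ
  have h := S.transfer s q hq (fun x => (x ∈ Q : Prop)) hκ
    (fun x t => propext (hinv x t))
  have hs : MeasurableSet {a : Prop | a} := MeasurableSpace.measurableSet_top
  have h1 : (∀ᵐ a ∂((Measure.pi μ).prod (Measure.pi μ)).map
      (fun x => ((x, cor v Ψ (s.piecewise x.2 x.1)) ∈ Q : Prop)), a) ↔
      (∀ᵐ a ∂(((Measure.pi μ).prod (Measure.pi μ)).prod μY).map
      (fun x => (x ∈ Q : Prop)), a) := by
    rw [h]
  have hm' : Measurable (fun x : (P → E) × (P → E) =>
      ((x, cor v Ψ (s.piecewise x.2 x.1)) ∈ Q : Prop)) := hκ.comp hm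
  rw [ae_map_iff hm'.aemeasurable hs, ae_map_iff hκ.aemeasurable hs] at h1
  exact h1

end Side

end

end Crest.Agent.R069.Static
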