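import Crest.Agent.R069.Static2

/-!
# Row 69, node STATIC, part 3: the single-entry move `y = G (d, d', y')`
-/

open MeasureTheory ProbabilityTheory Function
open scoped ENNReal

set_option linter.unusedSectionVars false

namespace Crest.Agent.R069.Static

noncomputable section

variable {P : Type*} [Fintype P] [DecidableEq P] {J : Type*} [Fintype J] [DecidableEq J]
  {I : Type*} [Fintype I] [DecidableEq I]
  {E : Type*} [MeasurableSpace E]

/-- The corner reconstructed from the moved corner `x.2`, without the entries of line `j`. -/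
def KK (v : J → (P → E) → E) (Ψ : (J → E) → E) (p : P) (j : J) (g : (J → E) → E)
    (x : ((P → E) × (P → E)) × E) : E :=
  Ψ (update (fun k => v k x.1.1) j
    (g (update (fun k => v k (update x.1.1 p (x.1.2 p))) j x.2)))

namespace Side

variable {μ : P → Measure E} {b : P → J} {β : J → Measure E} {v : J → (P → E) → E}
    {Ψ : (J → E) → E} {μY : Measure E} (S : Side μ b β v Ψ μY)

include S

theorem measurable_update_pi (j : J) : Measurable (fun x : (J → E) × E => update x.1 j x.2) :=
  measurable_update_prod' j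

theorem measurable_KK (p : P) (j : J) {g : (J → E) → E} (hg : Measurable g) :
    Measurable (KK v Ψ p j g) := by
  have h1 : Measurable (fun x : ((P → E) × (P → E)) × E => (fun k => v k x.1.1)) :=
    S.measurable_v.comp (measurable_fst.comp measurable_fst)
  have h2 : Measurable (fun x : ((P → E) × (P → E)) × E =>
      (fun k => v k (update x.1.1 p (x.1.2 p)))) :=
    S.measurable_v.comp ((measurable_update_prod p).comp measurable_fst)
  have h3 : Measurable (fun x : ((P → E) × (P → E)) × E =>
      g (update (fun k => v k (update x.1.1 p (x.1.2 p))) j x.2)) :=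
    hg.comp ((S.measurable_update_pi j).comp (h2.prodMk measurable_snd))
  exact S.mΨ.comp ((S.measurable_update_pi j).comp (h1.prodMk h3))

theorem v_update_line (ξ : P → E) (q : P) (t : E) (j : J) (hq : b q = j) (e : E) :
    update (fun k => v k (update ξ q t)) j e = update (fun k => v k ξ) j e := by
  rw [S.v_update, hq, update_idem]

theorem KK_inv (p : P) (j : J) (hj : b p ≠ j) (g : (J → E) → E) (q : P) (hq : b q = j)
    (x : ((P → E) × (P → E)) × E) (t : E) :
    KK v Ψ p j g ((update x.1.1 q t, x.1.2), x.2) = KK v Ψ p j g x := by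
  have hpq : p ≠ q := fun h => hj (h ▸ hq)
  unfold KK
  simp only
  rw [S.v_update_line _ q t j hq, update_comm hpq.symm, S.v_update_line _ q t j hq]

theorem KK_eta (p : P) (j : J) (g : (J → E) → E) (ξ η η' : P → E) (z : E) (h : η p = η' p) :
    KK v Ψ p j g ((ξ, η), z) = KK v Ψ p j g ((ξ, η'), z) := by
  unfold KK
  simp only [h]

theorem KK_eq (p : P) (j : J) (hj : b p ≠ j) {g : (J → E) → E}
    (hg : ∀ᵐ w ∂(Measure.pi β), w j = g (update w j (Ψ w))) :
    ∀ᵐ x ∂((Measure.pi μ).prod (Measure.pi μ)),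
      KK v Ψ p j g (x, cor v Ψ (update x.1 p (x.2 p))) = cor v Ψ x.1 := by
  have := S.pμ
  have h1 := ((S.law.comp (mp_update μ p)).quasiMeasurePreserving.ae hg)
  filter_upwards [h1] with x hx
  simp only [comp_apply] at hx
  unfold KK cor
  simp only
  rw [← hx, S.dep j _ p _ hj, update_eq_self]

end Side

/-- Two sides (rows and columns) of the same array. -/
structure Arr (μ : P → Measure E) (b : P → J) (β : J → Measure E) (v : J → (P → E) → E)
    (Ψ : (J → E) → E) (a : P → I) (α : I → Measure E) (u : I → (P → E) → E) (Φ : (I → E) → E)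
    (μY : Measure E) : Prop where
  col : Side μ b β v Ψ μY
  row : Side μ a α u Φ μY
  eqF : cor v Ψ =ᵐ[Measure.pi μ] cor u Φ
  surj : ∀ j i, ∃ p, b p = j ∧ a p = i
  inj : ∀ p q, b p = b q → a p = a q → p = q
  nt : ∀ j : J, ∃ j', j ≠ j'
  nt' : ∀ i : I, ∃ i', i ≠ i'

namespace Arr

variable {μ : P → Measure E} {b : P → J} {β : J → Measure E} {v : J → (P → E) → E}
    {Ψ : (J → E) → E} {a : P → I} {α : I → Measure E} {u : I → (P → E) → E}
    {Φ : (I → E) → E} {μY : Measure E} 

theorem symm (A : Arr μ b β v Ψ a α u Φ μY) : Arr μ a α u Φ b β v Ψ μY where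
  col := A.row
  row := A.col
  eqF := A.eqF.symm
  surj := fun i j => by obtain ⟨p, h1, h2⟩ := A.surj j i; exact ⟨p, h2, h1⟩
  inj := fun p q h1 h2 => A.inj p q h2 h1
  nt := A.nt'
  nt' := A.nt

variable (A : Arr μ b β v Ψ a α u Φ μY)

include A

/-- The corner after resampling one entry, two descriptions. -/
theorem eqF_update (p : P) : ∀ᵐ x ∂((Measure.pi μ).prod (Measure.pi μ)),
    cor v Ψ (update x.1 p (x.2 p)) = cor u Φ (update x.1 p (x.2 p)) := by
  have := A.col.pμ
  exact (mp_update μ p).quasiMeasurePreserving.ae A.eqF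

theorem eqF_fst : ∀ᵐ x ∂((Measure.pi μ).prod (Measure.pi μ)), cor v Ψ x.1 = cor u Φ x.1 := by
  have := A.col.pμ
  exact (measurePreserving_fst (μ := Measure.pi μ) (ν := Measure.pi μ)).quasiMeasurePreserving.ae
    A.eqF

/-- The two reconstructions agree on the free product space. -/
theorem KK_agree [StandardBorelSpace E] (p : P) (j : J) (hj : b p ≠ j) (i : I) (hi : a p ≠ i)
    {g : (J → E) → E} (hgm : Measurable g)
    (hg : ∀ᵐ w ∂(Measure.pi β), w j = g (update w j (Ψ w)))
    {h : (I → E) → E} (hhm : Measurable h)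
    (hh : ∀ᵐ w ∂(Measure.pi α), w i = h (update w i (Φ w))) :
    ∀ᵐ x ∂(((Measure.pi μ).prod (Measure.pi μ)).prod μY),
      KK v Ψ p j g x = KK u Φ p i h x := by
  obtain ⟨q, hq1, hq2⟩ := A.surj j i
  have hqp : q ∉ ({p} : Finset P) := by
    rw [Finset.mem_singleton]; rintro rfl; exact hj hq1
  have hQ : MeasurableSet {x : ((P → E) × (P → E)) × E | KK v Ψ p j g x = KK u Φ p i h x} :=
    measurableSet_eq_fun (A.col.measurable_KK p j hgm) (A.row.measurable_KK p i hhm)
  have ht := (A.col.transfer_ae {p} q hqp _ hQ (fun x t => by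
    simp only [Set.mem_ofPred_eq]
    rw [A.col.KK_inv p j hj g q hq1, A.row.KK_inv p i hi h q hq2])).1
  refine ht ?_
  filter_upwards [A.col.KK_eq p j hj hg, A.row.KK_eq p i hi hh, A.eqF_update p, A.eqF_fst]
    with x h1 h2 h3 h4
  simp only [Finset.piecewise_singleton]
  show KK v Ψ p j g (x, cor v Ψ (update x.1 p (x.2 p))) =
    KK u Φ p i h (x, cor v Ψ (update x.1 p (x.2 p)))
  rw [h1, h3, h2, h4]

/-- **Single-entry moves.** -/
theorem exists_G [StandardBorelSpace E] (p : P) :
    ∃ G : E × E × E → E, Measurable G ∧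
      ∀ᵐ x ∂((Measure.pi μ).prod (Measure.pi μ)),
        cor v Ψ x.1 = G (x.1 p, x.2 p, cor v Ψ (update x.1 p (x.2 p))) := by
  classical
  have := A.col.pμ
  have := A.col.pY
  obtain ⟨j0, hj0⟩ := A.nt (b p)
  obtain ⟨i0, hi0⟩ := A.nt' (a p)
  choose g hgm hg using A.col.inv
  choose h hhm hh using A.row.inv
  -- the function `K`
  set K := KK v Ψ p j0 (g j0) with hK
  have hKm : Measurable K := A.col.measurable_KK p j0 (hgm j0)
  -- all the other reconstructions agree with `K`
  have e1 : ∀ i, a p ≠ i → ∀ᵐ x ∂(((Measure.pi μ).prod (Measure.pi μ)).prod μY),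
      K x = KK u Φ p i (h i) x := fun i hi =>
    A.KK_agree p j0 hj0 i hi (hgm j0) (hg j0) (hhm i) (hh i)
  have e2 : ∀ j, b p ≠ j → ∀ᵐ x ∂(((Measure.pi μ).prod (Measure.pi μ)).prod μY),
      K x = KK v Ψ p j (g j) x := fun j hj => by
    filter_upwards [e1 i0 hi0, A.KK_agree p j hj i0 hi0 (hgm j) (hg j) (hhm i0) (hh i0)]
      with x h1 h2
    rw [h1, h2]
  -- invariance under resampling of every entry different from `p`
  let W := (P → E) × E
  let ω : Measure W := (Measure.pi μ).prod μY
  -- the space `((ξ, ξ'), (η, z))` and the two maps to `((ξ, η), z)`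
  let hf : (P → E) × W → E := fun x => K ((x.1, x.2.1), x.2.2)
  -- `(ξ, (η, z)) ↦ ((ξ, η), z)` is measure preserving
  have hassoc : MeasurePreserving (fun x : (P → E) × W => ((x.1, x.2.1), x.2.2))
      ((Measure.pi μ).prod ω) (((Measure.pi μ).prod (Measure.pi μ)).prod μY) :=
    (measurePreserving_prodAssoc (Measure.pi μ) (Measure.pi μ) μY).symm
      MeasurableEquiv.prodAssoc
  have hfst : MeasurePreserving (fun x : ((P → E) × (P → E)) × W => (x.1.1, x.2))
      (((Measure.pi μ).prod (Measure.pi μ)).prod ω) ((Measure.pi μ).prod ω) :=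
    (measurePreserving_fst).prod (MeasurePreserving.id _)
  have hupd : ∀ q, MeasurePreserving
      (fun x : ((P → E) × (P → E)) × W => (update x.1.1 q (x.1.2 q), x.2))
      (((Measure.pi μ).prod (Measure.pi μ)).prod ω) ((Measure.pi μ).prod ω) := fun q =>
    (mp_update μ q).prod (MeasurePreserving.id _)
  have hinv : ∀ q ∈ Finset.univ.erase p,
      ∀ᵐ x ∂(((Measure.pi μ).prod (Measure.pi μ)).prod ω),
        hf (update x.1.1 q (x.1.2 q), x.2) = hf (x.1.1, x.2) := by
    intro q hq
    have hqp : q ≠ p := Finset.ne_of_mem_erase hq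
    by_cases hb : b p = b q
    · -- then `a p ≠ a q`
      have ha : a p ≠ a q := fun ha => hqp (A.inj p q hb ha).symm
      have h1 := (hassoc.comp hfst).quasiMeasurePreserving.ae (e1 _ ha)
      have h2 := (hassoc.comp (hupd q)).quasiMeasurePreserving.ae (e1 _ ha)
      filter_upwards [h1, h2] with x h1 h2
      simp only [comp_apply] at h1 h2
      show K ((update x.1.1 q (x.1.2 q), x.2.1), x.2.2) = K ((x.1.1, x.2.1), x.2.2)
      rw [h1, h2]
      exact A.row.KK_inv p (a q) ha (h (a q)) q rfl ((x.1.1, x.2.1), x.2.2) (x.1.2 q)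
    · have h1 := (hassoc.comp hfst).quasiMeasurePreserving.ae (e2 _ hb)
      have h2 := (hassoc.comp (hupd q)).quasiMeasurePreserving.ae (e2 _ hb)
      filter_upwards [h1, h2] with x h1 h2
      simp only [comp_apply] at h1 h2
      show K ((update x.1.1 q (x.1.2 q), x.2.1), x.2.2) = K ((x.1.1, x.2.1), x.2.2)
      rw [h1, h2]
      exact A.col.KK_inv p (b q) hb (g (b q)) q rfl ((x.1.1, x.2.1), x.2.2) (x.1.2 q)
  have hpw := ae_piecewise_of_update μ ω hf (Finset.univ.erase p) hinv
  -- fix a generic second copy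
  have hpw2 : ∀ᵐ ξ' ∂(Measure.pi μ), ∀ᵐ y ∂((Measure.pi μ).prod ω),
      hf ((Finset.univ.erase p).piecewise ξ' y.1, y.2) = hf (y.1, y.2) := by
    have hre : MeasurePreserving
        (fun x : (P → E) × ((P → E) × W) => ((x.2.1, x.1), x.2.2))
        ((Measure.pi μ).prod ((Measure.pi μ).prod ω))
        (((Measure.pi μ).prod (Measure.pi μ)).prod ω) := by
      have h1 := (measurePreserving_prodAssoc (Measure.pi μ) (Measure.pi μ) ω).symm
        MeasurableEquiv.prodAssoc
      have h2 : MeasurePreserving (fun x : ((P → E) × (P → E)) × W => (x.1.swap, x.2))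
          (((Measure.pi μ).prod (Measure.pi μ)).prod ω)
          (((Measure.pi μ).prod (Measure.pi μ)).prod ω) :=
        (Measure.measurePreserving_swap).prod (MeasurePreserving.id _)
      exact h2.comp h1
    exact Measure.ae_ae_of_ae_prod (hre.quasiMeasurePreserving.ae hpw)
  obtain ⟨ξs, hξs⟩ := hpw2.exists
  let G : E × E × E → E := fun y => K ((update ξs p y.1, update ξs p y.2.1), y.2.2)
  have hGm : Measurable G := by
    refine hKm.comp ?_
    have h1 : Measurable (fun t : E => update ξs p t) := measurable_update ξs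
    exact ((h1.comp measurable_fst).prodMk (h1.comp (measurable_fst.comp measurable_snd))).prodMk
      (measurable_snd.comp measurable_snd)
  have hKG : ∀ᵐ x ∂(((Measure.pi μ).prod (Measure.pi μ)).prod μY),
      K x = G (x.1.1 p, x.1.2 p, x.2) := by
    have h1 := (hassoc.symm (e := MeasurableEquiv.prodAssoc.symm)).quasiMeasurePreserving.ae hξs
    filter_upwards [h1] with x hx
    have e3 : (Finset.univ.erase p).piecewise ξs x.1.1 = update ξs p (x.1.1 p) := by
      funext q
      by_cases hq : q = p
      · subst hq; simp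
      · simp [hq]
    have hx' : K (((Finset.univ.erase p).piecewise ξs x.1.1, x.1.2), x.2) = K x := hx
    rw [← hx', e3]
    show K ((update ξs p (x.1.1 p), x.1.2), x.2) =
      K ((update ξs p (x.1.1 p), update ξs p (x.1.2 p)), x.2)
    exact A.col.KK_eta p j0 (g j0) _ _ _ _ (by simp)
  refine ⟨G, hGm, ?_⟩
  -- transfer back
  obtain ⟨q, hq1, -⟩ := A.surj j0 i0
  have hqp : q ≠ p := by rintro rfl; exact hj0 hq1
  have hqp' : q ∉ ({p} : Finset P) := by simpa using hqp
  have hQ : MeasurableSet {x : ((P → E) × (P → E)) × E | K x = G (x.1.1 p, x.1.2 p, x.2)} := by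
    refine measurableSet_eq_fun hKm (hGm.comp ?_)
    exact ((measurable_pi_apply p).comp (measurable_fst.comp measurable_fst)).prodMk
      (((measurable_pi_apply p).comp (measurable_snd.comp measurable_fst)).prodMk measurable_snd)
  have hKi : ∀ (x : ((P → E) × (P → E)) × E) (t : E),
      K ((update x.1.1 q t, x.1.2), x.2) = K x := fun x t =>
    A.col.KK_inv p j0 hj0 (g j0) q hq1 x t
  have ht := (A.col.transfer_ae {p} q hqp' _ hQ (fun x t => by
    simp only [Set.mem_ofPred_eq]
    rw [hKi, update_of_ne hqp.symm])).2 hKG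
  filter_upwards [ht, A.col.KK_eq p j0 hj0 (hg j0)] with x h1 h2
  have h1' : K (x, cor v Ψ (({p} : Finset P).piecewise x.2 x.1)) =
      G (x.1 p, x.2 p, cor v Ψ (({p} : Finset P).piecewise x.2 x.1)) := h1
  rw [Finset.piecewise_singleton] at h1'
  rw [← h2, ← h1']

end Arr

end

end Crest.Agent.R069.Static
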