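import Crest.Agent.R069.Static3

/-!
# Row 69, node STATIC, part 4: the moves of the line outputs, commutation
-/

open MeasureTheory ProbabilityTheory Function
open scoped ENNReal

set_option linter.unusedSectionVars false

namespace Crest.Agent.R069.Static

noncomputable section

variable {P : Type*} [Fintype P] [DecidableEq P] {J : Type*} [Fintype J] [DecidableEq J]
  {I : Type*} [Fintype I] [DecidableEq I]
  {E : Type*} [MeasurableSpace E]

namespace Side

variable {μ : P → Measure E} {b : P → J} {β : J → Measure E} {v : J → (P → E) → E}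
    {Ψ : (J → E) → E} {μY : Measure E} (S : Side μ b β v Ψ μY)

include S

theorem v_piecewise (j : J) (ξ η : P → E) (s : Finset P) (hs : ∀ q ∈ s, b q ≠ j) :
    v j (s.piecewise η ξ) = v j ξ := by
  induction s using Finset.induction_on with
  | empty => simp
  | insert q s hq ih =>
    rw [Finset.piecewise_insert, S.dep j _ q _ (hs q (Finset.mem_insert_self _ _))]
    exact ih fun r hr => hs r (Finset.mem_insert_of_mem hr)

/-- `v j` depends only on the entries of line `j`. -/
theorem v_congr (j : J) {ξ η : P → E} (h : ∀ q, b q = j → ξ q = η q) : v j ξ = v j η := by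
  have h1 := S.v_piecewise j ξ η (Finset.univ.filter fun q => b q ≠ j) (by simp)
  rw [← h1]
  congr 1
  funext q
  by_cases hq : b q = j
  · simp [hq, h q hq]
  · simp [hq]

theorem mp_v (j : J) : MeasurePreserving (v j) (Measure.pi μ) (β j) := by
  have := S.pβ
  exact (measurePreserving_eval β j).comp S.law

/-- joint law of all outputs and the moved output. -/
theorem mp_v_update (p : P) :
    MeasurePreserving (fun x : (P → E) × (P → E) =>
        ((fun j => v j x.1), v (b p) (update x.1 p (x.2 p))))
      ((Measure.pi μ).prod (Measure.pi μ)) ((Measure.pi β).prod (β (b p))) := by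
  have := S.pμ
  have := S.pβ
  have h1 : MeasurePreserving (fun x : (P → E) × E =>
        ((fun j => v j x.1), v (b p) (update x.1 p x.2)))
      ((Measure.pi μ).prod (μ p)) ((Measure.pi β).prod (β (b p))) :=
    S.law.skew_product (g := fun ξ t => v (b p) (update ξ p t))
      ((S.mv _).comp (measurable_update_prod' p)) (S.fib p)
  exact h1.comp ((MeasurePreserving.id _).prod (measurePreserving_eval μ p))

theorem mp_v_pair (p : P) :
    MeasurePreserving (fun x : (P → E) × (P → E) => (v (b p) x.1, v (b p) (update x.1 p (x.2 p))))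
      ((Measure.pi μ).prod (Measure.pi μ)) ((β (b p)).prod (β (b p))) := by
  have := S.pμ
  have := S.pβ
  have h1 : MeasurePreserving (fun x : (P → E) × E => (v (b p) x.1, v (b p) (update x.1 p x.2)))
      ((Measure.pi μ).prod (μ p)) ((β (b p)).prod (β (b p))) :=
    (S.mp_v (b p)).skew_product (g := fun ξ t => v (b p) (update ξ p t))
      ((S.mv _).comp (measurable_update_prod' p)) (S.fib p)
  exact h1.comp ((MeasurePreserving.id _).prod (measurePreserving_eval μ p))

/-- the corner and the moved corner are independent. -/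
theorem mp_cor_pair (p : P) :
    MeasurePreserving (fun x : (P → E) × (P → E) =>
        (cor v Ψ x.1, cor v Ψ (update x.1 p (x.2 p))))
      ((Measure.pi μ).prod (Measure.pi μ)) (μY.prod μY) := by
  have := S.pμ
  have := S.pY
  haveI : Nonempty P := ⟨p⟩
  have h1 : MeasurePreserving (fun x : (P → E) × E => (cor v Ψ x.1, cor v Ψ (update x.1 p x.2)))
      ((Measure.pi μ).prod (μ p)) (μY.prod μY) :=
    S.mp_cor.skew_product (g := fun ξ t => cor v Ψ (update ξ p t))
      (S.measurable_cor.comp (measurable_update_prod' p)) (S.fib_cor p)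
  exact h1.comp ((MeasurePreserving.id _).prod (measurePreserving_eval μ p))

/-- parameters of the move of output `b p` and the moved corner -/
def mv3 (v : J → (P → E) → E) (Ψ : (J → E) → E) (b : P → J) (p : P)
    (x : (P → E) × (P → E)) : (E × E) × E :=
  ((v (b p) x.1, v (b p) (update x.1 p (x.2 p))), cor v Ψ (update x.1 p (x.2 p)))

theorem mp_mv3 (p : P) (hnt : ∃ q, b q ≠ b p) :
    MeasurePreserving (mv3 v Ψ b p)
      ((Measure.pi μ).prod (Measure.pi μ)) (((β (b p)).prod (β (b p))).prod μY) := by
  have := S.pμ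
  have := S.pβ
  have := S.pY
  obtain ⟨q, hq⟩ := hnt
  have hqp : q ∉ ({p} : Finset P) := by
    rw [Finset.mem_singleton]; rintro rfl; exact hq rfl
  have hm : Measurable (fun x : ((P → E) × (P → E)) × E =>
      (((v (b p) x.1.1, v (b p) (update x.1.1 p (x.1.2 p))), x.2) : (E × E) × E)) :=
    ((((S.mv _).comp (measurable_fst.comp measurable_fst)).prodMk
      ((S.mv _).comp ((measurable_update_prod p).comp measurable_fst)))).prodMk measurable_snd
  have h := S.transfer {p} q hqp _ hm (fun x t => by
    have hpq : p ≠ q := by rintro rfl; exact hq rfl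
    simp only
    rw [S.dep (b p) x.1.1 q t hq, update_comm hpq.symm, S.dep (b p) _ q t hq])
  have h2 : MeasurePreserving (fun x : ((P → E) × (P → E)) × E =>
      (((v (b p) x.1.1, v (b p) (update x.1.1 p (x.1.2 p))), x.2) : (E × E) × E))
      (((Measure.pi μ).prod (Measure.pi μ)).prod μY) (((β (b p)).prod (β (b p))).prod μY) :=
    (S.mp_v_pair p).prod (MeasurePreserving.id _)
  rw [h2.map_eq] at h
  refine ⟨?_, ?_⟩
  · exact ((((S.mv _).comp measurable_fst).prodMk
      ((S.mv _).comp (measurable_update_prod p)))).prodMk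
        (S.measurable_cor.comp (measurable_update_prod p))
  · rw [← h]
    congr 1
    funext x
    simp [mv3, Finset.piecewise_singleton]

end Side

namespace Arr

variable {μ : P → Measure E} {b : P → J} {β : J → Measure E} {v : J → (P → E) → E}
    {Ψ : (J → E) → E} {a : P → I} {α : I → Measure E} {u : I → (P → E) → E}
    {Φ : (I → E) → E} {μY : Measure E} (A : Arr μ b β v Ψ a α u Φ μY)

include A

/-- A third entry. -/
theorem exists_third (p q : P) : ∃ r, r ≠ p ∧ r ≠ q := by
  obtain ⟨j', hj⟩ := A.nt (b p)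
  obtain ⟨i', hi⟩ := A.nt' (a p)
  obtain ⟨r1, h11, h12⟩ := A.surj j' (a p)
  obtain ⟨r2, h21, h22⟩ := A.surj (b p) i'
  by_cases h : r1 = q
  · refine ⟨r2, ?_, ?_⟩
    · rintro rfl; exact hi h22
    · rintro rfl; rw [h] at h11; exact hj (h21.symm.trans h11)
  · exact ⟨r1, by rintro rfl; exact hj h11, h⟩

/-- Commutation of the single-entry moves. -/
theorem G_comm [StandardBorelSpace E] {p q : P} (hpq : p ≠ q) {Gp Gq : E × E × E → E}
    (hGp : Measurable Gp) (hGq : Measurable Gq)
    (hp : ∀ᵐ x ∂((Measure.pi μ).prod (Measure.pi μ)),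
        cor v Ψ x.1 = Gp (x.1 p, x.2 p, cor v Ψ (update x.1 p (x.2 p))))
    (hq : ∀ᵐ x ∂((Measure.pi μ).prod (Measure.pi μ)),
        cor v Ψ x.1 = Gq (x.1 q, x.2 q, cor v Ψ (update x.1 q (x.2 q)))) :
    ∀ᵐ x ∂(((Measure.pi μ).prod (Measure.pi μ)).prod μY),
      Gp (x.1.1 p, x.1.2 p, Gq (x.1.1 q, x.1.2 q, x.2)) =
        Gq (x.1.1 q, x.1.2 q, Gp (x.1.1 p, x.1.2 p, x.2)) := by
  have := A.col.pμ
  obtain ⟨r, hrp, hrq⟩ := A.exists_third p q
  have hrs : r ∉ ({p, q} : Finset P) := by simp [hrp, hrq]
  have m1 : ∀ p' : P, Measurable (fun x : ((P → E) × (P → E)) × E => x.1.1 p') := fun p' =>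
    (measurable_pi_apply p').comp (measurable_fst.comp measurable_fst)
  have m2 : ∀ p' : P, Measurable (fun x : ((P → E) × (P → E)) × E => x.1.2 p') := fun p' =>
    (measurable_pi_apply p').comp (measurable_snd.comp measurable_fst)
  have hQ : MeasurableSet {x : ((P → E) × (P → E)) × E |
      Gp (x.1.1 p, x.1.2 p, Gq (x.1.1 q, x.1.2 q, x.2)) =
        Gq (x.1.1 q, x.1.2 q, Gp (x.1.1 p, x.1.2 p, x.2))} := by
    refine measurableSet_eq_fun ?_ ?_
    · exact hGp.comp ((m1 p).prodMk ((m2 p).prodMk
        (hGq.comp ((m1 q).prodMk ((m2 q).prodMk measurable_snd)))))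
    · exact hGq.comp ((m1 q).prodMk ((m2 q).prodMk
        (hGp.comp ((m1 p).prodMk ((m2 p).prodMk measurable_snd)))))
  refine (A.col.transfer_ae {p, q} r hrs _ hQ (fun x t => ?_)).1 ?_
  · simp only [Set.mem_ofPred_eq, update_of_ne hrp.symm, update_of_ne hrq.symm]
  · have hp' := (mp_sw μ {q}).quasiMeasurePreserving.ae hp
    have hq' := (mp_sw μ {p}).quasiMeasurePreserving.ae hq
    filter_upwards [hp, hq, hp', hq'] with x h1 h2 h3 h4
    rw [sw_single] at h3 h4
    simp only at h3 h4
    rw [update_of_ne hpq, update_of_ne hpq] at h3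
    rw [update_of_ne hpq.symm, update_of_ne hpq.symm] at h4
    have e1 : ({p, q} : Finset P).piecewise x.2 x.1 =
        update (update x.1 q (x.2 q)) p (x.2 p) := by
      rw [Finset.piecewise_insert, Finset.piecewise_singleton]
    have e2 : ({p, q} : Finset P).piecewise x.2 x.1 =
        update (update x.1 p (x.2 p)) q (x.2 q) := by
      rw [e1, update_comm hpq]
    show Gp (x.1 p, x.2 p, Gq (x.1 q, x.2 q, cor v Ψ (({p, q} : Finset P).piecewise x.2 x.1))) =
      Gq (x.1 q, x.2 q, Gp (x.1 p, x.2 p, cor v Ψ (({p, q} : Finset P).piecewise x.2 x.1)))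
    conv_lhs => rw [e2, ← h4, ← h1]
    conv_rhs => rw [e1, ← h3, ← h2]

end Arr

end

end Crest.Agent.R069.Static
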