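import Crest.Agent.R069.Static4

/-!
# Row 69, node STATIC, part 5: the moves `Γ j` of the line outputs
-/

open MeasureTheory ProbabilityTheory Function
open scoped ENNReal

set_option linter.unusedSectionVars false

namespace Crest.Agent.R069.Static

noncomputable section

variable {P : Type*} [Fintype P] [DecidableEq P] {J : Type*} [Fintype J] [DecidableEq J]
  {I : Type*} [Fintype I] [DecidableEq I]
  {E : Type*} [MeasurableSpace E]

/-- The corner reconstructed from the outputs `w`, the new output `t'` of line `j` and the moved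
corner, without using `w j2`. -/
def KP (Ψ : (J → E) → E) (j j2 : J) (g : (J → E) → E) (x : ((J → E) × E) × E) : E :=
  Ψ (update x.1.1 j2 (g (update (update x.1.1 j x.1.2) j2 x.2)))

namespace Side

variable {μ : P → Measure E} {b : P → J} {β : J → Measure E} {v : J → (P → E) → E}
    {Ψ : (J → E) → E} {μY : Measure E} (S : Side μ b β v Ψ μY)

include S

theorem measurable_KP (j j2 : J) {g : (J → E) → E} (hg : Measurable g) :
    Measurable (KP Ψ j j2 g) := by
  have h1 : Measurable (fun x : ((J → E) × E) × E => update x.1.1 j x.1.2) :=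
    (S.measurable_update_pi j).comp measurable_fst
  have h2 : Measurable (fun x : ((J → E) × E) × E => update (update x.1.1 j x.1.2) j2 x.2) :=
    (S.measurable_update_pi j2).comp (h1.prodMk measurable_snd)
  exact S.mΨ.comp ((S.measurable_update_pi j2).comp
    ((measurable_fst.comp measurable_fst).prodMk (hg.comp h2)))

theorem KK_eq_KP (p : P) (j2 : J) (g : (J → E) → E) (x : ((P → E) × (P → E)) × E) :
    KK v Ψ p j2 g x =
      KP Ψ (b p) j2 g (((fun k => v k x.1.1), v (b p) (update x.1.1 p (x.1.2 p))), x.2) := by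
  unfold KK KP
  rw [S.v_update]

end Side

namespace Arr

variable {μ : P → Measure E} {b : P → J} {β : J → Measure E} {v : J → (P → E) → E}
    {Ψ : (J → E) → E} {a : P → I} {α : I → Measure E} {u : I → (P → E) → E}
    {Φ : (I → E) → E} {μY : Measure E} (A : Arr μ b β v Ψ a α u Φ μY)

include A

/-- `KK` equals `G` on the free space. -/
theorem KK_eq_G [StandardBorelSpace E] (p : P) {G : E × E × E → E} (hGm : Measurable G)
    (hG : ∀ᵐ x ∂((Measure.pi μ).prod (Measure.pi μ)),
        cor v Ψ x.1 = G (x.1 p, x.2 p, cor v Ψ (update x.1 p (x.2 p))))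
    (j2 : J) (hj2 : b p ≠ j2) {g : (J → E) → E} (hgm : Measurable g)
    (hg : ∀ᵐ w ∂(Measure.pi β), w j2 = g (update w j2 (Ψ w))) :
    ∀ᵐ x ∂(((Measure.pi μ).prod (Measure.pi μ)).prod μY),
      KK v Ψ p j2 g x = G (x.1.1 p, x.1.2 p, x.2) := by
  obtain ⟨q, hq1, -⟩ := A.surj j2 (a p)
  have hqp : q ≠ p := by rintro rfl; exact hj2 hq1
  have hqp' : q ∉ ({p} : Finset P) := by simpa using hqp
  have hQ : MeasurableSet {x : ((P → E) × (P → E)) × E |
      KK v Ψ p j2 g x = G (x.1.1 p, x.1.2 p, x.2)} := by
    refine measurableSet_eq_fun (A.col.measurable_KK p j2 hgm) (hGm.comp ?_)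
    exact ((measurable_pi_apply p).comp (measurable_fst.comp measurable_fst)).prodMk
      (((measurable_pi_apply p).comp (measurable_snd.comp measurable_fst)).prodMk measurable_snd)
  refine (A.col.transfer_ae {p} q hqp' _ hQ (fun x t => ?_)).1 ?_
  · simp only [Set.mem_ofPred_eq]
    rw [A.col.KK_inv p j2 hj2 g q hq1, update_of_ne hqp.symm]
  · filter_upwards [hG, A.col.KK_eq p j2 hj2 hg] with x h1 h2
    show KK v Ψ p j2 g (x, cor v Ψ (({p} : Finset P).piecewise x.2 x.1)) =
      G (x.1 p, x.2 p, cor v Ψ (({p} : Finset P).piecewise x.2 x.1))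
    rw [Finset.piecewise_singleton, h2, ← h1]

/-- **The moves of the line outputs.** -/
theorem exists_Gam [StandardBorelSpace E] (j : J) :
    ∃ Γ : (E × E) × E → E, Measurable Γ ∧ ∀ p, b p = j →
      ∀ G : E × E × E → E, Measurable G →
      (∀ᵐ x ∂((Measure.pi μ).prod (Measure.pi μ)),
        cor v Ψ x.1 = G (x.1 p, x.2 p, cor v Ψ (update x.1 p (x.2 p)))) →
      ∀ᵐ x ∂(((Measure.pi μ).prod (Measure.pi μ)).prod μY),
        Γ ((v j x.1.1, v j (update x.1.1 p (x.1.2 p))), x.2) = G (x.1.1 p, x.1.2 p, x.2) := by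
  classical
  have := A.col.pμ
  have := A.col.pY
  obtain ⟨j2, hj2⟩ := A.nt j
  obtain ⟨g, hgm, hg⟩ := A.col.inv j2
  -- one move function for every entry of the line
  choose G hGm hG using fun p => A.exists_G p
  let s : Finset P := Finset.univ.filter fun q => b q ≠ j
  let W := (P → E) × E
  let ω : Measure W := (Measure.pi μ).prod μY
  have hassoc : MeasurePreserving (fun x : (P → E) × W => ((x.1, x.2.1), x.2.2))
      ((Measure.pi μ).prod ω) (((Measure.pi μ).prod (Measure.pi μ)).prod μY) :=
    (measurePreserving_prodAssoc (Measure.pi μ) (Measure.pi μ) μY).symm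
      MeasurableEquiv.prodAssoc
  have hpw : MeasurePreserving
      (fun x : ((P → E) × (P → E)) × W => (s.piecewise x.1.2 x.1.1, x.2))
      (((Measure.pi μ).prod (Measure.pi μ)).prod ω) ((Measure.pi μ).prod ω) :=
    (mp_piecewise μ s).prod (MeasurePreserving.id _)
  have hre : MeasurePreserving
      (fun x : (P → E) × ((P → E) × W) => ((x.2.1, x.1), x.2.2))
      ((Measure.pi μ).prod ((Measure.pi μ).prod ω))
      (((Measure.pi μ).prod (Measure.pi μ)).prod ω) := by
    have h1 := (measurePreserving_prodAssoc (Measure.pi μ) (Measure.pi μ) ω).symm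
      MeasurableEquiv.prodAssoc
    have h2 : MeasurePreserving (fun x : ((P → E) × (P → E)) × W => (x.1.swap, x.2))
        (((Measure.pi μ).prod (Measure.pi μ)).prod ω)
        (((Measure.pi μ).prod (Measure.pi μ)).prod ω) :=
      (Measure.measurePreserving_swap).prod (MeasurePreserving.id _)
    exact h2.comp h1
  have key : ∀ p, b p = j → ∀ᵐ ξ' ∂(Measure.pi μ), ∀ᵐ y ∂((Measure.pi μ).prod ω),
      KP Ψ j j2 g ((update (fun k => v k ξ') j (v j y.1), v j (update y.1 p (y.2.1 p))), y.2.2) =
        G p (y.1 p, y.2.1 p, y.2.2) := by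
    intro p hp
    have hpj : b p ≠ j2 := by rw [hp]; exact hj2
    have h1 := A.KK_eq_G p (hGm p) (hG p) j2 hpj hgm hg
    have h2 := ((hassoc.comp hpw).comp hre).quasiMeasurePreserving.ae h1
    have aux : ∀ x : (P → E) × ((P → E) × W),
        KK v Ψ p j2 g ((s.piecewise x.1 x.2.1, x.2.2.1), x.2.2.2) =
          G p (s.piecewise x.1 x.2.1 p, x.2.2.1 p, x.2.2.2) →
        KP Ψ j j2 g ((update (fun k => v k x.1) j (v j x.2.1),
          v j (update x.2.1 p (x.2.2.1 p))), x.2.2.2) =
          G p (x.2.1 p, x.2.2.1 p, x.2.2.2) := by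
      intro x hx
      rw [A.col.KK_eq_KP] at hx
      have hps : p ∉ s := by simp [s, hp]
      -- coordinates of the mixed configuration
      have e1 : v j (s.piecewise x.1 x.2.1) = v j x.2.1 :=
        A.col.v_congr j (fun q hq => by simp [s, hq])
      have e2 : (fun k => v k (s.piecewise x.1 x.2.1)) =
          update (fun k => v k x.1) j (v j x.2.1) := by
        funext k
        by_cases hk : k = j
        · subst hk; simp [e1]
        · rw [update_of_ne hk]
          refine A.col.v_congr k (fun q hq => ?_)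
          have : q ∈ s := by simp only [s, Finset.mem_filter, Finset.mem_univ, true_and]; rw [hq]; exact hk
          simp [this]
      have e3 : v j (update (s.piecewise x.1 x.2.1) p (x.2.2.1 p)) =
          v j (update x.2.1 p (x.2.2.1 p)) := by
        refine A.col.v_congr j (fun q hq => ?_)
        have hqs : q ∉ s := by simp [s, hq]
        by_cases hqp : q = p
        · subst hqp; simp
        · simp [hqp, hqs]
      have e4 : s.piecewise x.1 x.2.1 p = x.2.1 p := by simp [hps]
      simp only [hp] at hx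
      rw [e2, e3, e4] at hx
      exact hx
    have h3 : ∀ᵐ x ∂((Measure.pi μ).prod ((Measure.pi μ).prod ω)),
        KP Ψ j j2 g ((update (fun k => v k x.1) j (v j x.2.1),
          v j (update x.2.1 p (x.2.2.1 p))), x.2.2.2) =
          G p (x.2.1 p, x.2.2.1 p, x.2.2.2) := by
      refine h2.mono fun x hx => ?_
      simp only [comp_apply] at hx
      exact aux x hx
    exact Measure.ae_ae_of_ae_prod h3
  have key2 : ∀ᵐ ξ' ∂(Measure.pi μ), ∀ p, b p = j → ∀ᵐ y ∂((Measure.pi μ).prod ω),
      KP Ψ j j2 g ((update (fun k => v k ξ') j (v j y.1), v j (update y.1 p (y.2.1 p))), y.2.2) =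
        G p (y.1 p, y.2.1 p, y.2.2) := by
    rw [ae_all_iff]
    intro p
    by_cases hp : b p = j
    · filter_upwards [key p hp] with ξ' h _ using h
    · exact Filter.Eventually.of_forall fun _ h => absurd h hp
  obtain ⟨ξs, hξs⟩ := key2.exists
  refine ⟨fun y => KP Ψ j j2 g ((update (fun k => v k ξs) j y.1.1, y.1.2), y.2), ?_, ?_⟩
  · refine (A.col.measurable_KP j j2 hgm).comp ?_
    exact (((measurable_update _).comp (measurable_fst.comp measurable_fst)).prodMk
      (measurable_snd.comp measurable_fst)).prodMk measurable_snd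
  · intro p hp G' hG'm hG'
    have hpj : b p ≠ j2 := by rw [hp]; exact hj2
    have h1 := A.KK_eq_G p (hGm p) (hG p) j2 hpj hgm hg
    have h2 := A.KK_eq_G p hG'm hG' j2 hpj hgm hg
    have h3 := (hassoc.symm (e := MeasurableEquiv.prodAssoc.symm)).quasiMeasurePreserving.ae
      (hξs p hp)
    filter_upwards [h1, h2, h3] with x h1 h2 h3
    rw [← h2, h1]
    exact h3

/-- The key identity. -/
theorem Gam_mv3 [StandardBorelSpace E] (p : P) {Γ : (E × E) × E → E} (hΓm : Measurable Γ)
    (hΓ : ∀ G : E × E × E → E, Measurable G →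
      (∀ᵐ x ∂((Measure.pi μ).prod (Measure.pi μ)),
        cor v Ψ x.1 = G (x.1 p, x.2 p, cor v Ψ (update x.1 p (x.2 p)))) →
      ∀ᵐ x ∂(((Measure.pi μ).prod (Measure.pi μ)).prod μY),
        Γ ((v (b p) x.1.1, v (b p) (update x.1.1 p (x.1.2 p))), x.2) =
          G (x.1.1 p, x.1.2 p, x.2)) :
    ∀ᵐ x ∂((Measure.pi μ).prod (Measure.pi μ)), cor v Ψ x.1 = Γ (Side.mv3 v Ψ b p x) := by
  obtain ⟨G, hGm, hG⟩ := A.exists_G p
  have h1 := hΓ G hGm hG
  obtain ⟨j2, hj2⟩ := A.nt (b p)
  obtain ⟨q, hq1, -⟩ := A.surj j2 (a p)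
  have hqp : q ≠ p := by rintro rfl; exact hj2 hq1
  have hqp' : q ∉ ({p} : Finset P) := by simpa using hqp
  have hbq : b q ≠ b p := by rw [hq1]; exact hj2.symm
  have hQ : MeasurableSet {x : ((P → E) × (P → E)) × E |
      Γ ((v (b p) x.1.1, v (b p) (update x.1.1 p (x.1.2 p))), x.2) =
          G (x.1.1 p, x.1.2 p, x.2)} := by
    refine measurableSet_eq_fun (hΓm.comp ?_) (hGm.comp ?_)
    · exact ((((A.col.mv _).comp (measurable_fst.comp measurable_fst)).prodMk
        ((A.col.mv _).comp ((measurable_update_prod p).comp measurable_fst)))).prodMk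
          measurable_snd
    · exact ((measurable_pi_apply p).comp (measurable_fst.comp measurable_fst)).prodMk
        (((measurable_pi_apply p).comp (measurable_snd.comp measurable_fst)).prodMk
          measurable_snd)
  have h2 := (A.col.transfer_ae {p} q hqp' _ hQ (fun x t => by
    simp only [Set.mem_ofPred_eq]
    rw [A.col.dep (b p) x.1.1 q t hbq, update_comm hqp, A.col.dep (b p) _ q t hbq,
      update_of_ne hqp.symm])).2 h1
  filter_upwards [h2, hG] with x h2 h3
  have h2' : Γ ((v (b p) x.1, v (b p) (update x.1 p (x.2 p))),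
      cor v Ψ (({p} : Finset P).piecewise x.2 x.1)) =
        G (x.1 p, x.2 p, cor v Ψ (({p} : Finset P).piecewise x.2 x.1)) := h2
  rw [Finset.piecewise_singleton] at h2'
  rw [h3, ← h2']
  rfl

end Arr

end

end Crest.Agent.R069.Static
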