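import Crest.Agent.R069.Static5
import Crest.Agent.R069.ArrCH

/-!
# Row 69, node STATIC, part 6: the moves `Γ j` form commuting actions
-/

open MeasureTheory ProbabilityTheory Function
open scoped ENNReal

set_option linter.unusedSectionVars false

namespace Crest.Agent.R069.Static

noncomputable section

section aux

variable {X Y Z W : Type*} [MeasurableSpace X] [MeasurableSpace Y] [MeasurableSpace Z]
  [MeasurableSpace W]

theorem mp_of_comp {f : Y → Z} {M : X → Y} {f' : X → Z} {μa : Measure X} {μb : Measure Y}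
    {μc : Measure Z} (hM : MeasurePreserving M μa μb) (hf : Measurable f)
    (h : (fun x => f (M x)) =ᵐ[μa] f') (hf' : MeasurePreserving f' μa μc) :
    MeasurePreserving f μb μc := by
  refine ⟨hf, ?_⟩
  rw [← hM.map_eq, Measure.map_map hf hM.measurable]
  exact (Measure.map_congr h).trans hf'.map_eq

theorem ae_of_comp {M : X → Y} {μa : Measure X} {μb : Measure Y}
    (hM : MeasurePreserving M μa μb) {Q : Y → Prop} (hQ : MeasurableSet {y | Q y})
    (h : ∀ᵐ x ∂μa, Q (M x)) : ∀ᵐ y ∂μb, Q y := by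
  rw [← hM.map_eq]
  exact (ae_map_iff hM.measurable.aemeasurable hQ).2 h

theorem mp_mid (μ1 : Measure X) (μ2 : Measure Y) (μ3 : Measure Z) (μ4 : Measure W)
    [IsProbabilityMeasure μ1] [IsProbabilityMeasure μ2] [IsProbabilityMeasure μ3]
    [IsProbabilityMeasure μ4] :
    MeasurePreserving (fun x : (X × Y) × (Z × W) => ((x.1.1, x.2.1), (x.1.2, x.2.2)))
      ((μ1.prod μ2).prod (μ3.prod μ4)) ((μ1.prod μ3).prod (μ2.prod μ4)) := by
  have h1 := measurePreserving_prodAssoc μ1 μ2 (μ3.prod μ4)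
  have h2 : MeasurePreserving (fun x : X × (Y × (Z × W)) => (x.1, ((x.2.1, x.2.2.1), x.2.2.2)))
      (μ1.prod (μ2.prod (μ3.prod μ4))) (μ1.prod ((μ2.prod μ3).prod μ4)) :=
    (MeasurePreserving.id μ1).prod ((measurePreserving_prodAssoc μ2 μ3 μ4).symm
      MeasurableEquiv.prodAssoc)
  have h3 : MeasurePreserving (fun x : X × ((Y × Z) × W) => (x.1, (x.2.1.swap, x.2.2)))
      (μ1.prod ((μ2.prod μ3).prod μ4)) (μ1.prod ((μ3.prod μ2).prod μ4)) :=
    (MeasurePreserving.id μ1).prod ((Measure.measurePreserving_swap).prod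
      (MeasurePreserving.id μ4))
  have h4 : MeasurePreserving (fun x : X × ((Z × Y) × W) => (x.1, (x.2.1.1, (x.2.1.2, x.2.2))))
      (μ1.prod ((μ3.prod μ2).prod μ4)) (μ1.prod (μ3.prod (μ2.prod μ4))) :=
    (MeasurePreserving.id μ1).prod (measurePreserving_prodAssoc μ3 μ2 μ4)
  have h5 : MeasurePreserving (fun x : X × (Z × (Y × W)) => ((x.1, x.2.1), x.2.2))
      (μ1.prod (μ3.prod (μ2.prod μ4))) ((μ1.prod μ3).prod (μ2.prod μ4)) :=
    (measurePreserving_prodAssoc μ1 μ3 (μ2.prod μ4)).symm MeasurableEquiv.prodAssoc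
  exact h5.comp (h4.comp (h3.comp (h2.comp h1)))

end aux

variable {P : Type*} [Fintype P] [DecidableEq P] {J : Type*} [Fintype J] [DecidableEq J]
  {I : Type*} [Fintype I] [DecidableEq I]
  {E : Type*} [MeasurableSpace E]

/-- Replace the entry `q` in both copies by the entries of another pair of copies. -/
theorem mp_update2 (μ : P → Measure E) [∀ p, IsProbabilityMeasure (μ p)] (q : P) :
    MeasurePreserving (fun x : ((P → E) × (P → E)) × ((P → E) × (P → E)) =>
        (update x.1.1 q (x.2.1 q), update x.1.2 q (x.2.2 q)))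
      (((Measure.pi μ).prod (Measure.pi μ)).prod ((Measure.pi μ).prod (Measure.pi μ)))
      ((Measure.pi μ).prod (Measure.pi μ)) :=
  ((mp_update μ q).prod (mp_update μ q)).comp
    (mp_mid (Measure.pi μ) (Measure.pi μ) (Measure.pi μ) (Measure.pi μ))

namespace Side

variable {μ : P → Measure E} {b : P → J} {β : J → Measure E} {v : J → (P → E) → E}
    {Ψ : (J → E) → E} {μY : Measure E} (S : Side μ b β v Ψ μY)

include S

theorem mv3_sw (p : P) (x : (P → E) × (P → E)) :
    mv3 v Ψ b p (sw {p} x) =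
      ((v (b p) (update x.1 p (x.2 p)), v (b p) x.1), cor v Ψ x.1) := by
  rw [sw_single]
  simp [mv3]

theorem act (p : P) (hnt : ∃ q, b q ≠ b p) {Γ : (E × E) × E → E}
    (hΓm : Measurable Γ) [StandardBorelSpace E]
    (hKI : ∀ᵐ x ∂((Measure.pi μ).prod (Measure.pi μ)), cor v Ψ x.1 = Γ (mv3 v Ψ b p x)) :
    ArrCH.Act ((β (b p)).prod (β (b p))) μY (fun v y => Γ (v, y)) Prod.swap := by
  have := S.pμ
  have := S.pβ
  have := S.pY
  have hM := S.mp_mv3 p hnt
  have hKI' := (mp_sw μ {p}).quasiMeasurePreserving.ae hKI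
  refine ⟨hΓm, Measure.measurePreserving_swap, ?_, ?_, ?_⟩
  · refine mp_of_comp hM (hΓm.prodMk measurable_snd) ?_ (S.mp_cor_pair p)
    filter_upwards [hKI] with x hx
    exact Prod.ext hx.symm rfl
  · have h1 : MeasurePreserving (fun y : (E × E) × E => (y.1.swap, y.2))
        (((β (b p)).prod (β (b p))).prod μY) (((β (b p)).prod (β (b p))).prod μY) :=
      (Measure.measurePreserving_swap).prod (MeasurePreserving.id _)
    refine mp_of_comp hM (measurable_fst.prodMk hΓm) ?_ (h1.comp (hM.comp (mp_sw μ {p})))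
    filter_upwards [hKI] with x hx
    simp only [comp_apply]
    rw [S.mv3_sw]
    exact Prod.ext rfl hx.symm
  · refine ae_of_comp hM ?_ ?_
    · refine measurableSet_eq_fun ?_ measurable_snd
      exact hΓm.comp ((measurable_swap.comp measurable_fst).prodMk hΓm)
    · filter_upwards [hKI, hKI'] with x h1 h2
      rw [S.mv3_sw] at h2
      have h3 : Γ ((mv3 v Ψ b p x).1, (mv3 v Ψ b p x).2) = cor v Ψ x.1 := h1.symm
      rw [h3]
      have h4 : cor v Ψ (sw {p} x).1 = cor v Ψ (update x.1 p (x.2 p)) := by rw [sw_single]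
      rw [h4] at h2
      exact h2.symm

end Side

namespace Arr

variable {μ : P → Measure E} {b : P → J} {β : J → Measure E} {v : J → (P → E) → E}
    {Ψ : (J → E) → E} {a : P → I} {α : I → Measure E} {u : I → (P → E) → E}
    {Φ : (I → E) → E} {μY : Measure E} (A : Arr μ b β v Ψ a α u Φ μY)

include A

/-- Commutation of the moves of the line outputs (also for the same line). -/
theorem Gam_comm [StandardBorelSpace E] [Nonempty I] (Γ : J → (E × E) × E → E)
    (hΓm : ∀ j, Measurable (Γ j))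
    (hΓ : ∀ j p, b p = j → ∀ G : E × E × E → E, Measurable G →
      (∀ᵐ x ∂((Measure.pi μ).prod (Measure.pi μ)),
        cor v Ψ x.1 = G (x.1 p, x.2 p, cor v Ψ (update x.1 p (x.2 p)))) →
      ∀ᵐ x ∂(((Measure.pi μ).prod (Measure.pi μ)).prod μY),
        Γ j ((v j x.1.1, v j (update x.1.1 p (x.1.2 p))), x.2) = G (x.1.1 p, x.1.2 p, x.2))
    (j l : J) :
    ∀ᵐ x ∂(((β l).prod (β l)).prod (((β j).prod (β j)).prod μY)),
      Γ l (x.1, Γ j (x.2.1, x.2.2)) = Γ j (x.2.1, Γ l (x.1, x.2.2)) := by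
  have := A.col.pμ
  have := A.col.pβ
  have := A.col.pY
  obtain ⟨i⟩ := ‹Nonempty I›
  obtain ⟨i', hi⟩ := A.nt' i
  obtain ⟨p, rfl, hp2⟩ := A.surj l i
  obtain ⟨q, rfl, hq2⟩ := A.surj j i'
  have hpq : p ≠ q := by rintro rfl; exact hi (hp2.symm.trans hq2)
  obtain ⟨Gp, hGpm, hGp⟩ := A.exists_G p
  obtain ⟨Gq, hGqm, hGq⟩ := A.exists_G q
  have hcomm := A.G_comm hpq hGpm hGqm hGp hGq
  have eP := hΓ (b p) p rfl Gp hGpm hGp
  have eQ := hΓ (b q) q rfl Gq hGqm hGq
  set PP := (Measure.pi μ).prod (Measure.pi μ) with hPP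
  -- the parameter map
  let Mp : ((P → E) × (P → E)) → E × E := fun x => (v (b p) x.1, v (b p) (update x.1 p (x.2 p)))
  let Mq : ((P → E) × (P → E)) → E × E := fun x => (v (b q) x.1, v (b q) (update x.1 q (x.2 q)))
  have hMp : MeasurePreserving Mp PP ((β (b p)).prod (β (b p))) := A.col.mp_v_pair p
  have hMq : MeasurePreserving Mq PP ((β (b q)).prod (β (b q))) := A.col.mp_v_pair q
  have hM : MeasurePreserving
      (fun x : ((P → E) × (P → E)) × (((P → E) × (P → E)) × E) => (Mp x.1, (Mq x.2.1, x.2.2)))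
      (PP.prod (PP.prod μY))
      (((β (b p)).prod (β (b p))).prod (((β (b q)).prod (β (b q))).prod μY)) :=
    hMp.prod (hMq.prod (MeasurePreserving.id _))
  have actP : ArrCH.Act ((β (b p)).prod (β (b p))) μY (fun v y => Γ (b p) (v, y)) Prod.swap := by
    refine A.col.act p ?_ (hΓm _) (A.Gam_mv3 p (hΓm _) (hΓ (b p) p rfl))
    obtain ⟨j', hj'⟩ := A.nt (b p)
    obtain ⟨r, hr, -⟩ := A.surj j' i
    exact ⟨r, by rw [hr]; exact hj'.symm⟩
  have actQ : ArrCH.Act ((β (b q)).prod (β (b q))) μY (fun v y => Γ (b q) (v, y)) Prod.swap := by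
    refine A.col.act q ?_ (hΓm _) (A.Gam_mv3 q (hΓm _) (hΓ (b q) q rfl))
    obtain ⟨j', hj'⟩ := A.nt (b q)
    obtain ⟨r, hr, -⟩ := A.surj j' i
    exact ⟨r, by rw [hr]; exact hj'.symm⟩
  refine ae_of_comp hM ?_ ?_
  · refine measurableSet_eq_fun ?_ ?_
    · exact (hΓm _).comp (measurable_fst.prodMk ((hΓm _).comp
        ((measurable_fst.comp measurable_snd).prodMk (measurable_snd.comp measurable_snd))))
    · exact (hΓm _).comp ((measurable_fst.comp measurable_snd).prodMk ((hΓm _).comp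
        (measurable_fst.prodMk (measurable_snd.comp measurable_snd))))
  · -- the four identities on `PP ⊗ (PP ⊗ μY)`
    -- (1) `Γ q` at `(y, z)`
    have h1 : ∀ᵐ x ∂(PP.prod (PP.prod μY)),
        Γ (b q) (Mq x.2.1, x.2.2) = Gq (x.2.1.1 q, x.2.1.2 q, x.2.2) :=
      (measurePreserving_snd (μ := PP) (ν := PP.prod μY)).quasiMeasurePreserving.ae eQ
    -- (2) `Γ p` at `(x, z)`
    have hxz : MeasurePreserving
        (fun x : ((P → E) × (P → E)) × (((P → E) × (P → E)) × E) => (x.1, x.2.2))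
        (PP.prod (PP.prod μY)) (PP.prod μY) :=
      (MeasurePreserving.id _).prod measurePreserving_snd
    have h2 : ∀ᵐ x ∂(PP.prod (PP.prod μY)),
        Γ (b p) (Mp x.1, x.2.2) = Gp (x.1.1 p, x.1.2 p, x.2.2) :=
      hxz.quasiMeasurePreserving.ae eP
    -- (3) `Γ p` at `(x, Γ q (y, z))`
    have hxg : MeasurePreserving
        (fun x : ((P → E) × (P → E)) × (((P → E) × (P → E)) × E) =>
          (x.1, Γ (b q) (Mq x.2.1, x.2.2)))
        (PP.prod (PP.prod μY)) (PP.prod μY) := by
      have k : MeasurePreserving (fun y : ((P → E) × (P → E)) × E => Γ (b q) (Mq y.1, y.2))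
          (PP.prod μY) μY := (actQ.mp).comp (hMq.prod (MeasurePreserving.id μY))
      exact (MeasurePreserving.id PP).prod k
    have h3 : ∀ᵐ x ∂(PP.prod (PP.prod μY)),
        Γ (b p) (Mp x.1, Γ (b q) (Mq x.2.1, x.2.2)) =
          Gp (x.1.1 p, x.1.2 p, Γ (b q) (Mq x.2.1, x.2.2)) :=
      hxg.quasiMeasurePreserving.ae eP
    -- (4) `Γ q` at `(y, Γ p (x, z))`
    have hyx : MeasurePreserving
        (fun x : ((P → E) × (P → E)) × (((P → E) × (P → E)) × E) => (x.2.1, (x.1, x.2.2)))
        (PP.prod (PP.prod μY)) (PP.prod (PP.prod μY)) := by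
      have k1 := (measurePreserving_prodAssoc PP PP μY).symm MeasurableEquiv.prodAssoc
      have k2 : MeasurePreserving
          (fun x : (((P → E) × (P → E)) × ((P → E) × (P → E))) × E => (x.1.swap, x.2))
          ((PP.prod PP).prod μY) ((PP.prod PP).prod μY) :=
        (Measure.measurePreserving_swap).prod (MeasurePreserving.id _)
      have k3 := measurePreserving_prodAssoc PP PP μY
      exact k3.comp (k2.comp k1)
    have hyg : MeasurePreserving
        (fun x : ((P → E) × (P → E)) × (((P → E) × (P → E)) × E) =>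
          (x.2.1, Γ (b p) (Mp x.1, x.2.2)))
        (PP.prod (PP.prod μY)) (PP.prod μY) := by
      have k : MeasurePreserving
          (fun x : ((P → E) × (P → E)) × (((P → E) × (P → E)) × E) =>
            (x.1, Γ (b p) (Mp x.2.1, x.2.2)))
          (PP.prod (PP.prod μY)) (PP.prod μY) := by
        have k' : MeasurePreserving (fun y : ((P → E) × (P → E)) × E => Γ (b p) (Mp y.1, y.2))
            (PP.prod μY) μY := (actP.mp).comp (hMp.prod (MeasurePreserving.id μY))
        exact (MeasurePreserving.id PP).prod k'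
      exact k.comp hyx
    have h4 : ∀ᵐ x ∂(PP.prod (PP.prod μY)),
        Γ (b q) (Mq x.2.1, Γ (b p) (Mp x.1, x.2.2)) =
          Gq (x.2.1.1 q, x.2.1.2 q, Γ (b p) (Mp x.1, x.2.2)) :=
      hyg.quasiMeasurePreserving.ae eQ
    -- (5) commutation of the single-entry moves with independent parameters
    have hR : MeasurePreserving
        (fun x : ((P → E) × (P → E)) × (((P → E) × (P → E)) × E) =>
          (((update x.1.1 q (x.2.1.1 q), update x.1.2 q (x.2.1.2 q)), x.2.2) :
            ((P → E) × (P → E)) × E))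
        (PP.prod (PP.prod μY)) (PP.prod μY) := by
      have k1 := (measurePreserving_prodAssoc PP PP μY).symm MeasurableEquiv.prodAssoc
      have k2 : MeasurePreserving
          (fun x : (((P → E) × (P → E)) × ((P → E) × (P → E))) × E =>
            (((update x.1.1.1 q (x.1.2.1 q), update x.1.1.2 q (x.1.2.2 q)), x.2) :
              ((P → E) × (P → E)) × E))
          ((PP.prod PP).prod μY) (PP.prod μY) :=
        (mp_update2 μ q).prod (MeasurePreserving.id _)
      exact k2.comp k1
    have h5 := hR.quasiMeasurePreserving.ae hcomm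
    filter_upwards [h1, h2, h3, h4, h5] with x h1 h2 h3 h4 h5
    simp only [update_of_ne hpq, update_self] at h5
    show Γ (b p) (Mp x.1, Γ (b q) (Mq x.2.1, x.2.2)) =
      Γ (b q) (Mq x.2.1, Γ (b p) (Mp x.1, x.2.2))
    rw [h3, h4, h1, h2]
    exact h5

end Arr

end

end Crest.Agent.R069.Static
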