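import Crest.Agent.R069.Static6

/-!
# Row 69, node STATIC, part 7: the product form of joint eigenfunctions
-/

open MeasureTheory ProbabilityTheory Function
open scoped ENNReal

set_option linter.unusedSectionVars false

namespace Crest.Agent.R069.Static

noncomputable section

variable {J : Type*} [Fintype J] [DecidableEq J] {E : Type*} [MeasurableSpace E]

/-- A function whose single-coordinate changes are multiplicative is a product. -/
theorem prod_form (β : J → Measure E) [∀ j, IsProbabilityMeasure (β j)] (F : (J → E) → ℂ)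
    (kap : J → E × E → ℂ)
    (h : ∀ j, ∀ᵐ x ∂((Measure.pi β).prod (Measure.pi β)),
      F x.1 = kap j (x.1 j, x.2 j) * F (update x.1 j (x.2 j))) (s : Finset J) :
    ∀ᵐ x ∂((Measure.pi β).prod (Measure.pi β)),
      F x.1 = (∏ j ∈ s, kap j (x.1 j, x.2 j)) * F (s.piecewise x.2 x.1) := by
  induction s using Finset.induction_on with
  | empty => simp
  | insert j s hj ih =>
    have h1 := (mp_sw β s).quasiMeasurePreserving.ae (h j)
    filter_upwards [ih, h1] with x h2 h3
    simp only [sw, Finset.piecewise_eq_of_notMem _ _ _ hj] at h3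
    rw [h2, h3, Finset.prod_insert hj, Finset.piecewise_insert]
    ring

/-- One-coordinate form on `pi β ⊗ β j` gives the two-copies form. -/
theorem ae_two_copies (β : J → Measure E) [∀ j, IsProbabilityMeasure (β j)] (j : J)
    {Q : (J → E) × E → Prop} (h : ∀ᵐ x ∂((Measure.pi β).prod (β j)), Q x) :
    ∀ᵐ x ∂((Measure.pi β).prod (Measure.pi β)), Q (x.1, x.2 j) :=
  ((MeasurePreserving.id (Measure.pi β)).prod
    (measurePreserving_eval β j)).quasiMeasurePreserving.ae h

/-- **Product form.** -/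
theorem exists_prod_form [Nonempty J] (β : J → Measure E) [∀ j, IsProbabilityMeasure (β j)]
    {F : (J → E) → ℂ} (hF1 : ∀ w, ‖F w‖ = 1)
    {kap : J → E × E → ℂ} (hk : ∀ j, Measurable (kap j)) (hk1 : ∀ j e, ‖kap j e‖ = 1)
    (h : ∀ j, ∀ᵐ x ∂((Measure.pi β).prod (β j)),
      F x.1 = kap j (x.1 j, x.2) * F (update x.1 j x.2)) :
    ∃ G : J → E → ℂ, (∀ j, Measurable (G j)) ∧ (∀ j e, ‖G j e‖ = 1) ∧
      ∀ᵐ w ∂(Measure.pi β), F w = ∏ j, G j (w j) := by
  classical
  have h1 := prod_form β F kap (fun j => ae_two_copies β j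
    (Q := fun x => F x.1 = kap j (x.1 j, x.2) * F (update x.1 j x.2)) (h j)) Finset.univ
  have h2 := (Measure.measurePreserving_swap (μ := Measure.pi β)
    (ν := Measure.pi β)).quasiMeasurePreserving.ae h1
  obtain ⟨ws, hws⟩ := (Measure.ae_ae_of_ae_prod h2).exists
  obtain ⟨j1⟩ := ‹Nonempty J›
  refine ⟨fun j e => (if j = j1 then F ws else 1) * kap j (e, ws j), fun j => ?_, fun j e => ?_,
    ?_⟩
  · exact measurable_const.mul ((hk j).comp (measurable_id.prodMk measurable_const))
  · rw [norm_mul, hk1, mul_one]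
    split_ifs
    · exact hF1 ws
    · simp
  · filter_upwards [hws] with w hw
    simp only [Prod.swap, Finset.piecewise_univ] at hw
    rw [hw, Finset.prod_mul_distrib, Finset.prod_ite_eq' Finset.univ j1]
    simp [mul_comm]

variable {P : Type*} [Fintype P] [DecidableEq P]  {I : Type*} [Fintype I] [DecidableEq I]

/-- `f` is a corner character: unimodular, and `f ∘ Ψ` is a product. -/
def CChar (β : J → Measure E) (Ψ : (J → E) → E) (f : E → ℂ) : Prop :=
  Measurable f ∧ (∀ y, ‖f y‖ = 1) ∧ ∃ G : J → E → ℂ, (∀ j, Measurable (G j)) ∧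
    (∀ j e, ‖G j e‖ = 1) ∧ ∀ᵐ w ∂(Measure.pi β), f (Ψ w) = ∏ j, G j (w j)

namespace Arr

variable {μ : P → Measure E} {b : P → J} {β : J → Measure E} {v : J → (P → E) → E}
    {Ψ : (J → E) → E} {a : P → I} {α : I → Measure E} {u : I → (P → E) → E}
    {Φ : (I → E) → E} {μY : Measure E} (A : Arr μ b β v Ψ a α u Φ μY)

include A

theorem exists_ne_line [Nonempty I] (p : P) : ∃ q, b q ≠ b p := by
  obtain ⟨j', hj'⟩ := A.nt (b p)
  obtain ⟨i⟩ := ‹Nonempty I›
  obtain ⟨r, hr, -⟩ := A.surj j' i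
  exact ⟨r, by rw [hr]; exact hj'.symm⟩

/-- A joint eigenfunction is a corner character. -/
theorem cchar_of_eigen [StandardBorelSpace E] [Nonempty I] [Nonempty J]
    (Γ : J → (E × E) × E → E)
    (hKI : ∀ p, ∀ᵐ x ∂((Measure.pi μ).prod (Measure.pi μ)),
      cor v Ψ x.1 = Γ (b p) (Side.mv3 v Ψ b p x))
    {f : E → ℂ} (hf : Measurable f) (hf1 : ∀ y, ‖f y‖ = 1)
    {kap : J → E × E → ℂ} (hk : ∀ j, Measurable (kap j)) (hk1 : ∀ j e, ‖kap j e‖ = 1)
    (h : ∀ j, ∀ᵐ p ∂(((β j).prod (β j)).prod μY), f (Γ j (p.1, p.2)) = kap j p.1 * f p.2) :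
    CChar β Ψ f := by
  have := A.col.pμ
  have := A.col.pβ
  have := A.col.pY
  refine ⟨hf, hf1, ?_⟩
  refine exists_prod_form β (F := fun w => f (Ψ w)) (fun w => hf1 _) hk hk1 fun j => ?_
  obtain ⟨i⟩ := ‹Nonempty I›
  obtain ⟨p, rfl, -⟩ := A.surj j i
  haveI : Nonempty I := ⟨i⟩
  have h1 := (A.col.mp_mv3 p (A.exists_ne_line p)).quasiMeasurePreserving.ae (h (b p))
  refine ae_of_comp (A.col.mp_v_update p) ?_ ?_
  · refine measurableSet_eq_fun ?_ ?_
    · exact hf.comp (A.col.mΨ.comp measurable_fst)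
    · refine Measurable.mul ((hk _).comp ?_) (hf.comp (A.col.mΨ.comp (measurable_update_prod' _)))
      exact ((measurable_pi_apply _).comp measurable_fst).prodMk measurable_snd
  · filter_upwards [h1, hKI p] with x h2 h3
    have h4 : f (cor v Ψ x.1) =
        kap (b p) (v (b p) x.1, v (b p) (update x.1 p (x.2 p))) *
          f (cor v Ψ (update x.1 p (x.2 p))) := by
      rw [h3]; exact h2
    rw [A.col.cor_update] at h4
    exact h4

/-- Orthogonality form of the totality of the corner characters. -/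
theorem corner_orth [StandardBorelSpace E] [Nonempty I] [Nonempty J]
    {h : E → ℂ} (hh : MemLp h 2 μY)
    (horth : ∀ f, CChar β Ψ f → ∫ y, h y * (starRingEnd ℂ) (f y) ∂μY = 0) : h =ᵐ[μY] 0 := by
  have := A.col.pμ
  have := A.col.pβ
  have := A.col.pY
  choose Γ hΓm hΓ using fun j => A.exists_Gam j
  have hKI : ∀ p, ∀ᵐ x ∂((Measure.pi μ).prod (Measure.pi μ)),
      cor v Ψ x.1 = Γ (b p) (Side.mv3 v Ψ b p x) := fun p =>
    A.Gam_mv3 p (hΓm _) (hΓ (b p) p rfl)
  have hact : ∀ j, ArrCH.Act ((β j).prod (β j)) μY (fun v y => Γ j (v, y)) Prod.swap := by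
    intro j
    obtain ⟨i⟩ := ‹Nonempty I›
    haveI : Nonempty I := ⟨i⟩
    obtain ⟨p, rfl, -⟩ := A.surj j i
    exact A.col.act p (A.exists_ne_line p) (hΓm _) (hKI p)
  have hcomm := A.Gam_comm Γ hΓm hΓ
  refine ArrCH.total (V := fun _ : J => E × E) (ν := fun j => (β j).prod (β j))
    (g := fun j v y => Γ j (v, y)) (inv := fun _ => Prod.swap) hact ?_ hh ?_
  · intro j l
    exact hcomm j l
  · intro f kap hf hf1 hk hk1 hfk
    exact horth f (A.cchar_of_eigen Γ hKI hf hf1 hk hk1 hfk)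

end Arr

end

end Crest.Agent.R069.Static
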