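import Crest.Agent.R069.Static3

/-!
# Row 69, node STATIC: the product model of a static array

From the raw hypotheses of a static array (independence of the blocks missing a row and a column,
closedness of rows and columns) to the structure `Arr` of `Static3`.
-/

open MeasureTheory ProbabilityTheory Function
open scoped ENNReal

set_option linter.unusedSectionVars false

namespace Crest.Agent.R069.StaticModel

open Crest.Agent.R069.Static

noncomputable section

variable {E : Type*} [MeasurableSpace E]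

section fibre

variable {P : Type*} [Fintype P] [DecidableEq P]

/-- `((ζ, e), s) ↦ (update ζ p s, e)` preserves the product measures. -/
theorem mp_update_snd (μ : P → Measure E) [∀ p, IsProbabilityMeasure (μ p)] (p : P)
    (lam : Measure E) [IsProbabilityMeasure lam] :
    MeasurePreserving (fun x : ((P → E) × E) × E => (update x.1.1 p x.2, x.1.2))
      (((Measure.pi μ).prod lam).prod (μ p)) ((Measure.pi μ).prod lam) := by
  have h1 : MeasurePreserving (fun x : (P → E) × E => update x.1 p x.2)
      ((Measure.pi μ).prod (μ p)) (Measure.pi μ) :=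
    measurePreserving_fst.comp (mp_update' μ p)
  have h2 : MeasurePreserving (fun x : E × ((P → E) × E) => (x.1, update x.2.1 p x.2.2))
      (lam.prod ((Measure.pi μ).prod (μ p)))
      (lam.prod (Measure.pi μ)) := (MeasurePreserving.id _).prod h1
  have h3 : MeasurePreserving
      (fun x : ((P → E) × E) × E => (x.1.2, (x.1.1, x.2)))
      (((Measure.pi μ).prod lam).prod (μ p)) (lam.prod ((Measure.pi μ).prod (μ p))) := by
    have h4 : MeasurePreserving (fun x : ((P → E) × E) × E => (x.1.swap, x.2))
        (((Measure.pi μ).prod lam).prod (μ p)) ((lam.prod (Measure.pi μ)).prod (μ p)) :=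
      (Measure.measurePreserving_swap).prod (MeasurePreserving.id _)
    have h5 := measurePreserving_prodAssoc lam (Measure.pi μ) (μ p)
    exact h5.comp h4
  have h6 := (Measure.measurePreserving_swap).comp (h2.comp h3)
  exact h6

/-- **Fibre lemma.**  If the output `F ξ` is independent of the coordinates different from `p`,
then for a.e. values of these coordinates its conditional law is constant. -/
theorem fibre [MeasurableSpace.CountablyGenerated E] (μ : P → Measure E)
    [∀ p, IsProbabilityMeasure (μ p)] (p : P)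
    {F : (P → E) → E} (hF : Measurable F) (lam : Measure E) [IsProbabilityMeasure lam]
    (h : (Measure.pi μ).map (fun ξ => ((fun q : {q // q ≠ p} => ξ q), F ξ)) =
      ((Measure.pi μ).map (fun ξ (q : {q // q ≠ p}) => ξ q)).prod lam) :
    ∀ᵐ ξ ∂Measure.pi μ, (μ p).map (fun t => F (update ξ p t)) = lam := by
  have hFu : Measurable (fun x : (P → E) × E => F (update x.1 p x.2)) :=
    hF.comp (measurable_update_prod' p)
  have hrestr : Measurable (fun (ξ : P → E) (q : {q // q ≠ p}) => ξ q) :=
    measurable_pi_lambda _ fun q => measurable_pi_apply q.1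
  -- joint law
  have hjoint : ((Measure.pi μ).prod (μ p)).map (fun x => (x.1, F (update x.1 p x.2))) =
      (Measure.pi μ).prod lam := by
    let A : (P → E) × E → (P → E) × E := fun x => (update x.1 p x.2, F x.1)
    let ext : (({q // q ≠ p} → E) × E) × E → (P → E) × E := fun x =>
      ((fun q => if hq : q = p then x.2 else x.1.1 ⟨q, hq⟩), x.1.2)
    have hA : Measurable A :=
      (measurable_update_prod' p).prodMk (hF.comp measurable_fst)
    have hext : Measurable ext := by
      refine Measurable.prodMk (measurable_pi_lambda _ fun q => ?_)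
        (measurable_snd.comp measurable_fst)
      by_cases hq : q = p
      · simp only [hq, dite_true]; exact measurable_snd
      · simp only [hq, dite_false]
        exact (measurable_pi_apply _).comp (measurable_fst.comp measurable_fst)
    have e1 : (fun x : (P → E) × E => (x.1, F (update x.1 p x.2))) =
        A ∘ (fun x : (P → E) × E => (update x.1 p x.2, x.1 p)) := by
      funext x
      simp [A]
    have e2 : A = ext ∘ (Prod.map (fun ξ : P → E => ((fun q : {q // q ≠ p} => ξ q), F ξ)) id) := by
      funext x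
      refine Prod.ext ?_ rfl
      funext q
      by_cases hq : q = p
      · subst hq; simp [A, ext]
      · simp [A, ext, hq]
    rw [e1, ← Measure.map_map hA (mp_update' μ p).measurable, (mp_update' μ p).map_eq, e2,
      ← Measure.map_map hext ((hrestr.prodMk hF).prodMap measurable_id)]
    rw [← Measure.map_prod_map _ _ (hrestr.prodMk hF) measurable_id, h, Measure.map_id]
    have e3 : ((Measure.pi μ).map (fun (ξ : P → E) (q : {q // q ≠ p}) => ξ q)).prod lam =
        ((Measure.pi μ).prod lam).map
          (Prod.map (fun (ξ : P → E) (q : {q // q ≠ p}) => ξ q) id) := by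
      rw [← Measure.map_prod_map _ _ hrestr measurable_id, Measure.map_id]
    have e4 : (((Measure.pi μ).map (fun (ξ : P → E) (q : {q // q ≠ p}) => ξ q)).prod lam).prod
        (μ p) = (((Measure.pi μ).prod lam).prod (μ p)).map
          (Prod.map (Prod.map (fun (ξ : P → E) (q : {q // q ≠ p}) => ξ q) id) id) := by
      rw [← Measure.map_prod_map _ _ (hrestr.prodMap measurable_id) measurable_id, Measure.map_id,
        e3]
    rw [e4, Measure.map_map hext ((hrestr.prodMap measurable_id).prodMap measurable_id)]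
    refine Eq.trans ?_ (mp_update_snd μ p lam).map_eq
    congr 1
    funext x
    refine Prod.ext ?_ rfl
    funext q
    by_cases hq : q = p
    · subst hq; simp [ext]
    · simp [ext, hq]
  let κ : Kernel (P → E) E :=
    ((Kernel.deterministic id measurable_id) ×ₖ (Kernel.const (P → E) (μ p))).map
      (fun x : (P → E) × E => F (update x.1 p x.2))
  have hκ : ∀ ξ, κ ξ = (μ p).map (fun t => F (update ξ p t)) := by
    intro ξ
    simp only [κ]
    rw [Kernel.map_apply _ hFu, Kernel.prod_apply, Kernel.deterministic_apply,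
      Kernel.const_apply, Measure.dirac_prod, Measure.map_map hFu measurable_prodMk_left]
    rfl
  have : IsMarkovKernel κ := Kernel.IsMarkovKernel.map _ hFu
  have hc : (Measure.pi μ) ⊗ₘ κ = (Measure.pi μ) ⊗ₘ (Kernel.const (P → E) lam) := by
    rw [Measure.compProd_const, ← hjoint]
    ext s hs
    have hm : Measurable (fun x : (P → E) × E => (x.1, F (update x.1 p x.2))) :=
      measurable_fst.prodMk hFu
    rw [Measure.compProd_apply hs, Measure.map_apply hm hs,
      Measure.prod_apply (hm hs)]
    refine lintegral_congr fun ξ => ?_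
    have hFξ : Measurable (fun t => F (update ξ p t)) := hFu.comp measurable_prodMk_left
    rw [hκ, Measure.map_apply hFξ (measurable_prodMk_left hs)]
    rfl
  filter_upwards [Kernel.ae_eq_of_compProd_eq hc] with ξ hξ
  rw [← hκ, hξ, Kernel.const_apply]

end fibre

section line

variable {R : Type*} [Fintype R] [DecidableEq R] {Ω : Type*} [MeasurableSpace Ω]
  {ρ : Measure Ω} [IsProbabilityMeasure ρ] {L : R → Ω → E}

theorem line_law (hL : ∀ i, Measurable (L i))
    (hind : ∀ k, iIndepFun (fun i : {i // i ≠ k} => L i.1) ρ) (i0 : R) :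
    ρ.map (fun ω (i : {i // i ≠ i0}) => L i ω) =
      Measure.pi (fun i : {i // i ≠ i0} => ρ.map (L i)) :=
  (iIndepFun_iff_map_fun_eq_pi_map (fun i => (hL _).aemeasurable)).1 (hind i0)

theorem line_indep (hL : ∀ i, Measurable (L i))
    (hind : ∀ k, iIndepFun (fun i : {i // i ≠ k} => L i.1) ρ) (i0 : R) (p : {i // i ≠ i0}) :
    IndepFun (fun ω (q : {q : {i // i ≠ i0} // q ≠ p}) => L q.1.1 ω) (L i0) ρ := by
  have h0 : i0 ≠ p.1 := fun h => p.2 h.symm
  have h := (hind p.1).indepFun_finset (Finset.univ.erase ⟨i0, h0⟩) {⟨i0, h0⟩}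
    (by simp) (fun _ => hL _)
  have hφ : Measurable (fun (r : (Finset.univ.erase (⟨i0, h0⟩ : {i // i ≠ p.1})) → E)
      (q : {q : {i // i ≠ i0} // q ≠ p}) =>
      r ⟨⟨q.1.1, fun hq => q.2 (Subtype.ext hq)⟩, by
        simp only [Finset.mem_erase, Finset.mem_univ, and_true, ne_eq, Subtype.mk.injEq]
        exact q.1.2⟩) :=
    measurable_pi_lambda _ fun q => measurable_pi_apply _
  have hψ : Measurable (fun (r : ({⟨i0, h0⟩} : Finset {i // i ≠ p.1}) → E) =>
      r ⟨⟨i0, h0⟩, Finset.mem_singleton_self _⟩) := measurable_pi_apply _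
  exact h.comp hφ hψ

theorem line_fib [MeasurableSpace.CountablyGenerated E] (hL : ∀ i, Measurable (L i))
    (hind : ∀ k, iIndepFun (fun i : {i // i ≠ k} => L i.1) ρ) (i0 : R)
    {g : ({i // i ≠ i0} → E) → E} (hg : Measurable g)
    (hgL : ∀ᵐ ω ∂ρ, L i0 ω = g (fun i => L i ω)) (p : {i // i ≠ i0}) :
    ∀ᵐ ξ ∂(Measure.pi (fun i : {i // i ≠ i0} => ρ.map (L i))),
      (ρ.map (L p)).map (fun t => g (update ξ p t)) = ρ.map (L i0) := by
  have hpr : ∀ i, IsProbabilityMeasure (ρ.map (L i)) := fun i =>
    Measure.isProbabilityMeasure_map (hL i).aemeasurable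
  have hLL : Measurable (fun ω (i : {i // i ≠ i0}) => L i ω) :=
    measurable_pi_lambda _ fun i => hL i
  have hrestr : Measurable (fun (ξ : {i // i ≠ i0} → E) (q : {q // q ≠ p}) => ξ q) :=
    measurable_pi_lambda _ fun q => measurable_pi_apply q.1
  refine fibre (fun i : {i // i ≠ i0} => ρ.map (L i)) p hg (ρ.map (L i0)) ?_
  rw [← line_law hL hind i0, Measure.map_map (hrestr.prodMk hg) hLL, Measure.map_map hrestr hLL]
  have h1 : ρ.map ((fun ξ : {i // i ≠ i0} → E => ((fun q : {q // q ≠ p} => ξ q), g ξ)) ∘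
      fun ω (i : {i // i ≠ i0}) => L i ω) =
      ρ.map (fun ω => ((fun q : {q : {i // i ≠ i0} // q ≠ p} => L q.1.1 ω), L i0 ω)) := by
    refine Measure.map_congr ?_
    filter_upwards [hgL] with ω hω
    simp only [comp_apply]
    rw [hω]
  rw [h1]
  refine (indepFun_iff_map_prod_eq_prod_map_map ?_ (hL i0).aemeasurable).1
    (line_indep hL hind i0 p)
  exact (measurable_pi_lambda _ fun q => hL _).aemeasurable

theorem line_inv (hL : ∀ i, Measurable (L i))
    (hind : ∀ k, iIndepFun (fun i : {i // i ≠ k} => L i.1) ρ) (i0 : R)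
    {g : ({i // i ≠ i0} → E) → E} (hg : Measurable g)
    (hgL : ∀ᵐ ω ∂ρ, L i0 ω = g (fun i => L i ω)) (p : {i // i ≠ i0})
    (hsing : MeasurableSet {x : E × E | x.1 = x.2})
    {g' : ({i // i ≠ p.1} → E) → E} (hg' : Measurable g')
    (hgL' : ∀ᵐ ω ∂ρ, L p ω = g' (fun i => L i ω)) :
    ∃ g'' : ({i // i ≠ i0} → E) → E, Measurable g'' ∧
      ∀ᵐ ξ ∂(Measure.pi (fun i : {i // i ≠ i0} => ρ.map (L i))), ξ p = g'' (update ξ p (g ξ)) := by
  have hLL : Measurable (fun ω (i : {i // i ≠ i0}) => L i ω) :=
    measurable_pi_lambda _ fun i => hL i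
  let r : ({i // i ≠ i0} → E) → ({i // i ≠ p.1} → E) := fun ζ l =>
    if hl : l.1 = i0 then ζ p else ζ ⟨l.1, hl⟩
  have hr : Measurable r := by
    refine measurable_pi_lambda _ fun l => ?_
    by_cases hl : l.1 = i0
    · simp only [r, hl, dite_true]; exact measurable_pi_apply _
    · simp only [r, hl, dite_false]; exact measurable_pi_apply _
  refine ⟨fun ζ => g' (r ζ), hg'.comp hr, ?_⟩
  have hup : Measurable (fun ξ : {i // i ≠ i0} → E => update ξ p (g ξ)) := by
    have := (measurable_update_prod' (E := E) p).comp (measurable_id.prodMk hg)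
    exact this
  have hm : Measurable (fun ξ : {i // i ≠ i0} → E => (ξ p, g' (r (update ξ p (g ξ))))) :=
    (measurable_pi_apply p).prodMk (hg'.comp (hr.comp hup))
  have hS : MeasurableSet {ξ : {i // i ≠ i0} → E | ξ p = g' (r (update ξ p (g ξ)))} :=
    hm hsing
  rw [← line_law hL hind i0, ae_map_iff hLL.aemeasurable hS]
  filter_upwards [hgL, hgL'] with ω h1 h2
  rw [← h1, h2]
  congr 1
  funext l
  by_cases hl : l.1 = i0
  · simp [r, hl]
  · have : (⟨l.1, hl⟩ : {i // i ≠ i0}) ≠ p := fun h => l.2 (congrArg Subtype.val h)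
    simp [r, hl, this]

end line

section side

variable {Ω : Type*} [MeasurableSpace Ω] {ρ : Measure Ω} [IsProbabilityMeasure ρ]

theorem side_mk [StandardBorelSpace E]
    {R R' : Type*} [Fintype R] [DecidableEq R] [Fintype R'] [DecidableEq R']
    {X : R → R' → Ω → E} (hX : ∀ i j, Measurable (X i j)) (i0 : R) (j0 : R')
    (hblock : iIndepFun (fun (p : {i // i ≠ i0} × {j // j ≠ j0}) => X p.1.1 p.2.1) ρ)
    (hcol : ∀ j k, iIndepFun (fun i : {i // i ≠ k} => X i.1 j) ρ)
    (hrow : ∀ k, iIndepFun (fun j : {j // j ≠ k} => X i0 j.1) ρ)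
    {g : {j // j ≠ j0} → ({i // i ≠ i0} → E) → E} (hg : ∀ j, Measurable (g j))
    (hgX : ∀ j : {j // j ≠ j0}, ∀ᵐ ω ∂ρ, X i0 j ω = g j (fun i => X i j ω))
    {Ψ : ({j // j ≠ j0} → E) → E} (hΨ : Measurable Ψ)
    (hΨX : ∀ᵐ ω ∂ρ, X i0 j0 ω = Ψ (fun j => X i0 j ω))
    (hinv : ∀ j : {j // j ≠ j0}, ∃ g' : ({l // l ≠ j.1} → E) → E, Measurable g' ∧
      ∀ᵐ ω ∂ρ, X i0 j ω = g' (fun l => X i0 l ω))
    {P : Type*} [Fintype P] [DecidableEq P] (e : P ≃ {i // i ≠ i0} × {j // j ≠ j0}) :
    Side (fun p => ρ.map (X (e p).1 (e p).2)) (fun p => (e p).2)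
      (fun j : {j // j ≠ j0} => ρ.map (X i0 j))
      (fun j ξ => g j (fun i => ξ (e.symm (i, j)))) Ψ (ρ.map (X i0 j0)) := by
  have hpr : ∀ i j, IsProbabilityMeasure (ρ.map (X i j)) := fun i j =>
    Measure.isProbabilityMeasure_map (hX i j).aemeasurable
  have hmv : ∀ j, Measurable (fun ξ : P → E => g j (fun i => ξ (e.symm (i, j)))) := fun j =>
    (hg j).comp (measurable_pi_lambda _ fun i => measurable_pi_apply _)
  -- the law of the block
  have hB : ρ.map (fun ω (p : P) => X (e p).1 (e p).2 ω) =
      Measure.pi (fun p => ρ.map (X (e p).1 (e p).2)) := by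
    have h := hblock.precomp e.injective
    exact (iIndepFun_iff_map_fun_eq_pi_map (fun p => (hX _ _).aemeasurable)).1 h
  have hBm : Measurable (fun ω (p : P) => X (e p).1 (e p).2 ω) :=
    measurable_pi_lambda _ fun p => hX _ _
  have hrowL := line_law (L := fun j => X i0 j) (fun j => hX i0 j) hrow j0
  refine
    { pμ := fun p => hpr _ _
      pβ := fun j => hpr _ _
      pY := hpr _ _
      mv := hmv
      mΨ := hΨ
      dep := ?_
      law := ?_
      fib := ?_
      fibΨ := ?_
      inv := ?_ }
  · intro j ξ p t hp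
    congr 1
    funext i
    rw [update_of_ne]
    rintro rfl
    exact hp (by simp)
  · refine ⟨measurable_pi_lambda _ hmv, ?_⟩
    rw [← hB, Measure.map_map (measurable_pi_lambda _ hmv) hBm, ← hrowL]
    refine Measure.map_congr ?_
    filter_upwards [ae_all_iff.2 hgX] with ω hω
    funext j
    simp only [comp_apply, Equiv.apply_symm_apply]
    exact (hω j).symm
  · intro p
    have hL := line_fib (L := fun i => X i (e p).2) (fun i => hX i _) (hcol _) i0 (hg (e p).2)
      (hgX (e p).2) (e p).1
    -- restriction to the column is measure preserving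
    have hmp : MeasurePreserving (fun (ξ : P → E) (i : {i // i ≠ i0}) => ξ (e.symm (i, (e p).2)))
        (Measure.pi (fun p => ρ.map (X (e p).1 (e p).2)))
        (Measure.pi (fun i : {i // i ≠ i0} => ρ.map (X i (e p).2))) := by
      have hm : Measurable (fun (ξ : P → E) (i : {i // i ≠ i0}) => ξ (e.symm (i, (e p).2))) :=
        measurable_pi_lambda _ fun i => measurable_pi_apply _
      refine ⟨hm, ?_⟩
      rw [← hB, Measure.map_map hm hBm,
        ← line_law (L := fun i => X i (e p).2) (fun i => hX i _) (hcol _) i0]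
      congr 1
      funext ω i
      simp
    filter_upwards [hmp.quasiMeasurePreserving.ae hL] with ξ hξ
    refine Eq.trans ?_ hξ
    congr 1
    funext t
    congr 1
    funext i
    by_cases hi : i = (e p).1
    · subst hi; simp
    · have : e.symm (i, (e p).2) ≠ p := by
        intro h
        apply hi
        rw [← h]; simp
      simp [hi, this]
  · intro j
    exact line_fib (L := fun j => X i0 j) (fun j => hX i0 j) hrow j0 hΨ hΨX j
  · intro j
    obtain ⟨g', hg', hgL'⟩ := hinv j
    exact line_inv (L := fun j => X i0 j) (fun j => hX i0 j) hrow j0 hΨ hΨX j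
      (measurableSet_eq_fun measurable_fst measurable_snd) hg' hgL'

end side

/-- **The product model of a static array.** -/
theorem arr_of {R : Type*} [Fintype R] [DecidableEq R] [StandardBorelSpace E]
    {rho : Measure (R → R → E)} [IsProbabilityMeasure rho]
    (indep : ∀ i0 j0 : R, iIndepFun
      (fun (p : {p : R × R // p.1 ≠ i0 ∧ p.2 ≠ j0}) (x : R → R → E) => x p.1.1 p.1.2) rho)
    (rowcl : ∀ i j0 : R, ∃ g : ({j // j ≠ j0} → E) → E, Measurable g ∧
      ∀ᵐ x ∂rho, x i j0 = g (fun j => x i j))
    (colcl : ∀ i0 j : R, ∃ g : ({i // i ≠ i0} → E) → E, Measurable g ∧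
      ∀ᵐ x ∂rho, x i0 j = g (fun i => x i j))
    (hR : 3 ≤ Fintype.card R) (i0 j0 : R) :
    ∃ (μ : {i // i ≠ i0} × {j // j ≠ j0} → Measure E) (β : {j // j ≠ j0} → Measure E)
      (v : {j // j ≠ j0} → ({i // i ≠ i0} × {j // j ≠ j0} → E) → E)
      (Ψ : ({j // j ≠ j0} → E) → E) (α : {i // i ≠ i0} → Measure E)
      (u : {i // i ≠ i0} → ({i // i ≠ i0} × {j // j ≠ j0} → E) → E)
      (Φ : ({i // i ≠ i0} → E) → E),
      Arr μ Prod.snd β v Ψ Prod.fst α u Φ (rho.map (fun x => x i0 j0)) ∧
      rho.map (fun x => x i0) = (Measure.pi β).map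
        (fun (w : {j // j ≠ j0} → E) (j : R) => if hj : j = j0 then Ψ w else w ⟨j, hj⟩) := by
  classical
  have hne : ∀ i j : R, ∃ k, k ≠ i ∧ k ≠ j := by
    intro i j
    obtain ⟨k, hk⟩ : ∃ k, k ∉ ({i, j} : Finset R) := by
      by_contra hcon
      push Not at hcon
      have h1 : Finset.univ ⊆ ({i, j} : Finset R) := fun k _ => hcon k
      have h2 := (Finset.card_le_card h1).trans (Finset.card_le_two)
      rw [Finset.card_univ] at h2
      omega
    simp only [Finset.mem_insert, Finset.mem_singleton, not_or] at hk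
    exact ⟨k, hk⟩
  have hX : ∀ i j : R, Measurable (fun x : R → R → E => x i j) := fun i j =>
    (measurable_pi_apply j).comp (measurable_pi_apply i)
  -- independence of lines
  have hcolI : ∀ j k : R, iIndepFun (fun (i : {i // i ≠ k}) (x : R → R → E) => x i.1 j) rho := by
    intro j k
    obtain ⟨j', hj', -⟩ := hne j j
    have h := (indep k j').precomp
      (g := fun i : {i // i ≠ k} => (⟨(i.1, j), i.2, hj'.symm⟩ : {p : R × R // p.1 ≠ k ∧ p.2 ≠ j'}))
      (fun a b hab => by
        simp only [Subtype.mk.injEq, Prod.mk.injEq, and_true] at hab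
        exact Subtype.ext hab)
    exact h
  have hrowI : ∀ i k : R, iIndepFun (fun (j : {j // j ≠ k}) (x : R → R → E) => x i j.1) rho := by
    intro i k
    obtain ⟨i', hi', -⟩ := hne i i
    have h := (indep i' k).precomp
      (g := fun j : {j // j ≠ k} => (⟨(i, j.1), hi'.symm, j.2⟩ : {p : R × R // p.1 ≠ i' ∧ p.2 ≠ k}))
      (fun a b hab => by
        simp only [Subtype.mk.injEq, Prod.mk.injEq, true_and] at hab
        exact Subtype.ext hab)
    exact h
  have hblock : iIndepFun (fun (p : {i // i ≠ i0} × {j // j ≠ j0}) (x : R → R → E) =>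
      x p.1.1 p.2.1) rho := by
    have h := (indep i0 j0).precomp
      (g := fun p : {i // i ≠ i0} × {j // j ≠ j0} =>
        (⟨(p.1.1, p.2.1), p.1.2, p.2.2⟩ : {p : R × R // p.1 ≠ i0 ∧ p.2 ≠ j0}))
      (fun a b hab => by
        simp only [Subtype.mk.injEq, Prod.mk.injEq] at hab
        exact Prod.ext (Subtype.ext hab.1) (Subtype.ext hab.2))
    exact h
  have hblock' : iIndepFun (fun (p : {j // j ≠ j0} × {i // i ≠ i0}) (x : R → R → E) =>
      x p.2.1 p.1.1) rho := by
    have h := hblock.precomp (Equiv.prodComm {j // j ≠ j0} {i // i ≠ i0}).injective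
    exact h
  choose gr hgr hgr' using fun i : R => rowcl i j0
  choose gc hgc hgc' using fun j : R => colcl i0 j
  -- the column side
  have hcs := side_mk (ρ := rho) (X := fun i j x => x i j) hX i0 j0 hblock
    hcolI (hrowI i0)
    (g := fun j => gc j) (fun j => hgc j) (fun j => hgc' j) (hgr i0) (hgr' i0)
    (fun j => rowcl i0 j) (Equiv.refl _)
  -- the row side
  have hrs := side_mk (ρ := rho) (X := fun j i x => x i j) (fun j i => hX i j) j0 i0 hblock'
    hrowI (hcolI j0)
    (g := fun i => gr i) (fun i => hgr i) (fun i => hgr' i) (hgc j0) (hgc' j0)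
    (fun i => colcl i j0) (Equiv.prodComm _ _)
  have hblockL : rho.map (fun x (p : {i // i ≠ i0} × {j // j ≠ j0}) => x p.1.1 p.2.1) =
      Measure.pi (fun p : {i // i ≠ i0} × {j // j ≠ j0} => rho.map (fun x => x p.1.1 p.2.1)) :=
    (iIndepFun_iff_map_fun_eq_pi_map (fun p => (hX _ _).aemeasurable)).1 hblock
  have hrowL := line_law (L := fun j (x : R → R → E) => x i0 j) (fun j => hX i0 j) (hrowI i0) j0
  refine ⟨_, _, _, _, _, _, _, ⟨hcs, hrs, ?_, ?_, ?_, ?_, ?_⟩, ?_⟩
  · -- the two descriptions of the corner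
    have hm : Measurable (fun x (p : {i // i ≠ i0} × {j // j ≠ j0}) => (x : R → R → E) p.1.1 p.2.1) :=
      measurable_pi_lambda _ fun p => hX _ _
    have hS : MeasurableSet {ξ | cor (fun (j : {j // j ≠ j0})
        (ξ : {i // i ≠ i0} × {j // j ≠ j0} → E) =>
        gc j (fun i => ξ ((Equiv.refl _).symm (i, j)))) (gr i0) ξ =
        cor (fun (i : {i // i ≠ i0}) (ξ : {i // i ≠ i0} × {j // j ≠ j0} → E) =>
        gr i (fun j => ξ ((Equiv.prodComm _ _).symm (j, i)))) (gc j0) ξ} :=
      measurableSet_eq_fun hcs.measurable_cor hrs.measurable_cor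
    have key : ∀ᵐ ξ ∂(rho.map (fun x (p : {i // i ≠ i0} × {j // j ≠ j0}) => x p.1.1 p.2.1)),
        cor (fun (j : {j // j ≠ j0})
        (ξ : {i // i ≠ i0} × {j // j ≠ j0} → E) =>
        gc j (fun i => ξ ((Equiv.refl _).symm (i, j)))) (gr i0) ξ =
        cor (fun (i : {i // i ≠ i0}) (ξ : {i // i ≠ i0} × {j // j ≠ j0} → E) =>
        gr i (fun j => ξ ((Equiv.prodComm _ _).symm (j, i)))) (gc j0) ξ := by
      rw [ae_map_iff hm.aemeasurable hS]
      filter_upwards [ae_all_iff.2 hgc', ae_all_iff.2 hgr'] with x h1 h2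
      unfold cor
      have e1 : (fun j : {j // j ≠ j0} => gc j (fun i : {i // i ≠ i0} => x i j)) =
          fun j : {j // j ≠ j0} => x i0 j := by
        funext j; exact (h1 j).symm
      have e2 : (fun i : {i // i ≠ i0} => gr i (fun j : {j // j ≠ j0} => x i j)) =
          fun i : {i // i ≠ i0} => x i j0 := by
        funext i; exact (h2 i).symm
      have e3 : x i0 j0 = gr i0 (fun j : {j // j ≠ j0} => x i0 j) := h2 i0
      have e4 : x i0 j0 = gc j0 (fun i : {i // i ≠ i0} => x i j0) := h1 j0
      show gr i0 (fun j : {j // j ≠ j0} => gc j (fun i : {i // i ≠ i0} => x i j)) =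
        gc j0 (fun i : {i // i ≠ i0} => gr i (fun j : {j // j ≠ j0} => x i j))
      rw [e1, e2, ← e3, ← e4]
    rw [hblockL] at key
    exact key
  · exact fun j i => ⟨(i, j), rfl, rfl⟩
  · exact fun p q h1 h2 => Prod.ext h2 h1
  · intro j
    obtain ⟨k, h1, h2⟩ := hne j j0
    exact ⟨⟨k, h2⟩, fun h => h1 (congrArg Subtype.val h).symm⟩
  · intro i
    obtain ⟨k, h1, h2⟩ := hne i i0
    exact ⟨⟨k, h2⟩, fun h => h1 (congrArg Subtype.val h).symm⟩
  · have hrm : Measurable (fun (x : R → R → E) (j : {j // j ≠ j0}) => x i0 j) :=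
      measurable_pi_lambda _ fun j => hX i0 j
    have hwm : Measurable (fun (w : {j // j ≠ j0} → E) (j : R) =>
        if hj : j = j0 then gr i0 w else w ⟨j, hj⟩) := by
      refine measurable_pi_lambda _ fun j => ?_
      by_cases hj : j = j0
      · simp only [hj, dite_true]; exact hgr i0
      · simp only [hj, dite_false]; exact measurable_pi_apply _
    show rho.map (fun x => x i0) = (Measure.pi fun j : {j // j ≠ j0} =>
      rho.map (fun x => x i0 j)).map _
    rw [← hrowL, Measure.map_map hwm hrm]
    refine Measure.map_congr ?_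
    filter_upwards [hgr' i0] with x hx
    funext j
    by_cases hj : j = j0
    · subst hj
      simp only [comp_apply, dite_true]
      exact hx
    · simp [hj]

end

end Crest.Agent.R069.StaticModel
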