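import Crest.Agent.R069.Iface
import Crest.Agent.R069.StaticModel
import Crest.Agent.R069.Static7

/-!
# Row 69, node STATIC: `N_STATIC`
-/

open MeasureTheory ProbabilityTheory Function
open scoped ENNReal

namespace Crest.Agent.R069.StaticOut

open Crest.Agent.R069.Static

noncomputable section

/-- A family of square integrable functions with trivial orthogonal complement is total. -/
theorem dense_of_orth {Y : Type*} [MeasurableSpace Y] {mu : Measure Y} [IsProbabilityMeasure mu]
    (FF : Set (Y → ℂ)) (hFF : ∀ f ∈ FF, MemLp f 2 mu)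
    (horth : ∀ h : Y → ℂ, MemLp h 2 mu →
      (∀ f ∈ FF, ∫ y, h y * (starRingEnd ℂ) (f y) ∂mu = 0) → h =ᵐ[mu] 0)
    {h : Y → ℂ} (hh : MemLp h 2 mu) {ε : ℝ} (hε : 0 < ε) :
    ∃ (F : Finset (Y → ℂ)) (a : (Y → ℂ) → ℂ), (∀ f ∈ F, f ∈ FF) ∧
      ∫ y, ‖h y - ∑ f ∈ F, a f * f y‖ ^ 2 ∂mu < ε := by
  classical
  let v : FF → Lp ℂ 2 mu := fun f => (hFF f.1 f.2).toLp f.1
  let V : Submodule ℂ (Lp ℂ 2 mu) := Submodule.span ℂ (Set.range v)
  have hV : Vᗮ = ⊥ := by
    rw [Submodule.eq_bot_iff]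
    intro x hx
    rw [Submodule.mem_orthogonal] at hx
    have h0 : (x : Y → ℂ) =ᵐ[mu] 0 := by
      refine horth x (Lp.memLp x) fun f hf => ?_
      have h1 := hx (v ⟨f, hf⟩) (Submodule.subset_span ⟨⟨f, hf⟩, rfl⟩)
      rw [L2.inner_def] at h1
      rw [← h1]
      refine integral_congr_ae ?_
      filter_upwards [(hFF f hf).coeFn_toLp] with y hy
      simp only [v]
      rw [hy]
      simp
    exact (Lp.eq_zero_iff_ae_eq_zero).2 h0
  have htop : V.topologicalClosure = ⊤ := (Submodule.topologicalClosure_eq_top_iff).2 hV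
  have hmem : hh.toLp h ∈ closure (V : Set (Lp ℂ 2 mu)) := by
    rw [← Submodule.topologicalClosure_coe, htop]; trivial
  obtain ⟨g, hgV, hg⟩ := Metric.mem_closure_iff.1 hmem (Real.sqrt ε) (Real.sqrt_pos.2 hε)
  obtain ⟨c, hc⟩ := (Finsupp.mem_span_range_iff_exists_finsupp).1 hgV
  have hsum : (g : Y → ℂ) =ᵐ[mu] fun y => ∑ i ∈ c.support, c i * i.1 y := by
    rw [← hc, Finsupp.sum]
    have h1 := Lp.coeFn_finsetSum (μ := mu) (p := 2) c.support (fun i => c i • v i)
    have h2 : ∀ i : FF, ((c i • v i : Lp ℂ 2 mu) : Y → ℂ) =ᵐ[mu] fun y => c i * i.1 y := by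
      intro i
      filter_upwards [Lp.coeFn_smul (c i) (v i), (hFF i.1 i.2).coeFn_toLp] with y h3 h4
      rw [h3]; simp only [Pi.smul_apply, smul_eq_mul, v]; rw [h4]
    filter_upwards [h1, (ae_ball_iff c.support.countable_toSet).2 fun i _ => h2 i] with y h3 h4
    rw [h3, Finset.sum_apply]
    exact Finset.sum_congr rfl fun i hi => h4 i hi
  refine ⟨c.support.image Subtype.val, fun f => if hf : f ∈ FF then c ⟨f, hf⟩ else 0, ?_, ?_⟩
  · intro f hf
    simp only [Finset.mem_image] at hf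
    obtain ⟨i, -, rfl⟩ := hf
    exact i.2
  · have e1 : ∀ y, ∑ f ∈ c.support.image Subtype.val,
        (if hf : f ∈ FF then c ⟨f, hf⟩ else 0) * f y = ∑ i ∈ c.support, c i * i.1 y := by
      intro y
      rw [Finset.sum_image (fun a _ b _ h => Subtype.ext h)]
      refine Finset.sum_congr rfl fun i _ => ?_
      simp [i.2]
    have e2 : ∫ y, ‖h y - ∑ f ∈ c.support.image Subtype.val,
        (if hf : f ∈ FF then c ⟨f, hf⟩ else 0) * f y‖ ^ 2 ∂mu = ‖hh.toLp h - g‖ ^ 2 := by
      rw [ArrCH.norm_sq_Lp]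
      refine integral_congr_ae ?_
      filter_upwards [hsum, Lp.coeFn_sub (hh.toLp h) g, hh.coeFn_toLp] with y h1 h2 h3
      rw [e1, h2, Pi.sub_apply, h3, h1]
    rw [e2]
    rw [dist_eq_norm] at hg
    calc ‖hh.toLp h - g‖ ^ 2 < (Real.sqrt ε) ^ 2 :=
          pow_lt_pow_left₀ hg (norm_nonneg _) two_ne_zero
      _ = ε := Real.sq_sqrt hε.le

theorem tot_of_corner {R E : Type*} [Fintype R] [DecidableEq R] [MeasurableSpace E]
    [StandardBorelSpace E] {κ : Measure (R → E)} {j0 : R}
    {β : {j // j ≠ j0} → Measure E} [∀ j, IsProbabilityMeasure (β j)]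
    {Ψ : ({j // j ≠ j0} → E) → E} (hΨ : Measurable Ψ)
    (hκ : κ = (Measure.pi β).map
        (fun (w : {j // j ≠ j0} → E) (j : R) => if hj : j = j0 then Ψ w else w ⟨j, hj⟩))
    (hc : ∀ h : E → ℂ, MemLp h 2 ((Measure.pi β).map Ψ) → ∀ ε : ℝ, 0 < ε →
      ∃ (F : Finset (E → ℂ)) (a : (E → ℂ) → ℂ), (∀ f ∈ F, CChar β Ψ f) ∧
        ∫ y, ‖h y - ∑ f ∈ F, a f * f y‖ ^ 2 ∂((Measure.pi β).map Ψ) < ε) :
    TotAt κ j0 := by
  classical
  have hT : Measurable (fun (w : {j // j ≠ j0} → E) (j : R) =>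
      if hj : j = j0 then Ψ w else w ⟨j, hj⟩) := by
    refine measurable_pi_lambda _ fun j => ?_
    by_cases hj : j = j0
    · simp only [hj, dite_true]; exact hΨ
    · simp only [hj, dite_false]; exact measurable_pi_apply _
  intro h hh ⟨C, hC⟩ ε hε
  have hpr : IsProbabilityMeasure ((Measure.pi β).map Ψ) :=
    Measure.isProbabilityMeasure_map hΨ.aemeasurable
  obtain ⟨F, a, hF, hlt⟩ := hc h (MemLp.of_bound hh.aestronglyMeasurable C
    (Filter.Eventually.of_forall hC)) ε hε
  have hFm : ∀ f ∈ F, Measurable f := fun f hf => (hF f hf).1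
  refine ⟨F, a, fun f hf => ?_, ?_⟩
  · obtain ⟨hfm, hf1, G, hGm, hG1, hG⟩ := hF f hf
    refine ⟨hfm, hf1, fun j => if hj : j = j0 then fun _ => 1 else G ⟨j, hj⟩, ?_, ?_, ?_⟩
    · intro j
      by_cases hj : j = j0
      · simp only [hj, dite_true]; exact measurable_const
      · simp only [hj, dite_false]; exact hGm _
    · intro j e
      by_cases hj : j = j0
      · simp [hj]
      · simp only [hj, dite_false]; exact hG1 _ _
    · have hS : MeasurableSet {x : R → E | f (x j0) = ∏ j ∈ Finset.univ.erase j0,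
          (if hj : j = j0 then (fun _ => 1 : E → ℂ) else G ⟨j, hj⟩) (x j)} := by
        refine measurableSet_eq_fun (hfm.comp (measurable_pi_apply _)) ?_
        refine Finset.measurable_prod _ fun j hj => ?_
        have hj' : j ≠ j0 := Finset.ne_of_mem_erase hj
        simp only [hj', dite_false]
        exact (hGm _).comp (measurable_pi_apply _)
      rw [hκ, ae_map_iff hT.aemeasurable hS]
      filter_upwards [hG] with w hw
      simp only [dite_true]
      rw [hw]
      refine (Finset.prod_bij (fun (j : {j // j ≠ j0}) _ => j.1) ?_ ?_ ?_ ?_)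
      · intro j _; simp [j.2]
      · intro j _ k _ hjk; exact Subtype.ext hjk
      · intro j hj; exact ⟨⟨j, Finset.ne_of_mem_erase hj⟩, Finset.mem_univ _, rfl⟩
      · intro j _; simp [j.2]
  · have hk : κ.map (fun x => x j0) = (Measure.pi β).map Ψ := by
      rw [hκ, Measure.map_map (measurable_pi_apply j0) hT]
      congr 1
      funext w
      simp
    have hint : ∫ x, ‖h (x j0) - ∑ f ∈ F, a f * f (x j0)‖ ^ 2 ∂κ =
        ∫ y, ‖h y - ∑ f ∈ F, a f * f y‖ ^ 2 ∂(κ.map (fun x => x j0)) := by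
      rw [integral_map (measurable_pi_apply j0).aemeasurable]
      refine Measurable.aestronglyMeasurable ?_
      refine (Measurable.norm ?_).pow_const 2
      exact hh.sub (Finset.measurable_sum _ fun f hf => (hFm f hf).const_mul _)
    rw [hint, hk]
    exact hlt

/-- **Node STATIC.** -/
theorem n_static : N_STATIC := by
  intro R _ _ E _ _ hR rho h i0 j0
  classical
  have := h.prob
  obtain ⟨μ, β, v, Ψ, α, u, Φ, A, hlaw⟩ := StaticModel.arr_of h.indep h.rowcl h.colcl hR i0 j0
  have := A.col.pβ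
  have hne : ∀ i : R, ∃ k, k ≠ i := by
    intro i
    have : Nontrivial R := Fintype.one_lt_card_iff_nontrivial.1 (by omega)
    exact exists_ne i
  have : Nonempty {i // i ≠ i0} := by obtain ⟨k, hk⟩ := hne i0; exact ⟨⟨k, hk⟩⟩
  have : Nonempty {j // j ≠ j0} := by obtain ⟨k, hk⟩ := hne j0; exact ⟨⟨k, hk⟩⟩
  have hΨ : Measurable Ψ := A.col.mΨ
  have hT : Measurable (fun (w : {j // j ≠ j0} → E) (j : R) =>
      if hj : j = j0 then Ψ w else w ⟨j, hj⟩) := by
    refine measurable_pi_lambda _ fun j => ?_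
    by_cases hj : j = j0
    · simp only [hj, dite_true]; exact hΨ
    · simp only [hj, dite_false]; exact measurable_pi_apply _
  have hY : rho.map (fun x => x i0 j0) = (Measure.pi β).map Ψ := by
    have e1 : rho.map (fun x => x i0 j0) = (rho.map (fun x => x i0)).map (fun y => y j0) := by
      rw [Measure.map_map (measurable_pi_apply j0) (measurable_pi_apply i0)]; rfl
    rw [e1, hlaw, Measure.map_map (measurable_pi_apply j0) hT]
    congr 1
    funext w
    simp
  refine tot_of_corner hΨ hlaw ?_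
  rw [← hY]
  have := A.col.pY
  intro g hg ε hε
  exact dense_of_orth {f | CChar β Ψ f}
    (fun f hf => MemLp.of_bound hf.1.aestronglyMeasurable 1
      (Filter.Eventually.of_forall fun y => (hf.2.1 y).le))
    (fun g hg horth => A.corner_orth hg horth) hg hε

end

end Crest.Agent.R069.StaticOut
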