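import Crest.Agent.R069.SatDefs
import Crest.Agent.R069.LoebMap
import Crest.Agent.R069.CI

/-!
# Row 69, node STD, part 1: every extension `Q` of a pair `P` factors, for countably many given
# measurable sets, through an extension `Q0` whose space is `P.Ω × (ℤ → ℕ → Bool) × (ℤ → ℕ → Bool)`
-/

set_option autoImplicit false

open MeasureTheory Filter Set ProbabilityTheory
open scoped ENNReal Topology

namespace Crest.Agent.R069.Std

/-- symbol space -/
abbrev Sym : Type := ℤ → ℕ → Bool

section code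

variable (M : Sys)

open Classical in
/-- the itinerary of a point with respect to countably many sets. -/
noncomputable def code (A : ℕ → Set M.Ω) (x : M.Ω) : Sym := fun n j => decide (M.S n x ∈ A j)

variable {M}

theorem code_apply (A : ℕ → Set M.Ω) (x : M.Ω) (n : ℤ) (j : ℕ) :
    code M A x n j = true ↔ M.S n x ∈ A j := by
  simp [code]

theorem code_S (A : ℕ → Set M.Ω) (a : ℤ) (x : M.Ω) :
    code M A (M.S a x) = fun n => code M A x (n + a) := by
  funext n j
  simp only [code]
  rw [← M.S_add n a x]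

theorem measurable_code' {m : MeasurableSpace M.Ω} {A : ℕ → Set M.Ω}
    (hA : ∀ j, MeasurableSet[m] (A j)) (hS : ∀ n, Measurable[m, m] (M.S n)) :
    Measurable[m, inferInstance] (code M A) := by
  refine @measurable_pi_lambda _ _ _ m _ _ (fun n => ?_)
  refine @measurable_pi_lambda _ _ _ m _ _ (fun j => ?_)
  refine @measurable_to_bool _ m _ ?_
  have h : (fun x => code M A x n j) ⁻¹' {true} = M.S n ⁻¹' (A j) := by
    ext x
    simp [code]
  rw [h]
  exact hS n (hA j)

theorem measurable_S (M : Sys) (n : ℤ) : Measurable (M.S n) := (M.S_mp n).measurable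

/-- the shift of symbols -/
def shS (n : ℤ) (a : Sym) : Sym := fun m => a (m + n)

theorem shS_zero (a : Sym) : shS 0 a = a := by
  funext m; simp [shS]

theorem shS_add (n n' : ℤ) (a : Sym) : shS (n + n') a = shS n (shS n' a) := by
  funext m
  simp only [shS]
  congr 1
  ring

theorem measurable_shS (n : ℤ) : Measurable (shS n) :=
  measurable_pi_lambda _ (fun m => measurable_pi_apply (m + n))

end code

section nul

variable {α β : Type*} [MeasurableSpace α] [MeasurableSpace β] {μ : Measure α} {ν : Measure β}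

theorem nul_le : nul μ ≤ ‹MeasurableSpace α› := fun _ h => h.1

theorem comap_nul_le {f : α → β} (hf : MeasurePreserving f μ ν) : (nul ν).comap f ≤ nul μ := by
  rintro _ ⟨B, ⟨hB, hB'⟩, rfl⟩
  refine ⟨hf.measurable hB, ?_⟩
  rcases hB' with h | h
  · left; rw [hf.measure_preimage hB.nullMeasurableSet]; exact h
  · right
    rw [← preimage_compl, hf.measure_preimage hB.compl.nullMeasurableSet]; exact h

theorem measurableSet_of_nul_le {α : Type*} {m mα : MeasurableSpace α} {μ : Measure α}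
    (hm : m ≤ mα) (hn : nul μ ≤ m) {s t : Set α}
    (hs : MeasurableSet[m] s) (ht : MeasurableSet[mα] t) (hst : t =ᵐ[μ] s) :
    MeasurableSet[m] t := by
  have hs' : MeasurableSet s := hm _ hs
  -- t = (s \ (s \ t)) ∪ (t \ s)
  have h1 : MeasurableSet[m] (s \ t) := hn _ ⟨hs'.diff ht, Or.inl (by
    have := ae_le_set.1 hst.symm.le
    exact this)⟩
  have h2 : MeasurableSet[m] (t \ s) := hn _ ⟨ht.diff hs', Or.inl (by
    have := ae_le_set.1 hst.le
    exact this)⟩
  have h3 : t = (s \ (s \ t)) ∪ (t \ s) := by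
    ext x
    simp only [mem_union, Set.mem_sdiff]
    tauto
  rw [h3]
  exact MeasurableSet.union (MeasurableSet.diff hs h1) h2

end nul

section fac

variable {X : Sys} {P Q : Pair X} (e : Ext P Q) (A B : ℕ → Set Q.Ω)

/-- the factor map -/
noncomputable def phi (x : Q.Ω) : P.Ω × Sym × Sym :=
  (e.f x, code Q.toSys A x, code Q.toSys B x)

/-- the action on the factor -/
def S0 (P : Pair X) (n : ℤ) (p : P.Ω × Sym × Sym) : P.Ω × Sym × Sym :=
  (P.S n p.1, shS n p.2.1, shS n p.2.2)

theorem S0_zero (P : Pair X) (p : P.Ω × Sym × Sym) : S0 P 0 p = p := by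
  simp [S0, shS_zero, P.S_zero]

theorem S0_add (P : Pair X) (a b : ℤ) (p : P.Ω × Sym × Sym) :
    S0 P (a + b) p = S0 P a (S0 P b p) := by
  simp [S0, shS_add, P.S_add]

theorem measurable_S0 (P : Pair X) (n : ℤ) : Measurable (S0 P n) :=
  ((measurable_S P.toSys n).comp measurable_fst).prodMk
    (((measurable_shS n).comp (measurable_fst.comp measurable_snd)).prodMk
      ((measurable_shS n).comp (measurable_snd.comp measurable_snd)))

variable {A B}

theorem measurable_phi (hA : ∀ j, MeasurableSet (A j)) (hB : ∀ j, MeasurableSet (B j)) :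
    Measurable (phi e A B) :=
  e.f_mp.measurable.prodMk ((measurable_code' hA (measurable_S Q.toSys)).prodMk
    (measurable_code' hB (measurable_S Q.toSys)))

theorem phi_S (n : ℤ) : (fun x => phi e A B (Q.S n x)) =ᵐ[Q.μ] fun x => S0 P n (phi e A B x) := by
  filter_upwards [e.f_S n] with x hx
  simp only [phi, S0]
  rw [hx, code_S, code_S]
  rfl

/-- the environment of the factor, before completion -/
@[implicit_reducible]
def C0 (P : Pair X) : MeasurableSpace (P.Ω × Sym × Sym) :=
  P.C.comap Prod.fst ⊔ MeasurableSpace.comap (fun p : P.Ω × Sym × Sym => p.2.2) inferInstance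

theorem C0_le (P : Pair X) : C0 P ≤ Prod.instMeasurableSpace := by
  refine sup_le ?_ ?_
  · refine (MeasurableSpace.comap_mono P.C_le).trans ?_
    exact measurable_fst.comap_le
  · exact (measurable_snd.comp measurable_snd).comap_le

theorem C0_S (P : Pair X) (n : ℤ) : Measurable[C0 P, C0 P] (S0 P n) := by
  rw [measurable_iff_comap_le]
  unfold C0
  rw [MeasurableSpace.comap_sup]
  refine sup_le_sup ?_ ?_
  · rw [MeasurableSpace.comap_comp]
    have h : (Prod.fst ∘ S0 P n) = P.S n ∘ Prod.fst := rfl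
    rw [h, ← MeasurableSpace.comap_comp]
    exact MeasurableSpace.comap_mono (P.C_S n).comap_le
  · rw [MeasurableSpace.comap_comp]
    have h : ((fun p : P.Ω × Sym × Sym => p.2.2) ∘ S0 P n)
        = shS n ∘ (fun p : P.Ω × Sym × Sym => p.2.2) := rfl
    rw [h, ← MeasurableSpace.comap_comp]
    exact MeasurableSpace.comap_mono (measurable_shS n).comap_le

theorem comap_C0_le (hB : ∀ j, MeasurableSet[Q.C] (B j)) : (C0 P).comap (phi e A B) ≤ Q.C := by
  unfold C0
  rw [MeasurableSpace.comap_sup]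
  refine sup_le ?_ ?_
  · rw [MeasurableSpace.comap_comp]
    exact e.f_C
  · rw [MeasurableSpace.comap_comp]
    exact (measurable_code' hB Q.C_S).comap_le

/-- the law of the factor -/
noncomputable def mu0 (A B : ℕ → Set Q.Ω) : Measure (P.Ω × Sym × Sym) := Q.μ.map (phi e A B)

theorem mp_phi (hA : ∀ j, MeasurableSet (A j)) (hB : ∀ j, MeasurableSet (B j)) :
    MeasurePreserving (phi e A B) Q.μ (mu0 e A B) :=
  ⟨measurable_phi e hA hB, rfl⟩

theorem mp_fst (hA : ∀ j, MeasurableSet (A j)) (hB : ∀ j, MeasurableSet (B j)) :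
    MeasurePreserving (Prod.fst : P.Ω × Sym × Sym → P.Ω) (mu0 e A B) P.μ := by
  refine ⟨measurable_fst, ?_⟩
  unfold mu0
  rw [Measure.map_map measurable_fst (measurable_phi e hA hB)]
  exact e.f_mp.map_eq

theorem mp_S0 (hA : ∀ j, MeasurableSet (A j)) (hB : ∀ j, MeasurableSet (B j)) (n : ℤ) :
    MeasurePreserving (S0 P n) (mu0 e A B) (mu0 e A B) := by
  refine ⟨measurable_S0 P n, ?_⟩
  unfold mu0
  rw [Measure.map_map (measurable_S0 P n) (measurable_phi e hA hB)]
  have h1 : (S0 P n ∘ phi e A B) =ᵐ[Q.μ] (phi e A B ∘ Q.S n) := (phi_S e n).symm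
  rw [Measure.map_congr h1, ← Measure.map_map (measurable_phi e hA hB) (measurable_S Q.toSys n),
    (Q.S_mp n).map_eq]

/-- the environment of the factor (complete) -/
@[implicit_reducible]
noncomputable def C1 (A B : ℕ → Set Q.Ω) : MeasurableSpace (P.Ω × Sym × Sym) := C0 P ⊔ nul (mu0 e A B)

theorem C1_le (A B : ℕ → Set Q.Ω) : C1 e A B ≤ Prod.instMeasurableSpace :=
  sup_le (C0_le P) nul_le

theorem C1_S (hA : ∀ j, MeasurableSet (A j)) (hB : ∀ j, MeasurableSet (B j)) (n : ℤ) :
    Measurable[C1 e A B, C1 e A B] (S0 P n) := by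
  rw [measurable_iff_comap_le]
  unfold C1
  rw [MeasurableSpace.comap_sup]
  exact sup_le_sup (C0_S P n).comap_le (comap_nul_le (mp_S0 e hA hB n))

theorem comap_C1_le (hA : ∀ j, MeasurableSet (A j)) (hB : ∀ j, MeasurableSet[Q.C] (B j)) :
    (C1 e A B).comap (phi e A B) ≤ Q.C := by
  unfold C1
  rw [MeasurableSpace.comap_sup]
  exact sup_le (comap_C0_le e hB)
    ((comap_nul_le (mp_phi e hA (fun j => Q.C_le _ (hB j)))).trans Q.C_nul)

theorem indep_C1 (hA : ∀ j, MeasurableSet (A j)) (hB : ∀ j, MeasurableSet[Q.C] (B j)) :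
    Indep (X.ms.comap (P.π ∘ Prod.fst : P.Ω × Sym × Sym → X.Ω)) (C1 e A B) (mu0 e A B) := by
  have hφ := mp_phi e hA (fun j => Q.C_le _ (hB j))
  rw [Indep_iff]
  rintro _ s2 ⟨s, hs, rfl⟩ h2
  have hs2 : MeasurableSet[Q.C] (phi e A B ⁻¹' s2) := comap_C1_le e hA hB _ ⟨s2, h2, rfl⟩
  have hs2' : MeasurableSet s2 := C1_le e A B _ h2
  have hs1' : MeasurableSet ((P.π ∘ Prod.fst : P.Ω × Sym × Sym → X.Ω) ⁻¹' s) :=
    (P.π_mp.measurable.comp measurable_fst) hs
  have h4 : (phi e A B ⁻¹' ((P.π ∘ Prod.fst : P.Ω × Sym × Sym → X.Ω) ⁻¹' s))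
      =ᵐ[Q.μ] (Q.π ⁻¹' s) := by
    filter_upwards [e.f_π] with x hx
    apply propext
    show P.π (e.f x) ∈ s ↔ Q.π x ∈ s
    rw [hx]
    rfl
  have h5 : Q.μ (phi e A B ⁻¹' (((P.π ∘ Prod.fst : P.Ω × Sym × Sym → X.Ω) ⁻¹' s) ∩ s2))
      = Q.μ (Q.π ⁻¹' s ∩ phi e A B ⁻¹' s2) :=
    measure_congr (h4.inter (ae_eq_refl (phi e A B ⁻¹' s2)))
  have h6 : Q.μ (phi e A B ⁻¹' ((P.π ∘ Prod.fst : P.Ω × Sym × Sym → X.Ω) ⁻¹' s))
      = Q.μ (Q.π ⁻¹' s) := measure_congr h4
  have h7 := (Indep_iff _ _ _).1 Q.indep (Q.π ⁻¹' s) _ ⟨s, hs, rfl⟩ hs2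
  rw [← h5, ← h6] at h7
  rwa [hφ.measure_preimage (hs1'.inter hs2').nullMeasurableSet,
    hφ.measure_preimage hs1'.nullMeasurableSet, hφ.measure_preimage hs2'.nullMeasurableSet] at h7

/-- the factor system -/
noncomputable def facSys (hA : ∀ j, MeasurableSet (A j)) (hB : ∀ j, MeasurableSet (B j)) :
    Sys where
  Ω := P.Ω × Sym × Sym
  μ := mu0 e A B
  pr := Measure.isProbabilityMeasure_map (measurable_phi e hA hB).aemeasurable
  S := S0 P
  S_zero := S0_zero P
  S_add := S0_add P
  S_mp := mp_S0 e hA hB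

/-- the factor pair -/
noncomputable def facPair (hA : ∀ j, MeasurableSet (A j)) (hB : ∀ j, MeasurableSet[Q.C] (B j)) :
    Pair X where
  toSys := facSys e hA (fun j => Q.C_le _ (hB j))
  π := P.π ∘ Prod.fst
  π_mp := P.π_mp.comp (mp_fst e hA (fun j => Q.C_le _ (hB j)))
  π_S n := (mp_fst e hA (fun j => Q.C_le _ (hB j))).quasiMeasurePreserving.ae (P.π_S n)
  C := C1 e A B
  C_le := C1_le e A B
  C_nul := le_sup_right
  C_S := C1_S e hA (fun j => Q.C_le _ (hB j))
  indep := indep_C1 e hA hB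

/-- `facPair` extends `P`. -/
noncomputable def facExt0 (hA : ∀ j, MeasurableSet (A j)) (hB : ∀ j, MeasurableSet[Q.C] (B j)) :
    Ext P (facPair e hA hB) where
  f := Prod.fst
  f_mp := mp_fst e hA (fun j => Q.C_le _ (hB j))
  f_S _ := Eventually.of_forall (fun _ => rfl)
  f_π := EventuallyEq.rfl
  f_C := le_sup_left.trans le_sup_left

/-- `Q` extends `facPair`. -/
noncomputable def facExt1 (hA : ∀ j, MeasurableSet (A j)) (hB : ∀ j, MeasurableSet[Q.C] (B j)) :
    Ext (facPair e hA hB) Q where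
  f := phi e A B
  f_mp := mp_phi e hA (fun j => Q.C_le _ (hB j))
  f_S n := phi_S e n
  f_π := e.f_π
  f_C := comap_C1_le e hA hB

/-- **Every extension factors through a standard Borel one**, for countably many given sets. -/
theorem exists_std_factor [hP : StandardBorelSpace P.Ω] (hA : ∀ j, MeasurableSet (A j))
    (hB : ∀ j, MeasurableSet[Q.C] (B j)) :
    ∃ (R : Pair X) (_ : StandardBorelSpace R.Ω) (e0 : Ext P R) (e1 : Ext R Q)
      (A0 B0 : ℕ → Set R.Ω), (∀ x, e0.f (e1.f x) = e.f x) ∧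
      (∀ n p, e0.f (R.S n p) = P.S n (e0.f p)) ∧
      (∀ j, MeasurableSet (A0 j)) ∧ (∀ j, MeasurableSet[R.C] (B0 j)) ∧
      (∀ j, e1.f ⁻¹' (A0 j) = A j) ∧ (∀ j, e1.f ⁻¹' (B0 j) = B j) := by
  refine ⟨facPair e hA hB, ?_, facExt0 e hA hB, facExt1 e hA hB,
    fun j => {p | p.2.1 0 j = true}, fun j => {p | p.2.2 0 j = true}, fun _ => rfl,
    fun _ _ => rfl, ?_, ?_, ?_, ?_⟩
  · show StandardBorelSpace (P.Ω × Sym × Sym)
    infer_instance
  · intro j
    have h1 : Measurable (fun p : P.Ω × Sym × Sym => p.2.1 0 j) :=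
      (measurable_pi_apply j).comp ((measurable_pi_apply (0 : ℤ)).comp
        (measurable_fst.comp measurable_snd))
    exact h1 (measurableSet_singleton true)
  · intro j
    have h1 : Measurable (fun a : Sym => a 0 j) :=
      (measurable_pi_apply j).comp (measurable_pi_apply (0 : ℤ))
    have h2 : MeasurableSet {a : Sym | a 0 j = true} := h1 (measurableSet_singleton true)
    have h3 : MeasurableSet[MeasurableSpace.comap (fun p : P.Ω × Sym × Sym => p.2.2)
      inferInstance] {p | p.2.2 0 j = true} := ⟨_, h2, rfl⟩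
    exact (le_sup_right.trans le_sup_left : _ ≤ (facPair e hA hB).C) _ h3
  · intro j
    ext x
    show code Q.toSys A x 0 j = true ↔ x ∈ A j
    rw [code_apply, Q.S_zero]
  · intro j
    ext x
    show code Q.toSys B x 0 j = true ↔ x ∈ B j
    rw [code_apply, Q.S_zero]

end fac

end Crest.Agent.R069.Std
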