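import Crest.Agent.R069.Std
import Crest.Agent.R069.SatOut

/-!
# Row 69, node STD, output on the frozen definitions: sated with respect to standard Borel
# extensions implies `S1`, `S2` (against all extensions)
-/

set_option autoImplicit false

open MeasureTheory Filter Set ProbabilityTheory
open scoped ENNReal Topology

namespace Crest.Agent.R069.Std

variable {X : Sys} {ι : Type} [Finite ι] {s : ι → ℕ → ℤ} {P : Pair X} [StandardBorelSpace P.Ω]

/-- `N_SAT` from the existence of pairs sated with respect to standard Borel extensions. -/
theorem out (h : Sated s StdB P) : S1 P ∧ S2 s P :=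
  have h' : Sated s (fun _ => True) P := Sated.all h
  ⟨fun Q e => (SatEn.Sated.out h' Q trivial e).1, fun Q e => (SatEn.Sated.out h' Q trivial e).2⟩

end Crest.Agent.R069.Std
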