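import Crest.Agent.R069.Std
import Crest.Agent.R069.LoebInt

/-!
# Row 69, node STD, part 3: standard functions at a site
-/

set_option autoImplicit false

open MeasureTheory Filter Set ProbabilityTheory
open scoped ENNReal Topology

namespace Crest.Agent.R069.Std

section st

variable {X : Sys} {ι : Type} {s : ι → ℕ → ℤ} {P Q : Pair X}

/-- the function `f` placed at the site `σ` -/
noncomputable def fsite (M : Sys) (σ : ℕ → ℤ) (f : M.Ω → ℝ) : Lb M.Ω → ℝ :=
  st (fun k x => f (M.S (σ k) x))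

theorem stOK_site {M : Sys} {σ : ℕ → ℤ} {f : M.Ω → ℝ} (hf : BdM M.ms f) :
    StOK (fun k x => f (M.S (σ k) x)) := by
  obtain ⟨C, hC⟩ := hf.bdd
  exact stOK_of_bdd (C := C) (fun k x => by rw [Real.norm_eq_abs]; exact hC _)

/-- functions at a site are measurable with respect to the site. -/
theorem measurable_fsite {M : Sys} {σ : ℕ → ℤ} {f : M.Ω → ℝ} (hf : BdM M.ms f) :
    Measurable[siteA M σ] (fsite M σ f) := by
  refine @measurable_of_Ioi ℝ (Lb M.Ω) _ _ _ (siteA M σ) _ _ _ _ (fun c => ?_)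
  have hok := stOK_site (σ := σ) hf
  have key : fsite M σ f ⁻¹' Ioi c
      = ⋃ n : ℕ, sset M σ {y | c + 1 / ((n : ℝ) + 1) < f y} := by
    ext x
    simp only [mem_preimage, mem_Ioi, mem_iUnion]
    constructor
    · intro hx
      obtain ⟨n, hn⟩ := exists_nat_one_div_lt (sub_pos.2 hx)
      refine ⟨n, ?_⟩
      have h1 : c + 1 / ((n : ℝ) + 1) < fsite M σ f x := by linarith
      exact (hok x).eventually (lt_mem_nhds h1)
    · rintro ⟨n, hn⟩
      have h1 : c + 1 / ((n : ℝ) + 1) ≤ fsite M σ f x := by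
        refine ge_of_tendsto (hok x) ?_
        have hn' : ∀ᶠ k in (UU : Filter ℕ), x k ∈ M.S (σ k) ⁻¹' {y | c + 1 / ((n : ℝ) + 1) < f y} :=
          hn
        filter_upwards [hn'] with k hk
        exact le_of_lt hk
      have h2 : 0 < 1 / ((n : ℝ) + 1) := by positivity
      linarith
  rw [key]
  refine @MeasurableSet.iUnion _ _ (siteA M σ) _ _ (fun n => ?_)
  exact MeasurableSpace.measurableSet_generateFrom ⟨_, hf.meas measurableSet_Ioi, rfl⟩

theorem bdM_fsite {M : Sys} {σ : ℕ → ℤ} {f : M.Ω → ℝ} (hf : BdM M.ms f) :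
    BdM (siteA M σ) (fsite M σ f) := by
  refine ⟨measurable_fsite hf, ?_⟩
  obtain ⟨C, hC⟩ := hf.bdd
  refine ⟨C, fun x => ?_⟩
  have := norm_st_le (f := fun k x => f (M.S (σ k) x)) (C := C)
    (fun k x => by rw [Real.norm_eq_abs]; exact hC _) x
  rwa [Real.norm_eq_abs] at this

/-- standard parts of a.e. equal internal functions -/
theorem st_ae_congr {α : Type*} [MeasurableSpace α] {μ : Measure α} {f g : ℕ → α → ℝ}
    (h : ∀ k, f k =ᵐ[μ] g k) : st f =ᵐ[lb μ] st g := by
  have := ae_lb_of_forall_ae (μ := μ) (p := fun k x => f k x = g k x) h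
  filter_upwards [this] with x hx
  unfold st ulim
  have h1 : (UU.map (fun k => f k (x k)) : Filter ℝ) = (UU.map (fun k => g k (x k)) : Filter ℝ) := by
    show Filter.map _ _ = Filter.map _ _
    exact Filter.map_congr hx
  rw [h1]

/-- pull back of a function at a site. -/
theorem fsite_comp (e : Ext P Q) (σ : ℕ → ℤ) (f : P.Ω → ℝ) :
    fsite P.toSys σ f ∘ Lb.mp e.f =ᵐ[lb Q.μ] fsite Q.toSys σ (f ∘ e.f) := by
  have h1 : fsite P.toSys σ f ∘ Lb.mp e.f = st (fun k x => f (P.S (σ k) (e.f x))) := rfl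
  rw [h1]
  refine st_ae_congr (fun k => ?_)
  filter_upwards [e.f_S (σ k)] with x hx
  show f (P.S (σ k) (e.f x)) = f (e.f (Q.S (σ k) x))
  rw [hx]

/-- **(S2)** in standard part form. -/
theorem S2_st [Finite ι] [StandardBorelSpace P.Ω] (h : Sated s StdB P) (e : Ext P Q) (i : ι)
    {f : P.Ω → ℝ} (hf : BdM P.ms f) :
    (lb Q.μ)[fsite Q.toSys (s i) (f ∘ e.f) | rest s i Q] =ᵐ[lb Q.μ]
      (lb P.μ)[fsite P.toSys (s i) f | rest s i P] ∘ Lb.mp e.f :=
  (condExp_congr_ae (fsite_comp e (s i) f).symm).trans (S2_fun h e i (bdM_fsite hf))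

end st

end Crest.Agent.R069.Std
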