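import Crest.Agent.R069.TotSite

/-!
# The two-level array on the Loeb space of the level system (row 69, module TOT)

`J = (R → E) × V` is the level system, `env = LL (snd⁻¹ V)` on `Lb J`.
-/

set_option autoImplicit false

open MeasureTheory Filter Set ProbabilityTheory
open scoped ENNReal Topology

namespace Crest.Agent.R069.Tot

section aux

variable {α : Type*}

theorem BM_prod {ι : Type*} {m : MeasurableSpace α} (t : Finset ι) {f : ι → ℕ → α → ℝ}
    (h : ∀ i ∈ t, ∃ C, BM m (f i) C) : ∃ C, BM m (fun k x => ∏ i ∈ t, f i k x) C := by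
  classical
  induction t using Finset.induction_on with
  | empty => exact ⟨1, ⟨fun k => by simp only [Finset.prod_empty]; exact measurable_const,
      fun k x => by simp⟩⟩
  | insert a t ha ih =>
    obtain ⟨C1, h1⟩ := h a (Finset.mem_insert_self _ _)
    obtain ⟨C2, h2⟩ := ih (fun i hi => h i (Finset.mem_insert_of_mem hi))
    refine ⟨C1 * C2, fun k => ?_, fun k x => ?_⟩
    · simp only [Finset.prod_insert ha]
      exact (h1.meas k).mul (h2.meas k)
    · simp only [Finset.prod_insert ha]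
      rw [abs_mul]
      exact mul_le_mul (h1.bdd k x) (h2.bdd k x) (abs_nonneg _)
        ((abs_nonneg _).trans (h1.bdd k x))

theorem AELe_comap_of_ae_eq {β : Type*} [MeasurableSpace α] {μ : Measure α}
    {mβ : MeasurableSpace β} {f g : α → β} (h : f =ᵐ[μ] g) :
    AELe μ (mβ.comap f) (mβ.comap g) := by
  rintro _ ⟨B, hB, rfl⟩
  refine ⟨g ⁻¹' B, ⟨B, hB, rfl⟩, ?_⟩
  filter_upwards [h] with x hx
  apply propext
  show f x ∈ B ↔ g x ∈ B
  rw [hx]

theorem AELe_LL {m₁ m₂ : MeasurableSpace α} [mα : MeasurableSpace α] {μ : Measure α}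
    [IsProbabilityMeasure μ] (h : AELe μ m₁ m₂) : AELe (lb μ) (LL m₁) (LL m₂) := by
  refine AELe.generateFrom ?_
  rintro _ ⟨A, hA, rfl⟩
  choose B hB hAB using fun k => h (A k) (hA k)
  exact ⟨intl B, measurableSet_intl hB, intl_ae_eq hAB⟩

end aux

/-- The input of the array construction. -/
structure ArrIn (R E V : Type) (mC : MeasurableSpace E) [Fintype R] [DecidableEq R] [mE : MeasurableSpace E]
    [StandardBorelSpace E] [Nonempty E] [mV : MeasurableSpace V] [StandardBorelSpace V]
    [Nonempty V] where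
  μ : Measure E
  [prμ : IsProbabilityMeasure μ]
  S : ℤ → E → E
  S_mp : ∀ n, MeasurePreserving (S n) μ μ
  hC : mC ≤ mE
  SV : ℤ → V → V
  SV_meas : ∀ n, Measurable (SV n)
  /-- the level system -/
  ρ : Measure ((R → E) × V)
  [prρ : IsProbabilityMeasure ρ]
  ρ_S : ∀ n, MeasurePreserving
    (fun q : (R → E) × V => ((fun i => S n (q.1 i), SV n q.2) : (R → E) × V)) ρ ρ
  co_mp : ∀ i, MeasurePreserving (fun q : (R → E) × V => q.1 i) ρ μ
  /-- the environment kernel -/
  κ : Kernel V (R → E)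
  [κ_mk : IsMarkovKernel κ]
  κ_ce : ∀ F : (R → E) → ℝ, BdM inferInstance F →
    ρ[fun q => F q.1 | mV.comap Prod.snd] =ᵐ[ρ] fun q => ∫ z, F z ∂(κ q.2)
  κ_S : ∀ n, ∀ᵐ v ∂(ρ.map Prod.snd), κ (SV n v) = (κ v).map (fun z i => S n (z i))
  κ_ind : ∀ (j0 : R) (F : R → E → ℝ), (∀ j, BdM mE (F j)) →
    ∀ᵐ q ∂ρ, ∫ z, ∏ j ∈ Finset.univ.erase j0, F j (z j) ∂(κ q.2)
      = ∏ j ∈ Finset.univ.erase j0, (μ[F j | mC]) (q.1 j)
  κ_det : ∀ j0 : R, ∃ ψ : V × ({j // j ≠ j0} → E) → E, Measurable ψ ∧
    ∀ᵐ q ∂ρ, q.1 j0 = ψ (q.2, fun j => q.1 j)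
  s : R → ℕ → ℤ
  /-- conditional independence of all sites but one, given the environment -/
  ind : ∀ (i0 : R) (F : R → E → ℝ), (∀ j, BdM mE (F j)) →
    (lb μ)[fun x => ∏ i ∈ Finset.univ.erase i0, F i (site S (s i) x) | LL mC] =ᵐ[lb μ]
      fun x => ∏ i ∈ Finset.univ.erase i0, (μ[F i | mC]) (site S (s i) x)
  /-- every site is a function of the others and the environment -/
  det : ∀ i0 : R, AELe (lb μ) (mE.comap (site S (s i0)))
    ((⨆ i, ⨆ _ : i ≠ i0, mE.comap (site S (s i))) ⊔ LL mC)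

namespace ArrIn

variable {R E V : Type} {mC : MeasurableSpace E} [Fintype R] [DecidableEq R]
    [mE : MeasurableSpace E] [StandardBorelSpace E] [Nonempty E] [mV : MeasurableSpace V]
    [StandardBorelSpace V] [Nonempty V] (D : ArrIn R E V mC)

attribute [instance] ArrIn.prμ ArrIn.prρ ArrIn.κ_mk

/-- the action on the level system -/
def SJ (n : ℤ) (q : (R → E) × V) : (R → E) × V := (fun i => D.S n (q.1 i), D.SV n q.2)

theorem SJ_mp (n : ℤ) : MeasurePreserving (D.SJ n) D.ρ D.ρ := D.ρ_S n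

/-- the sites of the level system -/
noncomputable def row (i : R) (x : Lb ((R → E) × V)) : (R → E) × V := site D.SJ (D.s i) x

/-- the entries of the array -/
noncomputable def e (i j : R) (x : Lb ((R → E) × V)) : E := (D.row i x).1 j

/-- the environments of the rows -/
noncomputable def w (i : R) (x : Lb ((R → E) × V)) : V := (D.row i x).2

/-- the environment of the array -/
@[implicit_reducible]
def env (_ : ArrIn R E V mC) : MeasurableSpace (Lb ((R → E) × V)) :=
  LL (mV.comap (Prod.snd : (R → E) × V → V))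

omit [Fintype R] [DecidableEq R] [StandardBorelSpace E] [Nonempty E] [StandardBorelSpace V]
  [Nonempty V] in
theorem snd_le : mV.comap (Prod.snd : (R → E) × V → V) ≤ Prod.instMeasurableSpace :=
  measurable_snd.comap_le

theorem env_le : D.env ≤ instMSLb := LL_mono snd_le

theorem row_mp (i : R) : MeasurePreserving (D.row i) (lb D.ρ) D.ρ := site_mp D.SJ_mp (D.s i)

theorem measurable_e (i j : R) : Measurable (D.e i j) :=
  (measurable_pi_apply j).comp (measurable_fst.comp (D.row_mp i).measurable)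

theorem measurable_w (i : R) : Measurable (D.w i) := measurable_snd.comp (D.row_mp i).measurable

/-- the map to the ultrapower of the column `j` -/
def col (_ : ArrIn R E V mC) (j : R) : Lb ((R → E) × V) → Lb E :=
  lbmap (fun _ => fun q : (R → E) × V => q.1 j)

theorem col_mp (j : R) : MeasurePreserving (D.col j) (lb D.ρ) (lb D.μ) :=
  measurePreserving_lbmap (fun _ => D.co_mp j)

theorem site_col (i j : R) : ∀ᵐ x ∂(lb D.ρ), site D.S (D.s i) (D.col j x) = D.e i j x :=
  site_lbmap D.SJ_mp (D.co_mp j).measurable (fun _ _ => rfl) (D.s i)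

set_option maxHeartbeats 1000000 in
/-- **Block independence.** -/
theorem block_ind (i0 j0 : R) (F : R → R → E → ℝ) (hF : ∀ i j, BdM mE (F i j)) :
    (lb D.ρ)[fun x => ∏ j ∈ Finset.univ.erase j0, ∏ i ∈ Finset.univ.erase i0, F i j (D.e i j x)
      | D.env] =ᵐ[lb D.ρ]
      fun x => ∏ j ∈ Finset.univ.erase j0, ∏ i ∈ Finset.univ.erase i0,
        (D.μ[F i j | mC]) (D.e i j x) := by
  classical
  -- the internal functions
  set G : R → ℕ → E → ℝ := fun j k z => ∏ i ∈ Finset.univ.erase i0, F i j (D.S (D.s i k) z)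
    with hG
  have hGi : ∀ i j, ∃ C, BM mE (fun (k : ℕ) z => F i j (D.S (D.s i k) z)) C := by
    intro i j
    obtain ⟨C, hC⟩ := (hF i j).bdd
    exact ⟨C, ⟨fun k => (hF i j).meas.comp (D.S_mp _).measurable, fun k x => hC _⟩⟩
  have hGb : ∀ j, ∃ C, BM mE (G j) C := fun j => BM_prod _ (fun i _ => hGi i j)
  have hGb' : ∀ j, ∃ C, 0 ≤ C ∧ BM mE (G j) C := by
    intro j
    obtain ⟨C, hC⟩ := hGb j
    exact ⟨C, (abs_nonneg _).trans (hC.bdd 0 (Classical.arbitrary E)), hC⟩
  choose C hC0 hC using hGb'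
  set f : ℕ → (R → E) × V → ℝ := fun k q => ∏ j ∈ Finset.univ.erase j0, G j k (q.1 j) with hf
  have hfb : ∃ C, BM inferInstance f C := by
    refine BM_prod _ (fun j _ => ⟨C j, ⟨fun k => ?_, fun k q => (hC j).bdd k _⟩⟩)
    exact ((hC j).meas k).comp (D.co_mp j).measurable
  obtain ⟨Cf, hCf⟩ := hfb
  -- the standard part of `f`
  have e1 : (fun x => ∏ j ∈ Finset.univ.erase j0, ∏ i ∈ Finset.univ.erase i0, F i j (D.e i j x))
      =ᵐ[lb D.ρ] st f := by
    have h1 : ∀ᵐ x ∂(lb D.ρ), ∀ i j, F i j (D.e i j x)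
        = st (fun k (q : (R → E) × V) => F i j (D.S (D.s i k) (q.1 j))) x := by
      rw [ae_all_iff]; intro i
      rw [ae_all_iff]; intro j
      exact site_st D.SJ_mp (D.s i) (F := fun q : (R → E) × V => F i j (q.1 j))
        ((hF i j).meas.comp (D.co_mp j).measurable)
    filter_upwards [h1] with x hx
    have h2 : st f x = ∏ j ∈ Finset.univ.erase j0, ∏ i ∈ Finset.univ.erase i0,
        st (fun k (q : (R → E) × V) => F i j (D.S (D.s i k) (q.1 j))) x := by
      apply st_eq
      refine tendsto_finsetProd _ (fun j _ => tendsto_finsetProd _ (fun i _ => ?_))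
      obtain ⟨C', hC'⟩ := (hF i j).bdd
      exact stOK_of_bdd (C := C')
        (f := fun k (q : (R → E) × V) => F i j (D.S (D.s i k) (q.1 j)))
        (fun k q => by simpa using hC' _) x
    rw [h2]
    refine Finset.prod_congr rfl (fun j _ => Finset.prod_congr rfl (fun i _ => hx i j))
  -- the conditional expectation
  set g : ℕ → (R → E) × V → ℝ := fun k q =>
    ∫ z, ∏ j ∈ Finset.univ.erase j0, G j k (z j) ∂(D.κ q.2) with hg
  have hGz : ∀ k, BdM inferInstance
      (fun z : R → E => ∏ j ∈ Finset.univ.erase j0, G j k (z j)) := by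
    intro k
    refine BdM.prod (fun j _ => ⟨((hC j).meas k).comp (measurable_pi_apply j), C j, fun z => ?_⟩)
    exact (hC j).bdd k _
  have hGzC : ∃ C', ∀ k (z : R → E), |∏ j ∈ Finset.univ.erase j0, G j k (z j)| ≤ C' := by
    obtain ⟨C', hC'⟩ := BM_prod (m := (inferInstance : MeasurableSpace (R → E)))
      (Finset.univ.erase j0) (f := fun j k (z : R → E) => G j k (z j))
      (fun j _ => ⟨C j, ⟨fun k => ((hC j).meas k).comp (measurable_pi_apply j),
        fun k z => (hC j).bdd k _⟩⟩)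
    exact ⟨C', fun k z => hC'.bdd k z⟩
  obtain ⟨C', hC'⟩ := hGzC
  have hgb : BM (mV.comap (Prod.snd : (R → E) × V → V)) g C' := by
    refine ⟨fun k => ?_, fun k q => ?_⟩
    · have h1 : Measurable (fun v : V => ∫ z, ∏ j ∈ Finset.univ.erase j0, G j k (z j) ∂(D.κ v)) :=
        ((hGz k).meas.stronglyMeasurable.integral_kernel).measurable
      exact h1.comp (comap_measurable _)
    · have h1 := norm_integral_le_of_norm_le_const (μ := D.κ q.2)
        (f := fun z => ∏ j ∈ Finset.univ.erase j0, G j k (z j)) (C := C')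
        (Eventually.of_forall (fun z => by rw [Real.norm_eq_abs]; exact hC' k z))
      rw [probReal_univ, mul_one, Real.norm_eq_abs] at h1
      exact h1
  have e2 : (lb D.ρ)[st f | D.env] =ᵐ[lb D.ρ] st g :=
    condExp_st snd_le hCf hgb (fun k => (D.κ_ce _ (hGz k)).symm)
  -- the factors
  set h : R → ℕ → E → ℝ := fun j => ce mC D.μ (C j) (G j) with hh
  have hhb : ∀ j, BM mC (h j) (C j) := fun j => ce_BM (hC0 j)
  have e3 : st g =ᵐ[lb D.ρ] st (fun k (q : (R → E) × V) =>
      ∏ j ∈ Finset.univ.erase j0, h j k (q.1 j)) := by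
    refine st_congr_ae (fun k => ?_)
    have h1 := D.κ_ind j0 (fun j => G j k) (fun j => ⟨(hC j).meas k, C j, (hC j).bdd k⟩)
    have h2 : ∀ᵐ q ∂D.ρ, ∀ j, h j k (q.1 j) = (D.μ[G j k | mC]) (q.1 j) := by
      rw [ae_all_iff]; intro j
      exact (D.co_mp j).quasiMeasurePreserving.ae (ce_ae_eq (hC0 j) (hC j) k)
    filter_upwards [h1, h2] with q hq1 hq2
    rw [hg]
    simp only
    rw [hq1]
    exact Finset.prod_congr rfl (fun j _ => (hq2 j).symm)
  have e4 : st (fun k (q : (R → E) × V) => ∏ j ∈ Finset.univ.erase j0, h j k (q.1 j))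
      = fun x => ∏ j ∈ Finset.univ.erase j0, st (h j) (D.col j x) := by
    funext x
    apply st_eq
    refine tendsto_finsetProd _ (fun j _ => ?_)
    exact (hhb j).ok (D.col j x)
  have e5 : ∀ j, (fun y => st (h j) y) =ᵐ[lb D.μ]
      fun y => ∏ i ∈ Finset.univ.erase i0, (D.μ[F i j | mC]) (site D.S (D.s i) y) := by
    intro j
    have a1 := condExp_st_ce (μ := D.μ) D.hC (hC0 j) (hC j)
    have a2 : st (G j) =ᵐ[lb D.μ]
        fun y => ∏ i ∈ Finset.univ.erase i0, F i j (site D.S (D.s i) y) := by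
      have b1 : ∀ᵐ y ∂(lb D.μ), ∀ i, F i j (site D.S (D.s i) y)
          = st (fun k z => F i j (D.S (D.s i k) z)) y := by
        rw [ae_all_iff]; intro i
        exact site_st D.S_mp (D.s i) (hF i j).meas
      filter_upwards [b1] with y hy
      apply st_eq
      refine tendsto_finsetProd _ (fun i _ => ?_)
      rw [hy i]
      obtain ⟨C', hC'⟩ := hGi i j
      exact hC'.ok y
    have a3 := D.ind i0 (fun i => F i j) (fun i => hF i j)
    exact a1.symm.trans ((condExp_congr_ae a2).trans a3)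
  have e6 : ∀ᵐ x ∂(lb D.ρ), ∀ j, st (h j) (D.col j x)
      = ∏ i ∈ Finset.univ.erase i0, (D.μ[F i j | mC]) (D.e i j x) := by
    rw [ae_all_iff]; intro j
    have a1 := (D.col_mp j).quasiMeasurePreserving.ae (e5 j)
    have a2 : ∀ᵐ x ∂(lb D.ρ), ∀ i, site D.S (D.s i) (D.col j x) = D.e i j x := by
      rw [ae_all_iff]; intro i; exact D.site_col i j
    filter_upwards [a1, a2] with x hx1 hx2
    rw [hx1]
    exact Finset.prod_congr rfl (fun i _ => by rw [hx2 i])
  refine (condExp_congr_ae e1).trans (e2.trans (e3.trans ?_))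
  rw [e4]
  filter_upwards [e6] with x hx
  exact Finset.prod_congr rfl (fun j _ => hx j)

theorem ae_le_mV (j : R) : AELe D.ρ (mC.comap (fun q : (R → E) × V => q.1 j))
    (mV.comap (Prod.snd : (R → E) × V → V)) := by
  classical
  by_cases hR : ∃ j0 : R, j0 ≠ j
  · obtain ⟨j0, hj0⟩ := hR
    rintro _ ⟨B, hB, rfl⟩
    have hBE : MeasurableSet[mE] B := D.hC _ hB
    set F : R → E → ℝ := fun i => if i = j then B.indicator (fun _ => (1 : ℝ)) else fun _ => 1
      with hF
    have hFb : ∀ i, BdM mE (F i) := by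
      intro i
      by_cases hi : i = j
      · simp only [hF, hi, if_true]; exact BdM.indicator hBE
      · simp only [hF, hi, if_false]; exact BdM.one
    have h1 := D.κ_ind j0 F hFb
    refine ⟨{q : (R → E) × V | (D.κ q.2).real (((fun z : R → E => z j)) ⁻¹' B) = 1}, ?_, ?_⟩
    · refine ⟨{v : V | (D.κ v).real (((fun z : R → E => z j)) ⁻¹' B) = 1}, ?_, rfl⟩
      have h2 : Measurable (fun v : V => (D.κ v).real (((fun z : R → E => z j)) ⁻¹' B)) :=
        (Kernel.measurable_coe _ (measurable_pi_apply j hBE)).ennreal_toReal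
      exact h2 (measurableSet_singleton 1)
    · have h3 : D.μ[B.indicator (fun _ => (1 : ℝ)) | mC] = B.indicator (fun _ => (1 : ℝ)) :=
        condExp_of_bm D.hC (BdM.indicator hB)
      have hjm : j ∈ Finset.univ.erase j0 := Finset.mem_erase.2 ⟨fun h => hj0 h.symm, Finset.mem_univ _⟩
      filter_upwards [h1] with q hq
      have e1 : ∀ z : R → E, ∏ i ∈ Finset.univ.erase j0, F i (z i)
          = ((fun z : R → E => z j) ⁻¹' B).indicator (fun _ => (1 : ℝ)) z := by
        intro z
        rw [Finset.prod_eq_single_of_mem j hjm]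
        · simp only [hF, if_true]; rfl
        · intro i _ hi
          simp only [hF, hi, if_false]
      have e2 : ∏ i ∈ Finset.univ.erase j0, (D.μ[F i | mC]) (q.1 i)
          = B.indicator (fun _ => (1 : ℝ)) (q.1 j) := by
        rw [Finset.prod_eq_single_of_mem j hjm]
        · simp only [hF, if_true]; rw [h3]
        · intro i _ hi
          simp only [hF, hi, if_false]
          rw [condExp_const D.hC]
      simp only [e1, e2] at hq
      rw [integral_indicator (measurable_pi_apply j hBE)] at hq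
      simp only [integral_const, MeasurableSet.univ, measureReal_restrict_apply, univ_inter,
        smul_eq_mul, mul_one] at hq
      apply propext
      show q.1 j ∈ B ↔ (D.κ q.2).real ((fun z : R → E => z j) ⁻¹' B) = 1
      rw [hq]
      by_cases hqB : q.1 j ∈ B <;> simp [hqB]
  · -- `R = {j}`: then `univ.erase j = ∅` gives no information; use `κ_det`
    push Not at hR
    obtain ⟨ψ, hψ, h⟩ := D.κ_det j
    rintro _ ⟨B, hB, rfl⟩
    have hBE : MeasurableSet[mE] B := D.hC _ hB
    have hE : IsEmpty {i : R // i ≠ j} := ⟨fun i => i.2 (hR i.1)⟩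
    let z0 : {i : R // i ≠ j} → E := fun i => hE.elim i
    refine ⟨{q : (R → E) × V | ψ (q.2, z0) ∈ B}, ⟨{v | ψ (v, z0) ∈ B}, ?_, rfl⟩, ?_⟩
    · exact (hψ.comp (measurable_id.prodMk measurable_const)) hBE
    · filter_upwards [h] with q hq
      apply propext
      show q.1 j ∈ B ↔ ψ (q.2, z0) ∈ B
      have : (fun i : {i : R // i ≠ j} => q.1 i) = z0 := Subsingleton.elim _ _
      rw [hq, this]

/-- **Columns are determined.** -/
theorem col_det (i0 j : R) : AELe (lb D.ρ) (mE.comap (D.e i0 j))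
    ((⨆ i : {i // i ≠ i0}, mE.comap (D.e i j)) ⊔ D.env) := by
  have h1 := (D.det i0).comap (D.col_mp j)
  have h0 : ∀ i, (site D.S (D.s i)) ∘ D.col j =ᵐ[lb D.ρ] D.e i j := fun i => D.site_col i j
  rw [MeasurableSpace.comap_comp, MeasurableSpace.comap_sup] at h1
  refine (AELe_comap_of_ae_eq (h0 i0).symm).trans (h1.trans ?_)
  refine AELe.sup ?_ ?_
  · rw [MeasurableSpace.comap_iSup]
    refine AELe.iSup (fun i => ?_)
    rw [MeasurableSpace.comap_iSup]
    refine AELe.iSup (fun hi => ?_)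
    rw [MeasurableSpace.comap_comp]
    refine (AELe_comap_of_ae_eq (h0 i)).trans (AELe.of_le ?_)
    exact le_trans (le_iSup (fun i : {i // i ≠ i0} => mE.comap (D.e i j)) ⟨i, hi⟩) le_sup_left
  · refine AELe.trans ?_ (AELe.of_le le_sup_right)
    have : (LL mC).comap (D.col j) = LL (mC.comap (fun q : (R → E) × V => q.1 j)) :=
      comap_lbmap_LL _
    rw [this]
    exact AELe_LL (D.ae_le_mV j)

/-- the environments of the rows are measurable with respect to the environment. -/
theorem w_env (i : R) : AELe (lb D.ρ) (mV.comap (D.w i)) D.env := by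
  rintro _ ⟨B, hB, rfl⟩
  have h1 : MeasurableSet ((Prod.snd : (R → E) × V → V) ⁻¹' B) := measurable_snd hB
  have h2 := pt_preimage_ae (μ := D.ρ) h1
  have hmp := measurePreserving_lbmap (μ := D.ρ) (ν := D.ρ) (fun k => D.SJ_mp (D.s i k))
  have h3 := hmp.quasiMeasurePreserving.preimage_ae_eq h2
  refine ⟨intl (fun k => (Prod.snd : (R → E) × V → V) ⁻¹' ((D.SV (D.s i k)) ⁻¹' B)), ?_, ?_⟩
  · exact measurableSet_intl (fun k => ⟨_, D.SV_meas _ hB, rfl⟩)
  · exact h3

/-- **Rows are determined.** -/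
theorem row_det (i j0 : R) : AELe (lb D.ρ) (mE.comap (D.e i j0))
    ((⨆ j : {j // j ≠ j0}, mE.comap (D.e i j)) ⊔ D.env) := by
  obtain ⟨ψ, hψ, h⟩ := D.κ_det j0
  have h1 : ∀ᵐ x ∂(lb D.ρ), D.e i j0 x = ψ (D.w i x, fun j : {j // j ≠ j0} => D.e i j x) :=
    (D.row_mp i).quasiMeasurePreserving.ae h
  refine (AELe_comap_of_ae_eq h1).trans ?_
  have h2 : mE.comap (fun x => ψ (D.w i x, fun j : {j // j ≠ j0} => D.e i j x)) ≤
      mV.comap (D.w i) ⊔ (⨆ j : {j // j ≠ j0}, mE.comap (D.e i j)) := by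
    rw [← measurable_iff_comap_le]
    refine hψ.comp ?_
    refine Measurable.prodMk ?_ ?_
    · rw [measurable_iff_comap_le]; exact le_sup_left
    · refine @measurable_pi_lambda _ _ _ (_) _ _ (fun j => ?_)
      rw [measurable_iff_comap_le]
      exact le_trans (le_iSup (fun j : {j // j ≠ j0} => mE.comap (D.e i j)) j) le_sup_right
  refine (AELe.of_le h2).trans (AELe.sup ?_ (AELe.of_le le_sup_left))
  exact (D.w_env i).trans (AELe.of_le le_sup_right)

set_option maxHeartbeats 1000000 in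
/-- **The law of a row given the environment.** -/
theorem row_law (i : R) (F : (R → E) → ℝ) (hF : BdM inferInstance F) :
    (lb D.ρ)[fun x => F (fun j => D.e i j x) | D.env] =ᵐ[lb D.ρ]
      fun x => ∫ z, F z ∂(D.κ (D.w i x)) := by
  obtain ⟨C, hC⟩ := hF.bdd
  set T : ℕ → (R → E) → (R → E) := fun k z j => D.S (D.s i k) (z j) with hT
  have hTm : ∀ k, Measurable (T k) := fun k => measurable_pi_lambda _ fun j =>
    (D.S_mp _).measurable.comp (measurable_pi_apply j)
  set f : ℕ → (R → E) × V → ℝ := fun k q => F (T k q.1) with hf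
  have hfb : BM inferInstance f C :=
    ⟨fun k => hF.meas.comp ((hTm k).comp measurable_fst), fun k q => hC _⟩
  have e1 : (fun x => F (fun j => D.e i j x)) =ᵐ[lb D.ρ] st f :=
    site_st D.SJ_mp (D.s i) (F := fun q : (R → E) × V => F q.1) (hF.meas.comp measurable_fst)
  have hI : Measurable (fun v : V => ∫ z, F z ∂(D.κ v)) :=
    (hF.meas.stronglyMeasurable.integral_kernel).measurable
  set g : ℕ → (R → E) × V → ℝ := fun k q => ∫ z, F z ∂(D.κ (D.SV (D.s i k) q.2)) with hg
  have hgb : BM (mV.comap (Prod.snd : (R → E) × V → V)) g C := by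
    refine ⟨fun k => ?_, fun k q => ?_⟩
    · exact (hI.comp (D.SV_meas _)).comp (comap_measurable _)
    · have h1 := norm_integral_le_of_norm_le_const (μ := D.κ (D.SV (D.s i k) q.2))
        (f := F) (C := C) (Eventually.of_forall (fun z => by rw [Real.norm_eq_abs]; exact hC z))
      rw [probReal_univ, mul_one, Real.norm_eq_abs] at h1
      exact h1
  have e2 : (lb D.ρ)[st f | D.env] =ᵐ[lb D.ρ] st g := by
    refine condExp_st snd_le hfb hgb (fun k => ?_)
    have h1 := D.κ_ce (fun z => F (T k z)) ⟨hF.meas.comp (hTm k), C, fun z => hC _⟩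
    refine EventuallyEq.trans ?_ h1.symm
    have h2 := D.κ_S (D.s i k)
    have h3 : ∀ᵐ q ∂D.ρ, D.κ (D.SV (D.s i k) q.2) = (D.κ q.2).map (T k) :=
      ae_of_ae_map measurable_snd.aemeasurable h2
    filter_upwards [h3] with q hq
    rw [hg]
    simp only
    rw [hq, integral_map (hTm k).aemeasurable hF.meas.stronglyMeasurable.aestronglyMeasurable]
  have e3 : (fun x => ∫ z, F z ∂(D.κ (D.w i x))) =ᵐ[lb D.ρ] st g :=
    site_st D.SJ_mp (D.s i) (F := fun q : (R → E) × V => ∫ z, F z ∂(D.κ q.2))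
      (hI.comp measurable_snd)
  exact (condExp_congr_ae e1).trans (e2.trans e3.symm)

end ArrIn

end Crest.Agent.R069.Tot
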