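import Crest.Agent.R069.TotArr
import Crest.Agent.R069.ArrFib

/-!
# Totality at a.e. environment point (row 69, module TOT)
-/

set_option autoImplicit false

open MeasureTheory Filter Set ProbabilityTheory
open scoped ENNReal Topology

namespace Crest.Agent.R069.Tot

/-- The static array: every block avoiding one row and one column is independent, every entry is
a function of the other entries of its row, and of its column. -/
structure Static {R E : Type*} [Fintype R] [MeasurableSpace E] (ρ : Measure (R → R → E)) :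
    Prop where
  prob : IsProbabilityMeasure ρ
  indep : ∀ i0 j0 : R, iIndepFun
    (fun (p : {p : R × R // p.1 ≠ i0 ∧ p.2 ≠ j0}) (x : R → R → E) => x p.1.1 p.1.2) ρ
  rowcl : ∀ i j0 : R, ∃ g : ({j // j ≠ j0} → E) → E, Measurable g ∧
    ∀ᵐ x ∂ρ, x i j0 = g (fun j => x i j)
  colcl : ∀ i0 j : R, ∃ g : ({i // i ≠ i0} → E) → E, Measurable g ∧
    ∀ᵐ x ∂ρ, x i0 j = g (fun i => x i j)

section aux

theorem exists_meas_version {L V : Type*} {m : MeasurableSpace L} [mL : MeasurableSpace L]
    {P : Measure L} [IsProbabilityMeasure P] [mV : MeasurableSpace V] [StandardBorelSpace V]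
    [Nonempty V] (hm : m ≤ mL) {w : L → V} (hw : Measurable w) (h : AELe P (mV.comap w) m) :
    ∃ (F : L → ℝ) (j' : ℝ → V), BdM m F ∧ Measurable j' ∧ ∀ᵐ x ∂P, w x = j' (F x) := by
  set j : V → ℝ := fun y => ((unitInterval.sigmoid (embeddingReal V y) : unitInterval) : ℝ) with hj
  have hje : MeasurableEmbedding j :=
    (MeasurableEmbedding.subtype_coe measurableSet_Icc).comp
      (measurableEmbedding_sigmoid_comp_embeddingReal V)
  have hjb : ∀ y, |j y| ≤ 1 := by
    intro y
    have := (unitInterval.sigmoid (embeddingReal V y)).2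
    rw [abs_le]; constructor <;> [linarith [this.1]; exact this.2]
  obtain ⟨j', hj'm, hj'⟩ := hje.exists_measurable_extend (measurable_id (α := V))
    (fun _ => inferInstance)
  have hj'j : ∀ y, j' (j y) = y := fun y => congrFun hj' y
  have h1 : BdM (mV.comap w) (fun x => j (w x)) :=
    ⟨hje.measurable.comp (comap_measurable _), 1, fun x => hjb _⟩
  obtain ⟨F, hF, hFe⟩ := h.exists_bm hw.comap_le hm h1
  refine ⟨F, j', hF, hj'm, ?_⟩
  filter_upwards [hFe] with x hx
  rw [← hx, hj'j]

theorem prod_block {R : Type*} [Fintype R] [DecidableEq R] (i0 j0 : R) (F : R → R → ℝ) :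
    ∏ j ∈ Finset.univ.erase j0, ∏ i ∈ Finset.univ.erase i0, F i j
      = ∏ p : {p : R × R // p.1 ≠ i0 ∧ p.2 ≠ j0}, F p.1.1 p.1.2 := by
  rw [Finset.prod_comm, ← Finset.prod_product']
  refine Finset.prod_subtype _ (fun p => ?_) (fun p : R × R => F p.1 p.2)
  simp [Finset.mem_product]

end aux

namespace ArrIn

variable {R E V : Type} {mC : MeasurableSpace E} [Fintype R] [DecidableEq R]
    [mE : MeasurableSpace E] [StandardBorelSpace E] [Nonempty E] [mV : MeasurableSpace V]
    [StandardBorelSpace V] [Nonempty V] (D : ArrIn R E V mC)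

/-- conditional law of one entry. -/
theorem entry_ce {i0 j0 i j : R} (hi : i ≠ i0) (hj : j ≠ j0) {F : E → ℝ} (hF : BdM mE F) :
    (lb D.ρ)[fun x => F (D.e i j x) | D.env] =ᵐ[lb D.ρ] fun x => (D.μ[F | mC]) (D.e i j x) := by
  classical
  set G : R → R → E → ℝ := fun i' j' => if i' = i ∧ j' = j then F else fun _ => 1 with hG
  have hGb : ∀ i' j', BdM mE (G i' j') := by
    intro i' j'
    by_cases h : i' = i ∧ j' = j
    · simp only [hG, h, and_self, if_true]; exact hF
    · simp only [hG, h, if_false]; exact BdM.one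
  have h1 := D.block_ind i0 j0 G hGb
  have hp : ∀ (H : R → R → ℝ), (∀ i' j', ¬ (i' = i ∧ j' = j) → H i' j' = 1) →
      ∏ j' ∈ Finset.univ.erase j0, ∏ i' ∈ Finset.univ.erase i0, H i' j' = H i j := by
    intro H hH
    rw [Finset.prod_eq_single_of_mem j (Finset.mem_erase.2 ⟨hj, Finset.mem_univ _⟩),
      Finset.prod_eq_single_of_mem i (Finset.mem_erase.2 ⟨hi, Finset.mem_univ _⟩)]
    · intro i' _ hi'
      exact hH _ _ (fun h => hi' h.1)
    · intro j' _ hj'
      exact Finset.prod_eq_one (fun i' _ => hH _ _ (fun h => hj' h.2))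
  have e1 : (fun x => ∏ j' ∈ Finset.univ.erase j0, ∏ i' ∈ Finset.univ.erase i0,
      G i' j' (D.e i' j' x)) = fun x => F (D.e i j x) := by
    funext x
    rw [hp (fun i' j' => G i' j' (D.e i' j' x))]
    · simp only [hG, and_self, if_true]
    · intro i' j' h
      simp only [hG, h, if_false]
  have e2 : (fun x => ∏ j' ∈ Finset.univ.erase j0, ∏ i' ∈ Finset.univ.erase i0,
      (D.μ[G i' j' | mC]) (D.e i' j' x)) = fun x => (D.μ[F | mC]) (D.e i j x) := by
    funext x
    rw [hp (fun i' j' => (D.μ[G i' j' | mC]) (D.e i' j' x))]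
    · simp only [hG, and_self, if_true]
    · intro i' j' h
      simp only [hG, h, if_false]
      rw [condExp_const D.hC]
  rw [e1, e2] at h1
  exact h1

/-- the whole array -/
noncomputable def arr (x : Lb ((R → E) × V)) : R → R → E := fun i j => D.e i j x

theorem measurable_arr : Measurable D.arr :=
  measurable_pi_lambda _ fun i => measurable_pi_lambda _ fun j => D.measurable_e i j

theorem block_prod (i0 j0 : R) (A : ∀ _ : {p : R × R // p.1 ≠ i0 ∧ p.2 ≠ j0}, Set E)
    (hA : ∀ p, MeasurableSet (A p)) :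
    (lb D.ρ)[fun x => ∏ p, (A p).indicator (fun _ => (1 : ℝ)) (D.arr x p.1.1 p.1.2) | D.env]
      =ᵐ[lb D.ρ] fun x => ∏ p, ((lb D.ρ)[fun x => (A p).indicator (fun _ => (1 : ℝ))
        (D.arr x p.1.1 p.1.2) | D.env]) x := by
  classical
  set F : R → R → E → ℝ := fun i j => if h : i ≠ i0 ∧ j ≠ j0 then
    (A ⟨(i, j), h⟩).indicator (fun _ => (1 : ℝ)) else fun _ => 1 with hF
  have hFb : ∀ i j, BdM mE (F i j) := by
    intro i j
    by_cases h : i ≠ i0 ∧ j ≠ j0
    · simp only [hF, h, dif_pos, ne_eq, not_false_eq_true, and_self]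
      exact BdM.indicator (hA _)
    · simp only [hF, h, dif_neg, not_false_eq_true]
      exact BdM.one
  have hFp : ∀ p : {p : R × R // p.1 ≠ i0 ∧ p.2 ≠ j0}, F p.1.1 p.1.2
      = (A p).indicator (fun _ => (1 : ℝ)) := by
    intro p
    simp only [hF]
    rw [dif_pos p.2]
  have h1 := D.block_ind i0 j0 F hFb
  simp only [prod_block] at h1
  simp only [hFp] at h1
  refine h1.trans ?_
  have h2 : ∀ᵐ x ∂(lb D.ρ), ∀ p : {p : R × R // p.1 ≠ i0 ∧ p.2 ≠ j0},
      ((lb D.ρ)[fun x => (A p).indicator (fun _ => (1 : ℝ)) (D.arr x p.1.1 p.1.2) | D.env]) x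
        = (D.μ[(A p).indicator (fun _ => (1 : ℝ)) | mC]) (D.e p.1.1 p.1.2 x) := by
    rw [ae_all_iff]; intro p
    exact D.entry_ce p.2.1 p.2.2 (BdM.indicator (hA p))
  filter_upwards [h2] with x hx
  exact Finset.prod_congr rfl (fun p _ => (hx p).symm)

set_option maxHeartbeats 1000000 in
/-- **Totality**: every property of the law of a row which follows from the static array holds
at a.e. environment point. -/
theorem tot (i0 : R) {Q : Measure (R → E) → Prop}
    (hQ : ∀ ρ' : Measure (R → R → E), Static ρ' → Q (ρ'.map (fun z => z i0))) :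
    ∀ᵐ v ∂(D.ρ.map Prod.snd), Q (D.κ v) := by
  classical
  have hEnv := D.env_le
  have harr := D.measurable_arr
  -- versions of the environments of the rows
  choose F j' hF hj' hFw using fun i => exists_meas_version (P := lb D.ρ) hEnv
    (D.measurable_w i) (D.w_env i)
  -- the countable family of environment functions
  let c : R ≃ Fin (Fintype.card R) := Fintype.equivFin R
  let b : ℕ → Lb ((R → E) × V) → ℝ := fun n x =>
    if h : n < Fintype.card R then F (c.symm ⟨n, h⟩) x else 0
  have hb : ∀ n, Measurable[D.env] (b n) := by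
    intro n
    by_cases h : n < Fintype.card R
    · simp only [b, h, dif_pos]; exact (hF _).meas
    · simp only [b, h, dif_neg, not_false_eq_true]; exact measurable_const
  have hbi : ∀ i x, b (c i) x = F i x := by
    intro i x
    simp only [b, (c i).2, dif_pos]
    congr 1
    simp
  let S0 : ℤ → Lb ((R → E) × V) → Lb ((R → E) × V) := fun _ x => x
  have hS0 : ∀ x, S0 0 x = x := fun _ => rfl
  have hSC : ∀ n, Measurable[D.env, D.env] (S0 n) := fun n => measurable_id
  have hI := Arr.isEnv_env (P := lb D.ρ) hEnv harr hS0 hSC hb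
  set wE := Arr.env D.env (lb D.ρ) D.arr S0 b with hwE
  set κE := Arr.kap D.env (lb D.ρ) D.arr S0 b with hκE
  have hwEm : Measurable wE := hI.measL hEnv
  have hmk : IsMarkovKernel κE := hI.markov
  let q' : R → Arr.W → V := fun i v => j' i (v 0 (2 * (c i : ℕ)))
  have hq' : ∀ i, Measurable (q' i) := fun i =>
    (hj' i).comp ((measurable_pi_apply (2 * (c i : ℕ))).comp (measurable_pi_apply 0))
  have hqw : ∀ i, ∀ᵐ x ∂(lb D.ρ), D.w i x = q' i (wE x) := by
    intro i
    filter_upwards [hFw i] with x hx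
    simp only [q', hwE]
    rw [Arr.env_b, hbi, hx]
  -- static array
  have h1 : ∀ᵐ v ∂((lb D.ρ).map wE), ∀ a b' : R, iIndepFun
      (fun (p : {p : R × R // p.1 ≠ a ∧ p.2 ≠ b'}) (x : R → R → E) => x p.1.1 p.1.2) (κE v) := by
    rw [ae_all_iff]; intro a
    rw [ae_all_iff]; intro b'
    exact hI.ae_iIndepFun' hEnv harr
      (π := fun (p : {p : R × R // p.1 ≠ a ∧ p.2 ≠ b'}) (x : R → R → E) => x p.1.1 p.1.2)
      (fun p => (measurable_pi_apply p.1.2).comp (measurable_pi_apply p.1.1))
      (fun A hA => D.block_prod a b' A hA)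
  have h2 : ∀ᵐ v ∂((lb D.ρ).map wE), ∀ i j0 : R, ∃ g : ({j // j ≠ j0} → E) → E, Measurable g ∧
      ∀ᵐ x ∂(κE v), x i j0 = g (fun j => x i j) := by
    rw [ae_all_iff]; intro i
    rw [ae_all_iff]; intro j0
    refine hI.ae_determined hEnv harr (π := fun x : R → R → E => x i j0)
      ((measurable_pi_apply j0).comp (measurable_pi_apply i))
      (ρ := fun (x : R → R → E) (j : {j // j ≠ j0}) => x i j)
      (measurable_pi_lambda _ fun j => (measurable_pi_apply j.1).comp (measurable_pi_apply i)) ?_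
    have := D.row_det i j0
    rw [← Arr.comap_pi_eq_iSup (fun (j : {j // j ≠ j0}) x => D.e i j x)] at this
    exact this
  have h3 : ∀ᵐ v ∂((lb D.ρ).map wE), ∀ a j : R, ∃ g : ({i // i ≠ a} → E) → E, Measurable g ∧
      ∀ᵐ x ∂(κE v), x a j = g (fun i => x i j) := by
    rw [ae_all_iff]; intro a
    rw [ae_all_iff]; intro j
    refine hI.ae_determined hEnv harr (π := fun x : R → R → E => x a j)
      ((measurable_pi_apply j).comp (measurable_pi_apply a))
      (ρ := fun (x : R → R → E) (i : {i // i ≠ a}) => x i j)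
      (measurable_pi_lambda _ fun i => (measurable_pi_apply j).comp (measurable_pi_apply i.1)) ?_
    have := D.col_det a j
    rw [← Arr.comap_pi_eq_iSup (fun (i : {i // i ≠ a}) x => D.e i j x)] at this
    exact this
  -- law of the row
  have h4 : ∀ᵐ v ∂((lb D.ρ).map wE), (κE v).map (fun z => z i0) = D.κ (q' i0 v) := by
    refine hI.ae_map_eq hEnv harr (g := fun z : R → R → E => z i0) (measurable_pi_apply i0)
      (η := D.κ) (q := D.w i0) (hq' i0) (hqw i0) (fun A hA => ?_)
    have := D.row_law i0 (A.indicator (fun _ => (1 : ℝ))) (BdM.indicator hA)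
    refine EventuallyEq.trans ?_ (this.trans ?_)
    · exact EventuallyEq.of_eq rfl
    · refine Eventually.of_forall (fun x => ?_)
      simp only
      rw [integral_indicator hA]
      simp [Measure.real]
  have h5 : ∀ᵐ v ∂((lb D.ρ).map wE), Q (D.κ (q' i0 v)) := by
    filter_upwards [h1, h2, h3, h4] with v a1 a2 a3 a4
    rw [← a4]
    exact hQ _ ⟨inferInstance, a1, a2, a3⟩
  have hpr : IsProbabilityMeasure ((lb D.ρ).map wE) :=
    Measure.isProbabilityMeasure_map hwEm.aemeasurable
  have h6 := Arr.ae_map_of_ae ((lb D.ρ).map wE) (hq' i0) (Q := fun v => Q (D.κ v)) h5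
  have h7 : ((lb D.ρ).map wE).map (q' i0) = D.ρ.map Prod.snd := by
    rw [Measure.map_map (hq' i0) hwEm]
    have e1 : (q' i0) ∘ wE =ᵐ[lb D.ρ] D.w i0 := (hqw i0).mono (fun x hx => hx.symm)
    rw [Measure.map_congr e1]
    have e2 : D.w i0 = Prod.snd ∘ D.row i0 := rfl
    rw [e2, ← Measure.map_map measurable_snd (D.row_mp i0).measurable, (D.row_mp i0).map_eq]
  rwa [h7] at h6

end ArrIn

end Crest.Agent.R069.Tot
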