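import Crest.Agent.R069.Iface
import Crest.Agent.R069.LevArr
import Crest.Agent.R069.LoebCE
import Crest.Agent.R069.TotFin

/-!
# The level system of a closed pair (row 69, node TOT, instance part)
-/

set_option autoImplicit false
set_option linter.unusedSectionVars false

open MeasureTheory Filter Set ProbabilityTheory
open scoped ENNReal Topology

namespace Crest.Agent.R069.TotInst

open Crest.Agent.R069.Arr

section nul

variable {α : Type*} {m : MeasurableSpace α} [mα : MeasurableSpace α] {μ : Measure α}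

theorem aele_nul : AELe μ (nul μ) m := by
  intro A hA
  rcases hA.2 with h | h
  · exact ⟨∅, @MeasurableSet.empty _ m, ae_eq_empty.2 h⟩
  · exact ⟨univ, @MeasurableSet.univ _ m, ae_eq_univ.2 h⟩

end nul

section site

variable {Y : Sys} (F : Pair Y) [StandardBorelSpace F.Ω] [Nonempty F.Ω] {ι : Type}
  (s : ι → ℕ → ℤ)

theorem hg (j : ι) : ∀ k, MeasurePreserving (F.S (s j k)) F.μ F.μ := fun k => F.S_mp (s j k)

theorem measurable_sitev_apply (j : ι) : Measurable (fun x => sitev F.toSys s x j) :=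
  measurable_sv fun k => (hg F s j k).measurable

theorem measurable_sitev : Measurable (sitev F.toSys s) :=
  measurable_pi_lambda _ fun j => measurable_sitev_apply F s j

theorem sitev_mp (j : ι) :
    MeasurePreserving (fun x => sitev F.toSys s x j) (lb F.μ) F.μ :=
  measurePreserving_sv (hg F s j)

theorem sitev_S (j : ι) (n : ℤ) :
    (fun x => sitev F.toSys s (lbmap (fun _ => F.S n) x) j) =ᵐ[lb F.μ]
      fun x => F.S n (sitev F.toSys s x j) := by
  have h1 := sv_comp_ae (μ := F.μ) (ν := F.μ) (hg F s j) (F.S_mp n).measurable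
  filter_upwards [h1] with x hx
  simp only [sitev]
  rw [← hx, sv_apply, sv_apply]
  congr 1
  funext k
  simp only [lbmap_apply, Function.comp]
  rw [← F.S_add, ← F.S_add, add_comm]

theorem sitef_ae (j : ι) {f : F.Ω → ℝ} (hf : Measurable f) :
    (fun x => f (sitev F.toSys s x j)) =ᵐ[lb F.μ] sitef F.toSys (s j) f :=
  comp_sv_ae_eq_st (hg F s j) hf

/-- conditional expectation at a site -/
theorem condExp_site (j : ι) {f : F.Ω → ℝ} (hf : Bd F.ms f) :
    (lb F.μ)[sitef F.toSys (s j) f | LL F.C] =ᵐ[lb F.μ]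
      fun x => (F.μ[f | F.C]) (sitev F.toSys s x j) := by
  obtain ⟨hfm, K, hK⟩ := hf
  have hBd : BdM F.ms f := ⟨hfm, K, hK⟩
  obtain ⟨g0, hg0, hg0e⟩ := hBd.condExp_bm (μ := F.μ) F.C_le
  obtain ⟨hg0m, K', hK'⟩ := hg0
  have hint : Integrable f F.μ := hBd.integrable le_rfl
  have h1 : (lb F.μ)[st (fun k x => f (F.S (s j k) x)) | LL F.C] =ᵐ[lb F.μ]
      st (fun k x => g0 (F.S (s j k) x)) := by
    refine condExp_st (μ := F.μ) (C := K) (C' := K') F.C_le ⟨fun k => ?_, fun k x => hK _⟩
      ⟨fun k => ?_, fun k x => hK' _⟩ (fun k => ?_)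
    · exact hfm.comp (F.S_mp (s j k)).measurable
    · exact hg0m.comp (F.C_S (s j k))
    · have h2 := condExp_comp_inv (P := F.μ) F.C_le (F.S_mp (s j k)) (ψ := F.S (-(s j k)))
        (fun x => by rw [← F.S_add]; simp [F.S_zero]) (F.C_S (s j k)) (F.C_S (-(s j k))) hint
      have h3 := (F.S_mp (s j k)).quasiMeasurePreserving.ae_eq_comp hg0e
      exact (h2.trans h3).symm
  have h4 : (fun x => g0 (sitev F.toSys s x j)) =ᵐ[lb F.μ]
      st (fun k x => g0 (F.S (s j k) x)) :=
    comp_sv_ae_eq_st (hg F s j) (hg0m.mono F.C_le le_rfl)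
  have h5 : (fun x => (F.μ[f | F.C]) (sitev F.toSys s x j)) =ᵐ[lb F.μ]
      fun x => g0 (sitev F.toSys s x j) :=
    (sitev_mp F s j).quasiMeasurePreserving.ae_eq_comp hg0e
  exact h1.trans (h4.symm.trans h5.symm)

end site

section id

variable {Y : Sys}

/-- the identity extension -/
def idExt (F : Pair Y) : Ext F F where
  f := id
  f_mp := MeasurePreserving.id _
  f_S _ := Eventually.of_forall fun _ => rfl
  f_π := Eventually.of_forall fun _ => rfl
  f_C := by rw [MeasurableSpace.comap_id]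

end id

section ind

variable {Y : Sys} (F : Pair Y) [StandardBorelSpace F.Ω] [Nonempty F.Ω] {ι : Type} [Fintype ι]
  [DecidableEq ι] (s : ι → ℕ → ℤ)

/-- (iii) at the points, from `N_IND`. -/
theorem ind_sites (hN : N_IND) (hY : StandardBorelSpace Y.Ω) (hS1 : S1 F) (J : Finset ι)
    (hX : XInd Y s J) {f : ι → F.Ω → ℝ} (hf : ∀ j, Bd F.ms (f j)) :
    (lb F.μ)[fun x => ∏ j ∈ J, f j (sitev F.toSys s x j) | LL F.C] =ᵐ[lb F.μ]
      fun x => ∏ j ∈ J, (F.μ[f j | F.C]) (sitev F.toSys s x j) := by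
  have h1 := hN Y hY F inferInstance hS1 ι s J hX F (idExt F) f hf
  have h2 : ∀ᵐ x ∂(lb F.μ), ∀ j, f j (sitev F.toSys s x j) = sitef F.toSys (s j) (f j) x := by
    rw [ae_all_iff]
    exact fun j => sitef_ae F s j (hf j).1
  have h3 : (fun x => ∏ j ∈ J, f j (sitev F.toSys s x j)) =ᵐ[lb F.μ]
      fun x => ∏ i ∈ J, sitef F.toSys (s i) (f i ∘ (idExt F).f) x := by
    filter_upwards [h2] with x hx
    exact Finset.prod_congr rfl fun j _ => hx j
  have h4 : ∀ᵐ x ∂(lb F.μ), ∀ j, ((lb F.μ)[sitef F.toSys (s j) (f j) | LL F.C]) x =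
      (F.μ[f j | F.C]) (sitev F.toSys s x j) := by
    rw [ae_all_iff]
    exact fun j => condExp_site F s j (hf j)
  refine (condExp_congr_ae h3).trans (h1.trans ?_)
  filter_upwards [h4] with x hx
  refine Finset.prod_congr rfl fun j _ => ?_
  exact hx j

/-- the closedness at the points. -/
theorem det_sites (hcl : Closed s F) (j0 : ι) :
    AELe (lb F.μ) (F.ms.comap (fun x => sitev F.toSys s x j0))
      ((⨆ j : {j // j ≠ j0}, F.ms.comap (fun x => sitev F.toSys s x j)) ⊔ LL F.C) := by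
  have h1 : AELe (lb F.μ) (F.ms.comap (fun x => sitev F.toSys s x j0)) (siteA F.toSys (s j0)) :=
    aele_comap_siteG (hg F s j0) le_rfl
  have h2 : AELe (lb F.μ) (siteA F.toSys (s j0)) (rest s j0 F) := AELe.of_le (hcl j0)
  refine h1.trans (h2.trans ?_)
  refine AELe.sup (AELe.sup ?_ (AELe.of_le le_sup_right)) ?_
  · refine AELe.iSup fun j => AELe.iSup fun hj => ?_
    have h3 : AELe (lb F.μ) (siteA F.toSys (s j)) (F.ms.comap (fun x => sitev F.toSys s x j)) :=
      aele_siteG_comap (hg F s j) le_rfl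
    refine h3.trans (AELe.of_le (le_trans ?_ le_sup_left))
    exact le_iSup (fun j : {j // j ≠ j0} => F.ms.comap (fun x => sitev F.toSys s x j)) ⟨j, hj⟩
  · exact aele_nul

end ind

section env

variable {Y : Sys} (F : Pair Y) [StandardBorelSpace F.Ω] [Nonempty F.Ω] {ι : Type} [Fintype ι]
  [DecidableEq ι] (s : ι → ℕ → ℤ)

/-- the environment variable of the level -/
noncomputable def wv : Lb F.Ω → Arr.W :=
  env (LL F.C) (lb F.μ) (sitev F.toSys s) (fun n => lbmap (fun _ => F.S n)) (fun _ _ => 0)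

/-- the environment kernel of the level -/
noncomputable def kv : Kernel Arr.W (ι → F.Ω) :=
  kap (LL F.C) (lb F.μ) (sitev F.toSys s) (fun n => lbmap (fun _ => F.S n)) (fun _ _ => 0)

instance : IsMarkovKernel (kv F s) := by unfold kv; infer_instance

theorem LL_C_le : LL F.C ≤ LL F.ms := LL_mono F.C_le

theorem isEnv : IsEnv (LL F.C) (lb F.μ) (sitev F.toSys s) (wv F s) (kv F s) := by
  refine isEnv_env (LL_C_le F) (measurable_sitev F s) ?_ ?_ ?_
  · intro x; funext k; exact F.S_zero _
  · exact fun n => measurable_lbmap' fun _ => F.C_S n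
  · exact fun _ => @measurable_const _ _ _ (LL F.C) _

theorem wv_S (n : ℤ) (x : Lb F.Ω) :
    wv F s (lbmap (fun _ => F.S n) x) = shift n (wv F s x) :=
  env_shift (fun a b x => by funext k; exact F.S_add a b (x k)) _ _ n x

theorem kv_shift (n : ℤ) : ∀ᵐ v ∂((lb F.μ).map (wv F s)),
    kv F s (shift n v) = (kv F s v).map (fun z j => F.S n (z j)) := by
  refine kap_shift (LL_C_le F) (measurable_sitev F s) (fun n => ?_) ?_ ?_ ?_ ?_ ?_ ?_
  · exact measurePreserving_lbmap fun _ => F.S_mp n
  · intro a b x; funext k; exact F.S_add a b (x k)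
  · intro x; funext k; exact F.S_zero _
  · exact fun n => measurable_lbmap' fun _ => F.C_S n
  · exact fun _ => @measurable_const _ _ _ (LL F.C) _
  · exact measurable_pi_lambda _ fun j => (F.S_mp n).measurable.comp (measurable_pi_apply j)
  · have h : ∀ᵐ x ∂(lb F.μ), ∀ j, sitev F.toSys s (lbmap (fun _ => F.S n) x) j =
        F.S n (sitev F.toSys s x j) := by
      rw [ae_all_iff]
      exact fun j => sitev_S F s j n
    filter_upwards [h] with x hx
    funext j
    exact hx j

/-- **the array input of a closed `S1` pair.** -/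
noncomputable def arrIn (hN : N_IND) (hY : StandardBorelSpace Y.Ω) (hS1 : S1 F)
    (hX : XIndP Y s) (hcl : Closed s F) : Tot.ArrIn ι F.Ω Arr.W F.C where
  μ := F.μ
  S := F.S
  S_mp := F.S_mp
  hC := F.C_le
  SV := shift
  SV_meas := measurable_shift
  ρ := LevArr.rho (lb F.μ) (sitev F.toSys s) (wv F s)
  prρ := LevArr.rho_prob (isEnv F s) (LL_C_le F) (measurable_sitev F s)
  ρ_S n := LevArr.rho_inv (isEnv F s) (LL_C_le F) (measurable_sitev F s)
    (measurePreserving_lbmap fun _ => F.S_mp n) (F.S_mp n).measurable (measurable_shift n)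
    (fun j => sitev_S F s j n) (ae_of_all _ fun x => wv_S F s n x)
  co_mp i := by
    have hm : Measurable (fun q : (ι → F.Ω) × Arr.W => q.1 i) :=
      (measurable_pi_apply i).comp measurable_fst
    refine ⟨hm, ?_⟩
    rw [LevArr.rho, Measure.map_map hm
      (LevArr.measurable_ew (isEnv F s) (LL_C_le F) (measurable_sitev F s))]
    exact (sitev_mp F s i).map_eq
  κ := kv F s
  κ_ce G hG := by
    obtain ⟨K, hK⟩ := hG.bdd
    exact LevArr.ce (isEnv F s) (LL_C_le F) (measurable_sitev F s) hG.meas hK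
  κ_S n := by
    rw [LevArr.rho_snd (isEnv F s) (LL_C_le F) (measurable_sitev F s)]
    exact kv_shift F s n
  κ_ind j0 G hG := by
    choose K hK using fun j => (hG j).bdd
    refine LevArr.kind (isEnv F s) (LL_C_le F) (measurable_sitev F s) F.C_le _
      (fun j => (hG j).meas) hK ?_
    exact ind_sites F s hN hY hS1 _ (hX _ (by simp)) (fun j => ⟨(hG j).meas, (hG j).bdd⟩)
  κ_det j0 := LevArr.kdet (isEnv F s) (LL_C_le F) (measurable_sitev F s) j0
    (det_sites F s hcl j0)
  s := s
  ind i0 G hG := ind_sites F s hN hY hS1 _ (hX _ (by simp))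
    (fun j => ⟨(hG j).meas, (hG j).bdd⟩)
  det i0 := by
    have h := det_sites F s hcl i0
    rw [iSup_subtype] at h
    exact h

end env

theorem static_iff {R E : Type*} [Fintype R] [MeasurableSpace E] {ρ : Measure (R → R → E)}
    (h : Tot.Static ρ) : StaticArray ρ := ⟨h.prob, h.indep, h.rowcl, h.colcl⟩

/-- **Node TOT.** -/
theorem n_tot (hN : N_IND) (hSt : N_STATIC) : N_TOT := by
  intro Y hY F _ _ ι _ _ s hc hX hS1 hcl
  refine ⟨wv F s, kv F s, isEnv F s, fun j0 => ?_⟩
  have h := (arrIn F s hN hY hS1 hX hcl).tot j0 (Q := fun ν => TotAt ν j0)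
    (fun ρ' hρ' => hSt ι F.Ω hc ρ' (static_iff hρ') j0 j0)
  have h2 : (arrIn F s hN hY hS1 hX hcl).ρ.map Prod.snd = (lb F.μ).map (wv F s) :=
    LevArr.rho_snd (isEnv F s) (LL_C_le F) (measurable_sitev F s)
  rw [h2] at h
  exact h

end Crest.Agent.R069.TotInst
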