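import Crest.Agent.R069.LoebCE
import Crest.Agent.R069.LoebPt
import Crest.Agent.R069.CI

/-!
# Point sites on the Loeb space (row 69, module TOT)
-/

set_option autoImplicit false

open MeasureTheory Filter Set ProbabilityTheory
open scoped ENNReal Topology

namespace Crest.Agent.R069.Tot

section aux

variable {α : Type*}

/-- `st` of two internal functions which agree a.e. (for every index) agree a.e. -/
theorem st_congr_ae [mα : MeasurableSpace α] {μ : Measure α} [IsProbabilityMeasure μ]
    {f g : ℕ → α → ℝ} (h : ∀ k, f k =ᵐ[μ] g k) : st f =ᵐ[lb μ] st g := by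
  have h1 := ae_lb_of_forall_ae (μ := μ) (p := fun k x => f k x = g k x) h
  filter_upwards [h1] with x hx
  unfold st ulim
  congr 1
  exact Filter.map_congr hx

theorem st_lbmap {β : Type*} (f : ℕ → β → ℝ) (g : ℕ → α → β) (x : Lb α) :
    st f (lbmap g x) = st (fun k y => f k (g k y)) x := rfl

end aux

section site

variable {M : Type*} [MeasurableSpace M] [StandardBorelSpace M] [Nonempty M]

/-- the point site: the position at the time `s`. -/
noncomputable def site (S : ℤ → M → M) (s : ℕ → ℤ) (x : Lb M) : M :=
  pt (lbmap (fun k => S (s k)) x)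

theorem measurable_site {S : ℤ → M → M} (hS : ∀ n, Measurable (S n)) (s : ℕ → ℤ) :
    Measurable (site S s) :=
  measurable_pt.comp (measurable_lbmap (fun k => hS (s k)))

variable {μ : Measure M} [IsProbabilityMeasure μ]

theorem site_mp {S : ℤ → M → M} (hS : ∀ n, MeasurePreserving (S n) μ μ) (s : ℕ → ℤ) :
    MeasurePreserving (site S s) (lb μ) μ :=
  (measurePreserving_pt μ).comp (measurePreserving_lbmap (fun k => hS (s k)))

/-- functions at a site are standard parts. -/
theorem site_st {S : ℤ → M → M} (hS : ∀ n, MeasurePreserving (S n) μ μ) (s : ℕ → ℤ)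
    {F : M → ℝ} (hF : Measurable F) :
    (fun x => F (site S s x)) =ᵐ[lb μ] st (fun k y => F (S (s k) y)) := by
  have h1 := (measurePreserving_lbmap (fun k => hS (s k))).quasiMeasurePreserving.ae
    (ae_tendsto_pt (μ := μ) hF)
  filter_upwards [h1] with x hx
  exact (st_eq hx).symm

/-- naturality of sites under exactly equivariant maps. -/
theorem site_lbmap {N : Type*} [MeasurableSpace N] [StandardBorelSpace N] [Nonempty N]
    {S : ℤ → M → M} (hS : ∀ n, MeasurePreserving (S n) μ μ) {S' : ℤ → N → N}
    {g : M → N} (hg : Measurable g) (hgS : ∀ n x, g (S n x) = S' n (g x)) (s : ℕ → ℤ) :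
    ∀ᵐ x ∂(lb μ), site S' s (lbmap (fun _ => g) x) = g (site S s x) := by
  have h1 := (measurePreserving_lbmap (fun k => hS (s k))).quasiMeasurePreserving.ae
    (pt_lbmap_ae (μ := μ) hg)
  filter_upwards [h1] with x hx
  have e : lbmap (fun k => S' (s k)) (lbmap (fun _ => g) x)
      = lbmap (fun _ => g) (lbmap (fun k => S (s k)) x) := by
    funext k
    exact (hgS (s k) (x k)).symm
  unfold site
  rw [e]
  exact hx

end site

end Crest.Agent.R069.Tot
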