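import Crest.Agent.R069.Tower

/-!
# Inverse limits: density of cylinder functions and independence (row 69, node TOWER)
-/

set_option autoImplicit false
set_option linter.unusedSectionVars false

open MeasureTheory ProbabilityTheory Filter Set
open scoped ENNReal Topology

namespace Crest.Agent.R069

universe u

section Down

variable {E : ℕ → Type u} [∀ j, Nonempty (E j)]

/-- The point of the product whose coordinates `≤ n` are the projections of `x : E n`. -/
noncomputable def dn (π : ∀ j, E (j + 1) → E j) : ∀ n, E n → ∀ i, E i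
  | 0, x => Function.update (fun i => Classical.arbitrary (E i)) 0 x
  | n + 1, x => Function.update (dn π n (π n x)) (n + 1) x

theorem dn_self (π : ∀ j, E (j + 1) → E j) (n : ℕ) (x : E n) : dn π n x n = x := by
  cases n with
  | zero => simp [dn]
  | succ n => simp [dn]

theorem dn_succ_of_le (π : ∀ j, E (j + 1) → E j) (n : ℕ) (x : E (n + 1)) {i : ℕ} (hi : i ≤ n) :
    dn π (n + 1) x i = dn π n (π n x) i := by
  have : i ≠ n + 1 := by omega
  simp [dn, Function.update_of_ne this]

theorem dn_eq {π : ∀ j, E (j + 1) → E j} {x : ∀ j, E j} (hx : ∀ j, π j (x (j + 1)) = x j)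
    (n : ℕ) : ∀ i ≤ n, dn π n (x n) i = x i := by
  induction n with
  | zero =>
    intro i hi
    obtain rfl : i = 0 := by omega
    exact dn_self _ _ _
  | succ n ih =>
    intro i hi
    rcases Nat.lt_or_ge i (n + 1) with h | h
    · rw [dn_succ_of_le _ _ _ (by omega), hx n]
      exact ih i (by omega)
    · obtain rfl : i = n + 1 := by omega
      exact dn_self _ _ _

variable [∀ j, MeasurableSpace (E j)]

theorem measurable_dn {π : ∀ j, E (j + 1) → E j} (hπ : ∀ j, Measurable (π j)) (n : ℕ) :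
    Measurable (dn π n) := by
  induction n with
  | zero => exact measurable_update _
  | succ n ih =>
    have h1 : Measurable (fun x : E (n + 1) => (dn π n (π n x), x)) :=
      (ih.comp (hπ n)).prodMk measurable_id
    exact (measurable_update' (a := n + 1)).comp h1

variable {μ : ∀ j, Measure (E j)} {π : ∀ j, E (j + 1) → E j} {ν : Measure (∀ j, E j)}

theorem IsTower.ae_dn (h : IsTower μ π ν) (n : ℕ) :
    ∀ᵐ x ∂ν, ∀ i ≤ n, dn π n (x n) i = x i := by
  filter_upwards [h.ae_comp] with x hx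
  exact dn_eq hx n

/-- The composite projections `E n → E i`, `i ≤ n`, are measure preserving. -/
theorem IsTower.measurePreserving_dn (h : IsTower μ π ν) (hπ : ∀ j, Measurable (π j)) {n i : ℕ}
    (hi : i ≤ n) : MeasurePreserving (fun x : E n => dn π n x i) (μ n) (μ i) := by
  have hm : Measurable (fun x : E n => dn π n x i) :=
    (measurable_pi_apply i).comp (measurable_dn hπ n)
  refine ⟨hm, ?_⟩
  rw [← (h.marg n).map_eq, Measure.map_map hm (measurable_pi_apply n), ← (h.marg i).map_eq]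
  apply Measure.map_congr
  filter_upwards [h.ae_dn n] with x hx
  exact hx i hi

/-- A function which depends only on the coordinates `≤ n` is a.e. a function of the
coordinate `n`. -/
theorem IsTower.ae_eq_of_dependsOn (h : IsTower μ π ν) {β : Type*} {f : (∀ j, E j) → β} {n : ℕ}
    (hf : DependsOn f (Iic n)) : ∀ᵐ x ∂ν, f x = f (dn π n (x n)) := by
  filter_upwards [h.ae_dn n] with x hx
  exact hf fun i hi => (hx i hi).symm

omit [∀ j, Nonempty (E j)] in
theorem iSup_piLE : (⨆ n : ℕ, Filtration.piLE (X := E) n) = MeasurableSpace.pi := by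
  apply le_antisymm
  · exact iSup_le fun n => Filtration.piLE.le n
  · refine iSup_le fun i => ?_
    refine le_trans ?_ (le_iSup (fun n : ℕ => (Filtration.piLE (X := E) n : MeasurableSpace _)) i)
    rw [Filtration.piLE_eq_comap_frestrictLe]
    intro s hs
    obtain ⟨t, ht, rfl⟩ := hs
    exact ⟨(fun x : (Π j : Finset.Iic i, E j) => x ⟨i, by simp⟩) ⁻¹' t,
      (measurable_pi_apply (⟨i, by simp⟩ : Finset.Iic i)) ht, rfl⟩

/-- Cylinder functions are dense in `L²` (bounded version). -/
theorem IsTower.exists_approx [IsProbabilityMeasure ν] (h : IsTower μ π ν)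
    (hπ : ∀ j, Measurable (π j)) {f : (∀ j, E j) → ℝ} (hf : Measurable f) {C : ℝ}
    (hC : ∀ x, |f x| ≤ C) {ε : ℝ} (hε : 0 < ε) :
    ∃ n, ∃ g : E n → ℝ, Measurable g ∧ (∀ x, |g x| ≤ C) ∧ ∫ x, (f x - g (x n)) ^ 2 ∂ν < ε := by
  have hC0 : 0 ≤ C := (abs_nonneg _).trans (hC (Classical.arbitrary _))
  have hint : Integrable f ν := by
    refine Integrable.of_bound hf.aestronglyMeasurable C (ae_of_all _ fun x => ?_)
    simpa [Real.norm_eq_abs] using hC x
  have hlim := hint.tendsto_eLpNorm_condExp (ℱ := (Filtration.piLE (X := E)))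
    (by rw [iSup_piLE]; exact hf.stronglyMeasurable)
  have hε' : (0 : ℝ≥0∞) < ENNReal.ofReal (ε / (4 * C + 1)) := by
    rw [ENNReal.ofReal_pos]; positivity
  obtain ⟨n, hn⟩ := ((hlim.eventually (gt_mem_nhds hε'))).exists
  set F : (∀ j, E j) → ℝ := ν[f|Filtration.piLE (X := E) n] with hF
  have hFm : StronglyMeasurable[Filtration.piLE (X := E) n] F := stronglyMeasurable_condExp
  have hFm' : Measurable F := (hFm.mono (Filtration.piLE.le n)).measurable
  have hFb : ∀ᵐ x ∂ν, |F x| ≤ C := by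
    exact ae_bdd_abs_condExp_of_ae_bdd_abs (ae_of_all _ fun x => hC x)
  let G : (∀ j, E j) → ℝ := fun x => max (min (F x) C) (-C)
  have hGb : ∀ x, |G x| ≤ C := by
    intro x
    rw [abs_le]
    exact ⟨le_max_right _ _, max_le (min_le_right _ _) (by linarith)⟩
  have hGF : ∀ᵐ x ∂ν, G x = F x := by
    filter_upwards [hFb] with x hx
    rw [abs_le] at hx
    simp only [G]
    rw [min_eq_left hx.2, max_eq_left hx.1]
  have hGm : Measurable G := (hFm'.min measurable_const).max measurable_const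
  have hdep : DependsOn G (Iic n) := by
    intro x y hxy
    have : F x = F y := hFm.dependsOn_of_piLE hxy
    simp only [G, this]
  refine ⟨n, fun y => G (dn π n y), hGm.comp (measurable_dn hπ n), fun y => hGb _, ?_⟩
  have h1 : ∫ x, (f x - G (dn π n (x n))) ^ 2 ∂ν = ∫ x, (f x - F x) ^ 2 ∂ν := by
    apply integral_congr_ae
    filter_upwards [h.ae_eq_of_dependsOn hdep, hGF] with x hx hx'
    rw [← hx, hx']
  rw [h1]
  have hFint : Integrable F ν := integrable_condExp
  have h2 : ∫ x, (f x - F x) ^ 2 ∂ν ≤ ∫ x, 2 * C * |F x - f x| ∂ν := by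
    apply integral_mono_ae
    · refine Integrable.of_bound ((hf.sub hFm').pow_const 2).aestronglyMeasurable ((2 * C) ^ 2) ?_
      filter_upwards [hFb] with x hx
      rw [Real.norm_eq_abs, abs_pow]
      have : |f x - F x| ≤ 2 * C := (abs_sub _ _).trans (by linarith [hC x])
      exact pow_le_pow_left₀ (abs_nonneg _) this 2
    · exact ((hFint.sub hint).abs).const_mul _
    · filter_upwards [hFb] with x hx
      have h3 : |f x - F x| ≤ 2 * C := (abs_sub _ _).trans (by linarith [hC x])
      rw [← sq_abs, sq, abs_sub_comm (F x)]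
      exact mul_le_mul_of_nonneg_right h3 (abs_nonneg _)
  refine h2.trans_lt ?_
  rw [integral_const_mul]
  have h4 : ∫ x, |F x - f x| ∂ν < ε / (4 * C + 1) := by
    have h5 : eLpNorm (F - f) 1 ν = ENNReal.ofReal (∫ x, |F x - f x| ∂ν) := by
      rw [eLpNorm_one_eq_lintegral_enorm, ← ofReal_integral_norm_eq_lintegral_enorm (hFint.sub hint)]
      simp [Real.norm_eq_abs]
    rw [h5] at hn
    exact (ENNReal.ofReal_lt_ofReal_iff (by positivity)).1 hn
  have h6 : 0 ≤ ∫ x, |F x - f x| ∂ν := integral_nonneg fun x => abs_nonneg _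
  have h7 : 2 * C * ∫ x, |F x - f x| ∂ν ≤ 2 * C * (ε / (4 * C + 1)) :=
    mul_le_mul_of_nonneg_left h4.le (by linarith)
  refine h7.trans_lt ?_
  rw [← mul_div_assoc, div_lt_iff₀ (by positivity)]
  nlinarith

end Down

section Indep

variable {E : ℕ → Type u} {C : ∀ j, MeasurableSpace (E j)} [mE : ∀ j, MeasurableSpace (E j)]
variable {μ : ∀ j, Measure (E j)} {π : ∀ j, E (j + 1) → E j} {ν : Measure (∀ j, E j)}

/-- Preimage of a set `B ⊆ E i` in `E n` (for `i ≤ n`), as sets of the product. -/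
theorem IsTower.exists_lift (h : IsTower μ π ν)
    (hC : ∀ j, ∀ B, MeasurableSet[C j] B → MeasurableSet[C (j + 1)] (π j ⁻¹' B)) {i n : ℕ}
    (hi : i ≤ n) {B : Set (E i)} (hB : MeasurableSet[C i] B) :
    ∃ B' : Set (E n), MeasurableSet[C n] B' ∧
      (fun x : ∀ j, E j => x i) ⁻¹' B =ᵐ[ν] (fun x : ∀ j, E j => x n) ⁻¹' B' := by
  induction n, hi using Nat.le_induction with
  | base => exact ⟨B, hB, EventuallyEq.rfl⟩
  | succ n hin ih =>
    obtain ⟨B', hB', he⟩ := ih
    refine ⟨π n ⁻¹' B', hC n _ hB', he.trans ?_⟩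
    filter_upwards [h.comp n] with x hx
    change (x n ∈ B') = (π n (x (n + 1)) ∈ B')
    rw [hx]

/-- The sets which are a.e. equal to a set of `m`. -/
@[instance_reducible]
def aeAlg {Ω : Type*} {mΩ : MeasurableSpace Ω} (ν : Measure Ω) (m : MeasurableSpace Ω) :
    MeasurableSpace Ω where
  MeasurableSet' s := ∃ t, MeasurableSet[m] t ∧ s =ᵐ[ν] t
  measurableSet_empty := ⟨∅, MeasurableSet.empty, EventuallyEq.rfl⟩
  measurableSet_compl := by
    rintro s ⟨t, ht, h⟩
    exact ⟨tᶜ, ht.compl, h.compl⟩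
  measurableSet_iUnion := by
    intro f hf
    choose t ht h using hf
    exact ⟨⋃ i, t i, MeasurableSet.iUnion ht, Filter.EventuallyEq.countable_iUnion h⟩

theorem measurableSet_aeAlg_iff {Ω : Type*} {mΩ : MeasurableSpace Ω} {ν : Measure Ω}
    {m : MeasurableSpace Ω} {s : Set Ω} :
    MeasurableSet[aeAlg ν m] s ↔ ∃ t, MeasurableSet[m] t ∧ s =ᵐ[ν] t := Iff.rfl

theorem le_aeAlg {Ω : Type*} {mΩ : MeasurableSpace Ω} (ν : Measure Ω) (m : MeasurableSpace Ω) :
    m ≤ aeAlg ν m := fun s hs => ⟨s, hs, EventuallyEq.rfl⟩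

/-- The first `n` pulled back algebras are a.e. contained in the `n`-th one. -/
theorem IsTower.iSup_le_aeAlg (h : IsTower μ π ν)
    (hC : ∀ j, ∀ B, MeasurableSet[C j] B → MeasurableSet[C (j + 1)] (π j ⁻¹' B)) (n : ℕ) :
    (⨆ i ≤ n, (C i).comap (fun x : ∀ j, E j => x i)) ≤
      aeAlg ν ((C n).comap (fun x : ∀ j, E j => x n)) := by
  refine iSup₂_le fun i hi => ?_
  rintro s ⟨B, hB, rfl⟩
  obtain ⟨B', hB', he⟩ := h.exists_lift hC hi hB
  exact ⟨_, ⟨B', hB', rfl⟩, he⟩

/-- Independence passes to the limit. -/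
theorem IsTower.indep_iSup {mX : MeasurableSpace (∀ j, E j)} {ν : @Measure _ (@MeasurableSpace.pi _ _ mE)}
    [IsProbabilityMeasure ν] (h : IsTower μ π ν)
    (hCle : ∀ j, C j ≤ mE j)
    (hC : ∀ j, ∀ B, MeasurableSet[C j] B → MeasurableSet[C (j + 1)] (π j ⁻¹' B))
    (hX : mX ≤ MeasurableSpace.pi)
    (hind : ∀ n, Indep mX ((C n).comap (fun x : ∀ j, E j => x n)) ν) :
    Indep mX (⨆ n, (C n).comap (fun x : ∀ j, E j => x n)) ν := by
  have hle : ∀ n, (C n).comap (fun x : ∀ j, E j => x n) ≤ MeasurableSpace.pi := by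
    intro n
    rintro s ⟨B, hB, rfl⟩
    exact measurable_pi_apply n (hCle n _ hB)
  have e : (⨆ n, (C n).comap (fun x : ∀ j, E j => x n)) =
      ⨆ n, ⨆ i ≤ n, (C i).comap (fun x : ∀ j, E j => x i) := by
    apply le_antisymm
    · refine iSup_le fun n => ?_
      exact le_trans (le_iSup₂ (f := fun i (_ : i ≤ n) => (C i).comap (fun x : ∀ j, E j => x i))
        n le_rfl) (le_iSup (fun n => ⨆ i ≤ n, (C i).comap (fun x : ∀ j, E j => x i)) n)
    · exact iSup_le fun n => iSup₂_le fun i _ =>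
        le_iSup (fun i => (C i).comap (fun x : ∀ j, E j => x i)) i
  rw [e]
  have hind' : ∀ n, Indep mX (⨆ i ≤ n, (C i).comap (fun x : ∀ j, E j => x i)) ν := by
    intro n
    rw [Indep_iff]
    intro s t hs ht
    obtain ⟨t', ht', he⟩ := h.iSup_le_aeAlg hC n t ht
    have h1 := (Indep_iff _ _ _).1 (hind n) s t' hs ht'
    have h2 : (s ∩ t : Set (∀ j, E j)) =ᵐ[ν] (s ∩ t' : Set (∀ j, E j)) :=
      (EventuallyEq.refl _ s).inter he
    rw [measure_congr h2, measure_congr he, h1]
  refine (indep_iSup_of_monotone (fun n => (hind' n).symm) ?_ hX ?_).symm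
  · exact fun n => iSup₂_le fun i _ => hle i
  · intro a b hab
    exact iSup₂_le fun i hi => le_iSup₂ (f := fun i (_ : i ≤ b) =>
      (C i).comap (fun x : ∀ j, E j => x i)) i (hi.trans hab)

end Indep

section Equiv

variable {E : ℕ → Type u} [∀ j, MeasurableSpace (E j)]

/-- The coordinatewise automorphism of the product. -/
def towerEquiv (T : ∀ j, E j ≃ᵐ E j) : (∀ j, E j) ≃ᵐ (∀ j, E j) :=
  MeasurableEquiv.piCongrRight T

@[simp] theorem towerEquiv_apply (T : ∀ j, E j ≃ᵐ E j) (x : ∀ j, E j) (j : ℕ) :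
    towerEquiv T x j = T j (x j) := rfl

@[simp] theorem towerEquiv_symm_apply (T : ∀ j, E j ≃ᵐ E j) (x : ∀ j, E j) (j : ℕ) :
    (towerEquiv T).symm x j = (T j).symm (x j) := rfl

end Equiv

end Crest.Agent.R069
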