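import Mathlib

/-! Row 69 (helper67): `(q+1)`-mixing along sites, iterated filters, iterated mixing of arrays. -/

set_option autoImplicit false
open MeasureTheory Filter ProbabilityTheory Topology

namespace Crest.Agent.R069

/-- `(q+1)`-mixing of the factor `mX` along the sites `0, s_1(k), …, s_q(k)`. -/
def MixAlong {Ω : Type*} {mΩ : MeasurableSpace Ω} (μ : Measure Ω) (S : ℤ → Ω → Ω)
    (mX : MeasurableSpace Ω) {κ : Type*} (U : Filter κ) {q : ℕ} (s : κ → Fin q → ℤ) : Prop :=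
  ∀ f : Fin (q + 1) → Ω → ℝ, (∀ i, Measurable[mX] (f i)) → (∀ i x, |f i x| ≤ 1) →
    Tendsto (fun k => ∫ x, f 0 x * ∏ i : Fin q, f i.succ (S (s k i) x) ∂μ) U
      (𝓝 (∏ i, ∫ x, f i x ∂μ))

namespace Tr

variable {κ : Type*}

/-- Iterated filter on `Fin N → κ`: the first coordinate is the outermost limit. -/
def IF (U : Filter κ) : (N : ℕ) → Filter (Fin N → κ)
  | 0 => ⊤
  | N + 1 => (U.curry (IF U N)).map (fun p => (Fin.cons p.1 p.2 : Fin (N + 1) → κ))

theorem IF_succ_iff (U : Filter κ) (N : ℕ) (P : (Fin (N + 1) → κ) → Prop) :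
    (∀ᶠ k in IF U (N + 1), P k) ↔
      ∀ᶠ a in U, ∀ᶠ k in IF U N, P (Fin.cons a k) := by
  rw [IF, Filter.eventually_map, Filter.eventually_curry_iff]

instance IF_neBot (U : Filter κ) [U.NeBot] (N : ℕ) : (IF U N).NeBot := by
  induction N with
  | zero => 
    rw [IF]; infer_instance
  | succ N ih =>
    rw [← Filter.frequently_true_iff_neBot]
    intro h
    rw [IF_succ_iff] at h
    have h2 : ∀ᶠ a in U, False := by
      filter_upwards [h] with a ha
      have := ha.exists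
      simp at this
    simpa using h2.exists

theorem IF_forall (U : Filter κ) (K : κ → Prop) (hK : ∀ᶠ a in U, K a) (N : ℕ) :
    ∀ᶠ k in IF U N, ∀ a, K (k a) := by
  induction N with
  | zero => 
    refine Eventually.of_forall ?_
    intro k a; exact a.elim0
  | succ N ih =>
    rw [IF_succ_iff]
    filter_upwards [hK] with a ha
    filter_upwards [ih] with k hk
    intro b
    refine Fin.cases ?_ ?_ b
    · simpa using ha
    · intro i; simpa using hk i

/-- sites of one level: `0, s_1, …, s_q`. -/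
def ext {q : ℕ} (s : κ → Fin q → ℤ) (a : κ) : Fin (q + 1) → ℤ := Fin.cons 0 (s a)

@[simp] theorem ext_zero {q : ℕ} (s : κ → Fin q → ℤ) (a : κ) : ext s a 0 = 0 := rfl
@[simp] theorem ext_succ {q : ℕ} (s : κ → Fin q → ℤ) (a : κ) (i : Fin q) :
    ext s a i.succ = s a i := rfl

/-- site of an `N`-level address. -/
def site {q N : ℕ} (s : κ → Fin q → ℤ) (k : Fin N → κ) (i : Fin N → Fin (q + 1)) : ℤ :=
  ∑ a, ext s (k a) (i a)

theorem site_cons {q N : ℕ} (s : κ → Fin q → ℤ) (a : κ) (k : Fin N → κ)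
    (i₀ : Fin (q + 1)) (i : Fin N → Fin (q + 1)) :
    site s (Fin.cons a k : Fin (N + 1) → κ) (Fin.cons i₀ i) = ext s a i₀ + site s k i := by
  unfold site
  rw [Fin.sum_univ_succ]
  simp

variable {Ω : Type*} {mX : MeasurableSpace Ω} {mΩ : MeasurableSpace Ω} {μ : Measure Ω}
  [IsProbabilityMeasure μ] {S : ℤ → Ω → Ω}

theorem abs_prod_le_one {ι : Type*} (t : Finset ι) (f : ι → ℝ) (hf : ∀ i ∈ t, |f i| ≤ 1) :
    |∏ i ∈ t, f i| ≤ 1 := by
  rw [Finset.abs_prod]
  exact Finset.prod_le_one (fun i _ => abs_nonneg _) hf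

/-- ITERATED MIXING. -/
theorem iterMix (hadd : ∀ a b x, S (a + b) x = S a (S b x)) (hS0 : ∀ x, S 0 x = x)
    (hSX : ∀ n, Measurable[mX, mX] (S n))
    {U : Filter κ} {q : ℕ} {s : κ → Fin q → ℤ} (hmix : MixAlong μ S mX U s) :
    ∀ (N : ℕ) (F : (Fin N → Fin (q + 1)) → Ω → ℝ), (∀ i, Measurable[mX] (F i)) →
      (∀ i x, |F i x| ≤ 1) →
      Tendsto (fun k : Fin N → κ => ∫ x, ∏ i, F i (S (site s k i) x) ∂μ) (IF U N)
        (𝓝 (∏ i, ∫ x, F i x ∂μ)) := by
  intro N
  induction N with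
  | zero =>
    intro F hF hF1
    have : (fun k : Fin 0 → κ => ∫ x, ∏ i, F i (S (site s k i) x) ∂μ) =
        fun _ => ∏ i, ∫ x, F i x ∂μ := by
      funext k
      simp [site, hS0]
    rw [this]
    exact tendsto_const_nhds
  | succ N ih =>
    intro F hF hF1
    -- regroup
    set G : κ → (Fin N → Fin (q + 1)) → Ω → ℝ := fun a i x =>
      ∏ i₀, F (Fin.cons i₀ i) (S (ext s a i₀) x) with hG
    have hGm : ∀ a i, Measurable[mX] (G a i) := by
      intro a i
      refine @Finset.measurable_prod _ _ _ _ _ _ mX _ _ ?_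
      intro i₀ _
      exact (hF _).comp (hSX _)
    have hG1 : ∀ a i x, |G a i x| ≤ 1 := by
      intro a i x
      exact abs_prod_le_one _ _ (fun i₀ _ => hF1 _ _)
    have hval : ∀ a (k : Fin N → κ), (∫ x, ∏ i, F i (S (site s (Fin.cons a k : Fin (N+1) → κ) i) x) ∂μ)
        = ∫ x, ∏ i, G a i (S (site s k i) x) ∂μ := by
      intro a k
      refine integral_congr_ae (Eventually.of_forall fun x => ?_)
      simp only [hG]
      rw [← Fintype.prod_prod_type' (f := fun (i : Fin N → Fin (q+1)) (i₀ : Fin (q+1)) =>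
        F (Fin.cons i₀ i) (S (ext s a i₀) (S (site s k i) x)))]
      refine (Fintype.prod_equiv ((Equiv.prodComm _ _).trans (Fin.consEquiv (fun _ : Fin (N+1) => Fin (q+1)))) _ _ ?_).symm
      rintro ⟨i, i₀⟩
      show F (Fin.cons i₀ i) (S (ext s a i₀) (S (site s k i) x)) =
        F (Fin.cons i₀ i) (S (site s (Fin.cons a k : Fin (N+1) → κ) (Fin.cons i₀ i)) x)
      rw [site_cons, hadd]
    have hlimG : ∀ i, Tendsto (fun a => ∫ x, G a i x ∂μ) U (𝓝 (∏ i₀, ∫ x, F (Fin.cons i₀ i) x ∂μ)) := by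
      intro i
      have := hmix (fun i₀ => F (Fin.cons i₀ i)) (fun _ => hF _) (fun _ _ => hF1 _ _)
      refine this.congr ?_
      intro a
      refine integral_congr_ae (Eventually.of_forall fun x => ?_)
      simp only [hG]
      rw [Fin.prod_univ_succ]
      simp [hS0]
    have hlim2 : Tendsto (fun a => ∏ i, ∫ x, G a i x ∂μ) U (𝓝 (∏ i, ∫ x, F i x ∂μ)) := by
      have h1 : Tendsto (fun a => ∏ i, ∫ x, G a i x ∂μ) U
          (𝓝 (∏ i : Fin N → Fin (q+1), ∏ i₀, ∫ x, F (Fin.cons i₀ i) x ∂μ)) :=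
        tendsto_finsetProd _ (fun i _ => hlimG i)
      have h2 : (∏ i : Fin N → Fin (q+1), ∏ i₀, ∫ x, F (Fin.cons i₀ i) x ∂μ) = ∏ i, ∫ x, F i x ∂μ := by
        rw [← Fintype.prod_prod_type' (f := fun (i : Fin N → Fin (q+1)) (i₀ : Fin (q+1)) =>
          ∫ x, F (Fin.cons i₀ i) x ∂μ)]
        refine (Fintype.prod_equiv ((Equiv.prodComm _ _).trans (Fin.consEquiv (fun _ : Fin (N+1) => Fin (q+1)))) _ _ ?_)
        rintro ⟨i, i₀⟩
        rfl
      rw [← h2]; exact h1
    rw [Metric.tendsto_nhds]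
    intro ε hε
    rw [IF_succ_iff]
    rw [Metric.tendsto_nhds] at hlim2
    filter_upwards [hlim2 (ε / 2) (half_pos hε)] with a ha
    have h3 := ih (G a) (hGm a) (hG1 a)
    rw [Metric.tendsto_nhds] at h3
    filter_upwards [h3 (ε / 2) (half_pos hε)] with k hk
    rw [hval]
    calc _ ≤ _ := dist_triangle _ (∏ i, ∫ x, G a i x ∂μ) _
      _ < ε / 2 + ε / 2 := add_lt_add hk ha
      _ = ε := by ring

end Tr

end Crest.Agent.R069
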