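import Mathlib

/-! Row 69 (helper67): the names bound (linearised exponential moment + union bound). -/

set_option autoImplicit false
open MeasureTheory Filter Topology

namespace Crest.Agent.R069.Tr

theorem abs_prod_sub_prod_le {ι : Type*} (t : Finset ι) (a b : ι → ℝ)
    (ha : ∀ i ∈ t, |a i| ≤ 1) (hb : ∀ i ∈ t, |b i| ≤ 1) :
    |∏ i ∈ t, a i - ∏ i ∈ t, b i| ≤ ∑ i ∈ t, |a i - b i| := by
  classical
  induction t using Finset.induction_on with
  | empty => simp
  | insert i t hi ih =>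
    rw [Finset.prod_insert hi, Finset.prod_insert hi, Finset.sum_insert hi]
    have h1 := ih (fun j hj => ha j (Finset.mem_insert_of_mem hj))
      (fun j hj => hb j (Finset.mem_insert_of_mem hj))
    have hA : |∏ i ∈ t, a i| ≤ 1 := by
      rw [Finset.abs_prod]
      exact Finset.prod_le_one (fun i _ => abs_nonneg _)
        (fun j hj => ha j (Finset.mem_insert_of_mem hj))
    have hbi := hb i (Finset.mem_insert_self i t)
    have e : a i * ∏ i ∈ t, a i - b i * ∏ i ∈ t, b i
        = (a i - b i) * ∏ i ∈ t, a i + b i * (∏ i ∈ t, a i - ∏ i ∈ t, b i) := by ring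
    rw [e]
    refine (abs_add_le _ _).trans ?_
    rw [abs_mul, abs_mul]
    have h2 : |a i - b i| * |∏ i ∈ t, a i| ≤ |a i - b i| * 1 :=
      mul_le_mul_of_nonneg_left hA (abs_nonneg _)
    have h3 : |b i| * |∏ i ∈ t, a i - ∏ i ∈ t, b i| ≤ 1 * |∏ i ∈ t, a i - ∏ i ∈ t, b i| :=
      mul_le_mul_of_nonneg_right hbi (abs_nonneg _)
    linarith

variable {Ω : Type*} [mΩ : MeasurableSpace Ω] {μ : Measure Ω} [IsProbabilityMeasure μ]

theorem integrable_of_abs_le {f : Ω → ℝ} (hf : Measurable f) (C : ℝ) (hC : ∀ x, |f x| ≤ C) :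
    Integrable f μ :=
  Integrable.of_bound hf.aestronglyMeasurable C (Eventually.of_forall fun x => by
    simpa [Real.norm_eq_abs] using hC x)

/-- linearised exponential moment. -/
theorem expMoment {Sig : Type*} [Fintype Sig] (H : Sig → Ω → ℝ) (hH : ∀ σ, Measurable (H σ))
    (hH1 : ∀ σ x, |H σ x| ≤ 1) (g : Sig → ℝ) (hg : ∀ σ, |g σ| ≤ 1) (c η : ℝ) (hc : 0 ≤ c)
    (hη0 : 0 ≤ η)
    (hη : ∀ A : Finset Sig, A.Nonempty → |∫ x, ∏ σ ∈ A, H σ x ∂μ| ≤ η) :
    ∫ x, Real.exp (c * ∑ σ, H σ x * g σ) ∂μ ≤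
      Real.exp (c ^ 2 / 2 * Fintype.card Sig) + η * Real.exp (c * Fintype.card Sig) := by
  classical
  set C := Real.cosh c
  set D := Real.sinh c
  have hC0 : 0 < C := Real.cosh_pos c
  have hD0 : 0 ≤ D := Real.sinh_nonneg_iff.mpr hc
  -- pointwise
  have hpt : ∀ x, Real.exp (c * ∑ σ, H σ x * g σ) ≤ ∏ σ, (C + (H σ x * g σ) * D) := by
    intro x
    rw [Finset.mul_sum, Real.exp_sum]
    refine Finset.prod_le_prod (fun σ _ => (Real.exp_pos _).le) (fun σ _ => ?_)
    have := Real.exp_mul_le_cosh_add_mul_sinh (t := H σ x * g σ) (by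
      rw [abs_mul]
      exact mul_le_one₀ (hH1 σ x) (abs_nonneg _) (hg σ)) c
    rwa [mul_comm c]
  have hexpand : ∀ x, ∏ σ, (C + (H σ x * g σ) * D) =
      ∑ A : Finset Sig, (C ^ (Fintype.card Sig - A.card) * D ^ A.card * ∏ σ ∈ A, g σ) *
        ∏ σ ∈ A, H σ x := by
    intro x
    have : ∀ σ, C + (H σ x * g σ) * D = (H σ x * g σ) * D + C := fun σ => add_comm _ _
    simp_rw [this]
    rw [Finset.prod_add, Finset.powerset_univ]
    refine Finset.sum_congr rfl (fun A _ => ?_)
    rw [Finset.prod_const, Finset.card_sdiff_of_subset (Finset.subset_univ _), Finset.card_univ,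
      Finset.prod_mul_distrib, Finset.prod_mul_distrib, Finset.prod_const]
    ring
  have hprodm : ∀ A : Finset Sig, Measurable (fun x => ∏ σ ∈ A, H σ x) := fun A =>
    Finset.measurable_prod _ (fun σ _ => hH σ)
  have hprod1 : ∀ A : Finset Sig, ∀ x, |∏ σ ∈ A, H σ x| ≤ 1 := by
    intro A x
    rw [Finset.abs_prod]
    exact Finset.prod_le_one (fun i _ => abs_nonneg _) (fun σ _ => hH1 σ x)
  have hint : ∀ A : Finset Sig, Integrable (fun x => ∏ σ ∈ A, H σ x) μ := fun A =>
    integrable_of_abs_le (hprodm A) 1 (hprod1 A)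
  have hI1 : ∫ x, Real.exp (c * ∑ σ, H σ x * g σ) ∂μ ≤ ∫ x, ∏ σ, (C + (H σ x * g σ) * D) ∂μ := by
    refine integral_mono_of_nonneg (Eventually.of_forall fun x => (Real.exp_pos _).le) ?_
      (Eventually.of_forall hpt)
    simp_rw [hexpand]
    exact integrable_finsetSum _ (fun A _ => (hint A).const_mul _)
  refine hI1.trans ?_
  simp_rw [hexpand]
  rw [integral_finsetSum _ (fun A _ => (hint A).const_mul _)]
  simp_rw [integral_const_mul]
  rw [← Finset.add_sum_erase _ _ (Finset.mem_univ (∅ : Finset Sig))]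
  have h0 : (C ^ (Fintype.card Sig - (∅ : Finset Sig).card) * D ^ (∅ : Finset Sig).card *
      ∏ σ ∈ (∅ : Finset Sig), g σ) * ∫ x, ∏ σ ∈ (∅ : Finset Sig), H σ x ∂μ
      ≤ Real.exp (c ^ 2 / 2 * Fintype.card Sig) := by
    simp only [Finset.card_empty, Nat.sub_zero, pow_zero, mul_one, Finset.prod_empty,
      integral_const, smul_eq_mul, probReal_univ]
    calc C ^ Fintype.card Sig ≤ (Real.exp (c ^ 2 / 2)) ^ Fintype.card Sig :=
          pow_le_pow_left₀ hC0.le (Real.cosh_le_exp_half_sq c) _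
      _ = Real.exp (c ^ 2 / 2 * Fintype.card Sig) := by
          rw [← Real.exp_nat_mul]; ring_nf
  refine add_le_add h0 ?_
  have h1 : ∀ A ∈ Finset.univ.erase (∅ : Finset Sig),
      (C ^ (Fintype.card Sig - A.card) * D ^ A.card * ∏ σ ∈ A, g σ) *
        ∫ x, ∏ σ ∈ A, H σ x ∂μ ≤ (C ^ (Fintype.card Sig - A.card) * D ^ A.card) * η := by
    intro A hA
    have hne : A.Nonempty := Finset.nonempty_iff_ne_empty.mpr (Finset.ne_of_mem_erase hA)
    have hgA : |∏ σ ∈ A, g σ| ≤ 1 := by
      rw [Finset.abs_prod]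
      exact Finset.prod_le_one (fun i _ => abs_nonneg _) (fun σ _ => hg σ)
    have hpos : 0 ≤ C ^ (Fintype.card Sig - A.card) * D ^ A.card := by positivity
    have hstep : (∏ σ ∈ A, g σ) * ∫ x, ∏ σ ∈ A, H σ x ∂μ ≤ η := by
      refine (le_abs_self _).trans ?_
      rw [abs_mul]
      calc _ ≤ 1 * η := mul_le_mul hgA (hη A hne) (abs_nonneg _) zero_le_one
        _ = η := one_mul _
    calc _ = (C ^ (Fintype.card Sig - A.card) * D ^ A.card) *
          ((∏ σ ∈ A, g σ) * ∫ x, ∏ σ ∈ A, H σ x ∂μ) := by ring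
      _ ≤ _ := mul_le_mul_of_nonneg_left hstep hpos
  refine (Finset.sum_le_sum h1).trans ?_
  have h2 : ∑ A ∈ Finset.univ.erase (∅ : Finset Sig),
      (C ^ (Fintype.card Sig - A.card) * D ^ A.card) * η ≤
      ∑ A : Finset Sig, (C ^ (Fintype.card Sig - A.card) * D ^ A.card) * η := by
    refine Finset.sum_le_sum_of_subset_of_nonneg (Finset.erase_subset _ _) (fun A _ _ => ?_)
    positivity
  refine h2.trans (le_of_eq ?_)
  rw [← Finset.sum_mul]
  have h3 : ∑ A : Finset Sig, (C ^ (Fintype.card Sig - A.card) * D ^ A.card) =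
      (D + C) ^ Fintype.card Sig := by
    have := Finset.prod_add (fun _ : Sig => D) (fun _ : Sig => C) Finset.univ
    rw [Finset.prod_const, Finset.card_univ, Finset.powerset_univ] at this
    rw [this]
    refine Finset.sum_congr rfl (fun A _ => ?_)
    rw [Finset.prod_const, Finset.prod_const, Finset.card_sdiff_of_subset (Finset.subset_univ _),
      Finset.card_univ]
    ring
  rw [h3]
  have h4 : D + C = Real.exp c := by
    show Real.sinh c + Real.cosh c = _
    rw [add_comm, Real.cosh_add_sinh]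
  rw [h4, ← Real.exp_nat_mul, mul_comm (Real.exp _) η]
  ring_nf

/-- THE NAMES BOUND. -/
theorem names_bound {Sig Bt : Type*} [Fintype Sig] [Fintype Bt] {q : ℕ}
    (inc : Sig → Fin q → Bt) (H : Sig → Ω → ℝ) (hH : ∀ σ, Measurable (H σ))
    (hH1 : ∀ σ x, |H σ x| ≤ 1) (y : Bt → Ω → ℝ) (hy : ∀ b, Measurable (y b))
    (hy1 : ∀ b x, |y b x| ≤ 1) (c η : ℝ) (hc : 0 < c) (hη0 : 0 ≤ η)
    (hη : ∀ A : Finset Sig, A.Nonempty → |∫ x, ∏ σ ∈ A, H σ x ∂μ| ≤ η)
    (V : Finset ℝ) (hV1 : ∀ v ∈ V, |v| ≤ 1)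
    (hV : ∀ t : ℝ, |t| ≤ 1 → ∃ v ∈ V, q * |t - v| ≤ c / 4)
    (hZ : c * Fintype.card Sig ≤ ∫ x, ∑ σ, H σ x * ∏ j, y (inc σ j) x ∂μ) :
    Real.exp (c ^ 2 * Fintype.card Sig) ≤ Real.exp (c ^ 2 / 4 * Fintype.card Sig) *
      ((V.card : ℝ) ^ Fintype.card Bt *
        (Real.exp (c ^ 2 / 2 * Fintype.card Sig) + η * Real.exp (c * Fintype.card Sig))) := by
  classical
  set Z : Ω → ℝ := fun x => ∑ σ, H σ x * ∏ j, y (inc σ j) x with hZdef
  have hZm : Measurable Z := by
    refine Finset.measurable_sum _ (fun σ _ => (hH σ).mul ?_)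
    exact Finset.measurable_prod _ (fun j _ => hy _)
  have hterm : ∀ σ x, |H σ x * ∏ j, y (inc σ j) x| ≤ 1 := by
    intro σ x
    rw [abs_mul, Finset.abs_prod]
    exact mul_le_one₀ (hH1 σ x) (Finset.prod_nonneg fun _ _ => abs_nonneg _)
      (Finset.prod_le_one (fun i _ => abs_nonneg _) (fun j _ => hy1 _ x))
  have hZ1 : ∀ x, |Z x| ≤ Fintype.card Sig := by
    intro x
    refine (Finset.abs_sum_le_sum_abs _ _).trans ?_
    refine (Finset.sum_le_sum (fun σ _ => hterm σ x)).trans ?_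
    simp
  have hZint : Integrable Z μ := integrable_of_abs_le hZm _ hZ1
  have hexpm : Measurable (fun x => Real.exp (c * Z x)) :=
    Real.measurable_exp.comp (hZm.const_mul c)
  have hexpint : Integrable (fun x => Real.exp (c * Z x)) μ := by
    refine integrable_of_abs_le hexpm (Real.exp (c * Fintype.card Sig)) (fun x => ?_)
    rw [abs_of_pos (Real.exp_pos _)]
    apply Real.exp_le_exp.mpr
    exact mul_le_mul_of_nonneg_left ((le_abs_self _).trans (hZ1 x)) hc.le
  -- Jensen
  have hJ : Real.exp (c * ∫ x, Z x ∂μ) ≤ ∫ x, Real.exp (c * Z x) ∂μ := by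
    set m := c * ∫ x, Z x ∂μ with hm
    have hpt : ∀ x, Real.exp m * (1 + (c * Z x - m)) ≤ Real.exp (c * Z x) := by
      intro x
      have h1 : (c * Z x - m) + 1 ≤ Real.exp (c * Z x - m) := Real.add_one_le_exp _
      calc Real.exp m * (1 + (c * Z x - m)) ≤ Real.exp m * Real.exp (c * Z x - m) := by
            apply mul_le_mul_of_nonneg_left _ (Real.exp_pos _).le
            linarith
        _ = Real.exp (c * Z x) := by rw [← Real.exp_add]; ring_nf
    have hi : Integrable (fun x => Real.exp m * (1 + (c * Z x - m))) μ := by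
      refine ((integrable_const (1:ℝ)).add ((hZint.const_mul c).sub (integrable_const m))).const_mul _
    have h2 := integral_mono hi hexpint hpt
    refine le_trans (le_of_eq ?_) h2
    have e1 : ∫ x, (1 + (c * Z x - m)) ∂μ = 1 := by
      have e2 : ∫ x, (c * Z x - m) ∂μ = 0 := by
        rw [integral_sub (hZint.const_mul c) (integrable_const m), integral_const_mul]
        simp [hm]
      have e3 : Integrable (fun x => c * Z x - m) μ := (hZint.const_mul c).sub (integrable_const m)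
      rw [integral_add (integrable_const _) e3, e2]
      simp
    rw [integral_const_mul, e1, mul_one]
  have h1 : Real.exp (c ^ 2 * Fintype.card Sig) ≤ ∫ x, Real.exp (c * Z x) ∂μ := by
    refine le_trans (Real.exp_le_exp.mpr ?_) hJ
    calc c ^ 2 * (Fintype.card Sig : ℝ) = c * (c * Fintype.card Sig) := by ring
      _ ≤ c * ∫ x, Z x ∂μ := mul_le_mul_of_nonneg_left hZ hc.le
  refine h1.trans ?_
  -- names
  let W := Bt → V
  have hgw : ∀ (w : W) σ, |∏ j, ((w (inc σ j) : V) : ℝ)| ≤ 1 := by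
    intro w σ
    rw [Finset.abs_prod]
    exact Finset.prod_le_one (fun i _ => abs_nonneg _) (fun j _ => hV1 _ (w _).2)
  have hpt : ∀ x, Real.exp (c * Z x) ≤ Real.exp (c ^ 2 / 4 * Fintype.card Sig) *
      ∑ w : W, Real.exp (c * ∑ σ, H σ x * ∏ j, ((w (inc σ j) : V) : ℝ)) := by
    intro x
    have hch : ∀ b : Bt, ∃ v : V, q * |y b x - v| ≤ c / 4 := by
      intro b
      obtain ⟨v, hv, hv2⟩ := hV (y b x) (hy1 b x)
      exact ⟨⟨v, hv⟩, hv2⟩
    choose w hw using hch
    have hdiff : Z x ≤ ∑ σ, H σ x * ∏ j, ((w (inc σ j) : V) : ℝ) + c / 4 * Fintype.card Sig := by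
      have : Z x - ∑ σ, H σ x * ∏ j, ((w (inc σ j) : V) : ℝ) ≤ c / 4 * Fintype.card Sig := by
        rw [hZdef]
        simp only
        rw [← Finset.sum_sub_distrib]
        refine (Finset.sum_le_sum (g := fun _ => c / 4) (fun σ _ => ?_)).trans ?_
        · rw [← mul_sub]
          refine (le_abs_self _).trans ?_
          rw [abs_mul]
          have h3 := abs_prod_sub_prod_le Finset.univ (fun j => y (inc σ j) x)
            (fun j => ((w (inc σ j) : V) : ℝ)) (fun j _ => hy1 _ x) (fun j _ => hV1 _ (w _).2)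
          have h4 : ∑ j : Fin q, |y (inc σ j) x - ((w (inc σ j) : V) : ℝ)| ≤ c / 4 := by
            rcases Nat.eq_zero_or_pos q with hq | hq
            · subst hq; simp; positivity
            · have hqpos : (0 : ℝ) < q := by exact_mod_cast hq
              have h5 : ∀ j : Fin q, |y (inc σ j) x - ((w (inc σ j) : V) : ℝ)| ≤ c / 4 / q := by
                intro j
                rw [le_div_iff₀ hqpos, mul_comm]
                exact hw _
              refine (Finset.sum_le_sum (fun j _ => h5 j)).trans (le_of_eq ?_)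
              rw [Finset.sum_const, Finset.card_univ, Fintype.card_fin, nsmul_eq_mul]
              field_simp
          calc |H σ x| * |∏ j, y (inc σ j) x - ∏ j, ((w (inc σ j) : V) : ℝ)|
              ≤ 1 * (c / 4) := mul_le_mul (hH1 σ x) (h3.trans h4) (abs_nonneg _) zero_le_one
            _ = c / 4 := one_mul _
        · rw [Finset.sum_const, Finset.card_univ, nsmul_eq_mul]
          exact le_of_eq (mul_comm _ _)
      linarith
    have h5 : Real.exp (c * Z x) ≤ Real.exp (c ^ 2 / 4 * Fintype.card Sig) *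
        Real.exp (c * ∑ σ, H σ x * ∏ j, ((w (inc σ j) : V) : ℝ)) := by
      rw [← Real.exp_add]
      apply Real.exp_le_exp.mpr
      have := mul_le_mul_of_nonneg_left hdiff hc.le
      nlinarith
    refine h5.trans ?_
    apply mul_le_mul_of_nonneg_left _ (Real.exp_pos _).le
    exact Finset.single_le_sum (f := fun w : W =>
      Real.exp (c * ∑ σ, H σ x * ∏ j, ((w (inc σ j) : V) : ℝ)))
      (fun w _ => (Real.exp_pos _).le) (Finset.mem_univ w)
  have hZwm : ∀ w : W, Measurable (fun x => Real.exp (c * ∑ σ, H σ x * ∏ j, ((w (inc σ j) : V) : ℝ))) := by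
    intro w
    refine Real.measurable_exp.comp (Measurable.const_mul ?_ c)
    exact Finset.measurable_sum _ (fun σ _ => (hH σ).mul_const _)
  have hZwint : ∀ w : W, Integrable (fun x => Real.exp (c * ∑ σ, H σ x * ∏ j, ((w (inc σ j) : V) : ℝ))) μ := by
    intro w
    refine integrable_of_abs_le (hZwm w) (Real.exp (c * Fintype.card Sig)) (fun x => ?_)
    rw [abs_of_pos (Real.exp_pos _)]
    apply Real.exp_le_exp.mpr
    apply mul_le_mul_of_nonneg_left _ hc.le
    refine (le_abs_self _).trans ((Finset.abs_sum_le_sum_abs _ _).trans ?_)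
    refine (Finset.sum_le_sum (g := fun _ => (1:ℝ)) (fun σ _ => ?_)).trans ?_
    · rw [abs_mul]
      exact mul_le_one₀ (hH1 σ x) (abs_nonneg _) (hgw w σ)
    · simp
  have h2 : ∫ x, Real.exp (c * Z x) ∂μ ≤ ∫ x, Real.exp (c ^ 2 / 4 * Fintype.card Sig) *
      ∑ w : W, Real.exp (c * ∑ σ, H σ x * ∏ j, ((w (inc σ j) : V) : ℝ)) ∂μ :=
    integral_mono hexpint ((integrable_finsetSum _ (fun w _ => hZwint w)).const_mul _) hpt
  refine h2.trans ?_
  rw [integral_const_mul, integral_finsetSum _ (fun w _ => hZwint w)]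
  apply mul_le_mul_of_nonneg_left _ (Real.exp_pos _).le
  refine (Finset.sum_le_sum (fun w _ => expMoment (μ := μ) H hH hH1
    (fun σ => ∏ j, ((w (inc σ j) : V) : ℝ)) (hgw w) c η hc.le hη0 hη)).trans ?_
  rw [Finset.sum_const, Finset.card_univ, nsmul_eq_mul]
  have hcard : (Fintype.card W : ℝ) = (V.card : ℝ) ^ Fintype.card Bt := by
    show (Fintype.card (Bt → V) : ℝ) = _
    rw [Fintype.card_fun, Fintype.card_coe]
    push_cast
    rfl
  rw [hcard]

end Crest.Agent.R069.Tr
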