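import Crest.Agent.R069.TrMix
import Crest.Agent.R069.TrNames

/-! Row 69 (helper67): the transfer lemma. -/

set_option autoImplicit false
open MeasureTheory Filter ProbabilityTheory Topology

namespace Crest.Agent.R069.Tr

variable {κ : Type*}

/-- addresses with exactly one coordinate equal to the base site. -/
def Sig (N q : ℕ) : Type := Σ a : Fin N, ({b : Fin N // b ≠ a} → Fin q)

instance (N q : ℕ) : Fintype (Sig N q) := by unfold Sig; infer_instance
noncomputable instance (N q : ℕ) : DecidableEq (Sig N q) := Classical.decEq _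

theorem card_Sig (N q : ℕ) : Fintype.card (Sig N q) = N * q ^ (N - 1) := by
  have h : Fintype.card (Sig N q) = ∑ a : Fin N, Fintype.card ({b : Fin N // b ≠ a} → Fin q) :=
    Fintype.card_sigma
  rw [h]
  have h2 : ∀ a : Fin N, Fintype.card ({b : Fin N // b ≠ a} → Fin q) = q ^ (N - 1) := by
    intro a
    rw [Fintype.card_fun, Fintype.card_fin]
    congr 1
    rw [Fintype.card_subtype_compl]
    simp
  simp [h2]

def vec {N q : ℕ} (σ : Sig N q) : Fin N → Fin (q + 1) := fun b =>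
  if h : b = σ.1 then 0 else (σ.2 ⟨b, h⟩).succ

def addr {N q : ℕ} (σ : Sig N q) (j : Fin q) : Fin N → Fin q := fun b =>
  if h : b = σ.1 then j else σ.2 ⟨b, h⟩

theorem vec_injective {N q : ℕ} : Function.Injective (vec : Sig N q → (Fin N → Fin (q + 1))) := by
  rintro ⟨a, i⟩ ⟨a', i'⟩ h
  have haa : a = a' := by
    by_contra hne
    have h1 := congrFun h a
    simp only [vec, dif_neg hne, dite_true] at h1
    exact (Fin.succ_ne_zero _ h1.symm)
  subst haa
  have : i = i' := by
    funext ⟨b, hb⟩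
    have h1 := congrFun h b
    simp only [vec, dif_neg hb] at h1
    exact Fin.succ_injective _ h1
  rw [this]

def siteB {N q : ℕ} (s : κ → Fin q → ℤ) (k : Fin N → κ) (β : Fin N → Fin q) : ℤ :=
  ∑ b, s (k b) (β b)

theorem siteB_addr {N q : ℕ} (s : κ → Fin q → ℤ) (k : Fin N → κ) (σ : Sig N q) (j : Fin q) :
    siteB s k (addr σ j) = s (k σ.1) j + site s k (vec σ) := by
  classical
  unfold siteB site
  have h1 : ∀ b : Fin N, s (k b) (addr σ j b) =
      (if b = σ.1 then s (k b) j else 0) + ext s (k b) (vec σ b) := by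
    intro b
    by_cases hb : b = σ.1
    · simp [addr, vec, hb]
    · simp [addr, vec, hb]
  rw [Finset.sum_congr rfl (fun b _ => h1 b), Finset.sum_add_distrib]
  congr 1
  simp

theorem exists_levels (c : ℝ) (hc : 0 < c) (q : ℕ) (hq : 1 ≤ q) (M : ℕ) (hM : 1 ≤ M) :
    ∃ N : ℕ, 2 * (M : ℝ) ^ (q ^ N * q) < Real.exp (c ^ 2 / 4 * ((N * q ^ (N - 1) : ℕ) : ℝ)) := by
  set L := Real.log M with hL
  have hMpos : (0 : ℝ) < M := by exact_mod_cast hM
  have hL0 : 0 ≤ L := Real.log_nonneg (by exact_mod_cast hM)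
  obtain ⟨N₀, hN₀⟩ := exists_nat_gt ((1 + q ^ 2 * L) / (c ^ 2 / 4))
  refine ⟨N₀ + 1, ?_⟩
  have hc4 : 0 < c ^ 2 / 4 := by positivity
  have h1 : 1 + (q : ℝ) ^ 2 * L < c ^ 2 / 4 * (N₀ + 1 : ℕ) := by
    rw [div_lt_iff₀ hc4] at hN₀
    push_cast
    nlinarith
  have hq1 : (1 : ℝ) ≤ (q : ℝ) ^ N₀ := one_le_pow₀ (by exact_mod_cast hq)
  have e1 : 2 * (M : ℝ) ^ (q ^ (N₀ + 1) * q) = Real.exp (Real.log 2 + (q ^ (N₀ + 1) * q : ℕ) * L) := by
    rw [Real.exp_add, Real.exp_log (by norm_num), Real.exp_nat_mul, hL, Real.exp_log hMpos]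
  rw [e1]
  apply Real.exp_lt_exp.mpr
  have hlog2 : Real.log 2 < 1 := by
    have := Real.log_two_lt_d9; linarith
  simp only [Nat.add_sub_cancel]
  push_cast
  have e2 : (q : ℝ) ^ (N₀ + 1) * q * L = (q : ℝ) ^ N₀ * ((q : ℝ) ^ 2 * L) := by ring
  rw [e2]
  push_cast at h1
  have h2 : Real.log 2 ≤ (q : ℝ) ^ N₀ * 1 := by linarith
  calc Real.log 2 + (q : ℝ) ^ N₀ * ((q : ℝ) ^ 2 * L) ≤ (q : ℝ) ^ N₀ * (1 + (q : ℝ) ^ 2 * L) := by
        nlinarith
    _ < (q : ℝ) ^ N₀ * (c ^ 2 / 4 * (N₀ + 1)) := by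
        apply mul_lt_mul_of_pos_left h1; linarith
    _ = _ := by ring

theorem exists_net (q : ℕ) (c : ℝ) (hc : 0 < c) : ∃ V : Finset ℝ, (∀ v ∈ V, |v| ≤ 1) ∧
    (∀ t : ℝ, |t| ≤ 1 → ∃ v ∈ V, q * |t - v| ≤ c / 4) := by
  have hδ : 0 < c / 4 / (q + 1) := by positivity
  obtain ⟨t, ht, htf, hcov⟩ := (isCompact_Icc (a := (-1 : ℝ)) (b := 1)).finite_cover_balls hδ
  refine ⟨htf.toFinset, ?_, ?_⟩
  · intro v hv
    have := ht (htf.mem_toFinset.mp hv)
    exact abs_le.mpr ⟨this.1, this.2⟩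
  · intro x hx
    have hx2 : x ∈ Set.Icc (-1 : ℝ) 1 := ⟨(abs_le.mp hx).1, (abs_le.mp hx).2⟩
    have := hcov hx2
    simp only [Set.mem_iUnion, Metric.mem_ball, exists_prop] at this
    obtain ⟨v, hv, hv2⟩ := this
    refine ⟨v, htf.mem_toFinset.mpr hv, ?_⟩
    rw [Real.dist_eq] at hv2
    have hq : (0 : ℝ) ≤ q := Nat.cast_nonneg q
    calc (q : ℝ) * |x - v| ≤ q * (c / 4 / (q + 1)) := mul_le_mul_of_nonneg_left hv2.le hq
      _ ≤ (q + 1) * (c / 4 / (q + 1)) := by
          apply mul_le_mul_of_nonneg_right _ hδ.le; linarith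
      _ = c / 4 := by field_simp

variable {ι : Type*} {Ω : Type*} {mX : MeasurableSpace Ω} {mΩ : MeasurableSpace Ω}
  {μ : Measure Ω} [IsProbabilityMeasure μ] {S : ℤ → Ω → Ω}

/-- asymptotic independence (along `W`) of `mX` from the family `b`, with shifts. -/
def AsInd (μ : Measure Ω) (S : ℤ → Ω → Ω) (mX : MeasurableSpace Ω) (W : Filter ι)
    (b : ι → Ω → ℝ) : Prop :=
  ∀ (τ : Type) (A : Finset τ) (t : τ → ℤ) (h : Ω → ℝ), Measurable[mX] h → (∀ x, |h x| ≤ 1) →
    ∫ x, h x ∂μ = 0 → Tendsto (fun m => ∫ x, h x * ∏ σ ∈ A, b m (S (t σ) x) ∂μ) W (𝓝 0)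

theorem core (hS : ∀ n, MeasurePreserving (S n) μ μ) (hadd : ∀ a b x, S (a + b) x = S a (S b x))
    (hS0 : ∀ x, S 0 x = x) (hX : mX ≤ mΩ) (hSX : ∀ n, Measurable[mX, mX] (S n))
    {U : Filter κ} [U.NeBot] {q : ℕ} (hq : 1 ≤ q) {s : κ → Fin q → ℤ}
    (hmix : MixAlong μ S mX U s) (W : Filter ι) [W.NeBot] (b : ι → Ω → ℝ)
    (hbm : ∀ m, Measurable (b m)) (hb1 : ∀ m x, |b m x| ≤ 1) (hAI : AsInd μ S mX W b)
    (h : Ω → ℝ) (hh : Measurable[mX] h) (hh1 : ∀ x, |h x| ≤ 1) (hh0 : ∫ x, h x ∂μ = 0)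
    (G : Fin q → Ω → ℝ) (hG : ∀ i, Measurable (G i)) (hG1 : ∀ i x, |G i x| ≤ 1)
    (c : ℝ) (hc : 0 < c)
    (hfreq : ∀ᶠ k in U, ∀ᶠ m in W, c ≤ ∫ x, h x * b m x * ∏ i, G i (S (s k i) x) ∂μ) :
    False := by
  classical
  obtain ⟨V, hV1, hV⟩ := exists_net q c hc
  have hVne : 1 ≤ V.card := by
    obtain ⟨v, hv, -⟩ := hV 0 (by simp)
    exact Finset.card_pos.mpr ⟨v, hv⟩
  obtain ⟨N, hN⟩ := exists_levels c hc q hq V.card hVne
  set n : ℝ := ((N * q ^ (N - 1) : ℕ) : ℝ) with hn
  have hcardS : (Fintype.card (Sig N q) : ℝ) = n := by rw [card_Sig]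
  set η : ℝ := Real.exp (c ^ 2 / 2 * n) / Real.exp (c * n) with hη
  have hηpos : 0 < η := by positivity
  have hhm : Measurable h := hh.mono hX le_rfl
  have hSm : ∀ n, Measurable (S n) := fun n => (hS n).measurable
  -- choose the levels
  have hev1 : ∀ᶠ k in IF U N, ∀ a, ∀ᶠ m in W,
      c ≤ ∫ x, h x * b m x * ∏ i, G i (S (s (k a) i) x) ∂μ :=
    IF_forall U (fun k => ∀ᶠ m in W, c ≤ ∫ x, h x * b m x * ∏ i, G i (S (s k i) x) ∂μ) hfreq N
  have hev2 : ∀ᶠ k in IF U N, ∀ A : Finset (Sig N q), A.Nonempty →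
      |∫ x, ∏ σ ∈ A, h (S (site s k (vec σ)) x) ∂μ| < η / 2 := by
    rw [Filter.eventually_all]
    intro A
    by_cases hA : A.Nonempty
    swap
    · exact Eventually.of_forall fun k hA' => (hA hA').elim
    set F : (Fin N → Fin (q + 1)) → Ω → ℝ := fun i =>
      if i ∈ A.image vec then h else fun _ => 1 with hF
    have hFm : ∀ i, Measurable[mX] (F i) := by
      intro i
      by_cases hi : i ∈ A.image vec
      · simp only [hF, if_pos hi]; exact hh
      · simp only [hF, if_neg hi]; exact measurable_const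
    have hF1 : ∀ i x, |F i x| ≤ 1 := by
      intro i x
      by_cases hi : i ∈ A.image vec
      · simp only [hF, if_pos hi]; exact hh1 x
      · simp only [hF, if_neg hi]; simp
    have hlim := iterMix (μ := μ) hadd hS0 hSX hmix N F hFm hF1
    have hzero : ∏ i, ∫ x, F i x ∂μ = 0 := by
      obtain ⟨σ, hσ⟩ := hA
      apply Finset.prod_eq_zero (Finset.mem_univ (vec σ))
      have : vec σ ∈ A.image vec := Finset.mem_image_of_mem _ hσ
      simp only [hF, if_pos this]
      exact hh0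
    rw [hzero, Metric.tendsto_nhds] at hlim
    filter_upwards [hlim (η / 2) (half_pos hηpos)] with k hk _
    rw [Real.dist_eq, sub_zero] at hk
    suffices e0 : ∫ x, ∏ σ ∈ A, h (S (site s k (vec σ)) x) ∂μ = ∫ x, ∏ i, F i (S (site s k i) x) ∂μ by
      rw [e0]; exact hk
    refine integral_congr_ae (Eventually.of_forall fun x => ?_)
    show ∏ σ ∈ A, h (S (site s k (vec σ)) x) = ∏ i, F i (S (site s k i) x)
    have e1 : ∏ i, F i (S (site s k i) x) = ∏ i ∈ A.image vec, h (S (site s k i) x) := by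
      rw [← Finset.prod_subset (Finset.subset_univ (A.image vec))]
      · refine Finset.prod_congr rfl (fun i hi => ?_)
        simp only [hF, if_pos hi]
      · intro i _ hi
        simp only [hF, if_neg hi]
    rw [e1, Finset.prod_image (fun σ _ σ' _ he => vec_injective he)]
  obtain ⟨k, hk1, hk2⟩ := (hev1.and hev2).exists
  -- choose m
  have hprodX : ∀ A : Finset (Sig N q), Measurable[mX] (fun x => ∏ σ ∈ A, h (S (site s k (vec σ)) x)) := by
    intro A
    exact @Finset.measurable_prod _ _ _ _ _ _ mX _ _ (fun σ _ => hh.comp (hSX _))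
  have hprod1 : ∀ (A : Finset (Sig N q)) x, |∏ σ ∈ A, h (S (site s k (vec σ)) x)| ≤ 1 := by
    intro A x
    exact abs_prod_le_one _ _ (fun σ _ => hh1 _)
  have hbprodm : ∀ (A : Finset (Sig N q)) m, Measurable (fun x => ∏ σ ∈ A, b m (S (site s k (vec σ)) x)) := by
    intro A m
    exact Finset.measurable_prod _ (fun σ _ => (hbm m).comp (hSm _))
  have hbprod1 : ∀ (A : Finset (Sig N q)) m x, |∏ σ ∈ A, b m (S (site s k (vec σ)) x)| ≤ 1 := by
    intro A m x
    exact abs_prod_le_one _ _ (fun σ _ => hb1 m _)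
  have hev3 : ∀ᶠ m in W, ∀ A : Finset (Sig N q), A.Nonempty →
      |∫ x, ∏ σ ∈ A, (h (S (site s k (vec σ)) x) * b m (S (site s k (vec σ)) x)) ∂μ| ≤ η := by
    rw [Filter.eventually_all]
    intro A
    by_cases hA : A.Nonempty
    swap
    · exact Eventually.of_forall fun k hA' => (hA hA').elim
    set E := ∫ x, ∏ σ ∈ A, h (S (site s k (vec σ)) x) ∂μ with hE
    have hE1 : |E| ≤ 1 := by
      rw [hE]
      refine (abs_integral_le_integral_abs).trans ?_
      calc _ ≤ ∫ _x, (1 : ℝ) ∂μ := integral_mono_of_nonneg (Eventually.of_forall fun x => abs_nonneg _)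
            (integrable_const _) (Eventually.of_forall fun x => hprod1 A x)
        _ = 1 := by simp
    set h' : Ω → ℝ := fun x => (∏ σ ∈ A, h (S (site s k (vec σ)) x) - E) / 2 with hh'
    have hint : Integrable (fun x => ∏ σ ∈ A, h (S (site s k (vec σ)) x)) μ :=
      integrable_of_abs_le ((hprodX A).mono hX le_rfl) 1 (hprod1 A)
    have h1 := hAI (Sig N q) A (fun σ => site s k (vec σ)) h'
      (by
        have := ((hprodX A).sub_const E).div_const 2
        exact this)
      (by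
        intro x
        have h2 := hprod1 A x
        simp only [hh']
        rw [abs_div, abs_two, div_le_one (by norm_num)]
        calc _ ≤ |∏ σ ∈ A, h (S (site s k (vec σ)) x)| + |E| := abs_sub _ _
          _ ≤ 2 := by linarith)
      (by
        simp only [hh']
        rw [integral_div, integral_sub hint (integrable_const _)]
        simp [← hE])
    rw [Metric.tendsto_nhds] at h1
    filter_upwards [h1 (η / 4) (by positivity)] with m hm _
    rw [Real.dist_eq, sub_zero] at hm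
    set B : Ω → ℝ := fun x => ∏ σ ∈ A, b m (S (site s k (vec σ)) x) with hB
    have hBint : Integrable B μ := integrable_of_abs_le (hbprodm A m) 1 (hbprod1 A m)
    have hh'B : Integrable (fun x => h' x * B x) μ := by
      refine integrable_of_abs_le ?_ 1 ?_
      · exact ((((hprodX A).mono hX le_rfl).sub_const E).div_const 2).mul (hbprodm A m)
      · intro x
        rw [abs_mul]
        refine mul_le_one₀ ?_ (abs_nonneg _) (hbprod1 A m x)
        simp only [hh']
        rw [abs_div, abs_two, div_le_one (by norm_num)]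
        calc _ ≤ |∏ σ ∈ A, h (S (site s k (vec σ)) x)| + |E| := abs_sub _ _
          _ ≤ 2 := by linarith [hprod1 A x]
    have e1 : ∫ x, ∏ σ ∈ A, (h (S (site s k (vec σ)) x) * b m (S (site s k (vec σ)) x)) ∂μ =
        2 * ∫ x, h' x * B x ∂μ + E * ∫ x, B x ∂μ := by
      rw [← integral_const_mul, ← integral_const_mul, ← integral_add (hh'B.const_mul 2) (hBint.const_mul E)]
      refine integral_congr_ae (Eventually.of_forall fun x => ?_)
      simp only [hh', hB]
      rw [Finset.prod_mul_distrib]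
      ring
    rw [e1]
    have hIB : |∫ x, B x ∂μ| ≤ 1 := by
      refine (abs_integral_le_integral_abs).trans ?_
      calc _ ≤ ∫ _x, (1 : ℝ) ∂μ := integral_mono_of_nonneg (Eventually.of_forall fun x => abs_nonneg _)
            (integrable_const _) (Eventually.of_forall fun x => hbprod1 A m x)
        _ = 1 := by simp
    have hE2 : |E| < η / 2 := hk2 A hA
    calc |2 * ∫ x, h' x * B x ∂μ + E * ∫ x, B x ∂μ|
        ≤ |2 * ∫ x, h' x * B x ∂μ| + |E * ∫ x, B x ∂μ| := abs_add_le _ _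
      _ ≤ 2 * (η / 4) + η / 2 * 1 := by
          refine add_le_add ?_ ?_
          · rw [abs_mul, abs_two]
            exact mul_le_mul_of_nonneg_left hm.le (by norm_num)
          · rw [abs_mul]
            exact mul_le_mul hE2.le hIB (abs_nonneg _) (by positivity)
      _ = η := by ring
  have hev4 : ∀ᶠ m in W, ∀ a, c ≤ ∫ x, h x * b m x * ∏ i, G i (S (s (k a) i) x) ∂μ := by
    rw [Filter.eventually_all]
    exact hk1
  obtain ⟨m, hm3, hm4⟩ := (hev3.and hev4).exists
  -- apply the names bound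
  have hZ : c * Fintype.card (Sig N q) ≤ ∫ x, ∑ σ : Sig N q,
      (h (S (site s k (vec σ)) x) * b m (S (site s k (vec σ)) x)) *
        ∏ j, G j (S (siteB s k (addr σ j)) x) ∂μ := by
    have hterm : ∀ σ : Sig N q, Integrable (fun x =>
        (h (S (site s k (vec σ)) x) * b m (S (site s k (vec σ)) x)) *
        ∏ j, G j (S (siteB s k (addr σ j)) x)) μ := by
      intro σ
      refine integrable_of_abs_le ?_ 1 ?_
      · exact ((hhm.comp (hSm _)).mul ((hbm m).comp (hSm _))).mul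
          (Finset.measurable_prod _ (fun j _ => (hG j).comp (hSm _)))
      · intro x
        rw [abs_mul, abs_mul]
        refine mul_le_one₀ (mul_le_one₀ (hh1 _) (abs_nonneg _) (hb1 m _)) (abs_nonneg _) ?_
        exact abs_prod_le_one _ _ (fun j _ => hG1 _ _)
    rw [integral_finsetSum _ (fun σ _ => hterm σ)]
    have hval : ∀ σ : Sig N q, c ≤ ∫ x, (h (S (site s k (vec σ)) x) * b m (S (site s k (vec σ)) x)) *
        ∏ j, G j (S (siteB s k (addr σ j)) x) ∂μ := by
      intro σ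
      have h1 := hm4 σ.1
      have hmeas : Measurable (fun x => h x * b m x * ∏ i, G i (S (s (k σ.1) i) x)) :=
        (hhm.mul (hbm m)).mul (Finset.measurable_prod _ (fun j _ => (hG j).comp (hSm _)))
      have h2 := (hS (site s k (vec σ))).map_eq
      have h3 : ∫ x, h x * b m x * ∏ i, G i (S (s (k σ.1) i) x) ∂μ =
          ∫ x, h (S (site s k (vec σ)) x) * b m (S (site s k (vec σ)) x) *
            ∏ i, G i (S (s (k σ.1) i) (S (site s k (vec σ)) x)) ∂μ := by
        conv_lhs => rw [← h2]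
        rw [integral_map (hSm _).aemeasurable hmeas.aestronglyMeasurable]
      rw [h3] at h1
      refine h1.trans (le_of_eq ?_)
      refine integral_congr_ae (Eventually.of_forall fun x => ?_)
      simp only
      congr 1
      refine Finset.prod_congr rfl (fun j _ => ?_)
      rw [siteB_addr, hadd]
    calc c * Fintype.card (Sig N q) = ∑ _σ : Sig N q, c := by
          rw [Finset.sum_const, Finset.card_univ, nsmul_eq_mul, mul_comm]
      _ ≤ _ := Finset.sum_le_sum (fun σ _ => hval σ)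
  have hfin := names_bound (μ := μ) (Sig := Sig N q) (Bt := (Fin N → Fin q) × Fin q) (q := q)
    (fun σ j => (addr σ j, j))
    (fun σ x => h (S (site s k (vec σ)) x) * b m (S (site s k (vec σ)) x))
    (fun σ => (hhm.comp (hSm _)).mul ((hbm m).comp (hSm _)))
    (fun σ x => by
      rw [abs_mul]
      exact mul_le_one₀ (hh1 _) (abs_nonneg _) (hb1 m _))
    (fun p x => G p.2 (S (siteB s k p.1) x)) (fun p => (hG _).comp (hSm _)) (fun p x => hG1 _ _)
    c η hc hηpos.le hm3 V hV1 hV hZ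
  rw [hcardS] at hfin
  have hcardB : Fintype.card ((Fin N → Fin q) × Fin q) = q ^ N * q := by
    rw [Fintype.card_prod, Fintype.card_fun, Fintype.card_fin, Fintype.card_fin]
  rw [hcardB] at hfin
  have e1 : η * Real.exp (c * n) = Real.exp (c ^ 2 / 2 * n) := by
    rw [hη]; field_simp
  rw [e1] at hfin
  have e2 : Real.exp (c ^ 2 / 4 * n) * ((V.card : ℝ) ^ (q ^ N * q) *
      (Real.exp (c ^ 2 / 2 * n) + Real.exp (c ^ 2 / 2 * n))) =
      (2 * (V.card : ℝ) ^ (q ^ N * q)) * Real.exp (c ^ 2 * (3 / 4) * n) := by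
    have : Real.exp (c ^ 2 * (3 / 4) * n) = Real.exp (c ^ 2 / 4 * n) * Real.exp (c ^ 2 / 2 * n) := by
      rw [← Real.exp_add]; ring_nf
    rw [this]; ring
  rw [e2] at hfin
  have e3 : Real.exp (c ^ 2 * n) = Real.exp (c ^ 2 / 4 * n) * Real.exp (c ^ 2 * (3 / 4) * n) := by
    rw [← Real.exp_add]; ring_nf
  rw [e3] at hfin
  have := lt_of_mul_lt_mul_right (lt_of_lt_of_le (mul_lt_mul_of_pos_right hN (Real.exp_pos (c ^ 2 * (3 / 4) * n))) hfin)
    (Real.exp_pos _).le
  exact lt_irrefl _ this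

end Crest.Agent.R069.Tr
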