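import Crest.Agent.R069.SatDefs
import Crest.Agent.R069.SatEn
import Crest.Agent.R069.CI
import Crest.Agent.R069.LoebMap
import Crest.Agent.R069.Rel

/-!
# Row 69, node TWO, part 1: extensions of pairs, satedness (S1) for functions, visible sets
-/

set_option autoImplicit false

open MeasureTheory Filter Set ProbabilityTheory
open scoped ENNReal Topology

namespace Crest.Agent.R069

open SatEn (ind bm_ind condExp_eq_of_enS_map ind_preimage)

variable {X : Sys}

namespace Ext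

/-- identity extension -/
def refl (P : Pair X) : Ext P P where
  f := id
  f_mp := MeasurePreserving.id _
  f_S _ := EventuallyEq.rfl
  f_π := EventuallyEq.rfl
  f_C := by rw [MeasurableSpace.comap_id]

/-- composition of extensions -/
def trans {P Q R : Pair X} (e : Ext P Q) (e' : Ext Q R) : Ext P R where
  f := e.f ∘ e'.f
  f_mp := e.f_mp.comp e'.f_mp
  f_S n := by
    have h1 := e'.f_S n
    have h2 : (fun x => e.f (Q.S n (e'.f x))) =ᵐ[R.μ] fun x => P.S n (e.f (e'.f x)) :=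
      e'.f_mp.quasiMeasurePreserving.ae_eq_comp (e.f_S n)
    filter_upwards [h1, h2] with x hx hy
    show e.f (e'.f (R.S n x)) = _
    rw [hx, hy]; rfl
  f_π := by
    have h2 : Q.π ∘ e'.f =ᵐ[R.μ] (P.π ∘ e.f) ∘ e'.f :=
      e'.f_mp.quasiMeasurePreserving.ae_eq_comp e.f_π
    exact e'.f_π.trans h2
  f_C := by
    rw [← MeasurableSpace.comap_comp]
    exact (MeasurableSpace.comap_mono e.f_C).trans e'.f_C

@[simp] theorem trans_f {P Q R : Pair X} (e : Ext P Q) (e' : Ext Q R) :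
    (e.trans e').f = e.f ∘ e'.f := rfl

end Ext

/-- (S1) for sets, along one extension, gives (S1) for bounded functions. -/
theorem S1_of_en0 {P Q : Pair X} (e : Ext P Q)
    (h : ∀ A : Set P.Ω, MeasurableSet A → en0 Q (e.f ⁻¹' A) = en0 P A)
    {F : P.Ω → ℝ} (hF : BdM P.ms F) :
    Q.μ[F ∘ e.f | Q.C] =ᵐ[Q.μ] (P.μ[F | P.C]) ∘ e.f := by
  have h1 : ∀ A : Set P.Ω, MeasurableSet A →
      Q.μ[ind (e.f ⁻¹' A) | Q.C] =ᵐ[Q.μ] (P.μ[ind A | P.C]) ∘ e.f := fun A hA =>
    condExp_eq_of_enS_map e.f_mp P.C_le Q.C_le (AELe.of_le e.f_C) hA (le_of_eq (h A hA))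
  have hc : P.C.comap e.f ≤ Q.ms := comap_le_of_mp e.f_mp P.C_le
  have hci : CI Q.μ (P.ms.comap e.f) Q.C (P.C.comap e.f) := by
    refine ci_of_piSystem (comap_le_of_mp e.f_mp le_rfl) Q.C_le hc
      (S := {B | MeasurableSet[P.ms.comap e.f] B})
      (@MeasurableSpace.generateFrom_measurableSet _ (P.ms.comap e.f)).symm
      (@MeasurableSpace.isPiSystem_measurableSet _ (P.ms.comap e.f)) ?_
    rintro _ ⟨A, hA, rfl⟩
    rw [sup_eq_left.2 e.f_C]
    refine (h1 A hA).trans ?_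
    have h2 := condExp_comp_mp e.f_mp P.C_le ((bm_ind hA).integrable (μ := P.μ) le_rfl)
    have h3 : (e.f ⁻¹' A).indicator (fun _ => (1 : ℝ)) = ind A ∘ e.f := ind_preimage e.f A
    rw [h3]
    exact h2.symm
  have h4 := hci _ hF.comp
  rw [sup_eq_left.2 e.f_C] at h4
  exact h4.trans (condExp_comp_mp e.f_mp P.C_le (hF.integrable le_rfl))

/-- (S1) as conditional independence. -/
theorem ci_of_en0 {P Q : Pair X} (e : Ext P Q)
    (h : ∀ A : Set P.Ω, MeasurableSet A → en0 Q (e.f ⁻¹' A) = en0 P A) :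
    CI Q.μ (P.ms.comap e.f) Q.C (P.C.comap e.f) := by
  intro f hf
  obtain ⟨F, hF, rfl⟩ := hf.factors
  rw [sup_eq_left.2 e.f_C]
  exact (S1_of_en0 e h hF).trans (condExp_comp_mp e.f_mp P.C_le (hF.integrable le_rfl)).symm

theorem Sated.S1 {ι : Type} {s : ι → ℕ → ℤ} {K : Pair X → Prop} {P : Pair X}
    (h : Sated s K P) {Q : Pair X} (hQ : K Q) (e : Ext P Q) {F : P.Ω → ℝ} (hF : BdM P.ms F) :
    Q.μ[F ∘ e.f | Q.C] =ᵐ[Q.μ] (P.μ[F | P.C]) ∘ e.f :=
  S1_of_en0 e (h.sated0 Q hQ e) hF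

end Crest.Agent.R069
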