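import Crest.Agent.R069.Iface
import Crest.Agent.R069.TwoPair
import Crest.Agent.R069.Two

/-!
# Row 69: node `N_TWO`
-/

set_option autoImplicit false

open MeasureTheory Filter Set ProbabilityTheory
open scoped ENNReal Topology

namespace Crest.Agent.R069.TwoN

open Crest.Agent.R069

/-- **N_TWO**: two copies of a pair over `Y` below a sated pair. -/
theorem n_two (hSAT : N_SAT) : N_TWO := by
  intro Y hY F hF
  have hne : Nonempty F.Ω := nonempty_of_isProbabilityMeasure F.μ
  obtain ⟨Q, e, hQ, h1, _⟩ := hSAT Y hY (twoPair F F)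
    (inferInstanceAs (StandardBorelSpace (F.Ω × F.Ω))) Unit (fun _ _ => 0)
  refine ⟨Q, (twoExt1 F F).trans e, (twoExt2 F F).trans e, hQ, h1, ?_⟩
  have h2 : F.C.comap ((twoExt1 F F).trans e).f = (F.C.comap Prod.fst).comap e.f :=
    (MeasurableSpace.comap_comp (f := (Prod.fst : F.Ω × F.Ω → F.Ω)) (g := e.f)).symm
  have h3 : F.C.comap ((twoExt2 F F).trans e).f = (F.C.comap Prod.snd).comap e.f :=
    (MeasurableSpace.comap_comp (f := (Prod.snd : F.Ω × F.Ω → F.Ω)) (g := e.f)).symm
  rw [h2, h3]
  refine (indep_comap_iff e.f_mp ?_ ?_).2 (two_indep_C F F)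
  · exact (MeasurableSpace.comap_mono F.C_le).trans (measurable_fst).comap_le
  · exact (MeasurableSpace.comap_mono F.C_le).trans (measurable_snd).comap_le

end Crest.Agent.R069.TwoN
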