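import Crest.Agent.R069.Defs
import Crest.Agent.R069.TwoPair
import Crest.Agent.R069.Two
import Crest.Agent.R069.Sites
import Crest.Agent.R069.CILoeb
import Crest.Agent.R069.Arr3Asm

/-!
# Row 69, node TWO: instances of `Arr3.OneCopy` and `Arr3.TwoCopies`
-/

set_option autoImplicit false

open MeasureTheory Filter Set ProbabilityTheory
open scoped ENNReal Topology

namespace Crest.Agent.R069.TwoTop

open Crest.Agent.R069

section ici

variable {Ω : Type*} [mΩ : MeasurableSpace Ω] {μ : Measure Ω} [IsProbabilityMeasure μ]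

/-- `iCI` does not see null sets. -/
theorem iCI_of_aele {ι : Type*} {M M' : ι → MeasurableSpace Ω} {s : Finset ι}
    {m : MeasurableSpace Ω} (hM : ∀ i ∈ s, M i ≤ mΩ) (hM' : ∀ i ∈ s, M' i ≤ mΩ)
    (h : ∀ i ∈ s, AELe μ (M' i) (M i)) (hi : iCI μ M s m) : iCI μ M' s m := by
  classical
  intro F hF
  have h1 : ∀ i, ∃ G : Ω → ℝ, i ∈ s → (BdM (M i) G ∧ F i =ᵐ[μ] G) := by
    intro i
    by_cases his : i ∈ s
    · obtain ⟨G, hG, hFG⟩ := (h i his).exists_bm (hM' i his) (hM i his) (hF i his)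
      exact ⟨G, fun _ => ⟨hG, hFG⟩⟩
    · exact ⟨0, fun h => absurd h his⟩
  choose G hG using h1
  have h2 := hi G (fun i his => (hG i his).1)
  have h3 : (fun x => ∏ i ∈ s, F i x) =ᵐ[μ] fun x => ∏ i ∈ s, G i x := by
    have : ∀ᵐ x ∂μ, ∀ i ∈ s, F i x = G i x :=
      (ae_ball_iff s.countable_toSet).2 fun i his => (hG i his).2
    filter_upwards [this] with x hx
    exact Finset.prod_congr rfl hx
  have h4 : ∀ᵐ x ∂μ, ∀ i ∈ s, (μ[F i | m]) x = (μ[G i | m]) x :=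
    (ae_ball_iff s.countable_toSet).2 fun i his => condExp_congr_ae (hG i his).2
  filter_upwards [condExp_congr_ae (m := m) h3, h2, h4] with x hx1 hx2 hx3
  rw [hx1, hx2]
  exact (Finset.prod_congr rfl hx3).symm

end ici

section inst

variable {Y : Sys} {ι : Type} [Fintype ι] [DecidableEq ι] (s : ι → ℕ → ℤ)
  {E : Type} [mE : MeasurableSpace E] [StandardBorelSpace E] [Nonempty E]

/-- the site variables with values in a factor `φ : P.Ω → E` -/
noncomputable def eV (M : Sys) (φ : M.Ω → E) : Lb M.Ω → ι → E :=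
  fun x i => sv (fun k => φ ∘ M.S (s i k)) x

omit [Fintype ι] [DecidableEq ι] in
theorem measurable_eV (M : Sys) {φ : M.Ω → E} (hφ : Measurable φ) :
    Measurable (eV s M φ) :=
  measurable_pi_lambda _ fun i => measurable_sv fun k => hφ.comp (M.S_mp (s i k)).measurable

theorem mp_sites (M : Sys) {φ : M.Ω → E} (hφ : Measurable φ) (t : ℕ → ℤ) (k : ℕ) :
    MeasurePreserving (φ ∘ M.S (t k)) M.μ (M.μ.map φ) :=
  (hφ.measurePreserving M.μ).comp (M.S_mp (t k))

instance isProb_map {M : Sys} {φ : M.Ω → E} [hφ : Fact (Measurable φ)] :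
    IsProbabilityMeasure (M.μ.map φ) :=
  Measure.isProbabilityMeasure_map hφ.out.aemeasurable

/-- the sigma-algebra of a site variable -/
theorem aele_eV (M : Sys) {φ : M.Ω → E} (hφ : Measurable φ) (i : ι) :
    AELe (lb M.μ) (mE.comap (fun x => eV s M φ x i)) (siteA M (s i)) := by
  have hpr : IsProbabilityMeasure (M.μ.map φ) :=
    Measure.isProbabilityMeasure_map hφ.aemeasurable
  refine (aele_comap_siteG (μ := M.μ) (ν := M.μ.map φ) (m := mE)
    (g := fun k => φ ∘ M.S (s i k)) (fun k => mp_sites M hφ (s i) k) le_rfl).trans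
    (AELe.of_le ?_)
  refine MeasurableSpace.generateFrom_mono ?_
  rintro B ⟨A, hA, rfl⟩
  exact ⟨φ ⁻¹' A, hφ hA, rfl⟩

omit [Fintype ι] [DecidableEq ι] in
/-- the site variables of an extension -/
theorem eV_ext {P Q : Pair Y} (e : Ext P Q) {φ : P.Ω → E} (x : Lb Q.Ω) (i : ι) :
    eV s P.toSys φ (Lb.mp e.f x) i = sv (fun k => (φ ∘ P.S (s i k)) ∘ e.f) x := rfl

omit [Fintype ι] [DecidableEq ι] in
theorem eV_ext_ae {P Q : Pair Y} (e : Ext P Q) (φ : P.Ω → E) (i : ι) :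
    (fun x => eV s P.toSys φ (Lb.mp e.f x) i) =ᵐ[lb Q.μ]
      fun x => eV s Q.toSys (φ ∘ e.f) x i := by
  refine sv_congr_ae (g := fun k => (φ ∘ P.S (s i k)) ∘ e.f)
    (g' := fun k => (φ ∘ e.f) ∘ Q.S (s i k)) (fun k => ?_)
  filter_upwards [e.f_S (s i k)] with x hx
  simp only [Function.comp]
  rw [hx]

omit [Fintype ι] [DecidableEq ι] [StandardBorelSpace E] [Nonempty E] in
theorem aele_comap_congr {α : Type*} [MeasurableSpace α] {μ : Measure α} {f g : α → E}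
    (h : f =ᵐ[μ] g) : AELe μ (mE.comap f) (mE.comap g) := by
  rintro _ ⟨A, hA, rfl⟩
  exact ⟨g ⁻¹' A, ⟨A, hA, rfl⟩, h.preimage A⟩

omit [Fintype ι] [DecidableEq ι] in
/-- the base point of a site variable -/
theorem π_eV_ae [StandardBorelSpace Y.Ω] [Nonempty Y.Ω] {P Q : Pair Y} (e : Ext P Q) {φ : P.Ω → E}
    (hφ : Measurable φ) {πE : E → Y.Ω} (hπE : Measurable πE)
    (hπ : (fun x => πE (φ x)) =ᵐ[P.μ] P.π) (i : ι) :
    (fun x => πE (eV s P.toSys φ (Lb.mp e.f x) i)) =ᵐ[lb Q.μ]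
      sv (fun k => Y.S (s i k) ∘ Q.π) := by
  have hpr : IsProbabilityMeasure (Q.μ.map (φ ∘ e.f)) :=
    Measure.isProbabilityMeasure_map (hφ.comp e.f_mp.measurable).aemeasurable
  have h1 := eV_ext_ae s e φ i
  have h2 : ∀ᵐ x ∂(lb Q.μ), sv (fun k => πE ∘ ((φ ∘ e.f) ∘ Q.S (s i k))) x =
      πE (sv (fun k => (φ ∘ e.f) ∘ Q.S (s i k)) x) :=
    sv_comp_ae (ν := Q.μ.map (φ ∘ e.f)) (fun k => mp_sites Q.toSys (hφ.comp e.f_mp.measurable) (s i) k)
      hπE
  have h3 : sv (fun k => πE ∘ ((φ ∘ e.f) ∘ Q.S (s i k))) =ᵐ[lb Q.μ]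
      sv (fun k => Y.S (s i k) ∘ Q.π) := by
    refine sv_congr_ae fun k => ?_
    have h4 : (fun x => πE (φ (e.f x))) =ᵐ[Q.μ] fun x => P.π (e.f x) :=
      e.f_mp.quasiMeasurePreserving.ae_eq_comp hπ
    have h5 : (fun x => πE (φ (e.f x))) =ᵐ[Q.μ] Q.π := h4.trans e.f_π.symm
    have h6 : (fun x => πE (φ (e.f (Q.S (s i k) x)))) =ᵐ[Q.μ] fun x => Q.π (Q.S (s i k) x) :=
      (Q.S_mp (s i k)).quasiMeasurePreserving.ae_eq_comp h5
    exact h6.trans (Q.π_S (s i k))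
  filter_upwards [h1, h2, h3] with x hx1 hx2 hx3
  rw [hx1]
  exact hx2.symm.trans hx3

/-- **(TWO)** the second level of `Arr3`. -/
theorem twoCopies [StandardBorelSpace Y.Ω] [Nonempty Y.Ω] {P Q : Pair Y} (e1 e2 : Ext P Q)
    (h1 : S1At P Q e1) (h2 : S1At P Q e2)
    (hC : Indep (P.C.comap e1.f) (P.C.comap e2.f) Q.μ) {φ : P.Ω → E} (hφ : Measurable φ)
    {πE : E → Y.Ω} (hπE : Measurable πE) (hπ : (fun x => πE (φ x)) =ᵐ[P.μ] P.π)
    (hQ : ∀ i0, iCI (lb Q.μ) (fun i => siteA Q.toSys (s i)) (Finset.univ.erase i0) (LL Q.C))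
    (j0 : ι) :
    Arr3.TwoCopies (LL P.C) (LL Q.C) (lb P.μ) (lb Q.μ) (Lb.mp e1.f) (Lb.mp e2.f)
      (eV s P.toSys φ) πE j0 where
  hC2 := LL_mono Q.C_le
  mq := measurePreserving_lbmap fun _ => e1.f_mp
  mq' := measurePreserving_lbmap fun _ => e2.f_mp
  le := by
    refine (le_of_eq (comap_lbmap_LL e1.f)).trans (LL_mono e1.f_C)
  le' := by
    refine (le_of_eq (comap_lbmap_LL e2.f)).trans (LL_mono e2.f_C)
  indCC := by
    have e1' : (LL P.C).comap (Lb.mp e1.f) = LL (P.C.comap e1.f) := comap_lbmap_LL e1.f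
    have e2' : (LL P.C).comap (Lb.mp e2.f) = LL (P.C.comap e2.f) := comap_lbmap_LL e2.f
    rw [e1', e2']
    exact indep_LL (comap_le_of_mp e1.f_mp P.C_le) (comap_le_of_mp e2.f_mp P.C_le) hC
  S1 F hF hb := by
    refine condExp_loeb_comp (mα := Q.ms) (mβ := P.ms) Q.C_le P.C_le e1.f_mp (fun f hf => ?_)
      (F := F) ⟨hF, hb⟩
    exact h1 f ⟨hf.meas, hf.bdd⟩
  S1' F hF hb := by
    refine condExp_loeb_comp (mα := Q.ms) (mβ := P.ms) Q.C_le P.C_le e2.f_mp (fun f hf => ?_)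
      (F := F) ⟨hF, hb⟩
    exact h2 f ⟨hf.meas, hf.bdd⟩
  XX := by
    filter_upwards [π_eV_ae s e1 hφ hπE hπ j0, π_eV_ae s e2 hφ hπE hπ j0] with x hx hy
    rw [hx, hy]
  ind2 i0 := by
    have key : ∀ e : Ext P Q, ∀ i : ι,
        AELe (lb Q.μ) (mE.comap (fun x => eV s P.toSys φ (Lb.mp e.f x) i))
          (siteA Q.toSys (s i)) := fun e i =>
      (aele_comap_congr (eV_ext_ae s e φ i)).trans
        (aele_eV s Q.toSys (hφ.comp e.f_mp.measurable) i)
    have hmeas : ∀ e : Ext P Q, ∀ i : ι,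
        Measurable (fun x => eV s P.toSys φ (Lb.mp e.f x) i) := fun e i =>
      ((measurable_pi_apply i).comp (measurable_eV s P.toSys hφ)).comp
        (measurable_lbmap fun _ => e.f_mp.measurable)
    refine iCI_of_aele (fun i _ => ?_) (fun i _ => ?_) (fun i _ => ?_) (hQ i0)
    · exact siteM_le Q.toSys (s i) le_rfl
    · exact ((hmeas e1 i).prodMk (hmeas e2 i)).comap_le
    · have : (inferInstance : MeasurableSpace (E × E)).comap
          (fun x => (eV s P.toSys φ (Lb.mp e1.f x) i, eV s P.toSys φ (Lb.mp e2.f x) i)) =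
          mE.comap (fun x => eV s P.toSys φ (Lb.mp e1.f x) i) ⊔
            mE.comap (fun x => eV s P.toSys φ (Lb.mp e2.f x) i) := by
        show MeasurableSpace.comap _ (mE.comap Prod.fst ⊔ mE.comap Prod.snd) = _
        rw [MeasurableSpace.comap_sup, MeasurableSpace.comap_comp, MeasurableSpace.comap_comp]
        rfl
      rw [this]
      exact AELe.sup (key e1 i) (key e2 i)

end inst

end Crest.Agent.R069.TwoTop
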