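import Mathlib

/-!
# Row 69, node VISX, part 1: the multilinear spectral step

`τ` a bounded multilinear form on a real Hilbert space `H`, `a` a positive self-adjoint contraction
with the rule "`a` in slot `j` = `a` in all the other slots", and the bound
`|τ f|² ≤ ⟪a f_i, f_i⟫ ∏_{j ≠ i} ‖f_j‖²` for one slot `i`.  Then `τ` only sees `ker (1 - a)`.
-/

set_option autoImplicit false
set_option linter.unusedSectionVars false

open Filter Set
open scoped Topology RealInnerProductSpace

namespace Crest.Agent.R069.VisX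

variable {H : Type*} [NormedAddCommGroup H] [InnerProductSpace ℝ H] [CompleteSpace H]

/-- A positive self-adjoint contraction. -/
structure PC (a : H →L[ℝ] H) : Prop where
  symm : ∀ x y, ⟪a x, y⟫ = ⟪x, a y⟫
  nonneg : ∀ x, 0 ≤ ⟪a x, x⟫
  le : ∀ x, ⟪a x, x⟫ ≤ ‖x‖ ^ 2

/-- the fixed space of `a` -/
def fixS (a : H →L[ℝ] H) : Submodule ℝ H := LinearMap.ker ((a - ContinuousLinearMap.id ℝ H : H →L[ℝ] H) : H →ₗ[ℝ] H)

omit [CompleteSpace H] in
theorem mem_fixS {a : H →L[ℝ] H} {x : H} : x ∈ fixS a ↔ a x = x := by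
  simp [fixS, sub_eq_zero]

omit [CompleteSpace H] in
theorem isClosed_fixS (a : H →L[ℝ] H) : IsClosed (fixS a : Set H) := by
  have : (fixS a : Set H) = {x | a x = x} := by ext x; exact mem_fixS
  rw [this]
  exact isClosed_eq a.continuous continuous_id

instance (a : H →L[ℝ] H) : CompleteSpace (fixS a) := (isClosed_fixS a).completeSpace_coe

/-- the projection onto the fixed space -/
noncomputable def pr (a : H →L[ℝ] H) : H →L[ℝ] H := (fixS a).starProjection

namespace PC

variable {a : H →L[ℝ] H}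

omit [CompleteSpace H] in
theorem pow_symm (h : PC a) (n : ℕ) (x y : H) : ⟪(a ^ n) x, y⟫ = ⟪x, (a ^ n) y⟫ := by
  induction n generalizing x y with
  | zero => simp
  | succ n ih =>
    rw [pow_succ]
    show ⟪(a ^ n) (a x), y⟫ = ⟪x, (a ^ n) (a y)⟫
    rw [ih, h.symm]
    congr 1
    have : a * a ^ n = a ^ n * a := (Commute.refl a).pow_right n
    exact congrArg (fun b : H →L[ℝ] H => b y) this

omit [CompleteSpace H] in
theorem pow_pow (m n : ℕ) (x : H) : (a ^ m) ((a ^ n) x) = (a ^ (m + n)) x := by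
  rw [pow_add]; rfl

omit [CompleteSpace H] in
theorem inner_pow_pow (h : PC a) (m n : ℕ) (x : H) :
    ⟪(a ^ m) x, (a ^ n) x⟫ = ⟪(a ^ (m + n)) x, x⟫ := by
  rw [h.pow_symm m, pow_pow, ← h.pow_symm]

omit [CompleteSpace H] in
/-- `⟪a x, a x⟫ ≤ ⟪a x, x⟫`: the form of `a - a²` is nonnegative. -/
theorem norm_sq_le (h : PC a) (x : H) : ‖a x‖ ^ 2 ≤ ⟪a x, x⟫ := by
  -- Cauchy–Schwarz for the semi inner product `⟪a ·, ·⟫`
  set t := ⟪a x, x⟫ with ht
  set s := ‖a x‖ ^ 2 with hs
  have hs0 : 0 ≤ s := by positivity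
  have ht0 : 0 ≤ t := h.nonneg x
  have h2 : ⟪a (a x), a x⟫ ≤ s := h.le (a x)
  have h3 : ⟪a x, a x⟫ = s := real_inner_self_eq_norm_sq _
  -- for every real c: 0 ≤ ⟪a (x - c • a x), x - c • a x⟫
  have key : ∀ c : ℝ, 0 ≤ t - 2 * c * s + c ^ 2 * ⟪a (a x), a x⟫ := by
    intro c
    have := h.nonneg (x - c • a x)
    have e1 : ⟪a (a x), x⟫ = s := by rw [h.symm (a x) x, real_inner_comm]; 
                                     rw [← h3, real_inner_comm]
    simp only [map_sub, map_smul, inner_sub_left, inner_sub_right, real_inner_smul_left,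
      real_inner_smul_right] at this
    rw [h3, e1] at this
    nlinarith [this]
  by_contra hlt
  push Not at hlt
  have := key 1
  nlinarith

omit [CompleteSpace H] in
theorem norm_le (h : PC a) (x : H) : ‖a x‖ ≤ ‖x‖ := by
  have h1 := h.norm_sq_le x
  have h2 := h.le x
  have : ‖a x‖ ^ 2 ≤ ‖x‖ ^ 2 := h1.trans h2
  exact (sq_le_sq₀ (norm_nonneg _) (norm_nonneg _)).1 this

omit [CompleteSpace H] in
theorem pow_norm_le (h : PC a) (n : ℕ) (x : H) : ‖(a ^ n) x‖ ≤ ‖x‖ := by
  induction n generalizing x with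
  | zero => simp
  | succ n ih =>
    rw [pow_succ]
    exact (ih (a x)).trans (h.norm_le x)

omit [CompleteSpace H] in
theorem inner_pow_anti (h : PC a) (x : H) : Antitone (fun n => ⟪(a ^ n) x, x⟫) := by
  apply antitone_nat_of_succ_le
  intro n
  rcases Nat.even_or_odd n with ⟨k, hk⟩ | ⟨k, hk⟩
  · -- n = 2k : ⟪a^{2k+1} x, x⟫ = ⟪a y, y⟫ ≤ ‖y‖² with y = a^k x
    subst hk
    have e1 : ⟪(a ^ (k + k + 1)) x, x⟫ = ⟪a ((a ^ k) x), (a ^ k) x⟫ := by
      have : (a ^ (k + k + 1)) x = (a ^ k) (a ((a ^ k) x)) := by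
        have : a ^ (k + k + 1) = a ^ k * (a * a ^ k) := by
          rw [← pow_succ' , ← pow_add]; congr 1
        rw [this]; rfl
      rw [this, h.pow_symm]
    have e2 : ⟪(a ^ (k + k)) x, x⟫ = ‖(a ^ k) x‖ ^ 2 := by
      rw [← h.inner_pow_pow, real_inner_self_eq_norm_sq]
    rw [e1, e2]
    exact h.le _
  · -- n = 2k+1 : ⟪a^{2k+2} x, x⟫ = ‖a y‖² ≤ ⟪a y, y⟫
    subst hk
    have e1 : ⟪(a ^ (2 * k + 1 + 1)) x, x⟫ = ‖a ((a ^ k) x)‖ ^ 2 := by
      have e : a ((a ^ k) x) = (a ^ (k + 1)) x := by rw [pow_succ']; rfl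
      rw [e, ← real_inner_self_eq_norm_sq, h.inner_pow_pow]
      congr 2
      ring_nf
    have e2 : ⟪(a ^ (2 * k + 1)) x, x⟫ = ⟪a ((a ^ k) x), (a ^ k) x⟫ := by
      have : (a ^ (2 * k + 1)) x = (a ^ k) (a ((a ^ k) x)) := by
        have : a ^ (2 * k + 1) = a ^ k * (a * a ^ k) := by
          rw [← pow_succ' , ← pow_add]; congr 1; ring
        rw [this]; rfl
      rw [this, h.pow_symm]
    rw [e1, e2]
    exact h.norm_sq_le _

/-- `a^n x → pr a x`. -/
theorem tendsto_pow (h : PC a) (x : H) : Tendsto (fun n => (a ^ n) x) atTop (𝓝 (pr a x)) := by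
  -- Cauchy
  have hconv : ∃ l, Tendsto (fun n => ⟪(a ^ n) x, x⟫) atTop (𝓝 l) := by
    have hbdd : BddBelow (range (fun n => ⟪(a ^ n) x, x⟫)) := by
      refine ⟨-‖x‖ ^ 2, ?_⟩
      rintro _ ⟨n, rfl⟩
      have h1 := abs_real_inner_le_norm ((a ^ n) x) x
      have h2 := h.pow_norm_le n x
      have h3 := neg_abs_le ⟪(a ^ n) x, x⟫
      have h4 : ‖(a ^ n) x‖ * ‖x‖ ≤ ‖x‖ * ‖x‖ := by gcongr
      show -‖x‖ ^ 2 ≤ ⟪(a ^ n) x, x⟫
      nlinarith
    exact ⟨_, tendsto_atTop_ciInf (h.inner_pow_anti x) hbdd⟩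
  obtain ⟨l, hl⟩ := hconv
  have hcauchy : CauchySeq (fun n => (a ^ n) x) := by
    rw [Metric.cauchySeq_iff']
    intro ε hε
    rw [Metric.tendsto_atTop] at hl
    obtain ⟨N, hN⟩ := hl (ε ^ 2 / 4) (by positivity)
    refine ⟨N, fun n hn => ?_⟩
    rw [dist_eq_norm]
    have e : ‖(a ^ n) x - (a ^ N) x‖ ^ 2
        = ⟪(a ^ (n + n)) x, x⟫ - 2 * ⟪(a ^ (n + N)) x, x⟫ + ⟪(a ^ (N + N)) x, x⟫ := by
      rw [← real_inner_self_eq_norm_sq, inner_sub_left, inner_sub_right, inner_sub_right,
        h.inner_pow_pow, h.inner_pow_pow, h.inner_pow_pow, h.inner_pow_pow, add_comm N n]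
      ring
    have h1 := hN (n + n) (by omega)
    have h2 := hN (n + N) (by omega)
    have h3 := hN (N + N) (by omega)
    rw [Real.dist_eq, abs_lt] at h1 h2 h3
    have : ‖(a ^ n) x - (a ^ N) x‖ ^ 2 < ε ^ 2 := by rw [e]; linarith
    exact (sq_lt_sq₀ (norm_nonneg _) hε.le).1 this
  obtain ⟨y, hy⟩ := cauchySeq_tendsto_of_complete hcauchy
  have hay : a y = y := by
    have h1 : Tendsto (fun n => a ((a ^ n) x)) atTop (𝓝 (a y)) := (a.continuous.tendsto y).comp hy
    have h2 : Tendsto (fun n => (a ^ (n + 1)) x) atTop (𝓝 y) := hy.comp (tendsto_add_atTop_nat 1)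
    have e : (fun n => a ((a ^ n) x)) = fun n => (a ^ (n + 1)) x := by
      funext n; rw [pow_succ']; rfl
    rw [e] at h1
    exact tendsto_nhds_unique h1 h2
  have hpr : pr a x = y := by
    refine Submodule.eq_starProjection_of_mem_of_inner_eq_zero (mem_fixS.2 hay) ?_
    intro w hw
    rw [inner_sub_left, sub_eq_zero]
    have h1 : Tendsto (fun n => ⟪(a ^ n) x, w⟫) atTop (𝓝 ⟪y, w⟫) := by
      exact (hy.inner tendsto_const_nhds)
    have h2 : ∀ n, ⟪(a ^ n) x, w⟫ = ⟪x, w⟫ := by
      intro n
      rw [h.pow_symm]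
      congr 1
      induction n with
      | zero => simp
      | succ n ih => rw [pow_succ]; show (a ^ n) (a w) = w; rw [mem_fixS.1 hw, ih]
    simp only [h2] at h1
    exact tendsto_nhds_unique tendsto_const_nhds h1
  rw [hpr]; exact hy

omit [CompleteSpace H] in
theorem compl (h : PC a) : PC (ContinuousLinearMap.id ℝ H - a) where
  symm x y := by
    simp only [_root_.sub_apply, ContinuousLinearMap.id_apply, inner_sub_left,
      inner_sub_right, h.symm]
  nonneg x := by
    simp only [_root_.sub_apply, ContinuousLinearMap.id_apply, inner_sub_left,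
      real_inner_self_eq_norm_sq]
    linarith [h.le x]
  le x := by
    simp only [_root_.sub_apply, ContinuousLinearMap.id_apply, inner_sub_left,
      real_inner_self_eq_norm_sq]
    linarith [h.nonneg x]

end PC

theorem pr_apply_mem (a : H →L[ℝ] H) (x : H) : a (pr a x) = pr a x :=
  mem_fixS.1 (Submodule.starProjection_apply_mem (fixS a) x)

theorem pr_pr (a : H →L[ℝ] H) (x : H) : pr a (pr a x) = pr a x :=
  Submodule.starProjection_eq_self_iff.2 (Submodule.starProjection_apply_mem (fixS a) x)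

theorem pr_comm {a : H →L[ℝ] H} (h : PC a) (x : H) : pr a (a x) = pr a x := by
  have h1 := h.tendsto_pow (a x)
  have h2 := (h.tendsto_pow x).comp (tendsto_add_atTop_nat 1)
  have e : (fun n => (a ^ n) (a x)) = (fun n => (a ^ n) x) ∘ (fun n => n + 1) := by
    funext n; show (a ^ n) (a x) = (a ^ (n + 1)) x; rw [pow_succ]; rfl
  rw [e] at h1
  exact tendsto_nhds_unique h1 h2

section tau

variable {ι : Type*} [Fintype ι] [DecidableEq ι]
  {τ : MultilinearMap ℝ (fun _ : ι => H) ℝ} {a : H →L[ℝ] H}

omit [CompleteSpace H] in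
theorem tendsto_tau (hτ : ∀ f : ι → H, |τ f| ≤ ∏ j, ‖f j‖) {F : ℕ → ι → H} {G : ι → H}
    (h : ∀ j, Tendsto (fun n => F n j) atTop (𝓝 (G j))) :
    Tendsto (fun n => τ (F n)) atTop (𝓝 (τ G)) := by
  let τc : ContinuousMultilinearMap ℝ (fun _ : ι => H) ℝ :=
    τ.mkContinuous 1 (fun f => by simpa using hτ f)
  have : Continuous τc := τc.cont
  exact (this.tendsto G).comp (tendsto_pi_nhds.2 h)

/-- the functional in one slot -/
noncomputable def slot (τ : MultilinearMap ℝ (fun _ : ι => H) ℝ) (hτ : ∀ f : ι → H, |τ f| ≤ ∏ j, ‖f j‖)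
    (f : ι → H) (m : ι) : H →L[ℝ] ℝ :=
  (τ.mkContinuous 1 (fun f => by simpa using hτ f)).toContinuousLinearMap f m

omit [CompleteSpace H] in
theorem slot_apply (hτ : ∀ f : ι → H, |τ f| ≤ ∏ j, ‖f j‖) (f : ι → H) (m : ι) (h : H) :
    slot τ hτ f m h = τ (Function.update f m h) := rfl

/-- rule twice -/
theorem rule_twice (rule : ∀ j (f : ι → H), τ (Function.update f j (a (f j)))
      = τ (fun l => if l = j then f l else a (f l)))
    {i k : ι} (hik : i ≠ k) (f : ι → H) :
    τ (Function.update f i (a (f i)))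
      = τ (Function.update (fun l => if l = i ∨ l = k then f l else a (a (f l))) i (a (f i))) := by
  rw [rule i f]
  set h' : ι → H := fun l => if l = i ∨ l = k then f l else a (f l) with hh'
  have e1 : (fun l => if l = i then f l else a (f l)) = Function.update h' k (a (h' k)) := by
    funext l
    by_cases hlk : l = k
    · subst hlk
      simp [hh', hik.symm]
    · by_cases hli : l = i
      · subst hli; simp [hh', hlk]
      · simp [hh', hlk, hli]
  rw [e1, rule k h']
  congr 1
  funext l
  by_cases hlk : l = k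
  · subst hlk
    simp [hh', hik.symm]
  · by_cases hli : l = i
    · subst hli; simp [hh', hlk]
    · simp [hh', hlk, hli]

theorem rule_iter (rule : ∀ j (f : ι → H), τ (Function.update f j (a (f j)))
      = τ (fun l => if l = j then f l else a (f l)))
    {i k : ι} (hik : i ≠ k) (n : ℕ) (f : ι → H) :
    τ (Function.update f i (a (f i)))
      = τ (Function.update (fun l => if l = i ∨ l = k then f l else (a ^ (2 * n)) (f l)) i
          (a (f i))) := by
  induction n generalizing f with
  | zero => simp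
  | succ n ih =>
    rw [rule_twice rule hik f]
    have := ih (fun l => if l = i ∨ l = k then f l else a (a (f l)))
    simp only [true_or, if_true] at this
    rw [this]
    congr 1
    funext l
    by_cases hli : l = i
    · subst hli; simp
    · by_cases hlk : l = k
      · subst hlk; simp [hli]
      · simp only [Function.update_of_ne hli, hli, hlk, or_self, if_false]
        have : a ^ (2 * (n + 1)) = a ^ (2 * n) * (a * a) := by
          rw [mul_add, pow_add]; simp [pow_two]
        rw [this]; rfl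

theorem tau_zero₂ (ha : PC a) (hτ : ∀ f : ι → H, |τ f| ≤ ∏ j, ‖f j‖)
    (rule : ∀ j (f : ι → H), τ (Function.update f j (a (f j)))
      = τ (fun l => if l = j then f l else a (f l)))
    {i j k : ι} (hik : i ≠ k) (hij : i ≠ j) (hjk : j ≠ k) (f : ι → H) (hf : pr a (f j) = 0) :
    τ (Function.update f i (a (f i))) = 0 := by
  have h1 : Tendsto (fun n : ℕ => τ (Function.update
      (fun l => if l = i ∨ l = k then f l else (a ^ (2 * n)) (f l)) i (a (f i)))) atTop
      (𝓝 (τ (Function.update (fun l => if l = i ∨ l = k then f l else pr a (f l)) i (a (f i))))) := by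
    apply tendsto_tau hτ
    intro l
    by_cases hli : l = i
    · subst hli
      simp only [Function.update_self]
      exact tendsto_const_nhds
    · simp only [Function.update_of_ne hli]
      by_cases hlk : l = k
      · simp only [hlk, or_true, if_true]; exact tendsto_const_nhds
      · simp only [hli, hlk, or_self, if_false]
        exact (ha.tendsto_pow (f l)).comp (tendsto_id.const_mul_atTop' (by norm_num : 0 < 2))
  have h2 : (fun n : ℕ => τ (Function.update
      (fun l => if l = i ∨ l = k then f l else (a ^ (2 * n)) (f l)) i (a (f i))))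
      = fun _ => τ (Function.update f i (a (f i))) := by
    funext n; exact (rule_iter rule hik n f).symm
  rw [h2] at h1
  have h3 := tendsto_nhds_unique tendsto_const_nhds h1
  rw [h3]
  apply τ.map_coord_zero j
  simp only [Function.update_of_ne hij.symm, hij.symm, hjk, or_self, if_false]
  exact hf

theorem exists_third (hc : 3 ≤ Fintype.card ι) (i j : ι) : ∃ k, i ≠ k ∧ j ≠ k := by
  classical
  by_contra hcon
  push Not at hcon
  have : (Finset.univ : Finset ι) ⊆ {i, j} := by
    intro k _
    simp only [Finset.mem_insert, Finset.mem_singleton]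
    by_cases h : i = k
    · exact Or.inl h.symm
    · exact Or.inr (hcon k h).symm
  have h2 := Finset.card_le_card this
  have h3 : ({i, j} : Finset ι).card ≤ 2 := Finset.card_le_two
  rw [Finset.card_univ] at h2
  omega

theorem tau_zero_ne (hc : 3 ≤ Fintype.card ι) (ha : PC a)
    (hτ : ∀ f : ι → H, |τ f| ≤ ∏ j, ‖f j‖)
    (rule : ∀ j (f : ι → H), τ (Function.update f j (a (f j)))
      = τ (fun l => if l = j then f l else a (f l)))
    {i j : ι} (hij : i ≠ j) (f : ι → H) (hf : pr a (f j) = 0) :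
    τ (Function.update f i (a (f i))) = 0 := by
  obtain ⟨k, hik, hjk⟩ := exists_third hc i j
  exact tau_zero₂ ha hτ rule hik hij hjk f hf

theorem tau_zero_eq (hc : 3 ≤ Fintype.card ι) (ha : PC a)
    (hτ : ∀ f : ι → H, |τ f| ≤ ∏ j, ‖f j‖)
    (rule : ∀ j (f : ι → H), τ (Function.update f j (a (f j)))
      = τ (fun l => if l = j then f l else a (f l)))
    (j : ι) (f : ι → H) (hf : pr a (f j) = 0) :
    τ (Function.update f j (a (f j))) = 0 := by
  obtain ⟨i, hji, -⟩ := exists_third hc j j
  rw [rule j f]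
  have e : (fun l => if l = j then f l else a (f l))
      = Function.update (Function.update (fun l => if l = j then f l else a (f l)) i (f i)) i
        (a ((Function.update (fun l => if l = j then f l else a (f l)) i (f i)) i)) := by
    funext l
    by_cases hli : l = i
    · subst hli; simp [hji.symm]
    · simp [hli]
  rw [e]
  apply tau_zero_ne hc ha hτ rule hji.symm
  rw [Function.update_of_ne hji]
  simpa using hf

/-- in the distinguished slot -/
theorem tau_zero_slot (hc : 3 ≤ Fintype.card ι) (ha : PC a)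
    (hτ : ∀ f : ι → H, |τ f| ≤ ∏ j, ‖f j‖)
    (rule : ∀ j (f : ι → H), τ (Function.update f j (a (f j)))
      = τ (fun l => if l = j then f l else a (f l)))
    (i : ι) (dom : ∀ f : ι → H, (τ f) ^ 2 ≤ ⟪a (f i), f i⟫ * ∏ j ∈ Finset.univ.erase i, ‖f j‖ ^ 2)
    (f : ι → H) (hf : pr a (f i) = 0) : τ f = 0 := by
  set b : H →L[ℝ] H := ContinuousLinearMap.id ℝ H - a with hb
  have hbP : PC b := ha.compl
  set φ := slot τ hτ f i with hφ
  have hφa : ∀ y, pr a y = 0 → φ (a y) = 0 := by
    intro y hy
    rw [hφ, slot_apply]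
    have := tau_zero_eq hc ha hτ rule i (Function.update f i y) (by simpa using hy)
    simpa using this
  have hK : ∀ n : ℕ, pr a ((b ^ n) (f i)) = 0 ∧ φ ((b ^ n) (f i)) = φ (f i) := by
    intro n
    induction n with
    | zero => exact ⟨by simpa using hf, by simp⟩
    | succ n ih =>
      have e : (b ^ (n + 1)) (f i) = (b ^ n) (f i) - a ((b ^ n) (f i)) := by
        rw [pow_succ']; rfl
      rw [e]
      refine ⟨?_, ?_⟩
      · rw [map_sub, pr_comm ha, sub_self]
      · rw [map_sub, hφa _ ih.1, sub_zero, ih.2]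
  have hlim : Tendsto (fun n => φ ((b ^ n) (f i))) atTop (𝓝 (φ (pr b (f i)))) :=
    (φ.continuous.tendsto _).comp (hbP.tendsto_pow (f i))
  have e2 : (fun n => φ ((b ^ n) (f i))) = fun _ => φ (f i) := by
    funext n; exact (hK n).2
  rw [e2] at hlim
  have h3 : φ (f i) = φ (pr b (f i)) := tendsto_nhds_unique tendsto_const_nhds hlim
  have h4 : a (pr b (f i)) = 0 := by
    have := pr_apply_mem b (f i)
    rw [hb] at this
    simp only [_root_.sub_apply, ContinuousLinearMap.id_apply] at this
    have h5 : ∀ y : H, y - a y = y → a y = 0 := fun y hy => by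
      have := sub_eq_self.1 hy; exact this
    exact h5 _ this
  have h5 : φ (pr b (f i)) = 0 := by
    have := dom (Function.update f i (pr b (f i)))
    rw [Function.update_self, h4, inner_zero_left, zero_mul] at this
    rw [hφ, slot_apply]
    exact pow_eq_zero_iff (two_ne_zero) |>.1 (le_antisymm this (sq_nonneg _))
  have h6 : φ (f i) = τ f := by rw [hφ, slot_apply, Function.update_eq_self]
  rw [← h6, h3, h5]

/-- **The multilinear spectral step**: `τ` only sees the fixed space of `a`, in every slot. -/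
theorem tau_spec (hc : 3 ≤ Fintype.card ι) (ha : PC a)
    (hτ : ∀ f : ι → H, |τ f| ≤ ∏ j, ‖f j‖)
    (rule : ∀ j (f : ι → H), τ (Function.update f j (a (f j)))
      = τ (fun l => if l = j then f l else a (f l)))
    (i : ι) (dom : ∀ f : ι → H, (τ f) ^ 2 ≤ ⟪a (f i), f i⟫ * ∏ j ∈ Finset.univ.erase i, ‖f j‖ ^ 2)
    (m : ι) (f : ι → H) : τ f = τ (Function.update f m (pr a (f m))) := by
  -- it is enough to kill `ker (pr a)`
  suffices hz : ∀ f : ι → H, pr a (f m) = 0 → τ f = 0 by
    have h1 := hz (Function.update f m (f m - pr a (f m)))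
      (by simp [map_sub, pr_pr])
    rw [τ.map_update_sub, sub_eq_zero, Function.update_eq_self] at h1
    exact h1
  intro f hf
  by_cases hmi : m = i
  · subst hmi; exact tau_zero_slot hc ha hτ rule m dom f hf
  · -- first replace slot i by its projection
    have h1 : τ f = τ (Function.update f i (pr a (f i))) := by
      have h1 := tau_zero_slot hc ha hτ rule i dom (Function.update f i (f i - pr a (f i)))
        (by simp [map_sub, pr_pr])
      rw [τ.map_update_sub, sub_eq_zero, Function.update_eq_self] at h1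
      exact h1
    rw [h1]
    have h2 := tau_zero_ne hc ha hτ rule (Ne.symm hmi) (Function.update f i (pr a (f i)))
      (by rw [Function.update_of_ne hmi]; exact hf)
    simpa [pr_apply_mem] using h2

/-- The version with one operator for every role: `τ` only sees the intersection of the fixed
spaces. -/
theorem tau_spec_all (hc : 3 ≤ Fintype.card ι) {A : ι → H →L[ℝ] H} (hA : ∀ i, PC (A i))
    (hτ : ∀ f : ι → H, |τ f| ≤ ∏ j, ‖f j‖)
    (rule : ∀ i j (f : ι → H), τ (Function.update f j (A i (f j)))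
      = τ (fun l => if l = j then f l else A i (f l)))
    (dom : ∀ i (f : ι → H), (τ f) ^ 2 ≤
      ⟪A i (f i), f i⟫ * ∏ j ∈ Finset.univ.erase i, ‖f j‖ ^ 2)
    (K : Submodule ℝ H) [K.HasOrthogonalProjection] (hK : ∀ x, (∀ i, A i x = x) → x ∈ K)
    (m : ι) (f : ι → H) : τ f = τ (Function.update f m (K.starProjection (f m))) := by
  set φ := slot τ hτ f m with hφ
  obtain ⟨v, hv⟩ := (InnerProductSpace.toDual ℝ H).surjective φ
  have hv' : ∀ x, φ x = ⟪v, x⟫ := by intro x; rw [← hv]; rfl
  have hfix : ∀ i x, φ x = φ (pr (A i) x) := by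
    intro i x
    rw [hφ, slot_apply, slot_apply]
    have := tau_spec hc (hA i) hτ (rule i) i (dom i) m (Function.update f m x)
    simpa using this
  have hvK : v ∈ K := by
    apply hK
    intro i
    have h1 : ∀ x, ⟪v, x⟫ = ⟪pr (A i) v, x⟫ := by
      intro x
      rw [← hv', hfix i, hv']
      exact (Submodule.inner_starProjection_left_eq_right (fixS (A i)) v x).symm
    have h2 : v = pr (A i) v := by
      apply ext_inner_right ℝ
      exact h1
    rw [h2]; exact pr_apply_mem _ _
  have h3 : φ (f m) = φ (K.starProjection (f m)) := by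
    rw [hv', hv', ← Submodule.inner_starProjection_left_eq_right,
      Submodule.starProjection_eq_self_iff.2 hvK]
  rw [hφ, slot_apply, slot_apply, Function.update_eq_self] at h3
  exact h3

end tau

end Crest.Agent.R069.VisX
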