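import Crest.Agent.R069.Defs
import Crest.Agent.R069.CI

/-!
# Row 69, node YE: the multilinear form `tau`, factors and conditional expectations
-/

set_option autoImplicit false

open MeasureTheory Filter Set ProbabilityTheory
open scoped ENNReal Topology

namespace Crest.Agent.R069.YETau

section bd

theorem bd_sub {α : Type*} {m : MeasurableSpace α} {f g : α → ℝ} (hf : Bd m f) (hg : Bd m g) :
    Bd m (fun x => f x - g x) := by
  obtain ⟨hf1, K, hK⟩ := hf
  obtain ⟨hg1, L, hL⟩ := hg
  refine ⟨hf1.sub hg1, K + L, fun x => ?_⟩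
  calc |f x - g x| ≤ |f x| + |g x| := abs_sub _ _
    _ ≤ K + L := add_le_add (hK x) (hL x)

theorem bd_comp {α β : Type*} {m : MeasurableSpace α} {m' : MeasurableSpace β} {f : α → ℝ}
    (hf : Bd m f) {φ : β → α} (hφ : Measurable[m', m] φ) : Bd m' (f ∘ φ) := by
  obtain ⟨hf1, K, hK⟩ := hf
  exact ⟨hf1.comp hφ, K, fun x => hK _⟩

theorem bd_mul {α : Type*} {m : MeasurableSpace α} {f g : α → ℝ} (hf : Bd m f) (hg : Bd m g) :
    Bd m (fun x => f x * g x) := by
  obtain ⟨hf1, K, hK⟩ := hf
  obtain ⟨hg1, L, hL⟩ := hg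
  refine ⟨hf1.mul hg1, K * L, fun x => ?_⟩
  rw [abs_mul]
  exact mul_le_mul (hK x) (hL x) (abs_nonneg _) ((abs_nonneg _).trans (hK x))

theorem bd_const {α : Type*} {m : MeasurableSpace α} (c : ℝ) : Bd m (fun _ : α => c) :=
  ⟨measurable_const, |c|, fun _ => le_rfl⟩

theorem bd_prod {α : Type*} {m : MeasurableSpace α} {ι : Type*} (J : Finset ι) {f : ι → α → ℝ}
    (hf : ∀ i ∈ J, Bd m (f i)) : Bd m (fun x => ∏ i ∈ J, f i x) := by
  classical
  induction J using Finset.induction_on with
  | empty => simpa using bd_const (m := m) (1 : ℝ)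
  | insert a J ha ih =>
    simp only [Finset.prod_insert ha]
    exact bd_mul (hf a (Finset.mem_insert_self _ _))
      (ih fun i hi => hf i (Finset.mem_insert_of_mem hi))

theorem bd_integrable {α : Type*} [mα : MeasurableSpace α] {μ : Measure α} [IsFiniteMeasure μ]
    {f : α → ℝ} (hf : Bd mα f) : Integrable f μ := by
  obtain ⟨hf1, K, hK⟩ := hf
  exact Integrable.of_bound hf1.aestronglyMeasurable K (Eventually.of_forall hK)

end bd

section site

variable {X Y : Sys}

theorem integrableX {f : X.Ω → ℝ} (hf : Bd X.ms f) : Integrable f X.μ := bd_integrable hf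

theorem ok_site (s : ℕ → ℤ) {f : X.Ω → ℝ} (hf : Bd X.ms f) :
    StOK (fun k x => f (X.S (s k) x)) := by
  obtain ⟨_, K, hK⟩ := hf
  exact stOK_of_bdd (C := K) fun k x => hK _

theorem bd_sitef (s : ℕ → ℤ) {f : X.Ω → ℝ} (hf : Bd X.ms f) :
    Bd (LL X.ms) (sitef X s f) := by
  have hf' := hf
  obtain ⟨hm, K, hK⟩ := hf
  refine ⟨?_, K, fun x => ?_⟩
  · exact measurable_st (ok_site s hf') (fun k => hm.comp (X.S_mp (s k)).measurable)
  · exact norm_st_le (f := fun k x => f (X.S (s k) x)) (C := K) (fun k x => hK _) x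

theorem sitef_sub (s : ℕ → ℤ) {f g : X.Ω → ℝ} (hf : Bd X.ms f) (hg : Bd X.ms g) (x : Lb X.Ω) :
    sitef X s (fun y => f y - g y) x = sitef X s f x - sitef X s g x := by
  have := congrFun (st_sub (ok_site s hf) (ok_site s hg)) x
  exact this

/-- exact naturality of site functions under an exactly equivariant map. -/
theorem sitef_comp {φ : X.Ω → Y.Ω} (hφ : ∀ n x, φ (X.S n x) = Y.S n (φ x)) (s : ℕ → ℤ)
    (g : Y.Ω → ℝ) (x : Lb X.Ω) : sitef X s (g ∘ φ) x = sitef Y s g (Lb.mp φ x) := by
  show ulim (fun k => g (φ (X.S (s k) (x k)))) = ulim (fun k => g (Y.S (s k) (φ (x k))))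
  simp only [hφ]

theorem integral_lbmp {φ : X.Ω → Y.Ω} (hmp : MeasurePreserving φ X.μ Y.μ) {G : Lb Y.Ω → ℝ}
    (hG : Measurable G) : ∫ x, G (Lb.mp φ x) ∂(lb X.μ) = ∫ y, G y ∂(lb Y.μ) := by
  have h1 : MeasurePreserving (Lb.mp φ) (lb X.μ) (lb Y.μ) := measurePreserving_lbmap fun _ => hmp
  rw [← h1.map_eq, integral_map h1.measurable.aemeasurable hG.aestronglyMeasurable]

theorem integral_prod_comp {ι : Type} (s : ι → ℕ → ℤ) (J : Finset ι) {φ : X.Ω → Y.Ω}
    (hmp : MeasurePreserving φ X.μ Y.μ) (hφ : ∀ n x, φ (X.S n x) = Y.S n (φ x))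
    {g : ι → Y.Ω → ℝ} (hg : ∀ i, Bd Y.ms (g i)) :
    ∫ x, ∏ i ∈ J, sitef X (s i) (g i ∘ φ) x ∂(lb X.μ) =
      ∫ y, ∏ i ∈ J, sitef Y (s i) (g i) y ∂(lb Y.μ) := by
  rw [← integral_lbmp (Y := Y) hmp (G := fun y => ∏ i ∈ J, sitef Y (s i) (g i) y)
    (bd_prod J fun i _ => bd_sitef (s i) (hg i)).1]
  refine integral_congr_ae (Eventually.of_forall fun x => ?_)
  exact Finset.prod_congr rfl fun i _ => sitef_comp hφ (s i) (g i) x

theorem tau_comp {ι : Type} [Fintype ι] (s : ι → ℕ → ℤ) {φ : X.Ω → Y.Ω}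
    (hmp : MeasurePreserving φ X.μ Y.μ) (hφ : ∀ n x, φ (X.S n x) = Y.S n (φ x))
    {g : ι → Y.Ω → ℝ} (hg : ∀ i, Bd Y.ms (g i)) :
    tau X s (fun i => g i ∘ φ) = tau Y s g :=
  integral_prod_comp s Finset.univ hmp hφ hg

theorem integral_comp_fac {φ : X.Ω → Y.Ω} (hmp : MeasurePreserving φ X.μ Y.μ) {g : Y.Ω → ℝ}
    (hg : Bd Y.ms g) : ∫ x, (g ∘ φ) x ∂X.μ = ∫ y, g y ∂Y.μ := by
  rw [← hmp.map_eq, integral_map hmp.measurable.aemeasurable hg.1.aestronglyMeasurable]
  rfl

theorem xInd_fac {ι : Type} (s : ι → ℕ → ℤ) (J : Finset ι) {φ : X.Ω → Y.Ω}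
    (hmp : MeasurePreserving φ X.μ Y.μ) (hφ : ∀ n x, φ (X.S n x) = Y.S n (φ x))
    (h : XInd X s J) : XInd Y s J := by
  intro g hg
  rw [← integral_prod_comp s J hmp hφ hg, h _ fun i => bd_comp (hg i) hmp.measurable]
  exact Finset.prod_congr rfl fun i _ => integral_comp_fac hmp (hg i)

theorem xIndP_fac {ι : Type} [Fintype ι] (s : ι → ℕ → ℤ) {φ : X.Ω → Y.Ω}
    (hmp : MeasurePreserving φ X.μ Y.μ) (hφ : ∀ n x, φ (X.S n x) = Y.S n (φ x))
    (h : XIndP X s) : XIndP Y s := fun J hJ => xInd_fac s J hmp hφ (h J hJ)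

end site

section tau

variable {X : Sys} {ι : Type} [Fintype ι]

open Classical in
theorem tau_update_sub (s : ι → ℕ → ℤ) {f : ι → X.Ω → ℝ} (hf : ∀ i, Bd X.ms (f i)) (i : ι)
    {a b : X.Ω → ℝ} (ha : Bd X.ms a) (hb : Bd X.ms b) :
    tau X s (Function.update f i (fun x => a x - b x)) =
      tau X s (Function.update f i a) - tau X s (Function.update f i b) := by
  have key : ∀ h : X.Ω → ℝ, ∀ x, ∏ j, sitef X (s j) (Function.update f i h j) x =
      sitef X (s i) h x * ∏ j ∈ Finset.univ.erase i, sitef X (s j) (f j) x := by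
    intro h x
    rw [← Finset.mul_prod_erase Finset.univ _ (Finset.mem_univ i), Function.update_self]
    congr 1
    refine Finset.prod_congr rfl fun j hj => ?_
    rw [Function.update_of_ne (Finset.ne_of_mem_erase hj)]
  have hint : ∀ h : X.Ω → ℝ, Bd X.ms h → Integrable (fun x =>
      sitef X (s i) h x * ∏ j ∈ Finset.univ.erase i, sitef X (s j) (f j) x) (lb X.μ) :=
    fun h hh => bd_integrable (bd_mul (bd_sitef (s i) hh)
      (bd_prod _ fun j _ => bd_sitef (s j) (hf j)))
  unfold tau
  simp only [key]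
  rw [← integral_sub (hint a ha) (hint b hb)]
  refine integral_congr_ae (Eventually.of_forall fun x => ?_)
  simp only [sitef_sub (s i) ha hb]
  ring

/-- if slots with zero conditional expectation do not contribute, then `tau` only depends on the
conditional expectations. -/
theorem tau_cond (s : ι → ℕ → ℤ) (m : MeasurableSpace X.Ω)
    (h0 : ∀ f : ι → X.Ω → ℝ, (∀ i, Bd X.ms (f i)) → (∃ i0, X.μ[f i0 | m] =ᵐ[X.μ] 0) →
      tau X s f = 0) {f g : ι → X.Ω → ℝ} (hf : ∀ i, Bd X.ms (f i)) (hg : ∀ i, Bd X.ms (g i))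
    (hfg : ∀ i, X.μ[f i | m] =ᵐ[X.μ] X.μ[g i | m]) : tau X s f = tau X s g := by
  classical
  have key : ∀ T : Finset ι, tau X s (fun j => if j ∈ T then g j else f j) = tau X s f := by
    intro T
    induction T using Finset.induction_on with
    | empty => simp
    | insert i T hi ih =>
      rw [← ih]
      set h : ι → X.Ω → ℝ := fun j => if j ∈ T then g j else f j with hh
      have hhb : ∀ j, Bd X.ms (h j) := by
        intro j
        by_cases hj : j ∈ T
        · simp only [hh, hj, if_true]; exact hg j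
        · simp only [hh, hj, if_false]; exact hf j
      have h1 : (fun j => if j ∈ insert i T then g j else f j) = Function.update h i (g i) := by
        funext j
        by_cases hj : j = i
        · subst hj
          simp
        · rw [Function.update_of_ne hj]
          simp [hh, hj]
      have h2 : h = Function.update h i (f i) := by
        funext j
        by_cases hj : j = i
        · subst hj
          simp [hh, hi]
        · rw [Function.update_of_ne hj]
      rw [h1]
      conv_rhs => rw [h2]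
      have h3 := tau_update_sub s hhb i (hg i) (hf i)
      have h4 : tau X s (Function.update h i (fun x => g i x - f i x)) = 0 := by
        refine h0 _ (fun j => ?_) ⟨i, ?_⟩
        · by_cases hj : j = i
          · subst hj
            rw [Function.update_self]
            exact bd_sub (hg j) (hf j)
          · rw [Function.update_of_ne hj]
            exact hhb j
        · rw [Function.update_self]
          have h5 : X.μ[(fun x => g i x - f i x) | m] =ᵐ[X.μ] X.μ[g i | m] - X.μ[f i | m] :=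
            condExp_sub (integrableX (hg i)) (integrableX (hf i)) m
          filter_upwards [h5, hfg i] with x hx1 hx2
          rw [hx1, Pi.sub_apply, hx2, sub_self]
          rfl
      rw [h4] at h3
      linarith
  have := key Finset.univ
  simpa using this.symm

end tau

end Crest.Agent.R069.YETau
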