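import Crest.Agent.R069.Iface
import Crest.Agent.R069.Fac
import Crest.Agent.R069.YEVis
import Crest.Agent.R069.YETau
import Crest.Agent.R069.ClTr

/-!
# Row 69, node YE: the upstream assembly
`N_SAT`, `N_RULE`, `N_CLOSED`, `N_S1F` (and `N_FAC`, proved) imply `N_YE`.
-/

set_option autoImplicit false

open MeasureTheory Filter Set ProbabilityTheory
open scoped ENNReal Topology

namespace Crest.Agent.R069.YE

open YEVis YETau

/-- transfer of closedness to the standard factor (node CLTR) -/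
def N_CLTR : Prop :=
  ∀ (X : Sys) (P F : Pair X), StandardBorelSpace P.Ω → StandardBorelSpace F.Ω →
    ∀ (φ : P.Ω → F.Ω), FacOf P F φ → ∀ (ι : Type) [Fintype ι] (s : ι → ℕ → ℤ),
      F.ms.comap φ ≤ P.vis s → P.vis s ≤ F.ms.comap φ ⊔ nul P.μ →
      (∀ i, siteM P.toSys (s i) (P.vis s) ≤ restM s i P.toSys (P.vis s) P.C) → Closed s F

theorem comap_le {X Y : Sys} {φ : X.Ω → Y.Ω} (hφ : MeasurePreserving φ X.μ Y.μ) :
    Y.ms.comap φ ≤ X.ms := hφ.measurable.comap_le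

/-- bounded versions of conditional expectations which are functions of the factor map -/
theorem exists_version {X Y : Sys} {φ : X.Ω → Y.Ω} (hφ : MeasurePreserving φ X.μ Y.μ)
    (m : MeasurableSpace X.Ω) (hm : m ≤ X.ms) (h : AELe X.μ m (Y.ms.comap φ))
    {f : X.Ω → ℝ} (hf : Bd X.ms f) :
    ∃ g : Y.Ω → ℝ, Bd Y.ms g ∧ X.μ[f | m] =ᵐ[X.μ] g ∘ φ := by
  have hf' : BdM X.ms f := ⟨hf.1, hf.2⟩
  obtain ⟨F, hF, hFe⟩ := BdM.condExp_bm (μ := X.μ) hm hf'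
  obtain ⟨F', hF', hFe'⟩ := h.exists_bm (μ := X.μ) hm (comap_le hφ) hF
  obtain ⟨g, hg, rfl⟩ := hF'.factors
  exact ⟨g, ⟨hg.meas, hg.bdd⟩, hFe.trans hFe'⟩

theorem bd_fac {X Y : Sys} {φ : X.Ω → Y.Ω} (hφ : MeasurePreserving φ X.μ Y.μ)
    {g : Y.Ω → ℝ} (hg : Bd Y.ms g) : Bd X.ms (g ∘ φ) := bd_comp hg hφ.measurable

theorem condExp_version {X : Sys} (m : MeasurableSpace X.Ω) (hm : m ≤ X.ms)
    {f g : X.Ω → ℝ} (h : X.μ[f | m] =ᵐ[X.μ] g) : X.μ[f | m] =ᵐ[X.μ] X.μ[g | m] := by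
  have h1 : X.μ[X.μ[f | m] | m] =ᵐ[X.μ] X.μ[g | m] := condExp_congr_ae h
  have h2 : X.μ[X.μ[f | m] | m] = X.μ[f | m] :=
    condExp_of_stronglyMeasurable hm stronglyMeasurable_condExp integrable_condExp
  rw [h2] at h1
  exact h1

theorem integral_version {X : Sys} (m : MeasurableSpace X.Ω) (hm : m ≤ X.ms)
    {f g : X.Ω → ℝ} (h : X.μ[f | m] =ᵐ[X.μ] g) : ∫ x, f x ∂X.μ = ∫ x, g x ∂X.μ := by
  rw [← integral_congr_ae h, integral_condExp hm]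

/-- the standard factor of the visible part of the base -/
theorem exists_base {X : Sys} (hX : StandardBorelSpace X.Ω) {ι : Type} [Fintype ι]
    (s : ι → ℕ → ℤ) (m : MeasurableSpace X.Ω) (hm : m ≤ X.ms)
    (hmS : ∀ n, Measurable[m, m] (X.S n))
    (h0 : ∀ f : ι → X.Ω → ℝ, (∀ i, Bd X.ms (f i)) → (∃ i0, X.μ[f i0 | m] =ᵐ[X.μ] 0) →
      tau X s f = 0)
    {f : ι → X.Ω → ℝ} (hf : ∀ i, Bd X.ms (f i)) (hne : tau X s f ≠ ∏ i, ∫ x, f i x ∂X.μ) :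
    ∃ (Y : Sys) (φ : X.Ω → Y.Ω), StandardBorelSpace Y.Ω ∧
      @MeasurePreserving _ _ X.ms Y.ms φ X.μ Y.μ ∧
      (∀ n x, φ (X.S n x) = Y.S n (φ x)) ∧ Y.ms.comap φ ≤ m ∧
      ∃ g : ι → Y.Ω → ℝ, (∀ i, Bd Y.ms (g i)) ∧ tau Y s g ≠ ∏ i, ∫ y, g i y ∂Y.μ := by
  obtain ⟨Y, φ, hY, hφ, hφS, hc1, hc2⟩ := Fac.n_fac X hX m hm hmS
  have hae : AELe X.μ m (Y.ms.comap φ) := @Fac.aele_of_le_sup_nul _ _ _ X.ms _ hc2
  have hex := fun i => exists_version hφ m hm hae (hf i)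
  choose g hg hfg using hex
  refine ⟨Y, φ, hY, hφ, hφS, hc1, g, hg, ?_⟩
  have hb : ∀ i, Bd X.ms (g i ∘ φ) := fun i => bd_fac hφ (hg i)
  have h1 : tau X s f = tau X s (fun i => g i ∘ φ) :=
    tau_cond s m h0 hf hb fun i => condExp_version m hm (hfg i)
  have h2 : tau X s (fun i => g i ∘ φ) = tau Y s g := tau_comp s hφ hφS hg
  have h3 : ∀ i, ∫ x, f i x ∂X.μ = ∫ y, g i y ∂Y.μ := fun i => by
    rw [integral_version m hm (hfg i)]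
    exact integral_comp_fac hφ (hg i)
  intro h4
  apply hne
  rw [h1, h2, h4]
  exact Finset.prod_congr rfl fun i _ => (h3 i).symm

/-- the base of a pair over the factor `Y` is visible in extensions of `down Q`. -/
theorem base_visible {X Y : Sys} {ι : Type} (s : ι → ℕ → ℤ) {φ : X.Ω → Y.Ω}
    (hφ : MeasurePreserving φ X.μ Y.μ)
    (hφS : ∀ n, (fun x => φ (X.S n x)) =ᵐ[X.μ] fun x => Y.S n (φ x)) (Q : Pair X)
    (hvis : Y.ms.comap φ ≤ Q.visX s) {R : Pair Y} (e : Ext (Fac.down hφ hφS Q) R) :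
    Y.ms.comap R.π ≤ R.vis s := by
  rintro _ ⟨B, hB, rfl⟩
  have h1 : MeasurableSet[Q.visX s] (φ ⁻¹' B) := hvis _ ⟨B, hB, rfl⟩
  have h2 : MeasurableSet[(Fac.down hφ hφS Q).vis s] ((Fac.down hφ hφS Q).π ⁻¹' B) := h1.2
  have h3 : MeasurableSet[R.vis s] (e.f ⁻¹' ((Fac.down hφ hφS Q).π ⁻¹' B)) := pvis_ext e h2
  have h4 : (R.π ⁻¹' B) =ᵐ[R.μ] (e.f ⁻¹' ((Fac.down hφ hφS Q).π ⁻¹' B)) := by
    filter_upwards [e.f_π] with x hx
    apply propext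
    show R.π x ∈ B ↔ (Fac.down hφ hφS Q).π (e.f x) ∈ B
    rw [hx]
    rfl
  exact measurableSet_of_ae_nul (R.vis_le s) (nul_le_pvis s R) (R.π_mp.measurable hB) h3 h4

/-- **Node YE.** -/
theorem n_ye_of (hSAT : N_SAT) (hRULE : N_RULE) (hCLOSED : N_CLOSED) (hS1F : N_S1F)
    (hTr : N_CLTR) : N_YE := by
  intro X hX ι _ s hι hInd f hf hne
  obtain ⟨Q, _, hQ, hQ1, hQ2⟩ := hSAT X hX (Fac.triv X) hX ι s
  obtain ⟨Y, φ, hY, hφ, hφS, hc1, g, hg, hgne⟩ := exists_base hX s (Q.visX s) (visX_le s Q)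
    (visX_S s Q) (fun f' hf' h0 => hRULE X hX Q hQ ι s hι hInd hQ1 hQ2 f' hf' h0) hf hne
  have hφS' : ∀ n, (fun x => φ (X.S n x)) =ᵐ[X.μ] fun x => Y.S n (φ x) := fun n =>
    Eventually.of_forall fun x => hφS n x
  have hYInd : XIndP Y s := xIndP_fac s hφ hφS hInd
  obtain ⟨R, e, hR, hR1, hR2⟩ := hSAT Y hY (Fac.down hφ hφS' Q) hQ ι s
  have hvis : Y.ms.comap R.π ≤ R.vis s := base_visible s hφ hφS' Q hc1 e
  obtain ⟨F, ψ, hF, hfac, hle1, hle2⟩ := Fac.exists_facOf hY R hR (m := R.vis s) (R.vis_le s)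
    (pvis_S s R) (C_le_pvis s R) hvis
  refine ⟨Y, φ, hY, hφ, hφS, ⟨g, hg, hgne⟩, F, hF, ?_, ?_⟩
  · exact hS1F Y hY R F hR hF ψ hfac hR1
  · exact hTr Y R F hR hF ψ hfac ι s hle1 hle2 (hCLOSED Y hY R hR ι s hι hYInd hR1 hR2)

theorem n_cltr : N_CLTR := fun _ _ _ _ _ _ h _ _ s h1 h2 hcl =>
  ClTr.closed_of_fac h s h1 h2 hcl

/-- **Node YE**, from the four remaining nodes. -/
theorem n_ye (hSAT : N_SAT) (hRULE : N_RULE) (hCLOSED : N_CLOSED) (hS1F : N_S1F) : N_YE :=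
  n_ye_of hSAT hRULE hCLOSED hS1F n_cltr

end Crest.Agent.R069.YE
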