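import Crest.Agent.R069.YE
import Crest.Agent.R069.S1F
import Crest.Agent.R069.NClosed
import Crest.Agent.R069.Ind

/-!
# Row 69: `N_YE` from `N_SAT` and `N_RULE`
-/

namespace Crest.Agent.R069.YE

theorem n_ye_all (hSAT : N_SAT) (hRULE : N_RULE) : N_YE :=
  n_ye hSAT hRULE (Cl.n_closed Ind.n_ind) S1F.s1F

end Crest.Agent.R069.YE
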