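import Crest.Agent.R069.Iface
import Crest.Agent.R069.CI

/-!
# Row 69, node YE: the factor pair
-/

set_option autoImplicit false

open MeasureTheory Filter Set ProbabilityTheory
open scoped ENNReal Topology

namespace Crest.Agent.R069.YEPair

theorem aele_nul {α : Type*} {m' : MeasurableSpace α} [mα : MeasurableSpace α] (μ : Measure α) :
    AELe μ (nul μ) m' := by
  intro A hA
  rcases hA.2 with h | h
  · exact ⟨∅, @MeasurableSet.empty _ m', ae_eq_empty.2 h⟩
  · exact ⟨univ, @MeasurableSet.univ _ m', ae_eq_univ.2 h⟩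

theorem aele_sup_nul {α : Type*} {m' : MeasurableSpace α} [mα : MeasurableSpace α]
    (μ : Measure α) : AELe μ (m' ⊔ nul μ) m' :=
  AELe.sup AELe.refl (aele_nul μ)

/-- A measurable map which is a.e. a function of `ψ` has a version `g ∘ ψ`. -/
theorem exists_factor {α β Y : Type*} {m : MeasurableSpace α} [mα : MeasurableSpace α]
    [mβ : MeasurableSpace β]
    [mY : MeasurableSpace Y] [StandardBorelSpace Y] [Nonempty Y] {μ : Measure α}
    [IsProbabilityMeasure μ] {ψ : α → β} (hψ : Measurable ψ) (hm : m ≤ mα)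
    (h : AELe μ m (mβ.comap ψ)) {f : α → Y} (hf : Measurable[m] f) :
    ∃ g : β → Y, Measurable g ∧ f =ᵐ[μ] g ∘ ψ := by
  have he : MeasurableEmbedding (fun y : Y => Real.arctan (embeddingReal Y y)) :=
    (Real.continuous_arctan.measurableEmbedding Real.arctan_injective).comp
      (measurableEmbedding_embeddingReal Y)
  have hb : BdM m (fun x => Real.arctan (embeddingReal Y (f x))) :=
    ⟨he.measurable.comp hf, Real.pi / 2, fun x => by
      rw [abs_le]
      exact ⟨by linarith [Real.neg_pi_div_two_lt_arctan (embeddingReal Y (f x))],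
        (Real.arctan_lt_pi_div_two _).le⟩⟩
  obtain ⟨F, hF, hFe⟩ := h.exists_bm hm hψ.comap_le hb
  obtain ⟨g, hg, rfl⟩ := hF.factors
  refine ⟨fun b => he.invFun (g b), he.measurable_invFun.comp hg.meas, ?_⟩
  filter_upwards [hFe] with x hx
  have hx' : Real.arctan (embeddingReal Y (f x)) = g (ψ x) := hx
  change f x = he.invFun (g (ψ x))
  rw [← hx']
  exact (he.leftInverse_invFun (f x)).symm

theorem nul_preimage {α β : Type*} [mα : MeasurableSpace α] [mβ : MeasurableSpace β]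
    {μ : Measure α} {ν : Measure β} {f : α → β} (hf : MeasurePreserving f μ ν) {B : Set β}
    (hB : MeasurableSet[nul ν] B) : MeasurableSet[nul μ] (f ⁻¹' B) := by
  refine ⟨hf.measurable hB.1, ?_⟩
  rcases hB.2 with h | h
  · left; rwa [hf.measure_preimage hB.1.nullMeasurableSet]
  · right; rwa [← preimage_compl, hf.measure_preimage hB.1.compl.nullMeasurableSet]

/-- The environment algebra of the factor. -/
@[implicit_reducible]
def facC {α β : Type*} (mβ : MeasurableSpace β) (ψ : α → β) (C : MeasurableSpace α) :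
    MeasurableSpace β := mβ ⊓ MeasurableSpace.map ψ C

theorem mem_facC {α β : Type*} {mβ : MeasurableSpace β} {ψ : α → β} {C : MeasurableSpace α}
    {A : Set β} : MeasurableSet[facC mβ ψ C] A ↔ MeasurableSet[mβ] A ∧ MeasurableSet[C] (ψ ⁻¹' A) :=
  MeasurableSpace.measurableSet_inf

/-- The factor pair, given the factor system. -/
theorem exists_facPair_aux {Y : Sys} (hY : StandardBorelSpace Y.Ω) (R : Pair Y)
    (M : {m : MeasurableSpace R.Ω // m ≤ R.ms})
    (hC : R.C ≤ M.1) (hπ : Y.ms.comap R.π ≤ M.1)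
    (F0 : Sys) (hF0 : StandardBorelSpace F0.Ω) (ψ : R.Ω → F0.Ω)
    (hmp : MeasurePreserving ψ R.μ F0.μ) (heq : ∀ n x, ψ (R.S n x) = F0.S n (ψ x))
    (h1 : F0.ms.comap ψ ≤ M.1) (h2 : M.1 ≤ F0.ms.comap ψ ⊔ nul R.μ) :
    ∃ (F : Pair Y) (ψ : R.Ω → F.Ω), StandardBorelSpace F.Ω ∧ FacOf R F ψ ∧
      F.ms.comap ψ ≤ M.1 ∧ M.1 ≤ F.ms.comap ψ ⊔ nul R.μ := by
  have hψ : Measurable ψ := hmp.measurable
  -- a.e. containments
  have hAE : AELe R.μ M.1 (F0.ms.comap ψ) := (AELe.of_le h2).trans (aele_sup_nul R.μ)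
  have hne : Nonempty Y.Ω := by
    by_contra hemp
    rw [not_nonempty_iff] at hemp
    have h3 : Y.μ univ = 1 := measure_univ
    rw [Set.univ_eq_empty_iff.2 hemp, measure_empty] at h3
    exact zero_ne_one h3
  -- the projection to the base
  obtain ⟨g, hg, hge⟩ := exists_factor (μ := R.μ) (m := M.1) hψ M.2 hAE
    (f := R.π) (fun A hA => hπ _ ⟨A, hA, rfl⟩)
  have hgmp : MeasurePreserving g F0.μ Y.μ := by
    refine ⟨hg, ?_⟩
    rw [← hmp.map_eq, Measure.map_map hg hψ, ← R.π_mp.map_eq]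
    exact Measure.map_congr hge.symm
  let F : Pair Y :=
    { F0 with
      π := g
      π_mp := hgmp
      π_S := by
        intro n
        have hset : MeasurableSet {y : F0.Ω | g (F0.S n y) = Y.S n (g y)} :=
          measurableSet_eq_fun (hg.comp (F0.S_mp n).measurable) ((Y.S_mp n).measurable.comp hg)
        have h3 : ∀ᵐ x ∂(R.μ), g (F0.S n (ψ x)) = Y.S n (g (ψ x)) := by
          filter_upwards [hge, (R.S_mp n).quasiMeasurePreserving.ae_eq_comp hge, R.π_S n]
            with x hx1 hx2 hx3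
          have hx1' : R.π x = g (ψ x) := hx1
          have hx2' : R.π (R.S n x) = g (ψ (R.S n x)) := hx2
          rw [← heq, ← hx2', hx3, hx1']
        have h4 : ∀ᵐ y ∂(R.μ.map ψ), g (F0.S n y) = Y.S n (g y) :=
          (ae_map_iff hψ.aemeasurable hset).2 h3
        rw [hmp.map_eq] at h4
        exact h4
      C := facC F0.ms ψ R.C
      C_le := inf_le_left
      C_nul := fun A hA => mem_facC.2 ⟨hA.1, R.C_nul _ (nul_preimage hmp hA)⟩
      C_S := by
        intro n A hA
        rw [mem_facC] at hA ⊢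
        refine ⟨(F0.S_mp n).measurable hA.1, ?_⟩
        have e : ψ ⁻¹' (F0.S n ⁻¹' A) = R.S n ⁻¹' (ψ ⁻¹' A) := by
          ext x; simp only [mem_preimage, heq]
        rw [e]
        exact R.C_S n hA.2
      indep := by
        rw [ProbabilityTheory.Indep_iff]
        rintro _ B ⟨A, hA, rfl⟩ hB
        rw [mem_facC] at hB
        have hA' : MeasurableSet (g ⁻¹' A) := hg hA
        have e1 : ψ ⁻¹' (g ⁻¹' A) =ᵐ[R.μ] R.π ⁻¹' A := by
          filter_upwards [hge] with x hx
          apply propext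
          change g (ψ x) ∈ A ↔ R.π x ∈ A
          rw [show R.π x = g (ψ x) from hx]
        have h5 := (ProbabilityTheory.Indep_iff _ _ _).1 R.indep (R.π ⁻¹' A) (ψ ⁻¹' B)
          ⟨A, hA, rfl⟩ hB.2
        have e2 : F0.μ (g ⁻¹' A ∩ B) = R.μ (R.π ⁻¹' A ∩ ψ ⁻¹' B) := by
          rw [← hmp.measure_preimage (hA'.inter hB.1).nullMeasurableSet, preimage_inter]
          exact measure_congr (e1.inter (ae_eq_refl _))
        have e3 : F0.μ (g ⁻¹' A) = R.μ (R.π ⁻¹' A) := by
          rw [← hmp.measure_preimage hA'.nullMeasurableSet]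
          exact measure_congr e1
        have e4 : F0.μ B = R.μ (ψ ⁻¹' B) :=
          (hmp.measure_preimage hB.1.nullMeasurableSet).symm
        rw [e2, e3, e4, h5] }
  have hFC : F.C = facC F0.ms ψ R.C := rfl
  refine ⟨F, ψ, hF0, ⟨hmp, heq, hge, ?_⟩, h1, h2⟩
  -- the environment algebra
  have hle : F.C.comap ψ ⊔ nul R.μ ≤ R.C := by
    refine sup_le ?_ R.C_nul
    rintro _ ⟨A, hA, rfl⟩
    exact (mem_facC.1 hA).2
  refine le_antisymm ?_ hle
  intro A hA
  obtain ⟨B, hB, hAB⟩ := hAE A (hC A hA)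
  have hBR : MeasurableSet B := hψ.comap_le _ hB
  have hB2 : MeasurableSet[R.C] B :=
    measurableSet_of_ae_nul (m := R.C) R.C_le R.C_nul hBR hA hAB.symm
  obtain ⟨B', hB', rfl⟩ := hB
  have hB3 : MeasurableSet[F.C.comap ψ] (ψ ⁻¹' B') := ⟨B', mem_facC.2 ⟨hB', hB2⟩, rfl⟩
  have hle2 : F.C.comap ψ ⊔ nul R.μ ≤ R.ms := hle.trans R.C_le
  exact measurableSet_of_ae_nul (m := F.C.comap ψ ⊔ nul R.μ) hle2 le_sup_right
    (R.C_le _ hA) ((le_sup_left : F.C.comap ψ ≤ F.C.comap ψ ⊔ nul R.μ) _ hB3) hAB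

/-- The factor pair of an invariant sub-sigma-algebra containing the base and the environment. -/
theorem exists_facPair (hFAC : N_FAC) {Y : Sys} (hY : StandardBorelSpace Y.Ω) (R : Pair Y)
    (hR : StandardBorelSpace R.Ω) (m : MeasurableSpace R.Ω) (hm : m ≤ R.ms)
    (hS : ∀ n, Measurable[m, m] (R.S n)) (hC : R.C ≤ m) (hπ : Y.ms.comap R.π ≤ m) :
    ∃ (F : Pair Y) (ψ : R.Ω → F.Ω), StandardBorelSpace F.Ω ∧ FacOf R F ψ ∧
      F.ms.comap ψ ≤ m ∧ m ≤ F.ms.comap ψ ⊔ @nul _ R.ms R.μ := by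
  obtain ⟨F0, ψ, hF0, hmp, heq, h1, h2⟩ := hFAC R.toSys hR m hm hS
  exact exists_facPair_aux hY R ⟨m, hm⟩ hC hπ F0 hF0 ψ hmp heq h1 h2

end Crest.Agent.R069.YEPair
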